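import Vale.Agent.P146.U.Ex1

/-!
Moving the switching time of the two-level functional: the drop of `PP` is at most
`(b - x)/2` times the length times the supremum of the mean squared gradient `Ps`.
-/

open MeasureTheory ProbabilityTheory

namespace Vale.Agent.P146.U

open Vale.Agent.P157.Lv Vale.Agent.P146.H425 Vale.Agent.P146.R1

set_option linter.unusedSectionVars false

variable {κ : Type} [Fintype κ] {U U' F X : (κ → ℝ) → ℝ} {D : κ → (κ → ℝ) → ℝ}
  {B L x s a b b' c r : ℝ} {φ ψ : (κ → ℝ) → ℝ}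

/-- one layer: change of the exponent from `b` to `x ≤ b` -/
lemma W_drop (h : C11 X D B L) (hc : Cv X) (hx : 0 < x) (hxb : x ≤ b) (y : κ → ℝ) :
    W b r X y ≤ W x r X y + (b - x) / 2 * r ^ 2 * Mn b r X (fun w => ∑ e, D e w ^ 2) y := by
  have hb : 0 < b := hx.trans_le hxb
  have h1 := W_tangent (s := r) h hc hb hx y
  have h2 := Kc_le (s := r) h hb y
  have h3 : (b - x) * (Kc b r X y / b ^ 2) ≤
      (b - x) * ((b ^ 2 / 2 * (r ^ 2 * Mn b r X (fun w => ∑ e, D e w ^ 2) y)) / b ^ 2) := by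
    have : 0 ≤ b - x := by linarith
    gcongr
  have e : (b - x) * ((b ^ 2 / 2 * (r ^ 2 * Mn b r X (fun w => ∑ e, D e w ^ 2) y)) / b ^ 2) =
      (b - x) / 2 * r ^ 2 * Mn b r X (fun w => ∑ e, D e w ^ 2) y := by
    field_simp
  rw [e] at h3
  linarith

/-- The variance of the gradient along one small layer. -/
theorem G2_up (hb : 0 < b) (hB : 0 ≤ B) (hL : 0 ≤ L) : ∃ C : ℝ, 0 ≤ C ∧
    ∀ (X : (κ → ℝ) → ℝ) (D : κ → (κ → ℝ) → ℝ), C11 X D B L → ∀ r, 0 ≤ r → r ≤ 1 → ∀ y,
      Mn b r X (fun w => ∑ e, D e w ^ 2) y ≤ G2 b r X D y + C * r ^ 2 := by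
  set N : ℝ := (Fintype.card κ : ℝ) with hN
  have hN0 : 0 ≤ N := Nat.cast_nonneg _
  set p := ∫ z : κ → ℝ, Real.exp (b * B * ‖z‖) * ‖z‖ ^ 2 ∂(gI κ) with hp
  set q := ∫ z : κ → ℝ, Real.exp (-(b * B) * ‖z‖) ∂(gI κ) with hq
  have ep : EG fun z : κ → ℝ => Real.exp (b * B * ‖z‖) * ‖z‖ ^ 2 :=
    (eg_exp_norm _).mul (eg_norm.pow 2)
  have eq' : EG fun z : κ → ℝ => Real.exp (-(b * B) * ‖z‖) := eg_exp_norm _
  have hp0 : 0 ≤ p := integral_nonneg fun z => by positivity
  have hq0 : 0 < q := integral_exp_pos eq'.integrable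
  refine ⟨N * (36 * L ^ 2 * (p / q)), by positivity, fun X D h r hr hr1 y => ?_⟩
  have hl := h.lip.lip h.B0
  have hd := den_pos hl b r y
  have eX : EG fun z => Real.exp (b * X (y + r • z)) := Lip.egx hl y r b
  -- the second moment of the displacement
  have h2 : ∫ z, Real.exp (b * X (y + r • z)) * ‖z‖ ^ 2 ∂(gI κ) ≤
      (p / q) * ∫ z, Real.exp (b * X (y + r • z)) ∂(gI κ) := by
    have hbd : ∀ z, |X (y + r • z) - X y| ≤ B * ‖z‖ := by
      intro z
      refine (h.lip y (r • z)).trans ?_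
      rw [norm_smul, Real.norm_eq_abs, abs_of_nonneg hr]
      refine mul_le_mul_of_nonneg_left ?_ hB
      exact mul_le_of_le_one_left (norm_nonneg _) hr1
    have h3 : ∫ z, Real.exp (b * X (y + r • z)) * ‖z‖ ^ 2 ∂(gI κ) ≤
        Real.exp (b * X y) * p := by
      rw [hp, ← integral_const_mul]
      refine integral_mono (eX.mul (eg_norm.pow 2)).integrable
        (ep.integrable.const_mul _) fun z => ?_
      simp only
      rw [← mul_assoc, ← Real.exp_add]
      refine mul_le_mul_of_nonneg_right (Real.exp_le_exp.2 ?_) (by positivity)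
      have := mul_le_mul_of_nonneg_left (abs_le.1 (hbd z)).2 hb.le
      linarith
    have h4 : Real.exp (b * X y) * q ≤ ∫ z, Real.exp (b * X (y + r • z)) ∂(gI κ) := by
      rw [hq, ← integral_const_mul]
      refine integral_mono (eq'.integrable.const_mul _) eX.integrable fun z => ?_
      simp only
      rw [← Real.exp_add]
      refine Real.exp_le_exp.2 ?_
      have := mul_le_mul_of_nonneg_left (abs_le.1 (hbd z)).1 hb.le
      linarith
    refine h3.trans ?_
    rw [div_mul_eq_mul_div, le_div_iff₀ hq0]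
    calc Real.exp (b * X y) * p * q = p * (Real.exp (b * X y) * q) := by ring
      _ ≤ _ := mul_le_mul_of_nonneg_left h4 hp0
  -- one coordinate
  have h3 : ∀ e, Mn b r X (fun w => D e w ^ 2) y ≤
      DW b r X D e y ^ 2 + 36 * L ^ 2 * (p / q) * r ^ 2 := by
    intro e
    set m := DW b r X D e y with hm
    set d := D e y with hd'
    have hDe := h.eg_D e
    have i1 := Mn_add hl ((hDe.sub (EG.const d)).pow 2) ((hDe.const_mul (2 * d)).sub
      (EG.const (d ^ 2))) b r y
    have e1 : (fun w => (D e w - d) ^ 2 + (2 * d * D e w - d ^ 2)) = fun w => D e w ^ 2 := by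
      funext w; ring
    rw [e1, Mn_sub hl (hDe.const_mul (2 * d)) (EG.const (d ^ 2)), Mn_const_mul, Mn_const hl,
      ← DW_eq, ← hm] at i1
    have i2 : Mn b r X (fun w => (D e w - d) ^ 2) y ≤ 36 * L ^ 2 * (p / q) * r ^ 2 := by
      unfold Mn
      rw [div_le_iff₀ hd]
      have i3 : ∫ z, Real.exp (b * X (y + r • z)) * (D e (y + r • z) - d) ^ 2 ∂(gI κ) ≤
          ∫ z, (36 * L ^ 2 * r ^ 2) * (Real.exp (b * X (y + r • z)) * ‖z‖ ^ 2) ∂(gI κ) := by
        refine integral_mono (eg_num hl ((hDe.sub (EG.const d)).pow 2) b r y).integrable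
          ((eX.mul (eg_norm.pow 2)).integrable.const_mul _) fun z => ?_
        simp only
        have h4 := h.grad_lip e y (r • z)
        rw [norm_smul, Real.norm_eq_abs, abs_of_nonneg hr] at h4
        have h5 : (D e (y + r • z) - d) ^ 2 ≤ (6 * L * (r * ‖z‖)) ^ 2 := by
          rw [← sq_abs]
          exact pow_le_pow_left₀ (abs_nonneg _) h4 2
        have h6 := mul_le_mul_of_nonneg_left h5 (Real.exp_pos (b * X (y + r • z))).le
        refine h6.trans (le_of_eq (by ring))
      rw [integral_const_mul] at i3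
      refine i3.trans ?_
      have := mul_le_mul_of_nonneg_left h2 (show 0 ≤ 36 * L ^ 2 * r ^ 2 by positivity)
      refine this.trans (le_of_eq (by ring))
    nlinarith [sq_nonneg (m - d), i1, i2]
  have h4 : Mn b r X (fun w => ∑ e, D e w ^ 2) y = ∑ e, Mn b r X (fun w => D e w ^ 2) y := by
    unfold Mn
    rw [← Finset.sum_div, ← integral_finsetSum _ fun e _ =>
      (eg_num hl ((h.eg_D e).pow 2) b r y).integrable]
    congr 1
    refine integral_congr_ae (Filter.Eventually.of_forall fun z => ?_)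
    simp only
    rw [Finset.mul_sum]
  rw [h4]
  have h5 := Finset.sum_le_sum fun e (_ : e ∈ (Finset.univ : Finset κ)) => h3 e
  rw [Finset.sum_add_distrib, Finset.sum_const, Finset.card_univ, nsmul_eq_mul, ← hN] at h5
  unfold G2
  linarith

/-- One step of the switching time. -/
theorem PP_step (h : C11 F D B L) (hc : Cv F) (hx : 0 < x) (hxb : x ≤ b) : ∃ C : ℝ, 0 ≤ C ∧
    ∀ c' r c s s' : ℝ, 0 ≤ r → r ≤ 1 → c' ^ 2 + r ^ 2 = c ^ 2 → r ^ 2 + s ^ 2 = s' ^ 2 →
      PP x b c' s' F ≤ PP x b c s F +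
        (b - x) / 2 * r ^ 2 * (Ps x b c' s' F D + C * r ^ 2) := by
  have hb : 0 < b := hx.trans_le hxb
  have hL0 : 0 ≤ L + 2 * b * (Fintype.card κ * B) ^ 2 := by
    have := h.L0
    positivity
  obtain ⟨C, hC, hup⟩ := G2_up (κ := κ) hb h.B0 hL0
  refine ⟨C, hC, fun c' r c s s' hr hr1 hcc hss => ?_⟩
  set X := W b s F with hX
  have hXC : C11 X (DW b s F D) B (L + 2 * b * (Fintype.card κ * B) ^ 2) := h.W' hb s
  have hXc : Cv X := Cv.W h hc hb s
  have hXl : Lip X := hXC.lip.lip h.B0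
  have hWW : W b r X = W b s' F := by
    funext y
    exact W_W h.lip h.B0 hb hss y
  have hxx : PP x b c s F = W x c' (W x r X) 0 := by
    unfold PP
    exact (W_W hXC.lip h.B0 hx hcc 0).symm
  have hGG : ∀ y, G2 b r X (DW b s F D) y = G2 b s' F D y := by
    intro y
    unfold G2
    refine Finset.sum_congr rfl fun e _ => ?_
    congr 1
    exact (DW_step h hb hss e y).symm
  have hpt : ∀ y, W b s' F y ≤ W x r X y +
      (b - x) / 2 * r ^ 2 * (G2 b s' F D y + C * r ^ 2) := by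
    intro y
    have h1 := W_drop (r := r) hXC hXc hx hxb y
    rw [hWW] at h1
    have h2 := hup X _ hXC r hr hr1 y
    rw [hGG] at h2
    have h3 := mul_le_mul_of_nonneg_left h2
      (show 0 ≤ (b - x) / 2 * r ^ 2 from
        mul_nonneg (div_nonneg (by linarith) (by norm_num)) (sq_nonneg r))
    exact h1.trans (add_le_add le_rfl h3)
  have eG := eg_G2' h hb s'
  have hW' : Lip (W b s' F) := lipW h hb s'
  have h1 := W_tan_le (Lip.W hXl hx r) hW' hx ((eG.add (EG.const (C * r ^ 2))).const_mul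
    ((b - x) / 2 * r ^ 2)) hpt c' 0
  rw [hxx]
  refine h1.trans (le_of_eq ?_)
  rw [Mn_const_mul, Mn_add hW' eG (EG.const _), Mn_const hW']
  rfl

/-- **Moving the switching time**: total variance `v`. -/
theorem PP_drop (h : C11 F D B L) (hc : Cv F) (hx : 0 < x) (hxb : x ≤ b) {v t0 t1 m : ℝ}
    (h0 : 0 ≤ t0) (h01 : t0 ≤ t1) (h1v : t1 ≤ v)
    (hm : ∀ t, t0 ≤ t → t ≤ t1 → Ps x b (√t) (√(v - t)) F D ≤ m) :
    PP x b (√t0) (√(v - t0)) F ≤ PP x b (√t1) (√(v - t1)) F +
      (b - x) / 2 * (t1 - t0) * m := by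
  obtain ⟨C, hC, hst⟩ := PP_step h hc hx hxb
  have hbx : 0 ≤ (b - x) / 2 := by linarith
  have key : ∀ K : ℕ, 0 < K → t1 - t0 ≤ K → PP x b (√t0) (√(v - t0)) F ≤
      PP x b (√t1) (√(v - t1)) F + (b - x) / 2 * (t1 - t0) * m +
        ((b - x) / 2 * (t1 - t0) ^ 2 * C) * (1 / K) := by
    intro K hK hK1
    have hK' : (0 : ℝ) < K := Nat.cast_pos.2 hK
    set δ := (t1 - t0) / K with hδ
    have hδ0 : 0 ≤ δ := div_nonneg (by linarith) hK'.le
    have hδ1 : δ ≤ 1 := by rw [hδ, div_le_one hK']; exact hK1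
    have hKδ : K * δ = t1 - t0 := by rw [hδ]; field_simp
    have ind : ∀ k : ℕ, k ≤ K → PP x b (√t0) (√(v - t0)) F ≤
        PP x b (√(t0 + k * δ)) (√(v - (t0 + k * δ))) F +
          k * ((b - x) / 2 * δ * (m + C * δ)) := by
      intro k
      induction k with
      | zero => intro _; simp
      | succ k ih =>
        intro hk
        have hk1 : (k : ℝ) * δ ≤ t1 - t0 := by
          rw [← hKδ]
          exact mul_le_mul_of_nonneg_right (by exact_mod_cast (by omega : k ≤ K)) hδ0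
        have hk2 : ((k : ℝ) + 1) * δ ≤ t1 - t0 := by
          rw [← hKδ]
          exact mul_le_mul_of_nonneg_right (by exact_mod_cast hk) hδ0
        have hk0 : 0 ≤ (k : ℝ) * δ := by positivity
        have h2 := hst (√(t0 + k * δ)) (√δ) (√(t0 + (k + 1 : ℕ) * δ))
          (√(v - (t0 + (k + 1 : ℕ) * δ))) (√(v - (t0 + k * δ))) (Real.sqrt_nonneg _)
          (by rw [Real.sqrt_le_one]; exact hδ1)
          (by
            rw [Real.sq_sqrt (by linarith), Real.sq_sqrt hδ0, Real.sq_sqrt (by push_cast; nlinarith)]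
            push_cast; ring)
          (by
            rw [Real.sq_sqrt hδ0, Real.sq_sqrt (by push_cast; linarith),
              Real.sq_sqrt (by linarith)]
            push_cast; ring)
        rw [Real.sq_sqrt hδ0] at h2
        have h3 := hm (t0 + k * δ) (by linarith) (by linarith)
        have h4 := mul_le_mul_of_nonneg_left (add_le_add_left h3 (C * δ))
          (mul_nonneg hbx hδ0)
        have h5 := ih (by omega)
        have e1 : ((k + 1 : ℕ) : ℝ) * ((b - x) / 2 * δ * (m + C * δ)) =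
            k * ((b - x) / 2 * δ * (m + C * δ)) + (b - x) / 2 * δ * (m + C * δ) := by
          push_cast; ring
        rw [e1]
        linarith
    have h2 := ind K le_rfl
    rw [hKδ, add_sub_cancel] at h2
    refine h2.trans (le_of_eq ?_)
    have e2 : (K : ℝ) * ((b - x) / 2 * δ * (m + C * δ)) =
        (b - x) / 2 * (K * δ) * m + (b - x) / 2 * (K * δ) * C * δ := by ring
    rw [e2, hKδ, hδ]
    ring
  refine le_of_forall_pos_le_add fun ε hε => ?_
  obtain ⟨K, hK⟩ := exists_nat_gt (max ((b - x) / 2 * (t1 - t0) ^ 2 * C / ε) (t1 - t0))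
  have hK2 : t1 - t0 < K := (le_max_right _ _).trans_lt hK
  have hK1 : (b - x) / 2 * (t1 - t0) ^ 2 * C / ε < K := (le_max_left _ _).trans_lt hK
  have hK' : (0 : ℝ) < K := lt_of_le_of_lt (by linarith) hK2
  have hK0 : 0 < K := by exact_mod_cast hK'
  refine (key K hK0 hK2.le).trans ?_
  rw [div_lt_iff₀ hε] at hK1
  have : (b - x) / 2 * (t1 - t0) ^ 2 * C * (1 / K) ≤ ε := by
    rw [mul_one_div, div_le_iff₀ hK']
    linarith
  linarith

end Vale.Agent.P146.U
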