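import Vale.Agent.P146.U.Spec
import Vale.Agent.P146.U.Ex1b
import Vale.Agent.P146.H332.Glob
import Vale.Agent.P146.H196.UDefs

/-!
# P146, upper half without logarithms: a priori bounds for the functionals `P2`, `P3`

Monotonicity and convexity, the values at the ends, the trivial bound
`P3 (b) - P3 (x) ≤ β² / 4 * n (b - x) T`, the bound by the exponential moment of the free energy, the
share `Wn n β x` of the pure law and the variance.
-/

open MeasureTheory ProbabilityTheory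

namespace Vale.Agent.P146.U.AP

open Vale.Agent.P157.Lv Vale.Agent.P146 Vale.Agent.P146.H425 Vale.Agent.P146.R1
  Vale.Agent.P146.H332 Vale.Agent.P146.H325
open Vale.Agent.P146.H196 (meanF)

set_option linter.unusedSectionVars false

section general

variable {κ : Type} [Fintype κ] {F G : (κ → ℝ) → ℝ} {D : κ → (κ → ℝ) → ℝ}
  {B L x b c c' s s' M : ℝ}

/-- the layer functional is nondecreasing in the exponent -/
lemma W_mono_b (h : C11 F D B L) (hc : Cv F) (hx : 0 < x) (hxb : x ≤ b) (s : ℝ) (y : κ → ℝ) :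
    W x s F y ≤ W b s F y := by
  have h1 := W_tangent (s := s) h hc hx (hx.trans_le hxb) y
  have h2 := Kc_nonneg (s := s) h hx y
  have h3 : 0 ≤ (b - x) * (Kc x s F y / x ^ 2) :=
    mul_nonneg (by linarith) (div_nonneg h2 (by positivity))
  linarith

/-- **Monotonicity in the length of the window.** -/
theorem PP_mono_s (h : C11 F D B L) (hc : Cv F) (hx : 0 < x) (hxb : x ≤ b)
    (hcs : c ^ 2 + s ^ 2 = c' ^ 2 + s' ^ 2) (hss : s ^ 2 ≤ s' ^ 2) :
    PP x b c s F ≤ PP x b c' s' F := by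
  have hb : 0 < b := hx.trans_le hxb
  have hr : √(s' ^ 2 - s ^ 2) ^ 2 = s' ^ 2 - s ^ 2 := Real.sq_sqrt (by linarith)
  set r := √(s' ^ 2 - s ^ 2) with hrd
  have hG := h.W' hb s
  have hGc : Cv (W b s F) := Cv.W h hc hb s
  have e1 : W x c' (W x r (W b s F)) 0 = PP x b c s F :=
    W_W hG.lip hG.B0 hx (by rw [hr]; linarith) 0
  have e2 : W b r (W b s F) = W b s' F := by
    funext y
    exact W_W h.lip h.B0 hb (by rw [hr]; ring) y
  rw [← e1]
  unfold PP
  rw [← e2]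
  exact W_mono ((hG.W' hx r).lip.lip hG.B0) ((hG.W' hb r).lip.lip hG.B0) hx
    (fun w => W_mono_b hG hGc hx hxb r w) c' 0

/-- **The trivial bound**, one layer. -/
lemma W_le_add (h : C11 F D B L) (hc : Cv F) (hx : 0 < x) (hxb : x ≤ b)
    (hM : ∀ w, ∑ e, D e w ^ 2 ≤ M) (s : ℝ) (y : κ → ℝ) :
    W b s F y ≤ W x s F y + (b - x) / 2 * s ^ 2 * M := by
  have h1 := W_drop (r := s) h hc hx hxb y
  have h2 := Mn_le (h.lip.lip h.B0) h.eg_G2 hM b s y
  have h3 : (b - x) / 2 * s ^ 2 * Mn b s F (fun w => ∑ e, D e w ^ 2) y ≤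
      (b - x) / 2 * s ^ 2 * M :=
    mul_le_mul_of_nonneg_left h2 (mul_nonneg (by linarith) (by positivity))
  linarith

/-- the layer functional of a shifted function -/
lemma W_le_const (hF : Lip F) (hG : Lip G) (hx : 0 < x) {r : ℝ} (hle : ∀ w, G w ≤ F w + r)
    (s : ℝ) (y : κ → ℝ) : W x s G y ≤ W x s F y + r := by
  have h1 := W_tan_le hF hG hx (ψ := fun _ => r) (EG.const r) hle s y
  rwa [Mn_const hG] at h1

/-- **The trivial bound.** -/
theorem PP_le_add (h : C11 F D B L) (hc : Cv F) (hx : 0 < x) (hxb : x ≤ b)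
    (hM : ∀ w, ∑ e, D e w ^ 2 ≤ M) :
    PP x b c s F ≤ PP x x c s F + (b - x) / 2 * s ^ 2 * M :=
  W_le_const (lipW h hx s) (lipW h (hx.trans_le hxb) s) hx (W_le_add h hc hx hxb hM s) c 0

/-- monotonicity in the function -/
lemma PP_mono_F (hF : Lip F) (hG : Lip G) (hx : 0 < x) (hb : 0 < b) (hle : ∀ w, F w ≤ G w) :
    PP x b c s F ≤ PP x b c s G :=
  W_mono (Lip.W hF hb s) (Lip.W hG hb s) hx (fun w => W_mono hF hG hb hle s w) c 0

/-- Jensen -/
lemma mean_le_W (hF : Lip F) (hx : 0 < x) (s : ℝ) (y : κ → ℝ) :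
    ∫ z, F (y + s • z) ∂(gI κ) ≤ W x s F y := by
  have hU : Lip fun z => F (y + s • z) := Lip.shift hF y s
  have h1 : ∫ z, x * F (y + s • z) ∂(gI κ) ≤ Real.log (∫ z, Real.exp (x * F (y + s • z)) ∂(gI κ)) := by
    rw [Real.le_log_iff_exp_le (den_pos hF x s y)]
    have e1 := (hU.eg.const_mul x).integrable
    have e2 := (hU.exp_eg x).integrable
    set m := ∫ z, x * F (y + s • z) ∂(gI κ) with hm
    have h2 : ∫ z, Real.exp m * (x * F (y + s • z) - m + 1) ∂(gI κ) ≤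
        ∫ z, Real.exp (x * F (y + s • z)) ∂(gI κ) := by
      refine integral_mono (((e1.sub (integrable_const m)).add
        (integrable_const 1)).const_mul _) e2 fun z => ?_
      simp only
      have h3 := mul_le_mul_of_nonneg_left (Real.add_one_le_exp (x * F (y + s • z) - m))
        (Real.exp_pos m).le
      rwa [← Real.exp_add, add_sub_cancel] at h3
    have h4 : ∫ z, (x * F (y + s • z) - m + 1) ∂(gI κ) = 1 := by
      rw [integral_add (f := fun z => x * F (y + s • z) - m) (e1.sub (integrable_const m))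
        (integrable_const 1), integral_sub e1 (integrable_const m), ← hm]
      simp
    rw [integral_const_mul, h4, mul_one] at h2
    exact h2
  rw [integral_const_mul] at h1
  unfold W
  rw [div_mul_eq_mul_div, one_mul, le_div_iff₀ hx, mul_comm]
  exact h1

/-- the mean of a smoothed function -/
lemma mean_mean (hF : Lip F) (hcs : c ^ 2 + s ^ 2 = 1) :
    ∫ z, (∫ z', F (0 + c • z + s • z') ∂(gI κ)) ∂(gI κ) = ∫ z, F z ∂(gI κ) := by
  have h2 := gI_rot hF.eg (a := c) (b := s) (c := 1) (by rw [hcs]; ring) 0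
  rw [h2]
  simp

/-- the window of full length -/
lemma PP_c0 (hx : 0 < x) : PP x b 0 s F = W b s F 0 := W_zero hx 0

/-- the share of the pure law -/
lemma SS_pure : SS x x 0 1 F = 2 / x ^ 2 * KL F x := by
  unfold SS EE Kc Mn
  simp only [zero_add, zero_smul, one_smul, integral_const, probReal_univ, smul_eq_mul, one_mul]
  rw [mul_div_cancel_left₀ _ (Real.exp_pos _).ne']

/-- **The variance and the share of the pure law.** -/
theorem var_le_SS (h : C11 F D B L) (hc : Cv F) (hx : 0 < x) :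
    ∫ z, (F z - ∫ z', F z' ∂(gI κ)) ^ 2 ∂(gI κ) ≤ SS x x 0 1 F := by
  have h1 := var_le_KL h hc hx
  rw [SS_pure, div_mul_eq_mul_div, le_div_iff₀ (by positivity)]
  linarith

end general

/-! ### the SK model -/

section sk

variable {n : ℕ} {β x b b' y y' τ τ' T T' : ℝ}

lemma c11_Fsk (n : ℕ) (β : ℝ) : C11 (Fsk n β) (fun e u => β / √n * av (β / √n) SkS (SkS e) u)
    (Kb (β / √n) (SkS (n := n))) (3 * Kb (β / √n) (SkS (n := n)) ^ 2) := c11_lz _ _

lemma cv_Fsk (n : ℕ) (β : ℝ) : Cv (Fsk n β) := cv_lz _ _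

lemma lip_Fsk (n : ℕ) (β : ℝ) : Lip (Fsk n β) := (c11_Fsk n β).lip.lip (c11_Fsk n β).B0

lemma Fsk_eq (n : ℕ) (β : ℝ) : Fsk n β = freeEnergy n β := by
  funext g
  exact (freeEnergy_eq β g).symm

/-- the squared gradient of the free energy -/
lemma grad_Fsk (n : ℕ) (β : ℝ) (w : Pair n → ℝ) :
    ∑ e, (β / √n * av (β / √n) SkS (SkS e) w) ^ 2 ≤ β ^ 2 / 2 * n := by
  have h1 : ∀ e : Pair n, (β / √n * av (β / √n) SkS (SkS e) w) ^ 2 ≤ β ^ 2 / n := by
    intro e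
    have h2 : |av (β / √n) SkS (SkS e) w| ≤ 1 := by
      refine abs_av_le _ _ (fun σ => ?_) w
      unfold SkS sp
      rcases Int.units_eq_one_or (σ e.1.1) with h | h <;>
        rcases Int.units_eq_one_or (σ e.1.2) with h' | h' <;> rw [h, h'] <;> norm_num
    have h3 : av (β / √n) SkS (SkS e) w ^ 2 ≤ 1 := (sq_le_one_iff_abs_le_one _).2 h2
    rw [mul_pow, div_pow, Real.sq_sqrt (Nat.cast_nonneg n)]
    exact mul_le_of_le_one_right (by positivity) h3
  have h4 : ∑ e : Pair n, (β / √n * av (β / √n) SkS (SkS e) w) ^ 2 ≤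
      Fintype.card (Pair n) * (β ^ 2 / n) := by
    refine (Finset.sum_le_card_nsmul _ _ _ fun e _ => h1 e).trans (le_of_eq ?_)
    rw [Finset.card_univ, nsmul_eq_mul]
  refine h4.trans ?_
  rcases Nat.eq_zero_or_pos n with rfl | hn
  · simp
  have hn' : (0 : ℝ) < n := Nat.cast_pos.2 hn
  have h5 : (Fintype.card (Pair n) : ℝ) ≤ (n : ℝ) ^ 2 / 2 := by
    have h6 := sum_pairs (n := n) (fun p q => if p = q then (0 : ℝ) else 1)
      (fun p q => by simp only [eq_comm]) (fun p => by simp)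
    have h7 : ∑ e : Pair n, (if e.1.1 = e.1.2 then (0 : ℝ) else 1) = Fintype.card (Pair n) := by
      rw [← Finset.card_univ, Finset.card_eq_sum_ones, Nat.cast_sum]
      refine Finset.sum_congr rfl fun e _ => ?_
      rw [if_neg e.2.ne]
      simp
    have h8 : ∑ p : Fin n, ∑ q : Fin n, (if p = q then (0 : ℝ) else 1) ≤
        ∑ _p : Fin n, ∑ _q : Fin n, (1 : ℝ) :=
      Finset.sum_le_sum fun p _ => Finset.sum_le_sum fun q _ => by split_ifs <;> norm_num
    simp only [Finset.sum_const, Finset.card_univ, Fintype.card_fin, nsmul_eq_mul, mul_one] at h8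
    rw [h6, h7] at h8
    linarith
  calc (Fintype.card (Pair n) : ℝ) * (β ^ 2 / n) ≤ (n : ℝ) ^ 2 / 2 * (β ^ 2 / n) :=
        mul_le_mul_of_nonneg_right h5 (by positivity)
    _ = β ^ 2 / 2 * n := by field_simp

/-! ### values -/

lemma lip_Wy (n : ℕ) (β : ℝ) (hy : 0 < y) (s : ℝ) : Lip (W y s (Fsk n β)) :=
  Lip.W (lip_Fsk n β) hy s

/-- the functional without a window does not depend on its length -/
lemma P3_self (hx : 0 < x) (hy : 0 < y) (hT : 0 ≤ T) (hτT : τ + T ≤ 1) :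
    P3 n β y τ x T x = W x (√(1 - τ)) (W y (√τ) (Fsk n β)) 0 := by
  have h := (c11_Fsk n β).W' hy (√τ)
  refine PP_self h hx ?_
  rw [Real.sq_sqrt (by linarith), Real.sq_sqrt hT, Real.sq_sqrt (by linarith)]
  ring

lemma P3_self_eq (hx : 0 < x) (hy : 0 < y) (hT : 0 ≤ T) (hτT : τ + T ≤ 1) (hT' : 0 ≤ T')
    (hτT' : τ + T' ≤ 1) : P3 n β y τ x T x = P3 n β y τ x T' x := by
  rw [P3_self hx hy hT hτT, P3_self hx hy hT' hτT']

lemma P3_zero (hb : 0 < b) : P3 n β y τ x 0 b = W x (√(1 - τ)) (W y (√τ) (Fsk n β)) 0 := by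
  unfold P3
  rw [sub_zero, Real.sqrt_zero, PP_zero hb]

/-- the last exponent equal to the exponent of the window -/
lemma P3_y (hb : 0 < b) (hτ : 0 ≤ τ) (hT : 0 ≤ T) :
    P3 n β b τ x T b = P2 n β x (τ + T) b := by
  unfold P3 P2 PP
  have e : (fun y => W b (√T) (W b (√τ) (Fsk n β)) y) = W b (√(τ + T)) (Fsk n β) := by
    funext z
    refine W_W (c11_Fsk n β).lip (c11_Fsk n β).B0 hb ?_ z
    rw [Real.sq_sqrt hT, Real.sq_sqrt hτ, Real.sq_sqrt (by linarith)]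
    ring
  have e2 : W b (√T) (W b (√τ) (Fsk n β)) = W b (√(τ + T)) (Fsk n β) := e
  rw [e2]
  congr 2
  ring

lemma P2_eq_P3 (hy : 0 < y) : P2 n β x T b = P3 n β y 0 x T b := by
  unfold P2 P3
  rw [Real.sqrt_zero, sub_zero]
  congr 1
  funext z
  exact (W_zero hy z).symm

lemma P2_self (hx : 0 < x) (hT : 0 ≤ T) (hT1 : T ≤ 1) : P2 n β x T x = W x 1 (Fsk n β) 0 := by
  refine PP_self (c11_Fsk n β) hx ?_
  rw [Real.sq_sqrt (by linarith), Real.sq_sqrt hT]
  ring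

lemma P2_zero (hb : 0 < b) : P2 n β x 0 b = W x 1 (Fsk n β) 0 := by
  unfold P2
  rw [sub_zero, Real.sqrt_zero, Real.sqrt_one, PP_zero hb]

lemma P2_one (hx : 0 < x) : P2 n β x 1 b = W b 1 (Fsk n β) 0 := by
  unfold P2
  rw [sub_self, Real.sqrt_zero, Real.sqrt_one, PP_c0 hx]

/-- the pure law in the letters of the problem -/
lemma W_one_eq (n : ℕ) (β b : ℝ) : W b 1 (Fsk n β) 0 =
    1 / b * Real.log (∫ g, Real.exp (b * freeEnergy n β g) ∂(disorder n)) := by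
  rw [W_one_zero, Fsk_eq]
  rfl

/-! ### monotonicity, convexity -/

section

variable (hx : 0 < x) (hy : 0 < y)

include hx hy

/-- monotonicity in the exponent of the window -/
lemma P3_mono_b (hb : 0 < b) (hbb : b ≤ b') : P3 n β y τ x T b ≤ P3 n β y τ x T b' :=
  PP_mono ((c11_Fsk n β).W' hy (√τ)) (Cv.W (c11_Fsk n β) (cv_Fsk n β) hy (√τ)) hx hb hbb

/-- convexity in the exponent of the window -/
lemma P3_convex {p q : ℝ} (hp : 0 ≤ p) (hq : 0 ≤ q) (hpq : p + q = 1) (hb : 0 < b)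
    (hb' : 0 < b') : P3 n β y τ x T (p * b + q * b') ≤
      p * P3 n β y τ x T b + q * P3 n β y τ x T b' :=
  PP_convex ((c11_Fsk n β).W' hy (√τ)) (Cv.W (c11_Fsk n β) (cv_Fsk n β) hy (√τ)) hx hp hq hpq
    hb hb'

/-- monotonicity in the length of the window -/
lemma P3_mono_T (hxb : x ≤ b) (hT : 0 ≤ T) (hTT : T ≤ T') (hτT : τ + T' ≤ 1) :
    P3 n β y τ x T b ≤ P3 n β y τ x T' b := by
  refine PP_mono_s ((c11_Fsk n β).W' hy (√τ)) (Cv.W (c11_Fsk n β) (cv_Fsk n β) hy (√τ)) hx hxb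
    ?_ ?_
  · rw [Real.sq_sqrt (by linarith), Real.sq_sqrt hT, Real.sq_sqrt (by linarith),
      Real.sq_sqrt (by linarith)]
    ring
  · rw [Real.sq_sqrt hT, Real.sq_sqrt (by linarith)]
    exact hTT

/-- monotonicity in the last exponent -/
lemma P3_mono_y (hb : 0 < b) (hyy : y ≤ y') : P3 n β y τ x T b ≤ P3 n β y' τ x T b :=
  PP_mono_F (lip_Wy n β hy _) (lip_Wy n β (hy.trans_le hyy) _) hx hb
    (W_mono_b (c11_Fsk n β) (cv_Fsk n β) hy hyy (√τ))

/-- the squared gradient of a layer -/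
lemma grad_W (s : ℝ) (w : Pair n → ℝ) : ∑ e, DW y s (Fsk n β)
    (fun e u => β / √n * av (β / √n) SkS (SkS e) u) e w ^ 2 ≤ β ^ 2 / 2 * n :=
  G2_le (c11_Fsk n β) hy (grad_Fsk n β) w

/-- **The trivial bound.** -/
theorem P3_le_add (hxb : x ≤ b) (hT : 0 ≤ T) :
    P3 n β y τ x T b ≤ P3 n β y τ x T x + β ^ 2 / 4 * (n * (b - x) * T) := by
  have h1 := PP_le_add (c := √(1 - τ - T)) (s := √T) ((c11_Fsk n β).W' hy (√τ))
    (Cv.W (c11_Fsk n β) (cv_Fsk n β) hy (√τ)) hx hxb (grad_W hx hy (√τ))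
  rw [Real.sq_sqrt hT] at h1
  refine h1.trans (le_of_eq ?_)
  unfold P3
  ring

/-- all the exponents are at least `m` -/
lemma W_le_P3 {m : ℝ} (hm : 0 < m) (hmx : m ≤ x) (hmy : m ≤ y) (hmb : m ≤ b) (hτ : 0 ≤ τ)
    (hT : 0 ≤ T) (hτT : τ + T ≤ 1) : W m 1 (Fsk n β) 0 ≤ P3 n β y τ x T b := by
  have h := c11_Fsk n β
  have hc := cv_Fsk n β
  have hb : 0 < b := hm.trans_le hmb
  have hmm := h.W' hm (√τ)
  have hyy := h.W' hy (√τ)
  have e1 : W m (√T) (W m (√τ) (Fsk n β)) = W m (√(τ + T)) (Fsk n β) := by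
    funext z
    refine W_W h.lip h.B0 hm ?_ z
    rw [Real.sq_sqrt hT, Real.sq_sqrt hτ, Real.sq_sqrt (by linarith)]
    ring
  have e2 : W m (√(1 - τ - T)) (W m (√(τ + T)) (Fsk n β)) 0 = W m 1 (Fsk n β) 0 := by
    refine W_W h.lip h.B0 hm ?_ 0
    rw [Real.sq_sqrt (by linarith), Real.sq_sqrt (by linarith)]
    ring
  rw [← e2, ← e1]
  have s1 : ∀ w, W m (√τ) (Fsk n β) w ≤ W y (√τ) (Fsk n β) w := W_mono_b h hc hm hmy (√τ)
  have s2 : ∀ w, W m (√T) (W m (√τ) (Fsk n β)) w ≤ W b (√T) (W y (√τ) (Fsk n β)) w := fun w =>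
    (W_mono (lip_Wy n β hm _) (lip_Wy n β hy _) hm s1 (√T) w).trans
      (W_mono_b hyy (Cv.W h hc hy (√τ)) hm hmb (√T) w)
  have l1 : Lip (W m (√T) (W m (√τ) (Fsk n β))) := Lip.W (lip_Wy n β hm _) hm _
  have l2 : Lip (W b (√T) (W y (√τ) (Fsk n β))) := Lip.W (lip_Wy n β hy _) hb _
  unfold P3 PP
  exact (W_mono l1 l2 hm s2 _ 0).trans
    (W_mono_b (hyy.W' hb (√T)) (Cv.W hyy (Cv.W h hc hy (√τ)) hb (√T)) hm hmx _ 0)

/-- all the exponents are at most `m` -/
lemma P3_le_W {m : ℝ} (hb : 0 < b) (hmx : x ≤ m) (hmy : y ≤ m) (hmb : b ≤ m) (hτ : 0 ≤ τ)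
    (hT : 0 ≤ T) (hτT : τ + T ≤ 1) : P3 n β y τ x T b ≤ W m 1 (Fsk n β) 0 := by
  have h := c11_Fsk n β
  have hc := cv_Fsk n β
  have hm : 0 < m := hb.trans_le hmb
  have hmm := h.W' hm (√τ)
  have hyy := h.W' hy (√τ)
  have e1 : W m (√T) (W m (√τ) (Fsk n β)) = W m (√(τ + T)) (Fsk n β) := by
    funext z
    refine W_W h.lip h.B0 hm ?_ z
    rw [Real.sq_sqrt hT, Real.sq_sqrt hτ, Real.sq_sqrt (by linarith)]
    ring
  have e2 : W m (√(1 - τ - T)) (W m (√(τ + T)) (Fsk n β)) 0 = W m 1 (Fsk n β) 0 := by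
    refine W_W h.lip h.B0 hm ?_ 0
    rw [Real.sq_sqrt (by linarith), Real.sq_sqrt (by linarith)]
    ring
  rw [← e2, ← e1]
  have s1 : ∀ w, W y (√τ) (Fsk n β) w ≤ W m (√τ) (Fsk n β) w := W_mono_b h hc hy hmy (√τ)
  have s2 : ∀ w, W b (√T) (W y (√τ) (Fsk n β)) w ≤ W m (√T) (W m (√τ) (Fsk n β)) w := fun w =>
    (W_mono (lip_Wy n β hy _) (lip_Wy n β hm _) hb s1 (√T) w).trans
      (W_mono_b hmm (Cv.W h hc hm (√τ)) hb hmb (√T) w)
  have l1 : Lip (W m (√T) (W m (√τ) (Fsk n β))) := Lip.W (lip_Wy n β hm _) hm _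
  have l2 : Lip (W b (√T) (W y (√τ) (Fsk n β))) := Lip.W (lip_Wy n β hy _) hb _
  unfold P3 PP
  exact (W_mono l2 l1 hx s2 _ 0).trans
    (W_mono_b (hmm.W' hm (√T)) (Cv.W hmm (Cv.W h hc hm (√τ)) hm (√T)) hx hmx _ 0)

end

/-- the mean is a lower bound -/
lemma mean_le_W1 (n : ℕ) (β : ℝ) (hb : 0 < b) : meanF n β ≤ W b 1 (Fsk n β) 0 := by
  have h1 := mean_le_W (lip_Fsk n β) hb 1 (0 : Pair n → ℝ)
  simp only [zero_add, one_smul] at h1
  rw [Fsk_eq] at h1 ⊢
  exact h1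

/-- the centred logarithmic moment -/
noncomputable def Kn (n : ℕ) (β b : ℝ) : ℝ :=
  Real.log (∫ g, Real.exp (b * (freeEnergy n β g - meanF n β)) ∂(disorder n))

lemma W_one_Kn (hb : 0 < b) : W b 1 (Fsk n β) 0 = meanF n β + Kn n β b / b := by
  have h0 : 0 < ∫ g, Real.exp (b * freeEnergy n β g) ∂(disorder n) := by
    rw [← Fsk_eq]
    change 0 < ∫ g, Real.exp (b * Fsk n β g) ∂(gI (Pair n))
    exact integral_exp_pos ((lip_Fsk n β).exp_eg b).integrable
  have e : ∫ g, Real.exp (b * (freeEnergy n β g - meanF n β)) ∂(disorder n) =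
      Real.exp (-(b * meanF n β)) * ∫ g, Real.exp (b * freeEnergy n β g) ∂(disorder n) := by
    rw [← integral_const_mul]
    refine integral_congr_ae (Filter.Eventually.of_forall fun g => ?_)
    simp only
    rw [← Real.exp_add]
    congr 1
    ring
  rw [W_one_eq, Kn, e, Real.log_mul (Real.exp_pos _).ne' h0.ne', Real.log_exp]
  field_simp
  ring

lemma Kn_nonneg (hb : 0 < b) : 0 ≤ Kn n β b := by
  have h1 := mean_le_W1 n β hb
  rw [W_one_Kn hb] at h1
  have h2 : 0 ≤ Kn n β b / b := by linarith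
  have := mul_nonneg h2 hb.le
  rwa [div_mul_cancel₀ _ hb.ne'] at this

/-- **The a priori bound** by the exponential moment of the free energy. -/
theorem P3_sub_le (hx : 0 < x) (hy : 0 < y) (hxb : x ≤ b) (hyb : y ≤ b) (hτ : 0 ≤ τ)
    (hT : 0 ≤ T) (hτT : τ + T ≤ 1) :
    P3 n β y τ x T b - P3 n β y τ x T x ≤ Kn n β b / b := by
  have hb : 0 < b := hx.trans_le hxb
  have h1 := P3_le_W (n := n) (β := β) (m := b) hx hy hb hxb hyb le_rfl hτ hT hτT
  have hm : 0 < min x y := lt_min hx hy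
  have h2 := W_le_P3 (n := n) (β := β) (m := min x y) (b := x) hx hy hm (min_le_left _ _)
    (min_le_right _ _) (min_le_left _ _) hτ hT hτT
  have h3 := mean_le_W1 n β hm
  rw [W_one_Kn hb] at h1
  linarith

theorem P2_sub_le (hx : 0 < x) (hxb : x ≤ b) (hT : 0 ≤ T) (hT1 : T ≤ 1) :
    P2 n β x T b - P2 n β x T x ≤ Kn n β b / b := by
  have hb : 0 < b := hx.trans_le hxb
  have := P3_sub_le (n := n) (β := β) (y := b) (τ := 0) hx hb hxb le_rfl le_rfl hT (by linarith)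
  rwa [← P2_eq_P3 hb, ← P2_eq_P3 hb] at this

/-! ### the functionals `P2` -/

section

variable (hx : 0 < x)

include hx

lemma P2_mono_b (hb : 0 < b) (hbb : b ≤ b') : P2 n β x T b ≤ P2 n β x T b' :=
  PP_mono (c11_Fsk n β) (cv_Fsk n β) hx hb hbb

lemma P2_convex {p q : ℝ} (hp : 0 ≤ p) (hq : 0 ≤ q) (hpq : p + q = 1) (hb : 0 < b)
    (hb' : 0 < b') : P2 n β x T (p * b + q * b') ≤ p * P2 n β x T b + q * P2 n β x T b' :=
  PP_convex (c11_Fsk n β) (cv_Fsk n β) hx hp hq hpq hb hb'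

lemma P2_mono_T (hxb : x ≤ b) (hT : 0 ≤ T) (hTT : T ≤ T') (hT1 : T' ≤ 1) :
    P2 n β x T b ≤ P2 n β x T' b := by
  have hb : 0 < b := hx.trans_le hxb
  rw [P2_eq_P3 hb, P2_eq_P3 hb]
  exact P3_mono_T hx hb hxb hT hTT (by linarith)

theorem P2_le_add (hxb : x ≤ b) (hT : 0 ≤ T) :
    P2 n β x T b ≤ P2 n β x T x + β ^ 2 / 4 * (n * (b - x) * T) := by
  have hb : 0 < b := hx.trans_le hxb
  rw [P2_eq_P3 hb, P2_eq_P3 hb]
  exact P3_le_add hx hb hxb hT

lemma P2_self_eq (hT : 0 ≤ T) (hT1 : T ≤ 1) (hT' : 0 ≤ T') (hT1' : T' ≤ 1) :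
    P2 n β x T x = P2 n β x T' x := by
  rw [P2_self hx hT hT1, P2_self hx hT' hT1']

end

/-! ### the share of the pure law -/

/-- The share `Wn n β x = (2 / x²) KL (e^{xF} | 1) = ∫₀¹ E_x |D_t|² dt` of the pure law. -/
noncomputable def Wn (n : ℕ) (β x : ℝ) : ℝ := SS x x 0 1 (Fsk n β)

lemma Wn_eq (n : ℕ) (β x : ℝ) : Wn n β x = 2 / x ^ 2 * KL (freeEnergy n β) x := by
  unfold Wn
  rw [SS_pure, Fsk_eq]

/-- **The share is at most an increment of the functional.** -/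
theorem Wn_le (hx : 0 < x) (hxb : x < b) :
    Wn n β x ≤ 2 / (b - x) * (P2 n β x 1 b - P2 n β x 1 x) := by
  have h1 := PP_tangent (b := x) (b' := b) (c := 0) (s := 1) (c11_Fsk n β) (cv_Fsk n β) hx hx
    (hx.trans hxb)
  have e : ∀ a, P2 n β x 1 a = PP x a 0 1 (Fsk n β) := by
    intro a
    unfold P2
    rw [sub_self, Real.sqrt_zero, Real.sqrt_one]
  rw [e, e, div_mul_eq_mul_div, le_div_iff₀ (by linarith)]
  unfold Wn
  linarith

/-- **The variance is at most the share.** -/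
theorem var_le_Wn (hx : 0 < x) : Var[freeEnergy n β; disorder n] ≤ Wn n β x := by
  have h1 := var_le_SS (c11_Fsk n β) (cv_Fsk n β) hx
  refine le_trans (le_of_eq ?_) h1
  rw [variance_eq_integral, Fsk_eq]
  · rfl
  · rw [← Fsk_eq]
    exact (lip_Fsk n β).eg.meas.aemeasurable

/-- **The variance from the functional.** -/
theorem var_le_P2 (hx : 0 < x) : Var[freeEnergy n β; disorder n] ≤
    2 / x * (P2 n β x 1 (2 * x) - P2 n β x 1 x) := by
  have h1 := Wn_le (n := n) (β := β) (b := 2 * x) hx (by linarith)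
  rw [show 2 * x - x = x by ring] at h1
  exact (var_le_Wn hx).trans h1

end sk

end Vale.Agent.P146.U.AP
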