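import Vale.Agent.P146.U.LStar
import Vale.Agent.P146.H332.Glob

/-!
# P146, upper half: the a priori bound of the functionals from the law of the exponential moments

All functionals `P2`, `P3` with exponents at most `b` lie between the mean of the free energy and
`(1/b) log E exp (b F)`. The Prop `CgfU β` is the upper bound `C n b ^ 5` of
`(1/b) log E exp (b F) - E F` for `b ≥ n^(-1/6) (log n)^K` (proved in the hand-in `FluctOrder`).
-/

open MeasureTheory ProbabilityTheory Filter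

namespace Vale.Agent.P146.U

open Vale.Agent.P157.Lv Vale.Agent.P146.H425 Vale.Agent.P146.R1 Vale.Agent.P146.H332
  Vale.Agent.P146.H325

section gen

variable {κ : Type} [Fintype κ] {F G : (κ → ℝ) → ℝ} {D : κ → (κ → ℝ) → ℝ}
  {B L x y a b s t c d r : ℝ}

lemma int_eq_Mn (F : (κ → ℝ) → ℝ) (s : ℝ) (y : κ → ℝ) :
    ∫ z, F (y + s • z) ∂(gI κ) = Mn 0 s F F y := by
  unfold Mn
  simp

/-- the mean is at most one layer -/
lemma mean_le_W (h : Lip F) (hx : 0 < x) (s : ℝ) (y : κ → ℝ) :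
    ∫ z, F (y + s • z) ∂(gI κ) ≤ W x s F y := by
  have e0 : EG fun z => F (y + s • z) := EG.add_smul h.eg y s
  have h1 := jensen_tilt (q := fun _ : κ → ℝ => (1 : ℝ)) (t := fun z => x * F (y + s • z))
    (EG.const 1) (fun _ => zero_le_one) (by simp) (e0.const_mul x)
    (by simpa using Lip.egx h y s x)
  simp only [one_mul, integral_const, probReal_univ, smul_eq_mul, div_one, mul_one] at h1
  rw [integral_const_mul] at h1
  have h2 : x * ∫ z, F (y + s • z) ∂(gI κ) ≤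
      Real.log (∫ z, Real.exp (x * F (y + s • z)) ∂(gI κ)) := by
    rw [← Real.exp_le_exp, Real.exp_log (den_pos h x s y)]
    exact h1
  unfold W
  rw [one_div, ← div_eq_inv_mul, le_div_iff₀ hx]
  linarith

/-- the mean after a step is at most the mean of one layer -/
lemma mean_le_int (h : Lip F) (hG : Lip G) (hle : ∀ y, ∫ z, F (y + s • z) ∂(gI κ) ≤ G y)
    (hcs : c ^ 2 + s ^ 2 = a ^ 2) (y : κ → ℝ) :
    ∫ z, F (y + a • z) ∂(gI κ) ≤ ∫ z, G (y + c • z) ∂(gI κ) := by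
  rw [← gI_rot h.eg hcs y]
  refine integral_mono ?_ (EG.add_smul hG.eg y c).integrable fun z => hle _
  have e : (fun z => ∫ z', F (y + c • z + s • z') ∂(gI κ)) = fun z => Mn 0 s F F (y + c • z) :=
    funext fun z => int_eq_Mn F s _
  rw [e]
  exact (EG.add_smul (eg_Mn h h.eg 0 s) y c).integrable

/-- the mean is at most two layers -/
lemma mean_le_PP (h : C11 F D B L) (hx : 0 < x) (hb : 0 < b) (hcs : c ^ 2 + s ^ 2 = a ^ 2) :
    ∫ z, F (0 + a • z) ∂(gI κ) ≤ PP x b c s F := by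
  have hl := h.lip.lip h.B0
  have hX := lipW h hb s
  exact (mean_le_int hl hX (mean_le_W hl hb s) hcs 0).trans (mean_le_W hX hx c 0)

/-- two layers with exponents at most `b` are at most one layer with the exponent `b` -/
lemma PP_le_W (h : C11 F D B L) (hc : Cv F) (hx : 0 < x) (hxb : x ≤ b)
    (hcs : c ^ 2 + s ^ 2 = a ^ 2) : PP x b c s F ≤ W b a F 0 := by
  have hb : 0 < b := hx.trans_le hxb
  rw [← W_W h.lip h.B0 hb hcs 0]
  exact W_exp_mono (h.W' hb s) (Cv.W h hc hb s) hx hxb 0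

/-- three layers with exponents at most `b` are at most one layer with the exponent `b` -/
lemma PP3_le_W (h : C11 F D B L) (hc : Cv F) (hx : 0 < x) (hxb : x ≤ b) (hy : 0 < y)
    (hyb : y ≤ b) (hcs : c ^ 2 + (s ^ 2 + t ^ 2) = a ^ 2) :
    PP x b c s (W y t F) ≤ W b a F 0 := by
  have hb : 0 < b := hx.trans_le hxb
  have hl := h.lip.lip h.B0
  have e : W b s (W b t F) = W b (√(s ^ 2 + t ^ 2)) F := by
    funext w
    exact W_W h.lip h.B0 hb (Real.sq_sqrt (by positivity)).symm w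
  have h1 : PP x b c s (W y t F) ≤ PP x b c (√(s ^ 2 + t ^ 2)) F := by
    unfold PP
    rw [← e]
    refine W_mono (Lip.W (Lip.W hl hy t) hb s) (Lip.W (Lip.W hl hb t) hb s) hx (fun w => ?_) c 0
    exact W_mono (Lip.W hl hy t) (Lip.W hl hb t) hb (fun v => W_exp_mono h hc hy hyb v) s w
  refine h1.trans (PP_le_W h hc hx hxb ?_)
  rw [Real.sq_sqrt (by positivity)]
  exact hcs

/-- the mean is at most three layers -/
lemma mean_le_PP3 (h : C11 F D B L) (hx : 0 < x) (hb : 0 < b) (hy : 0 < y)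
    (hcs : c ^ 2 + s ^ 2 = r ^ 2) (hrt : r ^ 2 + t ^ 2 = a ^ 2) :
    ∫ z, F (0 + a • z) ∂(gI κ) ≤ PP x b c s (W y t F) := by
  have hl := h.lip.lip h.B0
  exact (mean_le_int hl (Lip.W hl hy t) (mean_le_W hl hy t) hrt 0).trans
    (mean_le_PP (h.W' hy t) hx hb hcs)

end gen

section sk

variable {n : ℕ} {β y τ x a b T T' C K : ℝ}

/-- the mean of the free energy -/
noncomputable def mF (n : ℕ) (β : ℝ) : ℝ := ∫ z, Fsk n β z ∂(gI (Pair n))

/-- `(1/b) log E exp (b F)` -/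
noncomputable def P1 (n : ℕ) (β b : ℝ) : ℝ := W b 1 (Fsk n β) 0

lemma int_Fsk_one : ∫ z, Fsk n β (0 + (1 : ℝ) • z) ∂(gI (Pair n)) = mF n β := by
  simp [mF]

lemma P1_eq : P1 n β b = 1 / b * Real.log (∫ z, Real.exp (b * Fsk n β z) ∂(gI (Pair n))) :=
  W_one_zero _ _

lemma P1_mono (hb : 0 < b) (hbb : b ≤ a) : P1 n β b ≤ P1 n β a :=
  W_exp_mono (c11_lz (β / √n) SkS) (cv_lz (β / √n) SkS) hb hbb 0

lemma mF_le_P1 (hb : 0 < b) : mF n β ≤ P1 n β b := by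
  rw [← int_Fsk_one]
  exact mean_le_W ((c11_lz (β / √n) SkS).lip.lip (c11_lz (β / √n) SkS).B0) hb 1 0

lemma P3_le_P1 (hx : 0 < x) (hxb : x ≤ b) (hy : 0 < y) (hyb : y ≤ b) (hτ : 0 ≤ τ)
    (hT : 0 ≤ T) (hTτ : τ + T ≤ 1) : P3 n β y τ x T b ≤ P1 n β b := by
  refine PP3_le_W (c11_lz (β / √n) SkS) (cv_lz (β / √n) SkS) hx hxb hy hyb ?_
  rw [Real.sq_sqrt (by linarith), Real.sq_sqrt hT, Real.sq_sqrt hτ]
  ring

lemma mF_le_P3 (hx : 0 < x) (hb : 0 < b) (hy : 0 < y) (hτ : 0 ≤ τ)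
    (hT : 0 ≤ T) (hTτ : τ + T ≤ 1) : mF n β ≤ P3 n β y τ x T b := by
  rw [← int_Fsk_one]
  refine mean_le_PP3 (r := √(1 - τ)) (c11_lz (β / √n) SkS) hx hb hy ?_ ?_
  · rw [Real.sq_sqrt (by linarith), Real.sq_sqrt hT, Real.sq_sqrt (by linarith)]
    ring
  · rw [Real.sq_sqrt (by linarith), Real.sq_sqrt hτ]
    ring

lemma P2_le_P1 (hx : 0 < x) (hxb : x ≤ b) (hT : 0 ≤ T) (hT1 : T ≤ 1) :
    P2 n β x T b ≤ P1 n β b := by
  refine PP_le_W (c11_lz (β / √n) SkS) (cv_lz (β / √n) SkS) hx hxb ?_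
  rw [Real.sq_sqrt (by linarith), Real.sq_sqrt hT]
  ring

lemma mF_le_P2 (hx : 0 < x) (hb : 0 < b) (hT : 0 ≤ T) (hT1 : T ≤ 1) :
    mF n β ≤ P2 n β x T b := by
  rw [← int_Fsk_one]
  refine mean_le_PP (c11_lz (β / √n) SkS) hx hb ?_
  rw [Real.sq_sqrt (by linarith), Real.sq_sqrt hT]
  ring

/-- **The upper law of the exponential moments above the scale `n^(-1/6) (log n)^K`.** -/
def CgfU (β : ℝ) : Prop := ∃ C K : ℝ, 0 < C ∧ 0 < K ∧ ∃ n0 : ℕ, ∀ n : ℕ, n0 ≤ n → ∀ b : ℝ,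
  (n : ℝ) ^ (-(1 / 6) : ℝ) * Real.log n ^ K ≤ b → b ≤ 1 → P1 n β b - mF n β ≤ C * (n * b ^ 5)

/-- In the letters of the hand-in `FluctOrder`. -/
theorem cgfU_of {β : ℝ} {C : ℝ} (hC : 0 < C) (h : ∀ᶠ n : ℕ in atTop, ∀ x : ℝ,
    Real.log n ^ C / (n : ℝ) ^ (1 / 6 : ℝ) ≤ x → x ≤ 1 →
    Real.log (∫ g, Real.exp (x * (freeEnergy n β g - ∫ g, freeEnergy n β g ∂(disorder n)))
      ∂(disorder n)) ≤ C * (n * x ^ 6)) : CgfU β := by
  obtain ⟨n0, hn0⟩ := eventually_atTop.1 h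
  refine ⟨C, C, hC, hC, max n0 2, fun n hn b hb hb1 => ?_⟩
  have hn1 : n0 ≤ n := (le_max_left _ _).trans hn
  have hn2 : 2 ≤ n := (le_max_right _ _).trans hn
  have hnR : (2 : ℝ) ≤ n := by exact_mod_cast hn2
  have hnp : (0 : ℝ) < n := by linarith
  have hlog : 0 < Real.log n := Real.log_pos (by linarith)
  have hb0 : 0 < b := lt_of_lt_of_le (by positivity) hb
  have h1 := hn0 n hn1 b (by
    rw [Real.rpow_neg hnp.le] at hb
    rw [div_eq_inv_mul]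
    exact hb) hb1
  have hf : ∀ g, freeEnergy n β g = Fsk n β g := fun g => freeEnergy_eq β g
  have hd : disorder n = gI (Pair n) := rfl
  have hm : ∫ g, freeEnergy n β g ∂(disorder n) = mF n β := by
    simp only [hf]
    rfl
  rw [hm] at h1
  simp only [hf] at h1
  rw [hd] at h1
  have h2 : ∫ g, Real.exp (b * (Fsk n β g - mF n β)) ∂(gI (Pair n)) =
      Real.exp (-(b * mF n β)) * ∫ g, Real.exp (b * Fsk n β g) ∂(gI (Pair n)) := by
    rw [← integral_const_mul]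
    refine integral_congr_ae (Eventually.of_forall fun g => ?_)
    simp only
    rw [← Real.exp_add]
    congr 1
    ring
  have hp : 0 < ∫ g, Real.exp (b * Fsk n β g) ∂(gI (Pair n)) := by
    have := den_pos ((c11_lz (β / √n) (SkS (n := n))).lip.lip (c11_lz (β / √n) SkS).B0) b 1 0
    simpa [Fsk] using this
  rw [h2, Real.log_mul (Real.exp_pos _).ne' hp.ne', Real.log_exp] at h1
  rw [P1_eq]
  have h3 : Real.log (∫ g, Real.exp (b * Fsk n β g) ∂(gI (Pair n))) ≤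
      b * mF n β + C * (n * b ^ 6) := by linarith
  have h4 : 1 / b * Real.log (∫ g, Real.exp (b * Fsk n β g) ∂(gI (Pair n))) ≤
      1 / b * (b * mF n β + C * (n * b ^ 6)) := by gcongr
  have h5 : 1 / b * (b * mF n β + C * (n * b ^ 6)) = mF n β + C * (n * b ^ 5) := by
    field_simp
  linarith

/-- **The a priori bound.** Above the scale `n^(-1/6) (log n)^K`. -/
theorem CgfU.ap (h : CgfU β) : ∃ C K : ℝ, 0 < C ∧ 0 < K ∧ ∃ n0 : ℕ, ∀ n : ℕ, n0 ≤ n →
    ∀ b : ℝ, (n : ℝ) ^ (-(1 / 6) : ℝ) * Real.log n ^ K ≤ b → b ≤ 1 →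
    P1 n β b - mF n β ≤ C * (n * b ^ 5) ∧
    (∀ x x' T T' : ℝ, 0 < x → x ≤ b → 0 < x' → 0 ≤ T → T ≤ 1 → 0 ≤ T' → T' ≤ 1 →
      P2 n β x T b - P2 n β x' T' x' ≤ C * (n * b ^ 5)) ∧
    (∀ x x' y y' τ τ' T T' : ℝ, 0 < x → x ≤ b → 0 < x' → 0 < y → y ≤ b → 0 < y' →
      0 ≤ τ → 0 ≤ T → τ + T ≤ 1 → 0 ≤ τ' → 0 ≤ T' → τ' + T' ≤ 1 →
      P3 n β y τ x T b - P3 n β y' τ' x' T' x' ≤ C * (n * b ^ 5)) := by
  obtain ⟨C, K, hC, hK, n0, h⟩ := h
  refine ⟨C, K, hC, hK, n0, fun n hn b hb hb1 => ⟨h n hn b hb hb1, ?_, ?_⟩⟩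
  · intro x x' T T' hx hxb hx' hT hT1 hT' hT1'
    have h1 := P2_le_P1 (n := n) (β := β) hx hxb hT hT1
    have h2 := mF_le_P2 (n := n) (β := β) hx' hx' hT' hT1'
    linarith [h n hn b hb hb1]
  · intro x x' y y' τ τ' T T' hx hxb hx' hy hyb hy' hτ hT hTτ hτ' hT' hTτ'
    have h1 := P3_le_P1 (n := n) (β := β) hx hxb hy hyb hτ hT hTτ
    have h2 := mF_le_P3 (n := n) (β := β) hx' hx' hy' hτ' hT' hTτ'
    linarith [h n hn b hb hb1]

/-- **The a priori bound at all scales**: with `b ∨ n^(-1/6) (log n)^K` in the place of `b`. -/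
theorem CgfU.ap_max (h : CgfU β) : ∃ C K : ℝ, 0 < C ∧ 0 < K ∧ ∃ n0 : ℕ, ∀ n : ℕ, n0 ≤ n →
    ∀ b : ℝ, 0 < b → b ≤ 1 →
    P1 n β b - mF n β ≤ C * (n * max b ((n : ℝ) ^ (-(1 / 6) : ℝ) * Real.log n ^ K) ^ 5) := by
  obtain ⟨C, K, hC, hK, n0, h⟩ := h
  have hlim : ∀ᶠ n : ℕ in atTop, (n : ℝ) ^ (-(1 / 6) : ℝ) * Real.log n ^ K ≤ 1 := by
    have h1 := (isLittleO_log_rpow_rpow_atTop K (show (0 : ℝ) < 1 / 6 by norm_num)).bound
      (show (0 : ℝ) < 1 by norm_num)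
    have h2 := tendsto_natCast_atTop_atTop.eventually h1
    filter_upwards [h2, eventually_ge_atTop 2] with n h3 hn
    have hnR : (2 : ℝ) ≤ n := by exact_mod_cast hn
    have hlog : 0 ≤ Real.log n := Real.log_nonneg (by linarith)
    rw [Real.norm_of_nonneg (by positivity), Real.norm_of_nonneg (by positivity), one_mul] at h3
    rw [Real.rpow_neg (by positivity), ← div_eq_inv_mul, div_le_one (by positivity)]
    exact h3
  obtain ⟨n1, hn1⟩ := eventually_atTop.1 hlim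
  refine ⟨C, K, hC, hK, max n0 n1, fun n hn b hb hb1 => ?_⟩
  have h1 := h n ((le_max_left _ _).trans hn)
    (max b ((n : ℝ) ^ (-(1 / 6) : ℝ) * Real.log n ^ K)) (le_max_right _ _)
    (max_le hb1 (hn1 n ((le_max_right _ _).trans hn)))
  have h2 := P1_mono (n := n) (β := β) hb
    (le_max_left b ((n : ℝ) ^ (-(1 / 6) : ℝ) * Real.log n ^ K))
  linarith

end sk

end Vale.Agent.P146.U
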