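import Vale.Agent.P146.U.Ex3f

/-!
# P146, upper half: the tail of the windows, pointwise, for every exponent in `[x, 2x]`

`T * Ps x b √(1 - T) √T F D ≤ C N x^4 (T / x²)^(-1/1000)` for `x² ≤ T ≤ 1/2`, `x ≤ b ≤ 2x`
(`tail_gen`), and the integrated form (`tail_int`); for the SK model from `Ex2Out` and `LStar`
(`tail`, `tail_P2`).
-/

open MeasureTheory ProbabilityTheory

namespace Vale.Agent.P146.U

open Vale.Agent.P157.Lv Vale.Agent.P146 Vale.Agent.P146.H425 Vale.Agent.P146.R1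
  Vale.Agent.P146.H332 Vale.Agent.P146.H325

set_option linter.unusedSectionVars false

section gen

variable {κ : Type} [Fintype κ] {F X : (κ → ℝ) → ℝ} {D : κ → (κ → ℝ) → ℝ}
  {B L x a b G M σ T N : ℝ}

/-- the lower bound of the share -/
lemma l_lowb (q : Par3 G x M σ T) (h : C11 F D B L) (hc : Cv F) (hU : UP G x M F)
    (hb : x ≤ b) (hb2 : b ≤ 2 * x) (hcon : G / σ ^ 2 < T * ST x b T F D) :
    x / 16 * G * σ ^ 38 ≤
      Q3 x (x * σ ^ 40) (x * σ ^ 2) (T / 2) (T / 2) F - PT x (x * σ ^ 2) (T / 2) F := by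
  have hx := q.hx
  have hG := q.hG
  have hσ0 := q.σ0
  have hσ1 := q.σ1
  have hσ4 := q.hσ4
  have hT0 := q.T0
  have hxT := q.xT
  have hx2 : 0 < x ^ 2 := by positivity
  have e2 : T / 2 + T / 2 = T := by ring
  have h2 := Q3_low (a := x * σ ^ 40) (τ := T / 2) (T := T / 2) h hc hx
    hb (hb2.trans q.xy) (by linarith [q.ya, q.xy]) (by positivity)
    (by positivity) (by rw [e2]; linarith [q.hT1])
  rw [e2] at h2
  have h3 := hU.bd hG hx q.hM.le hσ1 (b := x * σ ^ 2) (T := T / 2) (by linarith [q.xy])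
    (by linarith [q.hT1]) (by linarith) (by rw [← q.hT]; linarith)
  have h4 : x * σ ^ 40 / 2 ≤ x * σ ^ 40 - b := by
    have : 4 ≤ σ ^ 40 := by
      calc (4 : ℝ) ≤ σ := hσ4
        _ ≤ σ ^ 40 := le_self_pow₀ hσ1 (by norm_num)
    nlinarith
  have h5 : x / 8 * G * σ ^ 38 ≤
      (x * σ ^ 40 - b) / 2 * (T / 2 * ST x b T F D) := by
    have h6 : x * σ ^ 40 / 4 * (1 / 2 * (G / σ ^ 2)) ≤
        (x * σ ^ 40 - b) / 2 * (T / 2 * ST x b T F D) := by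
      refine mul_le_mul (by linarith) (by linarith) (by positivity) ?_
      have : 0 ≤ x * σ ^ 40 := by positivity
      linarith
    refine le_trans (le_of_eq ?_) h6
    field_simp
    norm_num
  have h6 : M * (G * (x * σ ^ 2) * ((x * σ ^ 2) / x) ^ 5 * σ ^ 20) ≤
      x / 16 * G * σ ^ 38 := by
    have e3 : (x * σ ^ 2) / x = σ ^ 2 := by field_simp
    rw [e3]
    have e4 : M * (G * (x * σ ^ 2) * (σ ^ 2) ^ 5 * σ ^ 20) =
        (x * G * σ ^ 32) * M := by ring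
    have e5 : x / 16 * G * σ ^ 38 = (x * G * σ ^ 32) * (σ ^ 6 / 16) := by
      ring
    rw [e4, e5]
    refine mul_le_mul_of_nonneg_left ?_ (by positivity)
    have : σ ≤ σ ^ 6 := le_self_pow₀ hσ1 (by norm_num)
    linarith [q.hσM]
  have e7 : x / 8 * G * σ ^ 38 = x / 16 * G * σ ^ 38 + x / 16 * G * σ ^ 38 := by ring
  rw [e7] at h5
  linarith

/-- **The selection.** -/
lemma l_selb (q : Par3 G x M σ T) (h : C11 F D B L) (hc : Cv F) (hU : UP G x M F)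
    (hb : x ≤ b) (hb2 : b ≤ 2 * x) (hcon : G / σ ^ 2 < T * ST x b T F D) :
    ∃ (a t Δ : ℝ) (j i : ℕ), a = 4 ^ j * (x * σ ^ 40) ∧ (4 : ℝ) ^ j ≤ σ ^ 261 ∧
      ((2 : ℝ) ^ mG) ^ i ≤ σ ^ 261 ∧ t = T / 2 / lG ^ i ∧
      Δ = Q3 x a (x * σ ^ 2) (T / 2) t F - Q3 x x (x * σ ^ 2) (T / 2) t F ∧
      Q3 x (4 * a) (x * σ ^ 2) (T / 2) t F - Q3 x x (x * σ ^ 2) (T / 2) t F ≤ 4 ^ 8 * Δ ∧
      Q3 x a (x * σ ^ 2) (T / 2) (t / lG) F - Q3 x x (x * σ ^ 2) (T / 2) t F ≤ 1 / 2 * Δ ∧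
      x / 16 * G * σ ^ 38 * 4 ^ (8 * j) ≤ Δ * 2 ^ i ∧
      Δ ≤ a / 2 * t * mm G x M σ T a := by
  have hx := q.hx
  have hG := q.hG
  have hσ0 := q.σ0
  have hσ1 := q.σ1
  have hM := q.hM
  have hT0 := q.T0
  have hT1 := q.hT1
  have hy0 := q.y0
  have hl := lG_pos
  have hl1 := lG_one
  have hA : 0 < x / 16 * G * σ ^ 38 := by positivity
  have h00 := l_lowb q h hc hU hb hb2 hcon
  obtain ⟨j, i, hj, hi, hΔ, h4, hhalf⟩ := grid_max
    (f := fun j i => Q3 x (4 ^ j * (x * σ ^ 40)) (x * σ ^ 2) (T / 2) (T / 2 / lG ^ i) F -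
      PT x (x * σ ^ 2) (T / 2) F) mG_ne hA
    (by simpa using h00) (fun j i => l_up q h hc hU j i)
  have hE : 16 * M * σ ^ 260 ≤ σ ^ 261 := by
    have : σ ^ 261 = σ * σ ^ 260 := by ring
    rw [this]
    exact mul_le_mul_of_nonneg_right q.hσM (by positivity)
  have hj4 : (1 : ℝ) ≤ 4 ^ j := one_le_pow₀ (by norm_num)
  have hli : 1 ≤ lG ^ i := one_le_pow₀ hl1
  have ht0 : 0 < T / 2 / lG ^ i := by positivity
  have htT : T / 2 / lG ^ i ≤ T / 2 := div_le_self (by positivity) hli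
  have hTl : T / 2 / lG ^ (i + 1) = T / 2 / lG ^ i / lG := by
    rw [pow_succ, div_div, div_div, div_div]
  have haj' : 4 ^ (j + 1) * (x * σ ^ 40) = 4 * (4 ^ j * (x * σ ^ 40)) := by
    rw [pow_succ]
    ring
  have haa : x * σ ^ 40 ≤ 4 ^ j * (x * σ ^ 40) := le_mul_of_one_le_left (by positivity) hj4
  have hya : 2 * (x * σ ^ 2) ≤ 4 ^ j * (x * σ ^ 40) := q.ya.trans haa
  have hQx : Q3 x x (x * σ ^ 2) (T / 2) (T / 2 / lG ^ i) F = PT x (x * σ ^ 2) (T / 2) F :=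
    Q3_x h hx hy0 ht0.le (by linarith)
  rw [haj'] at h4
  rw [hTl] at hhalf
  refine ⟨4 ^ j * (x * σ ^ 40), T / 2 / lG ^ i,
    Q3 x (4 ^ j * (x * σ ^ 40)) (x * σ ^ 2) (T / 2) (T / 2 / lG ^ i) F -
      PT x (x * σ ^ 2) (T / 2) F, j, i, rfl, hj.trans hE, hi.trans hE, rfl, ?_, ?_, ?_, ?_,
    l_up1 q h hc hU hya ht0.le htT⟩
  · rw [hQx]
  · rw [hQx]
    exact h4
  · rw [hQx]
    exact hhalf
  · rwa [div_le_iff₀ (by positivity)] at hΔ

/-- **The L-side.** -/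
theorem lsideb (q : Par3 G x M σ T) (hN : 0 < N) (hGN : G = N * x ^ 4) (hNx : 1 ≤ N * x ^ 6)
    (h : C11 F D B L) (hc : Cv F) (hU : UP G x M F) {Λ1 CL : ℝ}
    (hCL : 0 < CL) (hL : HL N x Λ1 CL F) (hσΛ : 16 * Λ1 ≤ σ) (hσC : 16 * CL ≤ σ)
    (hb : x ≤ b) (hb2 : b ≤ 2 * x) : T * ST x b T F D ≤ G / σ ^ 2 := by
  by_contra hcon
  push Not at hcon
  obtain ⟨a, t, Δ, j, i, hja, hj, hi, ht, hΔd, h4, hhalf, hΔ, hΔu⟩ := l_selb q h hc hU hb hb2 hcon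
  have hx := q.hx
  have hG := q.hG
  have hσ0 := q.σ0
  have hσ1 := q.σ1
  have hl := lG_pos
  have hT0 := q.T0
  have hj4 : (1 : ℝ) ≤ 4 ^ j := one_le_pow₀ (by norm_num)
  have haa : x * σ ^ 40 ≤ a := by
    rw [hja]
    exact le_mul_of_one_le_left (by positivity) hj4
  have ha0 : 0 < a := lt_of_lt_of_le (by positivity) haa
  have hli : 1 ≤ lG ^ i := one_le_pow₀ lG_one
  have ht0 : 0 < t := by
    rw [ht]
    exact div_pos (half_pos hT0) (by linarith)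
  have htT : t ≤ T / 2 := by
    rw [ht]
    exact div_le_self (by positivity) hli
  have h301 := d_a hx hσ0 hja hj
  have hlow := d_T q hi ht
  have hx2 : 0 < x ^ 2 := by positivity
  have hxt : x ^ 2 ≤ t := by
    have h3 : (2 : ℝ) ≤ σ ^ 1738 := by
      calc (2 : ℝ) ≤ σ := by linarith [q.hσ4]
        _ ≤ σ ^ 1738 := le_self_pow₀ hσ1 (by norm_num)
    have := mul_le_mul_of_nonneg_left h3 hx2.le
    linarith
  have h2i : (0 : ℝ) < 2 ^ i := by positivity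
  have hΔ0 : 0 ≤ Δ := by
    have h5 : 0 ≤ Δ * 2 ^ i := le_trans (by positivity) hΔ
    exact nonneg_of_mul_nonneg_left h5 h2i
  have hya : 2 * (x * σ ^ 2) ≤ a := q.ya.trans haa
  obtain ⟨hA1, hA2⟩ := d_act q hGN hNx (d_i hσ0 hi) hja hΔ0 hσΛ hΔ
  have hρ : Δ / (a * N * t) ≤ x ^ 2 := by
    refine le_trans ?_ (d_ρ q hN hGN ha0 h301)
    rw [div_le_div_iff₀ (by positivity) hN]
    have hm0 : 0 ≤ mm G x M σ T a := by
      have := q.hM
      unfold mm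
      positivity
    have h5 : Δ * N ≤ (a / 2 * t * mm G x M σ T a) * N := mul_le_mul_of_nonneg_right hΔu hN.le
    have h6 : 0 ≤ mm G x M σ T a * (a * N * t) := mul_nonneg hm0 (by positivity)
    have e : (a / 2 * t * mm G x M σ T a) * N = mm G x M σ T a * (a * N * t) / 2 := by ring
    rw [e] at h5
    linarith
  have hLL := hL a (x * σ ^ 2) (T / 2) t Δ (by linarith [q.xy]) (by linarith [q.y0])
    (d_a2 q ha0.le h301) (by positivity) (by linarith [q.hT1]) hxt (by linarith [q.hT1])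
    hΔd h4 hhalf hA1 hA2
  exact d_fin q hN hNx hCL hσC hlow h301 hρ hLL


/-- the crude bound of the gradient at one window -/
lemma g_crude (h : C11 F D B L) (hc : Cv F) (hG : 0 < G) (hx : 0 < x) (hM : 0 ≤ M)
    (hU : UP G x M F) (hσ : 1 ≤ σ) (hb : x ≤ b) (hb2 : b ≤ 2 * x) (hT0 : x ^ 2 ≤ T)
    (hT1 : T ≤ 1 / 2) (hT : T ≤ x ^ 2 * σ ^ 2000) :
    T * ST x b T F D ≤ 4 ^ 6 * M * σ ^ 20 * G := by
  have hx2 : 0 < x ^ 2 := by positivity
  have hTp : 0 < T := hx2.trans_le hT0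
  have h1 := Q3_low (a := 4 * x) (y := 4 * x) (τ := 0) (T := T) h hc hx hb (by linarith)
    (by linarith) le_rfl hTp.le (by linarith)
  rw [Q3_self h (by linarith) le_rfl hTp.le, zero_add] at h1
  have h2 := hU.bd hG hx hM hσ (b := 4 * x) (by linarith) hT1 hT0 hT
  have e : (4 * x) / x = 4 := by field_simp
  rw [e] at h2
  have h4 : 0 ≤ T * ST x b T F D := mul_nonneg hTp.le (Ps_nonneg h (hx.trans_le hb))
  have h5 : x * (T * ST x b T F D) ≤ (4 * x - b) / 2 * (T * ST x b T F D) :=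
    mul_le_mul_of_nonneg_right (by linarith) h4
  have h6 : x * (T * ST x b T F D) ≤ x * (4 ^ 6 * M * σ ^ 20 * G) := by
    have e2 : x * (4 ^ 6 * M * σ ^ 20 * G) = M * (G * (4 * x) * 4 ^ 5 * σ ^ 20) := by ring
    rw [e2]
    linarith
  exact le_of_mul_le_mul_left h6 hx

/-- **The tail, pointwise.** -/
theorem tail_gen {M Λ1 CL : ℝ} (hM : 0 < M) (hCL : 0 < CL) : ∃ C : ℝ, 0 < C ∧
    ∀ (κ : Type) [Fintype κ] (F : (κ → ℝ) → ℝ) (D : κ → (κ → ℝ) → ℝ) (B L N x : ℝ),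
      C11 F D B L → Cv F → 0 < N → 0 < x → x ≤ 1 / 2 → 1 ≤ N * x ^ 6 →
      UP (N * x ^ 4) x M F → HL N x Λ1 CL F → ∀ b T : ℝ, x ≤ b → b ≤ 2 * x → x ^ 2 ≤ T →
      T ≤ 1 / 2 → T * ST x b T F D ≤ C * (N * x ^ 4) * (T / x ^ 2) ^ (-(1 / 1000) : ℝ) := by
  obtain ⟨s, hs4, hsM, hsΛ, hsC⟩ : ∃ s : ℝ, 4 ≤ s ∧ 16 * M ≤ s ∧
      16 * Λ1 ≤ s ∧ 16 * CL ≤ s :=
    ⟨max 4 (max (16 * M) (max (16 * Λ1) (16 * CL))), by simp, by simp,
      by simp, by simp⟩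
  have hs0 : 0 < s := by linarith
  have hs20 : 0 < s ^ 20 := pow_pos hs0 _
  have hs2 : 0 < s ^ 2 := pow_pos hs0 _
  refine ⟨4 ^ 6 * M * s ^ 20 * s ^ 2 + 1, by positivity,
    fun κ _ F D B L N x h hc hN hx hx1 hNx hU hL b T hb hb2 hT0 hT1 => ?_⟩
  have hx2 : 0 < x ^ 2 := by positivity
  have hx4 : 0 < x ^ 4 := by positivity
  have hG0 : 0 < N * x ^ 4 := mul_pos hN hx4
  have hTp : 0 < T := hx2.trans_le hT0
  have hr0 : 0 < T / x ^ 2 := div_pos hTp hx2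
  -- the exponent
  obtain ⟨σ, hσ⟩ : ∃ σ, σ = (T / x ^ 2) ^ (1 / 2000 : ℝ) := ⟨_, rfl⟩
  have hσ0 : 0 < σ := by rw [hσ]; exact Real.rpow_pos_of_pos hr0 _
  have hσ2 : σ ^ 2000 = T / x ^ 2 := by
    rw [hσ]
    exact rpow_2000 hr0.le
  have hTσ : T = x ^ 2 * σ ^ 2000 := by
    rw [hσ2]
    exact (mul_div_cancel₀ T hx2.ne').symm
  have hpow : (T / x ^ 2) ^ (-(1 / 1000) : ℝ) = 1 / σ ^ 2 := by
    rw [hσ]
    generalize T / x ^ 2 = r at hr0 ⊢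
    rw [← Real.rpow_natCast, ← Real.rpow_mul hr0.le, Real.rpow_neg hr0.le, one_div]
    norm_num
  rw [hpow]
  have hσs2 : 0 < σ ^ 2 := pow_pos hσ0 _
  rcases le_total s σ with hle | hge
  · have h1 := lsideb (x := x) (G := N * x ^ 4) (M := M) (σ := σ) (T := T) (b := b)
      ⟨hG0, hx, by linarith, hM, hs4.trans hle, hsM.trans hle, hTσ, hT1⟩ hN rfl hNx h hc hU hCL
      hL (hsΛ.trans hle) (hsC.trans hle) hb hb2
    refine h1.trans ?_
    rw [mul_one_div]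
    refine div_le_div_of_nonneg_right ?_ hσs2.le
    generalize N * x ^ 4 = G at hG0 ⊢
    generalize s ^ 20 = u at hs20 ⊢
    generalize s ^ 2 = v at hs2 ⊢
    have : 0 ≤ 4 ^ 6 * M * u * v * G := by positivity
    linarith
  · have hσ1 : 1 ≤ σ := by
      rw [hσ]
      exact Real.one_le_rpow ((one_le_div hx2).2 hT0) (by norm_num)
    have hTs : T ≤ x ^ 2 * s ^ 2000 := by
      rw [hTσ]
      exact mul_le_mul_of_nonneg_left (pow_le_pow_left₀ hσ0.le hge _) hx2.le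
    have h1 := g_crude (G := N * x ^ 4) (σ := s) h hc hG0 hx hM.le hU (by linarith) hb hb2 hT0
      hT1 hTs
    refine h1.trans ?_
    have h2 : σ ^ 2 ≤ s ^ 2 := pow_le_pow_left₀ hσ0.le hge 2
    rw [mul_one_div, le_div_iff₀ hσs2]
    clear h1 hTs hTσ hσ2
    generalize N * x ^ 4 = G at hG0 ⊢
    generalize s ^ 20 = u at hs20 ⊢
    generalize s ^ 2 = v at hs2 h2 ⊢
    have h3 : 4 ^ 6 * M * u * G * σ ^ 2 ≤ 4 ^ 6 * M * u * G * v :=
      mul_le_mul_of_nonneg_left h2 (by positivity)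
    linarith

/-- one doubling of the window -/
lemma t_step {C : ℝ} (h : C11 F D B L) (hc : Cv F) (hG : 0 < G) (hC : 0 < C) (hx : 0 < x)
    (hb : x ≤ b) (hb2 : b ≤ 2 * x) {T' : ℝ} (hT0 : x ^ 2 ≤ T) (hTT : T ≤ T') (hT2 : T' ≤ 2 * T)
    (hT1 : T' ≤ 1 / 2)
    (ht : ∀ t : ℝ, x ^ 2 ≤ t → t ≤ 1 / 2 →
      t * ST x b t F D ≤ C * G * (t / x ^ 2) ^ (-(1 / 1000) : ℝ)) :
    PT x b T' F - PT x b T F ≤ C / 2 * (G * x) * (T / x ^ 2) ^ (-(1 / 1000) : ℝ) := by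
  have hx2 : 0 < x ^ 2 := by positivity
  have hTp : 0 < T := hx2.trans_le hT0
  have hr0 : 0 < T / x ^ 2 := div_pos hTp hx2
  have hp : 0 < (T / x ^ 2) ^ (-(1 / 1000) : ℝ) := Real.rpow_pos_of_pos hr0 _
  have h2 := PT_drop (m := C * G * (T / x ^ 2) ^ (-(1 / 1000) : ℝ) / T) h hc hx hb hTp.le hTT
    (by linarith) (fun t h3 h4 => by
      rw [le_div_iff₀ hTp]
      have h5 := ht t (hT0.trans h3) (h4.trans hT1)
      have h6 : 0 ≤ ST x b t F D := Ps_nonneg h (hx.trans_le hb)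
      have h7 : (t / x ^ 2) ^ (-(1 / 1000) : ℝ) ≤ (T / x ^ 2) ^ (-(1 / 1000) : ℝ) :=
        Real.rpow_le_rpow_of_nonpos hr0 (div_le_div_of_nonneg_right h3 hx2.le) (by norm_num)
      calc ST x b t F D * T ≤ ST x b t F D * t := mul_le_mul_of_nonneg_left h3 h6
        _ = t * ST x b t F D := mul_comm _ _
        _ ≤ C * G * (t / x ^ 2) ^ (-(1 / 1000) : ℝ) := h5
        _ ≤ _ := mul_le_mul_of_nonneg_left h7 (by positivity))
  have h3 : (b - x) / 2 * (T' - T) * (C * G * (T / x ^ 2) ^ (-(1 / 1000) : ℝ) / T) ≤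
      x / 2 * T * (C * G * (T / x ^ 2) ^ (-(1 / 1000) : ℝ) / T) := by
    refine mul_le_mul_of_nonneg_right ?_ (by positivity)
    refine mul_le_mul (by linarith) (by linarith) (by linarith) (by linarith)
  have h4 : x / 2 * T * (C * G * (T / x ^ 2) ^ (-(1 / 1000) : ℝ) / T) =
      C / 2 * (G * x) * (T / x ^ 2) ^ (-(1 / 1000) : ℝ) := by
    field_simp
  linarith

/-- **The tail, integrated.** -/
theorem tail_int {C : ℝ} (h : C11 F D B L) (hc : Cv F) (hG : 0 < G) (hC : 0 < C) (hx : 0 < x)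
    (hb : x ≤ b) (hb2 : b ≤ 2 * x)
    (ht : ∀ t : ℝ, x ^ 2 ≤ t → t ≤ 1 / 2 →
      t * ST x b t F D ≤ C * G * (t / x ^ 2) ^ (-(1 / 1000) : ℝ)) (k : ℕ) :
    ∀ T : ℝ, x ^ 2 ≤ T → T ≤ 1 / 2 → 1 / 2 ≤ 2 ^ k * T →
    PT x b (1 / 2) F - PT x b T F ≤
      C / 2 / (1 - 2 ^ (-(1 / 1000) : ℝ)) * (G * x) * (T / x ^ 2) ^ (-(1 / 1000) : ℝ) := by
  have hx2 : 0 < x ^ 2 := by positivity
  have hq0 : (0 : ℝ) < 2 ^ (-(1 / 1000) : ℝ) := Real.rpow_pos_of_pos two_pos _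
  have hq : (2 : ℝ) ^ (-(1 / 1000) : ℝ) < 1 :=
    Real.rpow_lt_one_of_one_lt_of_neg one_lt_two (by norm_num)
  obtain ⟨q, hqd⟩ : ∃ q, q = (2 : ℝ) ^ (-(1 / 1000) : ℝ) := ⟨_, rfl⟩
  rw [← hqd] at hq0 hq ⊢
  have hK : C / 2 ≤ C / 2 / (1 - q) := by
    rw [le_div_iff₀ (by linarith)]
    nlinarith
  induction k with
  | zero =>
    intro T hT0 hT1 hk
    rw [pow_zero, one_mul] at hk
    have hTp : 0 < T := hx2.trans_le hT0
    have e : T = 1 / 2 := le_antisymm hT1 hk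
    rw [e, sub_self]
    have : 0 < C / 2 / (1 - q) := div_pos (by linarith) (by linarith)
    positivity
  | succ k ih =>
    intro T hT0 hT1 hk
    have hTp : 0 < T := hx2.trans_le hT0
    have hr0 : 0 < T / x ^ 2 := div_pos hTp hx2
    have hp : 0 < (T / x ^ 2) ^ (-(1 / 1000) : ℝ) := Real.rpow_pos_of_pos hr0 _
    rcases le_total (1 / 4) T with h4 | h4
    · have h1 := t_step h hc hG hC hx hb hb2 (T' := 1 / 2) hT0 hT1 (by linarith) le_rfl ht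
      refine h1.trans ?_
      have hGx : 0 < G * x := mul_pos hG hx
      gcongr
    · have h1 := t_step h hc hG hC hx hb hb2 (T' := 2 * T) hT0 (by linarith) le_rfl
        (by linarith) ht
      have h2 := ih (2 * T) (by linarith) (by linarith) (by
        rw [pow_succ] at hk
        linarith)
      have e : (2 * T / x ^ 2) ^ (-(1 / 1000) : ℝ) = q * (T / x ^ 2) ^ (-(1 / 1000) : ℝ) := by
        rw [mul_div_assoc, Real.mul_rpow two_pos.le hr0.le, hqd]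
      rw [e] at h2
      have h1q : (1 - q) ≠ 0 := by linarith
      have e3 : C / 2 / (1 - q) * (G * x) * (T / x ^ 2) ^ (-(1 / 1000) : ℝ) =
          C / 2 / (1 - q) * (G * x) * (q * (T / x ^ 2) ^ (-(1 / 1000) : ℝ)) +
          C / 2 * (G * x) * (T / x ^ 2) ^ (-(1 / 1000) : ℝ) := by
        field_simp
        ring
      linarith

end gen

section sk

variable {n : ℕ} {β x b : ℝ}

/-- `x` is small -/
lemma f_half' (hn : 2 ^ 11 ≤ n) (hx' : x ≤ (n : ℝ) ^ (-(1 / 10) : ℝ)) : 2 * x < 1 := by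
  have hnR : (2 : ℝ) ^ 11 ≤ n := by exact_mod_cast hn
  have h1 : (n : ℝ) ^ (-(1 / 10) : ℝ) ≤ ((2 : ℝ) ^ 11) ^ (-(1 / 10) : ℝ) :=
    Real.rpow_le_rpow_of_nonpos (by norm_num) hnR (by norm_num)
  have h3 : ((2 : ℝ) ^ 11) ^ (-(1 / 10) : ℝ) < 1 / 2 := by
    have e : (1 / 2 : ℝ) = (2 : ℝ) ^ (-1 : ℝ) := by
      rw [Real.rpow_neg_one]
      norm_num
    rw [e, ← Real.rpow_natCast, ← Real.rpow_mul (by norm_num)]
    exact Real.rpow_lt_rpow_of_exponent_lt (by norm_num) (by norm_num)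
  linarith

lemma f_half (hn : 2 ^ 11 ≤ n) (hx' : x ≤ (n : ℝ) ^ (-(1 / 10) : ℝ)) : x ≤ 1 / 2 := by
  have := f_half' hn hx'
  linarith

/-- the gradient of the free energy of the SK model -/
noncomputable def Dsk (n : ℕ) (β : ℝ) : Pair n → (Pair n → ℝ) → ℝ :=
  fun e u => β / √n * H325.av (β / √n) SkS (SkS e) u

lemma c11_Dsk (n : ℕ) (β : ℝ) : C11 (Fsk n β) (Dsk n β) (Kb (β / √n) (SkS (n := n)))
    (3 * Kb (β / √n) (SkS (n := n)) ^ 2) := c11_lz _ _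

/-- **The tail for the SK model, pointwise in the length of the window** (`b = x` is the pure
law). -/
theorem tail (h2 : Ex2Out β) (hL : LStar β) : ∃ C : ℝ, ∃ n0 : ℕ, 0 < C ∧
    ∀ n : ℕ, n0 ≤ n → ∀ x b T : ℝ, (n : ℝ) ^ (-(1 / 6) : ℝ) ≤ x → x ≤ (n : ℝ) ^ (-(1 / 10) : ℝ) →
    x ≤ b → b ≤ 2 * x → x ^ 2 ≤ T → T ≤ 1 / 2 →
    T * Ps x b (√(1 - T)) (√T) (Fsk n β) (Dsk n β) ≤
      C * (n * x ^ 4) * (T / x ^ 2) ^ (-(1 / 1000) : ℝ) := by
  obtain ⟨C2, n2, hC2, hU⟩ := h2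
  obtain ⟨CL, M, nL, hCL, hHL⟩ := hl_of hL
  obtain ⟨C, hC, hEX⟩ := tail_gen (M := C2) (Λ1 := M) (CL := CL) hC2 hCL
  refine ⟨C, max (max n2 nL) (2 ^ 11), hC, fun n hn x b T hx hx' hb hb2 hT0 hT1 => ?_⟩
  have hn2 : n2 ≤ n := (le_max_left _ _).trans ((le_max_left _ _).trans hn)
  have hnL : nL ≤ n := (le_max_right _ _).trans ((le_max_left _ _).trans hn)
  have hn11 : 2 ^ 11 ≤ n := (le_max_right _ _).trans hn
  have hn1 : 1 ≤ n := by omega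
  have hnR : (2 : ℝ) ^ 11 ≤ n := by exact_mod_cast hn11
  have hn0 : (0 : ℝ) < n := by linarith [show (0 : ℝ) < 2 ^ 11 by norm_num]
  obtain ⟨hx0, hx6⟩ := f_x6 hn1 hx
  have hup : UP ((n : ℝ) * x ^ 4) x C2 (Fsk n β) := by
    intro b T hb hT0 hT1
    have h1 := hU n hn2 x b T hx hx' hb hT0 hT1
    have hT : 0 ≤ T := le_trans (by positivity) hT0
    rw [AP.P2_self hx0 hT (by linarith)] at h1
    exact h1
  have hx12 : x ≤ 1 / 2 := f_half hn11 hx'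
  exact hEX (Pair n) (Fsk n β) (Dsk n β) _ _ n x (c11_Dsk n β) (AP.cv_Fsk n β) hn0 hx0
    hx12 hx6 hup (hHL n hnL x hx hx') b T hb hb2 hT0 hT1

/-- **The tail for the SK model, integrated**: raising the exponent from `x` to `b` on the outer
part `[0, 1 - T]` costs little. -/
theorem tail_P2 (hβ : 0 ≤ β) (h2 : Ex2Out β) (hL : LStar β) : ∃ C : ℝ, ∃ n0 : ℕ, 0 < C ∧
    ∀ n : ℕ, n0 ≤ n → ∀ x b T : ℝ, (n : ℝ) ^ (-(1 / 6) : ℝ) ≤ x → x ≤ (n : ℝ) ^ (-(1 / 10) : ℝ) →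
    x ≤ b → b ≤ 2 * x → x ^ 2 ≤ T → T ≤ 1 / 2 →
    P2 n β x 1 b - P2 n β x T b ≤ C * (n * x ^ 5) * (T / x ^ 2) ^ (-(1 / 1000) : ℝ) := by
  obtain ⟨C, n0, hC, h⟩ := tail h2 hL
  obtain ⟨K, hK⟩ : ∃ K, K = C / 2 / (1 - 2 ^ (-(1 / 1000) : ℝ)) := ⟨_, rfl⟩
  have hq : (2 : ℝ) ^ (-(1 / 1000) : ℝ) < 1 :=
    Real.rpow_lt_one_of_one_lt_of_neg one_lt_two (by norm_num)
  have hK0 : 0 < K := by
    rw [hK]
    exact div_pos (by linarith) (by linarith)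
  refine ⟨5 * K, max n0 (2 ^ 11), by positivity, fun n hn x b T hx hx' hb hb2 hT0 hT1 => ?_⟩
  have hn11 : 2 ^ 11 ≤ n := (le_max_right _ _).trans hn
  have hn1 : 1 ≤ n := by omega
  have hnR : (2 : ℝ) ^ 11 ≤ n := by exact_mod_cast hn11
  have hn0 : (0 : ℝ) < n := by linarith [show (0 : ℝ) < 2 ^ 11 by norm_num]
  obtain ⟨hx0, hx6⟩ := f_x6 hn1 hx
  have hx2 : 0 < x ^ 2 := by positivity
  have hx4 : 0 < (n : ℝ) * x ^ 4 := by positivity
  have hTp : 0 < T := hx2.trans_le hT0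
  have hr0 : 0 < T / x ^ 2 := div_pos hTp hx2
  have ht : ∀ t : ℝ, x ^ 2 ≤ t → t ≤ 1 / 2 → t * ST x b t (Fsk n β) (Dsk n β) ≤
      C * (n * x ^ 4) * (t / x ^ 2) ^ (-(1 / 1000) : ℝ) := fun t h3 h4 =>
    h n ((le_max_left _ _).trans hn) x b t hx hx' hb hb2 h3 h4
  have key : ∀ T : ℝ, x ^ 2 ≤ T → T ≤ 1 / 2 → PT x b (1 / 2) (Fsk n β) - PT x b T (Fsk n β) ≤
      K * (n * x ^ 5) * (T / x ^ 2) ^ (-(1 / 1000) : ℝ) := by
    intro T hT0 hT1
    obtain ⟨k, hk⟩ := pow_unbounded_of_one_lt (1 / (2 * x ^ 2)) (show (1 : ℝ) < 2 by norm_num)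
    have hk2 : 1 / 2 ≤ 2 ^ k * T := by
      have h3 : 1 / (2 * x ^ 2) * x ^ 2 ≤ 2 ^ k * T :=
        mul_le_mul hk.le hT0 hx2.le (by positivity)
      refine le_trans (le_of_eq ?_) h3
      field_simp
    have h1 := tail_int (c11_Dsk n β) (AP.cv_Fsk n β) hx4 hC hx0 hb hb2 ht k T hT0 hT1 hk2
    rw [← hK] at h1
    have e : (n : ℝ) * x ^ 4 * x = n * x ^ 5 := by ring
    rw [e] at h1
    exact h1
  have h1 := key T hT0 hT1
  -- the last window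
  have h4 : PT x b 1 (Fsk n β) - PT x b (1 / 2) (Fsk n β) ≤
      4 * K * (n * x ^ 5) * (T / x ^ 2) ^ (-(1 / 1000) : ℝ) := by
    rcases eq_or_lt_of_le hb with rfl | hlt
    · have e1 := PT_self (T := 1) (AP.c11_Fsk n β) hx0 zero_le_one le_rfl
      have e2 := PT_self (T := 1 / 2) (AP.c11_Fsk n β) hx0 (by norm_num) (by norm_num)
      rw [e1, e2, sub_self]
      positivity
    · have hx4' : x ^ 2 ≤ 1 / 4 := by
        have := f_half hn11 hx'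
        nlinarith
      have hb1 : b < 1 := by
        have := f_half' hn11 hx'
        linarith
      have hcn := H676.PT_conc (k := β / √n) (S := SkS (n := n)) (x0 := 1) (H676.gg_SkS n)
        (by positivity) hx0 hlt hb1
      -- concavity between `1/4`, `1/2`, `1`
      have h5 := hcn.2 (show (1 / 4 : ℝ) ∈ Set.Icc (0 : ℝ) 1 by constructor <;> norm_num)
        (show (1 : ℝ) ∈ Set.Icc (0 : ℝ) 1 by simp)
        (show (0 : ℝ) ≤ 2 / 3 by norm_num) (show (0 : ℝ) ≤ 1 / 3 by norm_num) (by norm_num)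
      have e0 : (2 / 3 : ℝ) • (1 / 4 : ℝ) + (1 / 3 : ℝ) • (1 : ℝ) = 1 / 2 := by
        simp only [smul_eq_mul]
        norm_num
      rw [e0] at h5
      simp only [smul_eq_mul] at h5
      have h6 : PT x b 1 (Fsk n β) - PT x b (1 / 2) (Fsk n β) ≤
          2 * (PT x b (1 / 2) (Fsk n β) - PT x b (1 / 4) (Fsk n β)) := by
        unfold PT
        unfold Fsk
        linarith
      have h7 := key (1 / 4) hx4' (by norm_num)
      have h8 : (1 / 4 / x ^ 2) ^ (-(1 / 1000) : ℝ) ≤ 2 * (T / x ^ 2) ^ (-(1 / 1000) : ℝ) := by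
        have h9 : (2 : ℝ) * (T / x ^ 2) ^ (-(1 / 1000) : ℝ) ≥
            2 ^ (1 / 1000 : ℝ) * (T / x ^ 2) ^ (-(1 / 1000) : ℝ) := by
          refine mul_le_mul_of_nonneg_right ?_ (Real.rpow_nonneg hr0.le _)
          calc (2 : ℝ) ^ (1 / 1000 : ℝ) ≤ 2 ^ (1 : ℝ) :=
                Real.rpow_le_rpow_of_exponent_le (by norm_num) (by norm_num)
            _ = 2 := Real.rpow_one 2
        refine le_trans ?_ h9
        have e5 : (2 : ℝ) ^ (1 / 1000 : ℝ) * (T / x ^ 2) ^ (-(1 / 1000) : ℝ) =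
            (T / x ^ 2 / 2) ^ (-(1 / 1000) : ℝ) := by
          rw [Real.div_rpow hr0.le two_pos.le, Real.rpow_neg two_pos.le, div_inv_eq_mul, mul_comm]
        rw [e5]
        refine Real.rpow_le_rpow_of_nonpos (by positivity) ?_ (by norm_num)
        rw [div_div, div_le_div_iff₀ (by positivity) hx2]
        nlinarith
      have h10 : K * (n * x ^ 5) * (1 / 4 / x ^ 2) ^ (-(1 / 1000) : ℝ) ≤
          K * (n * x ^ 5) * (2 * (T / x ^ 2) ^ (-(1 / 1000) : ℝ)) :=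
        mul_le_mul_of_nonneg_left h8 (by positivity)
      linarith
  have e : P2 n β x 1 b - P2 n β x T b = (PT x b 1 (Fsk n β) - PT x b (1 / 2) (Fsk n β)) +
      (PT x b (1 / 2) (Fsk n β) - PT x b T (Fsk n β)) := by
    rw [← PT_Fsk, ← PT_Fsk]
    ring
  rw [e]
  linarith

end sk

end Vale.Agent.P146.U
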