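import Vale.Agent.P146.U.Spec

/-!
# P146, upper half: the output of the K-side (EX2), input of the L-side (EX3)
-/

namespace Vale.Agent.P146.U

/-- **Output of the K-side.** The cost of the exponent `b ≥ x` on a last window of length
`T ∈ [x², 1/2]` is at most `C n x^5 (b/x)^6 (T/x²)^(1/100)`. -/
def Ex2Out (β : ℝ) : Prop :=
  ∃ C : ℝ, ∃ n0 : ℕ, 0 < C ∧ ∀ n : ℕ, n0 ≤ n → ∀ x b T : ℝ,
    (n : ℝ) ^ (-(1 / 6) : ℝ) ≤ x → x ≤ (n : ℝ) ^ (-(1 / 10) : ℝ) → x ≤ b → x ^ 2 ≤ T → T ≤ 1 / 2 →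
    P2 n β x T b - P2 n β x T x ≤
      C * (n * x ^ 4 * b * (b / x) ^ 5 * (T / x ^ 2) ^ (1 / 100 : ℝ))

end Vale.Agent.P146.U
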