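import Vale.Agent.P146.U.Ex3e
import Vale.Agent.P146.U.Ex2S
import Vale.Agent.P146.U.AP
import Vale.Agent.P146.H676.Lb

/-!
# P146, upper half: EX3 for the SK model

From the output of the K-side (`Ex2Out`) and the inequality (L) in the form `LStar`:
`Wn n β x ≤ C n x^4` for `n^(-1/6) ≤ x ≤ n^(-1/10)`, and `Var F_n ≤ C n^(1/3)`.
-/

open MeasureTheory ProbabilityTheory

namespace Vale.Agent.P146.U

open Vale.Agent.P157.Lv Vale.Agent.P146 Vale.Agent.P146.H425 Vale.Agent.P146.R1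
  Vale.Agent.P146.H332 Vale.Agent.P146.H325

set_option linter.unusedSectionVars false

variable {n : ℕ} {β x : ℝ}

/-- the three-level functional in the letters of `Spec` -/
lemma Q3_Fsk (n : ℕ) (β x a y τ T : ℝ) : Q3 x a y τ T (Fsk n β) = P3 n β y τ x T a := rfl

lemma PT_Fsk (n : ℕ) (β x b T : ℝ) : PT x b T (Fsk n β) = P2 n β x T b := rfl

/-- `x ≥ n^(-1/6)`: the sizes -/
lemma f_x6 (hn : 1 ≤ n) (hx : (n : ℝ) ^ (-(1 / 6) : ℝ) ≤ x) : 0 < x ∧ 1 ≤ (n : ℝ) * x ^ 6 := by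
  have hn0 : (0 : ℝ) < n := by exact_mod_cast hn
  have h0 : 0 < (n : ℝ) ^ (-(1 / 6) : ℝ) := Real.rpow_pos_of_pos hn0 _
  refine ⟨h0.trans_le hx, ?_⟩
  have h1 : ((n : ℝ) ^ (-(1 / 6) : ℝ)) ^ 6 ≤ x ^ 6 := pow_le_pow_left₀ h0.le hx 6
  have h2 : ((n : ℝ) ^ (-(1 / 6) : ℝ)) ^ 6 = (n : ℝ)⁻¹ := by
    rw [← Real.rpow_natCast, ← Real.rpow_mul hn0.le, ← Real.rpow_neg_one]
    norm_num
  rw [h2] at h1
  calc (1 : ℝ) = n * (n : ℝ)⁻¹ := (mul_inv_cancel₀ hn0.ne').symm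
    _ ≤ n * x ^ 6 := mul_le_mul_of_nonneg_left h1 hn0.le

/-- `LStar` gives the hypothesis of the general argument. -/
theorem hl_of (hL : LStar β) : ∃ C M : ℝ, ∃ n0 : ℕ, 0 < C ∧ ∀ n : ℕ, n0 ≤ n → ∀ x : ℝ,
    (n : ℝ) ^ (-(1 / 6) : ℝ) ≤ x → x ≤ (n : ℝ) ^ (-(1 / 10) : ℝ) →
    HL n x M C (Fsk n β) := by
  obtain ⟨C, M, n0, hC, hM, h⟩ := hL (4 ^ 8) lG (by norm_num) lG_one
  refine ⟨C, M, max n0 1, hC, fun n hn x hx hx' a y τ T Δ hxy hya ha2 hτ0 hτ hT0 hT1 hΔ h4 hh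
    hA hB => ?_⟩
  have hn1 : 1 ≤ n := (le_max_right _ _).trans hn
  have hnR : (1 : ℝ) ≤ n := by exact_mod_cast hn1
  have hn0 : (0 : ℝ) < n := by linarith
  obtain ⟨hx0, -⟩ := f_x6 hn1 hx
  have ha0 : 0 ≤ a := by linarith
  refine h n ((le_max_left _ _).trans hn) x a y τ T Δ ?_ (hxy.trans hya) (hx0.trans_le hxy) hya ?_
    hτ0.le hτ ?_ hT1 hΔ h4 hh hA hB
  · exact (Real.rpow_le_rpow_of_exponent_le hnR (by norm_num)).trans hx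
  · have h1 : a ^ 2 ≤ ((n : ℝ) ^ (-(1 / 20) : ℝ)) ^ 2 := by
      refine (ha2.trans hx').trans (le_of_eq ?_)
      rw [← Real.rpow_natCast, ← Real.rpow_mul hn0.le]
      norm_num
    exact (pow_le_pow_iff_left₀ ha0 (by positivity) (by norm_num)).1 h1
  · refine le_trans ?_ hT0
    have h1 : ((n : ℝ) ^ (-(1 / 6) : ℝ)) ^ 2 ≤ x ^ 2 := pow_le_pow_left₀ (by positivity) hx 2
    refine le_trans ?_ h1
    rw [← Real.rpow_natCast, ← Real.rpow_mul hn0.le]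
    exact Real.rpow_le_rpow_of_exponent_le hnR (by norm_num)

/-- The window of length `1`. -/
theorem conc_one (hβ : 0 ≤ β) (hx : 0 < x) (hx2 : 2 * x < 1) :
    PT x (2 * x) 1 (Fsk n β) - W x 1 (Fsk n β) 0 ≤
      2 * (PT x (2 * x) (1 / 2) (Fsk n β) - W x 1 (Fsk n β) 0) := by
  have h := H676.PT_conc (k := β / √n) (S := SkS (n := n)) (x0 := 1) (H676.gg_SkS n)
    (by positivity) hx (show x < 2 * x by linarith) hx2
  have h1 := h.2 (show (0 : ℝ) ∈ Set.Icc (0 : ℝ) 1 by simp) (show (1 : ℝ) ∈ Set.Icc (0 : ℝ) 1 by simp)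
    (show (0 : ℝ) ≤ 1 / 2 by norm_num) (show (0 : ℝ) ≤ 1 / 2 by norm_num) (by norm_num)
  simp only [smul_eq_mul, mul_zero, mul_one, zero_add] at h1
  have h0 := PT_zero (x := x) (b := 2 * x) (F := Fsk n β) (by linarith)
  unfold PT at h0 ⊢
  unfold Fsk at h0 ⊢
  rw [h0] at h1
  linarith

/-- **EX3.** -/
theorem ex3 (hβ : 0 ≤ β) (h2 : Ex2Out β) (hL : LStar β) : ∃ C : ℝ, ∃ n0 : ℕ, 0 < C ∧
    ∀ n : ℕ, n0 ≤ n → ∀ x : ℝ, (n : ℝ) ^ (-(1 / 6) : ℝ) ≤ x → x ≤ (n : ℝ) ^ (-(1 / 10) : ℝ) →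
    P2 n β x 1 (2 * x) - P2 n β x 1 x ≤ C * (n * x ^ 5) := by
  obtain ⟨C2, n2, hC2, hU⟩ := h2
  obtain ⟨CL, M, nL, hCL, hHL⟩ := hl_of hL
  obtain ⟨C, hC, hEX⟩ := EX (M := C2) (Λ1 := M) (CL := CL) hC2 hCL
  refine ⟨C, max (max n2 nL) (2 ^ 11), hC, fun n hn x hx hx' => ?_⟩
  have hn2 : n2 ≤ n := (le_max_left _ _).trans ((le_max_left _ _).trans hn)
  have hnL : nL ≤ n := (le_max_right _ _).trans ((le_max_left _ _).trans hn)
  have hn11 : 2 ^ 11 ≤ n := (le_max_right _ _).trans hn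
  have hn1 : 1 ≤ n := by omega
  have hnR : (2 : ℝ) ^ 11 ≤ n := by exact_mod_cast hn11
  have hn0 : (0 : ℝ) < n := by linarith [show (0 : ℝ) < 2 ^ 11 by norm_num]
  obtain ⟨hx0, hx6⟩ := f_x6 hn1 hx
  have hx12 : 2 * x < 1 := by
    have h1 : (n : ℝ) ^ (-(1 / 10) : ℝ) ≤ ((2 : ℝ) ^ 11) ^ (-(1 / 10) : ℝ) :=
      Real.rpow_le_rpow_of_nonpos (by norm_num) hnR (by norm_num)
    have h3 : ((2 : ℝ) ^ 11) ^ (-(1 / 10) : ℝ) < 1 / 2 := by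
      have e : (1 / 2 : ℝ) = (2 : ℝ) ^ (-1 : ℝ) := by
        rw [Real.rpow_neg_one]
        norm_num
      rw [e, ← Real.rpow_natCast, ← Real.rpow_mul (by norm_num)]
      exact Real.rpow_lt_rpow_of_exponent_lt (by norm_num) (by norm_num)
    linarith
  have hup : UP ((n : ℝ) * x ^ 4) x C2 (Fsk n β) := by
    intro b T hb hT0 hT1
    have h1 := hU n hn2 x b T hx hx' hb hT0 hT1
    have hT : 0 ≤ T := le_trans (by positivity) hT0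
    rw [AP.P2_self hx0 hT (by linarith)] at h1
    exact h1
  have h1 := hEX (Pair n) (Fsk n β) _ _ _ n x (AP.c11_Fsk n β) (AP.cv_Fsk n β) hn0 hx0
    (by linarith) hx6 hup (hHL n hnL x hx hx') (conc_one hβ hx0 hx12)
  rw [AP.P2_one hx0, AP.P2_one hx0]
  exact h1

/-- **The share of the pure law and the variance.** -/
theorem ex3_Wn (hβ : 0 ≤ β) (h2 : Ex2Out β) (hL : LStar β) : ∃ C : ℝ, ∃ n0 : ℕ, 0 < C ∧
    ∀ n : ℕ, n0 ≤ n → ∀ x : ℝ, (n : ℝ) ^ (-(1 / 6) : ℝ) ≤ x → x ≤ (n : ℝ) ^ (-(1 / 10) : ℝ) →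
    AP.Wn n β x ≤ C * (n * x ^ 4) ∧ Var[freeEnergy n β; disorder n] ≤ C * (n * x ^ 4) := by
  obtain ⟨C, n0, hC, h⟩ := ex3 hβ h2 hL
  refine ⟨2 * C, max n0 1, by positivity, fun n hn x hx hx' => ?_⟩
  obtain ⟨hx0, -⟩ := f_x6 ((le_max_right _ _).trans hn) hx
  have h1 := h n ((le_max_left _ _).trans hn) x hx hx'
  have h3 := AP.Wn_le (n := n) (β := β) (b := 2 * x) hx0 (by linarith)
  rw [show 2 * x - x = x by ring] at h3
  have h4 : AP.Wn n β x ≤ 2 * C * (n * x ^ 4) := by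
    refine h3.trans ((mul_le_mul_of_nonneg_left h1 (by positivity)).trans (le_of_eq ?_))
    field_simp
  exact ⟨h4, (AP.var_le_Wn hx0).trans h4⟩

/-- **The upper half.** `Var F_n ≤ C n^(1/3)`, from the outputs of the K- and L-sides. -/
theorem ex3_var (hβ : 0 ≤ β) (h2 : Ex2Out β) (hL : LStar β) : ∃ C : ℝ, ∃ n0 : ℕ, 0 < C ∧
    ∀ n : ℕ, n0 ≤ n → Var[freeEnergy n β; disorder n] ≤ C * (n : ℝ) ^ (1 / 3 : ℝ) := by
  obtain ⟨C, n0, hC, h⟩ := ex3_Wn hβ h2 hL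
  refine ⟨C, max n0 1, hC, fun n hn => ?_⟩
  have hn1 : 1 ≤ n := (le_max_right _ _).trans hn
  have hnR : (1 : ℝ) ≤ n := by exact_mod_cast hn1
  have hn0 : (0 : ℝ) < n := by linarith
  obtain ⟨-, h1⟩ := h n ((le_max_left _ _).trans hn) ((n : ℝ) ^ (-(1 / 6) : ℝ)) le_rfl
    (Real.rpow_le_rpow_of_exponent_le hnR (by norm_num))
  refine h1.trans (le_of_eq ?_)
  congr 1
  rw [← Real.rpow_natCast, ← Real.rpow_mul hn0.le]
  nth_rewrite 1 [← Real.rpow_one (n : ℝ)]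
  rw [← Real.rpow_add hn0]
  norm_num

end Vale.Agent.P146.U
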