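/-!
Namespaces of the copy `U` of the plan R1 (outer exponent, constants).
-/

namespace Vale.Agent.P146.U.Cum
end Vale.Agent.P146.U.Cum

namespace Vale.Agent.P146.U.H191
end Vale.Agent.P146.U.H191

namespace Vale.Agent.P146.U.H260
end Vale.Agent.P146.U.H260

namespace Vale.Agent.P146.U.H326
end Vale.Agent.P146.U.H326

namespace Vale.Agent.P146.U.H327
end Vale.Agent.P146.U.H327

namespace Vale.Agent.P146.U.H329
end Vale.Agent.P146.U.H329

namespace Vale.Agent.P146.U.H401
end Vale.Agent.P146.U.H401

namespace Vale.Agent.P146.U.H522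
end Vale.Agent.P146.U.H522

namespace Vale.Agent.P146.U.H546
end Vale.Agent.P146.U.H546

namespace Vale.Agent.P146.U.H632
end Vale.Agent.P146.U.H632

namespace Vale.Agent.P146.U.H633
end Vale.Agent.P146.U.H633

namespace Vale.Agent.P146.U.H712
end Vale.Agent.P146.U.H712

namespace Vale.Agent.P146.U.H722
end Vale.Agent.P146.U.H722

namespace Vale.Agent.P146.U.H784
end Vale.Agent.P146.U.H784

namespace Vale.Agent.P146.U.H785
end Vale.Agent.P146.U.H785

namespace Vale.Agent.P146.U.H816
end Vale.Agent.P146.U.H816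

namespace Vale.Agent.P146.U.H941
end Vale.Agent.P146.U.H941

namespace Vale.Agent.P146.U.H946
end Vale.Agent.P146.U.H946

namespace Vale.Agent.P146.U.H95
end Vale.Agent.P146.U.H95

namespace Vale.Agent.P146.U.R1
end Vale.Agent.P146.U.R1

namespace Vale.Agent.P146.U.R1C
end Vale.Agent.P146.U.R1C

namespace Vale.Agent.P146.U.R1S
end Vale.Agent.P146.U.R1S

namespace Vale.Agent.P146.U.H260.V13
end Vale.Agent.P146.U.H260.V13

namespace Vale.Agent.P146.U.H260.V14
end Vale.Agent.P146.U.H260.V14

namespace Vale.Agent.P146.U.H425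
end Vale.Agent.P146.U.H425

namespace Vale.Agent.P146.U.H332
end Vale.Agent.P146.U.H332

namespace Vale.Agent.P146.U.H325
end Vale.Agent.P146.U.H325

namespace Vale.Agent.P146.U.H604
end Vale.Agent.P146.U.H604

namespace Vale.Agent.P146.U.H640
end Vale.Agent.P146.U.H640

namespace Vale.Agent.P146.U.H706
end Vale.Agent.P146.U.H706

namespace Vale.Agent.P146.U.H504
end Vale.Agent.P146.U.H504

namespace Vale.Agent.P146.U.H89
end Vale.Agent.P146.U.H89
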