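import Vale.Agent.P146.H425.R1Def
import Vale.Agent.P146.U.NS

/-!
Plan R1 with an outer exponent. The law `P_{θ,η}` has the density
`exp (x F + θ x (u_{t1} - u_{t0}) - η x u_{t0}) / norm`, seen at the times `t0 ≤ t1 ≤ s`: the exponent
is `x` on `[t0, 1]` and `(1 - η) x` on `[0, t0]`. `η = 0` is `H425/R1Def`. The objects which do not
see the law (`uu`, `dd`, `sq`, `xi`, `E3`, ...) are those of `H425/R1Def`.
-/

open MeasureTheory ProbabilityTheory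

namespace Vale.Agent.P146.U.R1

open Vale.Agent.P157.Lv Vale.Agent.P146.H425 Vale.Agent.P146.R1

set_option linter.unusedSectionVars false

variable {κ : Type} [Fintype κ] {F : (κ → ℝ) → ℝ} {D : κ → (κ → ℝ) → ℝ} {B L x θ η t0 t1 s t : ℝ}

/-- The density of `P_{θ,η}` with respect to the Wiener law, not normalized. -/
noncomputable def dn (x θ η t0 t1 s : ℝ) (F : (κ → ℝ) → ℝ) (z0 z1 z2 : κ → ℝ) : ℝ :=
  Real.exp (x * uu x s F z2 + θ * xi x t0 t1 F z0 z1 - η * (x * uu x t0 F z0))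

/-- The mean of `Ψ (z_{t0}, z_{t1}, z_s)`, not normalized. -/
noncomputable def Eu (x θ η t0 t1 s : ℝ) (F : (κ → ℝ) → ℝ)
    (Ψ : (κ → ℝ) → (κ → ℝ) → (κ → ℝ) → ℝ) : ℝ :=
  ∫ w : K3 κ → ℝ, dn x θ η t0 t1 s F (q0 t0 w) (q1 t0 t1 w) (q2 t0 t1 s w) *
    Ψ (q0 t0 w) (q1 t0 t1 w) (q2 t0 t1 s w) ∂(gI (K3 κ))

/-- The mean under `P_θ`. -/
noncomputable def Et (x θ η t0 t1 s : ℝ) (F : (κ → ℝ) → ℝ)
    (Ψ : (κ → ℝ) → (κ → ℝ) → (κ → ℝ) → ℝ) : ℝ :=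
  Eu x θ η t0 t1 s F Ψ / Eu x θ η t0 t1 s F (fun _ _ _ => 1)

/-- The normalization of the outer law (`θ = 0`): `E exp ((1 - η) x u_{t0})`. -/
noncomputable def Zo (x η t0 : ℝ) (F : (κ → ℝ) → ℝ) : ℝ :=
  ∫ y, Real.exp ((1 - η) * (x * uu x t0 F (√t0 • y))) ∂(gI κ)

/-- `L(θ) = log E_{0,η} exp (θ x ξ)` -/
noncomputable def Lth (x θ η t0 t1 : ℝ) (F : (κ → ℝ) → ℝ) : ℝ :=
  Real.log (Eu x θ η t0 t1 t1 F (fun _ _ _ => 1)) - Real.log (Zo x η t0 F)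

/-- `Q_θ(s) = E_θ |D_s|²` -/
noncomputable def Qt (x θ η t0 t1 s : ℝ) (F : (κ → ℝ) → ℝ) (D : κ → (κ → ℝ) → ℝ) : ℝ :=
  Et x θ η t0 t1 s F (fun _ _ z2 => sq x s F D z2)

/-! ### linear changes of variables and Fubini -/

variable {Ψ Ψ' : (κ → ℝ) → (κ → ℝ) → (κ → ℝ) → ℝ}

/-! ### the density -/

lemma e3_dn (h : C11 F D B L) (hx : 0 < x) (θ η t0 t1 s : ℝ) : E3 (dn x θ η t0 t1 s F) := by
  have l : ∀ t, Lip (uu x t F) := fun t => (c11_uu h hx t).lip.lip h.B0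
  have l0 : Lip fun w : K3 κ → ℝ => uu x t0 F (b0 w) :=
    lip_b (l t0) zero_le_one fun w w' => by rw [one_mul]; exact norm_b0 (w - w')
  have l1 : Lip fun w : K3 κ → ℝ => uu x t1 F (b1 w) :=
    lip_b (l t1) zero_le_one fun w w' => by rw [one_mul]; exact norm_b1 (w - w')
  have l2 : Lip fun w : K3 κ → ℝ => uu x s F (b2 w) :=
    lip_b (l s) zero_le_one fun w w' => by rw [one_mul]; exact norm_b2 (w - w')
  have h1 := (((l2.const_mul x).add ((l1.add (l0.const_mul (-1))).const_mul (θ * x))).add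
    (l0.const_mul (-(η * x)))).exp_eg 1
  have e : (fun w : K3 κ → ℝ => dn x θ η t0 t1 s F (b0 w) (b1 w) (b2 w)) =
      fun w => Real.exp (1 * (x * uu x s F (b2 w) +
        θ * x * (uu x t1 F (b1 w) + -1 * uu x t0 F (b0 w)) + -(η * x) * uu x t0 F (b0 w))) := by
    funext w
    unfold dn xi
    congr 1
    ring
  unfold E3
  rw [e]
  exact h1

lemma dn_pos (z0 z1 z2 : κ → ℝ) : 0 < dn x θ η t0 t1 s F z0 z1 z2 := Real.exp_pos _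

lemma eg_Eu (h : C11 F D B L) (hx : 0 < x) (hΨ : E3 Ψ) (θ η t0 t1 s : ℝ) :
    EG fun w : K3 κ → ℝ => dn x θ η t0 t1 s F (q0 t0 w) (q1 t0 t1 w) (q2 t0 t1 s w) *
      Ψ (q0 t0 w) (q1 t0 t1 w) (q2 t0 t1 s w) := ((e3_dn h hx θ η t0 t1 s).mul hΨ).eg_q t0 t1 s

lemma Eu_add (h : C11 F D B L) (hx : 0 < x) (hΨ : E3 Ψ) (hΨ' : E3 Ψ') :
    Eu x θ η t0 t1 s F (fun z0 z1 z2 => Ψ z0 z1 z2 + Ψ' z0 z1 z2) =
      Eu x θ η t0 t1 s F Ψ + Eu x θ η t0 t1 s F Ψ' := by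
  unfold Eu
  rw [← integral_add (eg_Eu h hx hΨ θ η t0 t1 s).integrable
    (eg_Eu h hx hΨ' θ η t0 t1 s).integrable]
  refine integral_congr_ae (Filter.Eventually.of_forall fun w => ?_)
  simp only
  ring

lemma Eu_const_mul (c : ℝ) : Eu x θ η t0 t1 s F (fun z0 z1 z2 => c * Ψ z0 z1 z2) =
    c * Eu x θ η t0 t1 s F Ψ := by
  unfold Eu
  rw [← integral_const_mul]
  refine integral_congr_ae (Filter.Eventually.of_forall fun w => ?_)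
  simp only
  ring

lemma Eu_mono (h : C11 F D B L) (hx : 0 < x) (hΨ : E3 Ψ) (hΨ' : E3 Ψ')
    (hle : ∀ z0 z1 z2, Ψ z0 z1 z2 ≤ Ψ' z0 z1 z2) :
    Eu x θ η t0 t1 s F Ψ ≤ Eu x θ η t0 t1 s F Ψ' :=
  integral_mono (eg_Eu h hx hΨ θ η t0 t1 s).integrable (eg_Eu h hx hΨ' θ η t0 t1 s).integrable
    fun _ => mul_le_mul_of_nonneg_left (hle _ _ _) (dn_pos _ _ _).le

lemma Eu_nonneg (hle : ∀ z0 z1 z2, 0 ≤ Ψ z0 z1 z2) : 0 ≤ Eu x θ η t0 t1 s F Ψ :=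
  integral_nonneg fun _ => mul_nonneg (dn_pos _ _ _).le (hle _ _ _)

lemma Eu_one_pos (h : C11 F D B L) (hx : 0 < x) : 0 < Eu x θ η t0 t1 s F (fun _ _ _ => 1) := by
  unfold Eu
  simp only [mul_one]
  exact integral_exp_pos ((e3_dn h hx θ η t0 t1 s).eg_q t0 t1 s).integrable

lemma Et_add (h : C11 F D B L) (hx : 0 < x) (hΨ : E3 Ψ) (hΨ' : E3 Ψ') :
    Et x θ η t0 t1 s F (fun z0 z1 z2 => Ψ z0 z1 z2 + Ψ' z0 z1 z2) =
      Et x θ η t0 t1 s F Ψ + Et x θ η t0 t1 s F Ψ' := by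
  unfold Et
  rw [Eu_add h hx hΨ hΨ', add_div]

lemma Et_const_mul (c : ℝ) : Et x θ η t0 t1 s F (fun z0 z1 z2 => c * Ψ z0 z1 z2) =
    c * Et x θ η t0 t1 s F Ψ := by
  unfold Et
  rw [Eu_const_mul, mul_div_assoc]

lemma Et_sub (h : C11 F D B L) (hx : 0 < x) (hΨ : E3 Ψ) (hΨ' : E3 Ψ') :
    Et x θ η t0 t1 s F (fun z0 z1 z2 => Ψ z0 z1 z2 - Ψ' z0 z1 z2) =
      Et x θ η t0 t1 s F Ψ - Et x θ η t0 t1 s F Ψ' := by
  have h1 := Et_add (θ := θ) (η := η) (t0 := t0) (t1 := t1) (s := s) h hx hΨ (hΨ'.const_mul (-1))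
  rw [Et_const_mul] at h1
  have e : (fun z0 z1 z2 => Ψ z0 z1 z2 - Ψ' z0 z1 z2) =
      fun z0 z1 z2 => Ψ z0 z1 z2 + -1 * Ψ' z0 z1 z2 := by
    funext z0 z1 z2; ring
  rw [e, h1]
  ring

lemma Et_const (h : C11 F D B L) (hx : 0 < x) (c : ℝ) :
    Et x θ η t0 t1 s F (fun _ _ _ => c) = c := by
  have h1 : Et x θ η t0 t1 s F (fun _ _ _ => c) = c * Et x θ η t0 t1 s F (fun _ _ _ => 1) := by
    rw [← Et_const_mul]
    simp
  rw [h1]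
  unfold Et
  rw [div_self (Eu_one_pos h hx).ne', mul_one]

lemma Et_mono (h : C11 F D B L) (hx : 0 < x) (hΨ : E3 Ψ) (hΨ' : E3 Ψ')
    (hle : ∀ z0 z1 z2, Ψ z0 z1 z2 ≤ Ψ' z0 z1 z2) :
    Et x θ η t0 t1 s F Ψ ≤ Et x θ η t0 t1 s F Ψ' :=
  div_le_div_of_nonneg_right (Eu_mono h hx hΨ hΨ' hle) (Eu_one_pos h hx).le

lemma Et_nonneg (h : C11 F D B L) (hx : 0 < x) (hle : ∀ z0 z1 z2, 0 ≤ Ψ z0 z1 z2) :
    0 ≤ Et x θ η t0 t1 s F Ψ := div_nonneg (Eu_nonneg hle) (Eu_one_pos h hx).le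

/-- Cauchy–Schwarz -/
lemma Et_cs (h : C11 F D B L) (hx : 0 < x) (hΨ : E3 Ψ) (hΨ' : E3 Ψ') :
    Et x θ η t0 t1 s F (fun z0 z1 z2 => Ψ z0 z1 z2 * Ψ' z0 z1 z2) ^ 2 ≤
      Et x θ η t0 t1 s F (fun z0 z1 z2 => Ψ z0 z1 z2 ^ 2) *
        Et x θ η t0 t1 s F (fun z0 z1 z2 => Ψ' z0 z1 z2 ^ 2) := by
  have h0 : ∀ r : ℝ, 0 ≤ Et x θ η t0 t1 s F (fun z0 z1 z2 => Ψ' z0 z1 z2 ^ 2) * (r * r) +
      (-2 * Et x θ η t0 t1 s F (fun z0 z1 z2 => Ψ z0 z1 z2 * Ψ' z0 z1 z2)) * r +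
        Et x θ η t0 t1 s F (fun z0 z1 z2 => Ψ z0 z1 z2 ^ 2) := by
    intro r
    have h1 := Et_nonneg (Ψ := fun z0 z1 z2 => (Ψ z0 z1 z2 - r * Ψ' z0 z1 z2) ^ 2)
      (θ := θ) (η := η) (t0 := t0) (t1 := t1) (s := s) h hx (fun _ _ _ => sq_nonneg _)
    have e : (fun z0 z1 z2 => (Ψ z0 z1 z2 - r * Ψ' z0 z1 z2) ^ 2) =
        fun z0 z1 z2 => (Ψ z0 z1 z2 ^ 2 + (-2 * r) * (Ψ z0 z1 z2 * Ψ' z0 z1 z2)) +
          (r * r) * Ψ' z0 z1 z2 ^ 2 := by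
      funext z0 z1 z2; ring
    rw [e, Et_add h hx ((hΨ.pow 2).add ((hΨ.mul hΨ').const_mul _)) ((hΨ'.pow 2).const_mul _),
      Et_add h hx (hΨ.pow 2) ((hΨ.mul hΨ').const_mul _), Et_const_mul, Et_const_mul] at h1
    linarith
  have h3 := discrim_le_zero h0
  unfold discrim at h3
  linarith

/-! ### iterated integrals and reductions -/

/-- The iterated form. -/
lemma Eu_iter (h : C11 F D B L) (hx : 0 < x) (hΨ : E3 Ψ) (θ η t0 t1 s : ℝ) :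
    Eu x θ η t0 t1 s F Ψ = ∫ y0, (∫ y1, (∫ y2,
      dn x θ η t0 t1 s F (√t0 • y0) (√t0 • y0 + √(t1 - t0) • y1)
        (√t0 • y0 + √(t1 - t0) • y1 + √(s - t1) • y2) *
      Ψ (√t0 • y0) (√t0 • y0 + √(t1 - t0) • y1)
        (√t0 • y0 + √(t1 - t0) • y1 + √(s - t1) • y2) ∂(gI κ)) ∂(gI κ)) ∂(gI κ) :=
  int_K3 (eg_Eu h hx hΨ θ η t0 t1 s)

/-- `θ ≠ 0` as a weight -/
lemma Eu_weight : Eu x θ η t0 t1 s F Ψ =
    Eu x 0 η t0 t1 s F (fun z0 z1 z2 => Real.exp (θ * xi x t0 t1 F z0 z1) * Ψ z0 z1 z2) := by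
  unfold Eu
  refine integral_congr_ae (Filter.Eventually.of_forall fun w => ?_)
  simp only
  unfold dn
  rw [zero_mul, add_zero, add_sub_right_comm, Real.exp_add, mul_assoc]

/-- functions of the first two positions: the time `s` drops out -/
lemma Eu_fst {ψ : (κ → ℝ) → (κ → ℝ) → ℝ} (h : C11 F D B L) (hx : 0 < x)
    (hψ : E3 fun z0 z1 _ => ψ z0 z1) (h1 : t1 ≤ s) (hs : s ≤ 1) :
    Eu x θ η t0 t1 s F (fun z0 z1 _ => ψ z0 z1) = ∫ y0, (∫ y1,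
      Real.exp (x * uu x t1 F (√t0 • y0 + √(t1 - t0) • y1) +
        θ * xi x t0 t1 F (√t0 • y0) (√t0 • y0 + √(t1 - t0) • y1) -
        η * (x * uu x t0 F (√t0 • y0))) *
      ψ (√t0 • y0) (√t0 • y0 + √(t1 - t0) • y1) ∂(gI κ)) ∂(gI κ) := by
  rw [Eu_iter h hx hψ]
  refine integral_congr_ae (Filter.Eventually.of_forall fun y0 => ?_)
  refine integral_congr_ae (Filter.Eventually.of_forall fun y1 => ?_)
  simp only
  unfold dn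
  rw [integral_mul_const, add_sub_assoc, Real.exp_add]
  congr 1
  rw [← uu_step h hx h1 hs (√t0 • y0 + √(t1 - t0) • y1), ← integral_mul_const]
  refine integral_congr_ae (Filter.Eventually.of_forall fun y2 => ?_)
  simp only
  rw [add_sub_assoc, Real.exp_add]

lemma Eu_fst_eq {ψ : (κ → ℝ) → (κ → ℝ) → ℝ} (h : C11 F D B L) (hx : 0 < x)
    (hψ : E3 fun z0 z1 _ => ψ z0 z1) (h1 : t1 ≤ s) (hs : s ≤ 1) :
    Eu x θ η t0 t1 s F (fun z0 z1 _ => ψ z0 z1) = Eu x θ η t0 t1 t1 F (fun z0 z1 _ => ψ z0 z1) := by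
  rw [Eu_fst h hx hψ h1 hs, Eu_fst h hx hψ le_rfl (h1.trans hs)]

/-- the normalization does not depend on `s` -/
lemma Eu_one_eq (h : C11 F D B L) (hx : 0 < x) (h1 : t1 ≤ s) (hs : s ≤ 1) :
    Eu x θ η t0 t1 s F (fun _ _ _ => 1) = Eu x θ η t0 t1 t1 F (fun _ _ _ => 1) :=
  Eu_fst_eq (ψ := fun _ _ => 1) h hx (E3.const 1) h1 hs

lemma Et_fst_eq {ψ : (κ → ℝ) → (κ → ℝ) → ℝ} (h : C11 F D B L) (hx : 0 < x)
    (hψ : E3 fun z0 z1 _ => ψ z0 z1) (h1 : t1 ≤ s) (hs : s ≤ 1) :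
    Et x θ η t0 t1 s F (fun z0 z1 _ => ψ z0 z1) = Et x θ η t0 t1 t1 F (fun z0 z1 _ => ψ z0 z1) := by
  unfold Et
  rw [Eu_fst_eq h hx hψ h1 hs, Eu_one_eq h hx h1 hs]

/-- `θ = 0`, a function of the first and the last position: two levels -/
lemma Eu_zero {ψ : (κ → ℝ) → (κ → ℝ) → ℝ} (h : C11 F D B L) (hx : 0 < x)
    (hψ : E3 fun z0 _ z2 => ψ z0 z2) (h01 : t0 ≤ t1) (h1 : t1 ≤ s) :
    Eu x 0 η t0 t1 s F (fun z0 _ z2 => ψ z0 z2) =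
      ∫ y0, Real.exp (-(η * (x * uu x t0 F (√t0 • y0)))) * (∫ y,
        Real.exp (x * uu x s F (√t0 • y0 + √(s - t0) • y)) *
          ψ (√t0 • y0) (√t0 • y0 + √(s - t0) • y) ∂(gI κ)) ∂(gI κ) := by
  rw [Eu_iter h hx hψ]
  refine integral_congr_ae (Filter.Eventually.of_forall fun y0 => ?_)
  simp only
  have hf : EG fun z => Real.exp (x * uu x s F z) * ψ (√t0 • y0) z := by
    have h3 : EG fun w2 : κ → ℝ => ψ (√t0 • y0) w2 := eg_elim (eg_elim hψ (√t0 • y0)) 0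
    exact (((c11_uu h hx s).lip.lip h.B0).exp_eg x).mul h3
  have h2 := gI_rot hf (a := √(t1 - t0)) (b := √(s - t1)) (c := √(s - t0)) (by
    rw [Real.sq_sqrt (by linarith), Real.sq_sqrt (by linarith), Real.sq_sqrt (by linarith)]
    ring) (√t0 • y0)
  rw [← h2, ← integral_const_mul]
  refine integral_congr_ae (Filter.Eventually.of_forall fun y1 => ?_)
  simp only
  rw [← integral_const_mul]
  refine integral_congr_ae (Filter.Eventually.of_forall fun y2 => ?_)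
  simp only
  unfold dn
  rw [zero_mul, add_zero, sub_eq_add_neg, Real.exp_add]
  ring

lemma Eu_zero_one (h : C11 F D B L) (hx : 0 < x) (h01 : t0 ≤ t1) (h1 : t1 ≤ s) (hs : s ≤ 1) :
    Eu x 0 η t0 t1 s F (fun _ _ _ => 1) = Zo x η t0 F := by
  rw [Eu_zero (ψ := fun _ _ => 1) h hx (E3.const 1) h01 h1]
  unfold Zo
  refine integral_congr_ae (Filter.Eventually.of_forall fun y0 => ?_)
  simp only [mul_one]
  rw [uu_step h hx (h01.trans h1) hs, ← Real.exp_add]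
  congr 1
  ring

lemma Zo_pos (h : C11 F D B L) (hx : 0 < x) (ht : t0 ≤ 1) : 0 < Zo x η t0 F := by
  rw [← Eu_zero_one (t1 := t0) (s := t0) h hx le_rfl le_rfl ht]
  exact Eu_one_pos h hx

lemma Lth_zero (h : C11 F D B L) (hx : 0 < x) (h01 : t0 ≤ t1) (h1 : t1 ≤ 1) :
    Lth x 0 η t0 t1 F = 0 := by
  unfold Lth
  rw [Eu_zero_one h hx h01 le_rfl h1, sub_self]

/-- the normalization is `Zo * exp (L(θ))` -/
lemma Eu_one (h : C11 F D B L) (hx : 0 < x) (h01 : t0 ≤ t1) (h1 : t1 ≤ s) (hs : s ≤ 1) :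
    Eu x θ η t0 t1 s F (fun _ _ _ => 1) = Zo x η t0 F * Real.exp (Lth x θ η t0 t1 F) := by
  unfold Lth
  rw [Eu_one_eq h hx h1 hs, Real.exp_sub, Real.exp_log (Eu_one_pos h hx),
    Real.exp_log (Zo_pos h hx (h01.trans (h1.trans hs))),
    mul_div_cancel₀ _ (Zo_pos h hx (h01.trans (h1.trans hs))).ne']

/-- Jensen -/
lemma Et_jensen (h : C11 F D B L) (hx : 0 < x) (hΨ : E3 Ψ)
    (hΨ' : E3 fun z0 z1 z2 => Real.exp (Ψ z0 z1 z2)) :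
    Real.exp (Et x θ η t0 t1 s F Ψ) ≤ Et x θ η t0 t1 s F (fun z0 z1 z2 => Real.exp (Ψ z0 z1 z2)) := by
  set m := Et x θ η t0 t1 s F Ψ with hm
  have h1 : Et x θ η t0 t1 s F (fun z0 z1 z2 => Real.exp m * (Ψ z0 z1 z2 - m + 1)) ≤
      Et x θ η t0 t1 s F (fun z0 z1 z2 => Real.exp (Ψ z0 z1 z2)) := by
    refine Et_mono h hx (((hΨ.sub (E3.const m)).add (E3.const 1)).const_mul _) hΨ'
      fun z0 z1 z2 => ?_
    have h2 := Real.add_one_le_exp (Ψ z0 z1 z2 - m)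
    calc Real.exp m * (Ψ z0 z1 z2 - m + 1) ≤ Real.exp m * Real.exp (Ψ z0 z1 z2 - m) :=
          mul_le_mul_of_nonneg_left h2 (Real.exp_pos _).le
      _ = Real.exp (Ψ z0 z1 z2) := by rw [← Real.exp_add]; ring_nf
  rw [Et_const_mul, Et_add h hx (hΨ.sub (E3.const m)) (E3.const 1),
    Et_sub h hx hΨ (E3.const m), Et_const h hx, Et_const h hx, ← hm] at h1
  linarith

/-- The means under `P_{θ,η}` are weighted means under the outer law `P_{0,η}`. -/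
lemma Et_weight (h : C11 F D B L) (hx : 0 < x) (h01 : t0 ≤ t1) (h1 : t1 ≤ s)
    (hs : s ≤ 1) : Et x θ η t0 t1 s F Ψ = Real.exp (-(Lth x θ η t0 t1 F)) * Et x 0 η t0 t1 s F
      (fun z0 z1 z2 => Real.exp (θ * xi x t0 t1 F z0 z1) * Ψ z0 z1 z2) := by
  have hZ := (Zo_pos (η := η) h hx (h01.trans (h1.trans hs))).ne'
  unfold Et
  rw [Eu_weight, Eu_one h hx h01 h1 hs, Eu_one h hx h01 h1 hs, Lth_zero h hx h01 (h1.trans hs),
    Real.exp_zero, mul_one, Real.exp_neg]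
  field_simp

end Vale.Agent.P146.U.R1
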