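import Vale.Agent.P146.H425.R1Def4
import Vale.Agent.P146.U.H425_R1Def
import Vale.Agent.P146.U.NS

/-!
The law `P_θ` of the plan R1 seen at four times `t0 ≤ t1 ≤ s1 ≤ s2`.
-/

open MeasureTheory ProbabilityTheory

namespace Vale.Agent.P146.U.R1

open Vale.Agent.P146.R1

open Vale.Agent.P157.Lv Vale.Agent.P146.H425

set_option linter.unusedSectionVars false

variable {κ : Type} [Fintype κ] {F : (κ → ℝ) → ℝ} {D : κ → (κ → ℝ) → ℝ}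
  {B L x θ η t0 t1 s1 s2 : ℝ}

/-- The mean of `Ψ (z_{t0}, z_{t1}, z_{s1}, z_{s2})`, not normalized. -/
noncomputable def Eu4 (x θ η t0 t1 s1 s2 : ℝ) (F : (κ → ℝ) → ℝ) (Ψ : Fn4 κ) : ℝ :=
  ∫ w : K4 κ → ℝ, dn x θ η t0 t1 s2 F (p0 t0 w) (p1 t0 t1 w) (p3 t0 t1 s1 s2 w) *
    Ψ (p0 t0 w) (p1 t0 t1 w) (p2 t0 t1 s1 w) (p3 t0 t1 s1 s2 w) ∂(gI (K4 κ))

/-- The mean under `P_θ`. -/
noncomputable def Et4 (x θ η t0 t1 s1 s2 : ℝ) (F : (κ → ℝ) → ℝ) (Ψ : Fn4 κ) : ℝ :=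
  Eu4 x θ η t0 t1 s1 s2 F Ψ / Eu4 x θ η t0 t1 s1 s2 F (fun _ _ _ _ => 1)

variable {Ψ Ψ' : Fn4 κ}

lemma eg_Eu4 (h : C11 F D B L) (hx : 0 < x) (hΨ : E4 Ψ) (θ η t0 t1 s1 s2 : ℝ) :
    EG fun w : K4 κ → ℝ => dn x θ η t0 t1 s2 F (p0 t0 w) (p1 t0 t1 w) (p3 t0 t1 s1 s2 w) *
      Ψ (p0 t0 w) (p1 t0 t1 w) (p2 t0 t1 s1 w) (p3 t0 t1 s1 s2 w) :=
  ((E4.of_E3' (e3_dn h hx θ η t0 t1 s2)).mul hΨ).eg_p t0 t1 s1 s2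

lemma Eu4_add (h : C11 F D B L) (hx : 0 < x) (hΨ : E4 Ψ) (hΨ' : E4 Ψ') :
    Eu4 x θ η t0 t1 s1 s2 F (fun z0 z1 z2 z3 => Ψ z0 z1 z2 z3 + Ψ' z0 z1 z2 z3) =
      Eu4 x θ η t0 t1 s1 s2 F Ψ + Eu4 x θ η t0 t1 s1 s2 F Ψ' := by
  unfold Eu4
  rw [← integral_add (eg_Eu4 h hx hΨ θ η t0 t1 s1 s2).integrable
    (eg_Eu4 h hx hΨ' θ η t0 t1 s1 s2).integrable]
  refine integral_congr_ae (Filter.Eventually.of_forall fun w => ?_)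
  simp only
  ring

lemma Eu4_const_mul (c : ℝ) : Eu4 x θ η t0 t1 s1 s2 F (fun z0 z1 z2 z3 => c * Ψ z0 z1 z2 z3) =
    c * Eu4 x θ η t0 t1 s1 s2 F Ψ := by
  unfold Eu4
  rw [← integral_const_mul]
  refine integral_congr_ae (Filter.Eventually.of_forall fun w => ?_)
  simp only
  ring

lemma Eu4_mono (h : C11 F D B L) (hx : 0 < x) (hΨ : E4 Ψ) (hΨ' : E4 Ψ')
    (hle : ∀ z0 z1 z2 z3, Ψ z0 z1 z2 z3 ≤ Ψ' z0 z1 z2 z3) :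
    Eu4 x θ η t0 t1 s1 s2 F Ψ ≤ Eu4 x θ η t0 t1 s1 s2 F Ψ' :=
  integral_mono (eg_Eu4 h hx hΨ θ η t0 t1 s1 s2).integrable
    (eg_Eu4 h hx hΨ' θ η t0 t1 s1 s2).integrable
    fun _ => mul_le_mul_of_nonneg_left (hle _ _ _ _) (dn_pos _ _ _).le

lemma Eu4_nonneg (hle : ∀ z0 z1 z2 z3, 0 ≤ Ψ z0 z1 z2 z3) : 0 ≤ Eu4 x θ η t0 t1 s1 s2 F Ψ :=
  integral_nonneg fun _ => mul_nonneg (dn_pos _ _ _).le (hle _ _ _ _)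

lemma Eu4_one_pos (h : C11 F D B L) (hx : 0 < x) :
    0 < Eu4 x θ η t0 t1 s1 s2 F (fun _ _ _ _ => 1) := by
  unfold Eu4
  simp only [mul_one]
  exact integral_exp_pos ((E4.of_E3' (e3_dn h hx θ η t0 t1 s2)).eg_p t0 t1 s1 s2).integrable

lemma Et4_add (h : C11 F D B L) (hx : 0 < x) (hΨ : E4 Ψ) (hΨ' : E4 Ψ') :
    Et4 x θ η t0 t1 s1 s2 F (fun z0 z1 z2 z3 => Ψ z0 z1 z2 z3 + Ψ' z0 z1 z2 z3) =
      Et4 x θ η t0 t1 s1 s2 F Ψ + Et4 x θ η t0 t1 s1 s2 F Ψ' := by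
  unfold Et4
  rw [Eu4_add h hx hΨ hΨ', add_div]

lemma Et4_const_mul (c : ℝ) : Et4 x θ η t0 t1 s1 s2 F (fun z0 z1 z2 z3 => c * Ψ z0 z1 z2 z3) =
    c * Et4 x θ η t0 t1 s1 s2 F Ψ := by
  unfold Et4
  rw [Eu4_const_mul, mul_div_assoc]

lemma Et4_sub (h : C11 F D B L) (hx : 0 < x) (hΨ : E4 Ψ) (hΨ' : E4 Ψ') :
    Et4 x θ η t0 t1 s1 s2 F (fun z0 z1 z2 z3 => Ψ z0 z1 z2 z3 - Ψ' z0 z1 z2 z3) =
      Et4 x θ η t0 t1 s1 s2 F Ψ - Et4 x θ η t0 t1 s1 s2 F Ψ' := by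
  have h1 := Et4_add (θ := θ) (η := η) (t0 := t0) (t1 := t1) (s1 := s1) (s2 := s2) h hx hΨ
    (hΨ'.const_mul (-1))
  rw [Et4_const_mul] at h1
  have e : (fun z0 z1 z2 z3 => Ψ z0 z1 z2 z3 - Ψ' z0 z1 z2 z3) =
      fun z0 z1 z2 z3 => Ψ z0 z1 z2 z3 + -1 * Ψ' z0 z1 z2 z3 := by
    funext z0 z1 z2 z3; ring
  rw [e, h1]
  ring

lemma Et4_const (h : C11 F D B L) (hx : 0 < x) (c : ℝ) :
    Et4 x θ η t0 t1 s1 s2 F (fun _ _ _ _ => c) = c := by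
  have h1 : Et4 x θ η t0 t1 s1 s2 F (fun _ _ _ _ => c) =
      c * Et4 x θ η t0 t1 s1 s2 F (fun _ _ _ _ => 1) := by
    rw [← Et4_const_mul]
    simp
  rw [h1]
  unfold Et4
  rw [div_self (Eu4_one_pos h hx).ne', mul_one]

lemma Et4_mono (h : C11 F D B L) (hx : 0 < x) (hΨ : E4 Ψ) (hΨ' : E4 Ψ')
    (hle : ∀ z0 z1 z2 z3, Ψ z0 z1 z2 z3 ≤ Ψ' z0 z1 z2 z3) :
    Et4 x θ η t0 t1 s1 s2 F Ψ ≤ Et4 x θ η t0 t1 s1 s2 F Ψ' :=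
  div_le_div_of_nonneg_right (Eu4_mono h hx hΨ hΨ' hle) (Eu4_one_pos h hx).le

lemma Et4_nonneg (h : C11 F D B L) (hx : 0 < x) (hle : ∀ z0 z1 z2 z3, 0 ≤ Ψ z0 z1 z2 z3) :
    0 ≤ Et4 x θ η t0 t1 s1 s2 F Ψ := div_nonneg (Eu4_nonneg hle) (Eu4_one_pos h hx).le

/-- Cauchy–Schwarz -/
lemma Et4_cs (h : C11 F D B L) (hx : 0 < x) (hΨ : E4 Ψ) (hΨ' : E4 Ψ') :
    Et4 x θ η t0 t1 s1 s2 F (fun z0 z1 z2 z3 => Ψ z0 z1 z2 z3 * Ψ' z0 z1 z2 z3) ^ 2 ≤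
      Et4 x θ η t0 t1 s1 s2 F (fun z0 z1 z2 z3 => Ψ z0 z1 z2 z3 ^ 2) *
        Et4 x θ η t0 t1 s1 s2 F (fun z0 z1 z2 z3 => Ψ' z0 z1 z2 z3 ^ 2) := by
  have h0 : ∀ r : ℝ, 0 ≤
      Et4 x θ η t0 t1 s1 s2 F (fun z0 z1 z2 z3 => Ψ' z0 z1 z2 z3 ^ 2) * (r * r) +
      (-2 * Et4 x θ η t0 t1 s1 s2 F (fun z0 z1 z2 z3 => Ψ z0 z1 z2 z3 * Ψ' z0 z1 z2 z3)) * r +
        Et4 x θ η t0 t1 s1 s2 F (fun z0 z1 z2 z3 => Ψ z0 z1 z2 z3 ^ 2) := by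
    intro r
    have h1 := Et4_nonneg (Ψ := fun z0 z1 z2 z3 => (Ψ z0 z1 z2 z3 - r * Ψ' z0 z1 z2 z3) ^ 2)
      (θ := θ) (η := η) (t0 := t0) (t1 := t1) (s1 := s1) (s2 := s2) h hx (fun _ _ _ _ => sq_nonneg _)
    have e : (fun z0 z1 z2 z3 => (Ψ z0 z1 z2 z3 - r * Ψ' z0 z1 z2 z3) ^ 2) =
        fun z0 z1 z2 z3 => (Ψ z0 z1 z2 z3 ^ 2 + (-2 * r) * (Ψ z0 z1 z2 z3 * Ψ' z0 z1 z2 z3)) +
          (r * r) * Ψ' z0 z1 z2 z3 ^ 2 := by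
      funext z0 z1 z2 z3; ring
    rw [e, Et4_add h hx ((hΨ.pow 2).add ((hΨ.mul hΨ').const_mul _)) ((hΨ'.pow 2).const_mul _),
      Et4_add h hx (hΨ.pow 2) ((hΨ.mul hΨ').const_mul _), Et4_const_mul, Et4_const_mul] at h1
    linarith
  have h3 := discrim_le_zero h0
  unfold discrim at h3
  linarith

/-- The iterated form. -/
lemma Eu4_iter (h : C11 F D B L) (hx : 0 < x) (hΨ : E4 Ψ) (θ η t0 t1 s1 s2 : ℝ) :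
    Eu4 x θ η t0 t1 s1 s2 F Ψ = ∫ y0, (∫ y1, (∫ y2, (∫ y3,
      dn x θ η t0 t1 s2 F (√t0 • y0) (√t0 • y0 + √(t1 - t0) • y1)
        (√t0 • y0 + √(t1 - t0) • y1 + √(s1 - t1) • y2 + √(s2 - s1) • y3) *
      Ψ (√t0 • y0) (√t0 • y0 + √(t1 - t0) • y1)
        (√t0 • y0 + √(t1 - t0) • y1 + √(s1 - t1) • y2)
        (√t0 • y0 + √(t1 - t0) • y1 + √(s1 - t1) • y2 + √(s2 - s1) • y3)
        ∂(gI κ)) ∂(gI κ)) ∂(gI κ)) ∂(gI κ) := by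
  have hG := eg_Eu4 h hx hΨ θ η t0 t1 s1 s2
  unfold Eu4
  rw [int_sum hG]
  refine integral_congr_ae (Filter.Eventually.of_forall fun y0 => ?_)
  exact int_K3 (eg_elim hG y0)

/-- functions of the first three positions: the time `s2` drops out -/
lemma Eu4_123 {Ψ : (κ → ℝ) → (κ → ℝ) → (κ → ℝ) → ℝ} (h : C11 F D B L) (hx : 0 < x)
    (hΨ : E3 Ψ) (h1 : s1 ≤ s2) (hs : s2 ≤ 1) :
    Eu4 x θ η t0 t1 s1 s2 F (fun z0 z1 z2 _ => Ψ z0 z1 z2) = Eu x θ η t0 t1 s1 F Ψ := by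
  rw [Eu4_iter h hx (E4.of_E3 hΨ), Eu_iter h hx hΨ]
  refine integral_congr_ae (Filter.Eventually.of_forall fun y0 => ?_)
  refine integral_congr_ae (Filter.Eventually.of_forall fun y1 => ?_)
  refine integral_congr_ae (Filter.Eventually.of_forall fun y2 => ?_)
  simp only
  rw [integral_mul_const]
  congr 1
  unfold dn
  rw [add_sub_assoc, Real.exp_add, ← uu_step h hx h1 hs
    (√t0 • y0 + √(t1 - t0) • y1 + √(s1 - t1) • y2), ← integral_mul_const]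
  refine integral_congr_ae (Filter.Eventually.of_forall fun y3 => ?_)
  simp only
  rw [add_sub_assoc, Real.exp_add]

/-- functions of the positions 1, 2, 4: the time `s1` drops out -/
lemma Eu4_124 {Ψ : (κ → ℝ) → (κ → ℝ) → (κ → ℝ) → ℝ} (h : C11 F D B L) (hx : 0 < x)
    (hΨ : E3 Ψ) (h0 : t1 ≤ s1) (h1 : s1 ≤ s2) :
    Eu4 x θ η t0 t1 s1 s2 F (fun z0 z1 _ z3 => Ψ z0 z1 z3) = Eu x θ η t0 t1 s2 F Ψ := by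
  rw [Eu4_iter h hx (E4.of_E3' hΨ), Eu_iter h hx hΨ]
  refine integral_congr_ae (Filter.Eventually.of_forall fun y0 => ?_)
  refine integral_congr_ae (Filter.Eventually.of_forall fun y1 => ?_)
  have hf : EG fun z : κ → ℝ => dn x θ η t0 t1 s2 F (√t0 • y0) (√t0 • y0 + √(t1 - t0) • y1) z *
      Ψ (√t0 • y0) (√t0 • y0 + √(t1 - t0) • y1) z :=
    eg_elim (eg_elim ((e3_dn h hx θ η t0 t1 s2).mul hΨ) (√t0 • y0))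
      (√t0 • y0 + √(t1 - t0) • y1)
  exact gI_rot hf (a := √(s1 - t1)) (b := √(s2 - s1)) (c := √(s2 - t1)) (by
    rw [Real.sq_sqrt (by linarith), Real.sq_sqrt (by linarith), Real.sq_sqrt (by linarith)]
    ring) (√t0 • y0 + √(t1 - t0) • y1)

lemma Eu4_one_eq (h : C11 F D B L) (hx : 0 < x) (h1 : s1 ≤ s2) (hs : s2 ≤ 1) :
    Eu4 x θ η t0 t1 s1 s2 F (fun _ _ _ _ => 1) = Eu x θ η t0 t1 s1 F (fun _ _ _ => 1) :=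
  Eu4_123 (Ψ := fun _ _ _ => 1) h hx (E3.const 1) h1 hs

lemma Eu4_one_eq' (h : C11 F D B L) (hx : 0 < x) (h0 : t1 ≤ s1) (h1 : s1 ≤ s2) :
    Eu4 x θ η t0 t1 s1 s2 F (fun _ _ _ _ => 1) = Eu x θ η t0 t1 s2 F (fun _ _ _ => 1) :=
  Eu4_124 (Ψ := fun _ _ _ => 1) h hx (E3.const 1) h0 h1

lemma Et4_123 {Ψ : (κ → ℝ) → (κ → ℝ) → (κ → ℝ) → ℝ} (h : C11 F D B L) (hx : 0 < x)
    (hΨ : E3 Ψ) (h1 : s1 ≤ s2) (hs : s2 ≤ 1) :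
    Et4 x θ η t0 t1 s1 s2 F (fun z0 z1 z2 _ => Ψ z0 z1 z2) = Et x θ η t0 t1 s1 F Ψ := by
  unfold Et4 Et
  rw [Eu4_123 h hx hΨ h1 hs, Eu4_one_eq h hx h1 hs]

lemma Et4_124 {Ψ : (κ → ℝ) → (κ → ℝ) → (κ → ℝ) → ℝ} (h : C11 F D B L) (hx : 0 < x)
    (hΨ : E3 Ψ) (h0 : t1 ≤ s1) (h1 : s1 ≤ s2) :
    Et4 x θ η t0 t1 s1 s2 F (fun z0 z1 _ z3 => Ψ z0 z1 z3) = Et x θ η t0 t1 s2 F Ψ := by
  unfold Et4 Et
  rw [Eu4_124 h hx hΨ h0 h1, Eu4_one_eq' h hx h0 h1]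

/-- The first three positions and a martingale increment: conditional expectation at the last
step. -/
lemma Eu4_cond (h : C11 F D B L) (hx : 0 < x) (hΨ : E4 Ψ) (θ η t0 t1 s1 s2 : ℝ) :
    Eu4 x θ η t0 t1 s1 s2 F Ψ = ∫ y0, (∫ y1, (∫ y2,
      Real.exp (θ * xi x t0 t1 F (√t0 • y0) (√t0 • y0 + √(t1 - t0) • y1) -
        η * (x * uu x t0 F (√t0 • y0))) *
      (∫ y3, Real.exp (x * uu x s2 F
        (√t0 • y0 + √(t1 - t0) • y1 + √(s1 - t1) • y2 + √(s2 - s1) • y3)) *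
      Ψ (√t0 • y0) (√t0 • y0 + √(t1 - t0) • y1)
        (√t0 • y0 + √(t1 - t0) • y1 + √(s1 - t1) • y2)
        (√t0 • y0 + √(t1 - t0) • y1 + √(s1 - t1) • y2 + √(s2 - s1) • y3)
        ∂(gI κ)) ∂(gI κ)) ∂(gI κ)) ∂(gI κ) := by
  rw [Eu4_iter h hx hΨ]
  refine integral_congr_ae (Filter.Eventually.of_forall fun y0 => ?_)
  refine integral_congr_ae (Filter.Eventually.of_forall fun y1 => ?_)
  refine integral_congr_ae (Filter.Eventually.of_forall fun y2 => ?_)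
  simp only
  rw [← integral_const_mul]
  refine integral_congr_ae (Filter.Eventually.of_forall fun y3 => ?_)
  simp only
  unfold dn
  rw [add_sub_assoc, Real.exp_add]
  ring

/-- `θ ≠ 0` as a weight -/
lemma Eu4_weight : Eu4 x θ η t0 t1 s1 s2 F Ψ = Eu4 x 0 η t0 t1 s1 s2 F
    (fun z0 z1 z2 z3 => Real.exp (θ * xi x t0 t1 F z0 z1) * Ψ z0 z1 z2 z3) := by
  unfold Eu4
  refine integral_congr_ae (Filter.Eventually.of_forall fun w => ?_)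
  simp only
  unfold dn
  rw [zero_mul, add_zero, add_sub_right_comm, Real.exp_add, mul_assoc]

end Vale.Agent.P146.U.R1
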