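import Vale.Agent.P146.H332.CDef
import Vale.Agent.P146.U.H425_R1Def4
import Vale.Agent.P146.U.NS

/-!
Plan R1, block C (the two-site inequality): the objects.

* coordinates: `K4 (Pair n)` (four blocks of couplings), Gaussian measure `gI`;
* the law: density `dens q F` (`q : Par` collects `x θ t0 t1 s1 s2 η`);
* `Av R` (helper712) = Gaussian average over the coordinates in `R`; `AvP s R` = the same for a
  function of one position, with the variance `s`;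
* `AA k x s z` (helper325) = the matrix of the conditional expectations at the position `z`.
-/

open MeasureTheory ProbabilityTheory

namespace Vale.Agent.P146.U.R1C

open Vale.Agent.P146.R1C hiding Ca Cd En En_eq Ew Ew_eq Gb Nd P0 P0_sw P1 P1_sw P2 P2_sw P3 P3_sw
  Par Par.Ok Sa Sd dens

open Vale.Agent.P157.Lv Vale.Agent.P146.H425 Vale.Agent.P146.H325 Vale.Agent.P146.H332
  Vale.Agent.P146.H712 Vale.Agent.P146.H816 Matrix
open Vale.Agent.P146.R1 hiding Et Et4 Et4_123 Et4_124 Et4_add Et4_const Et4_const_mul Et4_cs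
  Et4_mono Et4_nonneg Et4_sub Et_add Et_const Et_const_mul Et_cs Et_fst_eq Et_jensen Et_mono
  Et_nonneg Et_sub Et_weight Et_zero Eu Eu4 Eu4_123 Eu4_124 Eu4_add Eu4_cond Eu4_const_mul
  Eu4_iter Eu4_mono Eu4_nonneg Eu4_one_eq Eu4_one_eq' Eu4_one_pos Eu4_weight Eu_add Eu_const_mul
  Eu_fst Eu_fst_eq Eu_iter Eu_mono Eu_nonneg Eu_one Eu_one_eq Eu_one_pos Eu_weight Eu_zero
  Eu_zero_one Lth Lth_zero Qt dn dn_pos e3_dn eg_Eu eg_Eu4
open Vale.Agent.P146.U.R1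

set_option linter.unusedSectionVars false

/-- The parameters: exponent, tilt of the value function, times, and `η = 1 - x_out / x` (the
exponent is `x_out = (1 - η) x` on `[0, t0]`). -/
structure Par where
  x : ℝ
  θ : ℝ
  t0 : ℝ
  t1 : ℝ
  s1 : ℝ
  s2 : ℝ
  η : ℝ

/-- The conditions on the parameters. -/
structure Par.Ok (q : Par) : Prop where
  x0 : 0 < q.x
  x1 : q.x ≤ 1
  θ0 : 0 ≤ q.θ
  θ1 : q.θ ≤ 1
  θe : q.θ ≤ 1 / 64
  η0 : 0 ≤ q.η
  η1 : q.η ≤ 1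
  h0 : 0 ≤ q.t0
  h01 : q.t0 ≤ q.t1
  h1 : q.t1 ≤ q.s1
  h12 : q.s1 ≤ q.s2
  h2 : q.s2 ≤ 1

section gen

variable {κ : Type} [Fintype κ] [DecidableEq κ]

/-- The positions at the times `t0`, `t1`, `s1`, `s2`. -/
noncomputable def P0 (q : Par) (w : K4 κ → ℝ) : κ → ℝ := p0 q.t0 w
/-- The positions at the times `t0`, `t1`, `s1`, `s2`. -/
noncomputable def P1 (q : Par) (w : K4 κ → ℝ) : κ → ℝ := p1 q.t0 q.t1 w
/-- The positions at the times `t0`, `t1`, `s1`, `s2`. -/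
noncomputable def P2 (q : Par) (w : K4 κ → ℝ) : κ → ℝ := p2 q.t0 q.t1 q.s1 w
/-- The positions at the times `t0`, `t1`, `s1`, `s2`. -/
noncomputable def P3 (q : Par) (w : K4 κ → ℝ) : κ → ℝ := p3 q.t0 q.t1 q.s1 q.s2 w

/-- The density of `P_θ` as a function of the coordinates. -/
noncomputable def dens (q : Par) (F : (κ → ℝ) → ℝ) (w : K4 κ → ℝ) : ℝ :=
  dn q.x q.θ q.η q.t0 q.t1 q.s2 F (P0 q w) (P1 q w) (P3 q w)

/-- The mean, not normalized. -/
noncomputable def Ew (q : Par) (F : (κ → ℝ) → ℝ) (Φ : (K4 κ → ℝ) → ℝ) : ℝ :=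
  ∫ w, dens q F w * Φ w ∂(gI (K4 κ))

/-- The mean. -/
noncomputable def En (q : Par) (F : (κ → ℝ) → ℝ) (Φ : (K4 κ → ℝ) → ℝ) : ℝ :=
  Ew q F Φ / Ew q F (fun _ => 1)

lemma Ew_eq (q : Par) (F : (κ → ℝ) → ℝ) (Ψ : Fn4 κ) :
    Ew q F (fun w => Ψ (P0 q w) (P1 q w) (P2 q w) (P3 q w)) =
      Eu4 q.x q.θ q.η q.t0 q.t1 q.s1 q.s2 F Ψ := rfl

lemma En_eq (q : Par) (F : (κ → ℝ) → ℝ) (Ψ : Fn4 κ) :
    En q F (fun w => Ψ (P0 q w) (P1 q w) (P2 q w) (P3 q w)) =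
      Et4 q.x q.θ q.η q.t0 q.t1 q.s1 q.s2 F Ψ := rfl

lemma P0_sw (q : Par) (R : Finset κ) (w w' : K4 κ → ℝ) :
    P0 q (sw (lf R) w w') = sw R (P0 q w) (P0 q w') := by
  funext e
  by_cases he : e ∈ R <;> simp [P0, p0, c0, sw, lf, he]

lemma P1_sw (q : Par) (R : Finset κ) (w w' : K4 κ → ℝ) :
    P1 q (sw (lf R) w w') = sw R (P1 q w) (P1 q w') := by
  funext e
  by_cases he : e ∈ R <;> simp [P1, p1, p0, c0, c1, sw, lf, he]

lemma P2_sw (q : Par) (R : Finset κ) (w w' : K4 κ → ℝ) :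
    P2 q (sw (lf R) w w') = sw R (P2 q w) (P2 q w') := by
  funext e
  by_cases he : e ∈ R <;> simp [P2, p2, p1, p0, c0, c1, c2, sw, lf, he]

lemma P3_sw (q : Par) (R : Finset κ) (w w' : K4 κ → ℝ) :
    P3 q (sw (lf R) w w') = sw R (P3 q w) (P3 q w') := by
  funext e
  by_cases he : e ∈ R <;> simp [P3, p3, p2, p1, p0, c0, c1, c2, c3, sw, lf, he]

end gen

/-! ### the SK objects at a position -/

variable {n : ℕ} (k x s : ℝ)

variable {k x s}

/-- `a`, function of the coordinates -/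
noncomputable def Ca (k : ℝ) (q : Par) (b b' : Fin n) (w : K4 (Pair n) → ℝ) : Fin n → ℝ :=
  cl0 k q.x q.s1 b b' (P2 q w)

/-- `d`, function of the coordinates -/
noncomputable def Cd (k : ℝ) (q : Par) (b b' : Fin n) (w : K4 (Pair n) → ℝ) : Fin n → ℝ :=
  cl0 k q.x q.s2 b b' (P3 q w)

/-- `S_a` -/
noncomputable def Sa (k : ℝ) (q : Par) (b b' : Fin n) (w : K4 (Pair n) → ℝ) :
    Matrix (Fin n) (Fin n) ℝ :=
  fun i j => Av (lf (row b ∪ row b')) (fun w => Ca k q b b' w i * Ca k q b b' w j) w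

/-- `S_d` -/
noncomputable def Sd (k : ℝ) (q : Par) (b b' : Fin n) (w : K4 (Pair n) → ℝ) :
    Matrix (Fin n) (Fin n) ℝ :=
  fun i j => Av (lf (row b ∪ row b')) (fun w => Cd k q b b' w i * Cd k q b b' w j) w

/-- `N = E a d'` -/
noncomputable def Nd (k : ℝ) (q : Par) (b b' : Fin n) (w : K4 (Pair n) → ℝ) :
    Matrix (Fin n) (Fin n) ℝ :=
  fun i j => Av (lf (row b ∪ row b')) (fun w => Ca k q b b' w i * Cd k q b b' w j) w

/-- `G` -/
noncomputable def Gb (k : ℝ) (q : Par) (b b' : Fin n) (w : K4 (Pair n) → ℝ) : ℝ :=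
  ip (Sa k q b b' w) (Sd k q b b' w) - fr (Nd k q b b' w)

end Vale.Agent.P146.U.R1C
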