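import Vale.Agent.P146.H325.Fo
import Vale.Agent.P146.U.H332_CDef
import Vale.Agent.P146.U.NS

/-!
Plan R1 with constants: the output of the block F in the objects of the block C (`Fo`), and its
first consequences (sizes, moments). `AM s z`, `DM s e z` are the matrix of the conditional two
point functions at the position `z`, time `s`, and its derivative in the direction `e` (for the SK
model `AM = AA k q.x`, `DM = DC k q.x`). `A` is the loss, `Λ` a lower bound of the actions (a large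
power of `A`), `ye` the exponent of the covariance inequality `CS.kov`.
-/

open MeasureTheory ProbabilityTheory

namespace Vale.Agent.P146.U.R1C

open Vale.Agent.P146.R1C hiding Ca Cd En En_add En_const En_const_mul En_eq En_mono En_nonneg
  En_pow_le Ew Ew1_pos Ew_add Ew_const_mul Ew_eq Ew_mono Ew_nonneg Fo Fo.N0 Fo.NN_le Fo.Tp Fo.mom
  Fo.n0 Fo.xr Fo.ρ1 Fo.ρA Gb Nd P0 P0_sw P1 P1_sw P2 P2_sw P3 P3_sw Par Sa Sd den_pos dens eg_den
  kk_NN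

open Vale.Agent.P157.Lv Vale.Agent.P146.H425 Vale.Agent.P146.H325 Vale.Agent.P146.H712
  Vale.Agent.P146.H816 Matrix
open Vale.Agent.P146.H332 hiding NN
open Vale.Agent.P146.R1 hiding Et Et4 Et4_123 Et4_124 Et4_add Et4_const Et4_const_mul Et4_cs
  Et4_mono Et4_nonneg Et4_sub Et_add Et_const Et_const_mul Et_cs Et_fst_eq Et_jensen Et_mono
  Et_nonneg Et_sub Et_weight Et_zero Eu Eu4 Eu4_123 Eu4_124 Eu4_add Eu4_cond Eu4_const_mul
  Eu4_iter Eu4_mono Eu4_nonneg Eu4_one_eq Eu4_one_eq' Eu4_one_pos Eu4_weight Eu_add Eu_const_mul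
  Eu_fst Eu_fst_eq Eu_iter Eu_mono Eu_nonneg Eu_one Eu_one_eq Eu_one_pos Eu_weight Eu_zero
  Eu_zero_one Lth Lth_zero Qt dn dn_pos e3_dn eg_Eu eg_Eu4
open Vale.Agent.P146.U.R1

set_option linter.unusedSectionVars false

/-- **Output of the block F.** `A` is the loss, `Λ` a lower bound of the actions
(`Λ ≤ ye² ρ T`, where `ye ≤ q.x` is the exponent of the covariance inequality `CS.kov`), `δ` a bound
of the probabilities of the bad events. The growth inequality is separate (`Gro`). -/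
structure Fo (n : ℕ) (β A δ T ρ Λ ye : ℝ) (q : Par) (F : (Pair n → ℝ) → ℝ)
    (AM : ℝ → (Pair n → ℝ) → Matrix (Fin n) (Fin n) ℝ)
    (DM : ℝ → Pair n → (Pair n → ℝ) → Matrix (Fin n) (Fin n) ℝ) : Prop where
  n2 : 2 ≤ n
  β0 : 0 < β
  ok : q.Ok
  A1 : 1 ≤ A
  x22 : q.x * (n : ℝ) ^ ((1 : ℝ) / 22) ≤ 1
  T0 : 1 / (n : ℝ) ^ 2 ≤ T
  T1 : T ≤ 1
  ht0 : q.t0 = 1 - T
  ht1 : q.t1 = 1 - T / 2
  hs1 : q.t1 < q.s1
  hs12 : q.s1 + T / 8 ≤ q.s2
  hs2 : q.s2 < 1 - T / 4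
  y0 : 0 < ye
  yx : ye ≤ q.x
  AΛ : A ^ 200 ≤ Λ
  yrT : Λ ≤ ye ^ 2 * ρ * T
  ρn : 2 * ρ ≤ β ^ 2 * n
  βn : β ^ 2 ≤ n
  δ0 : 0 ≤ δ
  δΛ : Λ ^ 1000 * δ ≤ 1
  up0 : En q F (fun w => if A * NN n β ρ < fr (AM q.t0 (P0 q w)) then (1 : ℝ) else 0) ≤ δ
  up1 : En q F (fun w => if A * NN n β ρ < fr (AM q.t1 (P1 q w)) then (1 : ℝ) else 0) ≤ δ
  up2 : En q F (fun w => if A * NN n β ρ < fr (AM q.s1 (P2 q w)) then (1 : ℝ) else 0) ≤ δ
  up3 : En q F (fun w => if A * NN n β ρ < fr (AM q.s2 (P3 q w)) then (1 : ℝ) else 0) ≤ δ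
  lo2 : En q F (fun w => if fr (AM q.s1 (P2 q w)) < NN n β ρ / A then (1 : ℝ) else 0) ≤ δ
  lo3 : En q F (fun w => if fr (AM q.s2 (P3 q w)) < NN n β ρ / A then (1 : ℝ) else 0) ≤ δ
  rt2 : En q F (fun w => rt DM q.s1 (P2 q w)) ≤ A * NN n β ρ / T
  rt3 : En q F (fun w => rt DM q.s2 (P3 q w)) ≤ A * NN n β ρ / T
  mo0 : ∀ p ≤ 100, En q F (fun w => fr (AM q.t0 (P0 q w)) ^ p) ≤ 2 * (A * NN n β ρ) ^ p
  mo : ∀ s, q.t1 ≤ s → s ≤ 1 - T / 8 → ∀ p ≤ 100,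
    Et q.x q.θ q.η q.t0 q.t1 s F (fun _ _ z2 => fr (AM s z2) ^ p) ≤ 2 * (A * NN n β ρ) ^ p

/-- **The growth inequality** between the times `s1` and `s2`. -/
def Gro (n : ℕ) (β A ρ : ℝ) (q : Par) (F : (Pair n → ℝ) → ℝ)
    (AM : ℝ → (Pair n → ℝ) → Matrix (Fin n) (Fin n) ℝ) : Prop :=
  NN n β ρ / A ≤ En q F (fun w => fr (AM q.s2 (P3 q w))) - En q F (fun w => fr (AM q.s1 (P2 q w)))

/-! ### the mean `En` on the class `EG` -/

section mean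

variable {κ : Type} [Fintype κ] [DecidableEq κ] {q : Par} {F : (κ → ℝ) → ℝ}
  {D : κ → (κ → ℝ) → ℝ} {B L : ℝ}

lemma eg_den (h : C11 F D B L) (hx : 0 < q.x) : EG (dens q F) :=
  (E4.of_E3' (e3_dn h hx q.θ q.η q.t0 q.t1 q.s2)).eg_p q.t0 q.t1 q.s1 q.s2

lemma den_pos (w : K4 κ → ℝ) : 0 < dens q F w := dn_pos _ _ _

lemma Ew1_pos (h : C11 F D B L) (hx : 0 < q.x) : 0 < Ew q F fun _ => 1 :=
  Eu4_one_pos (θ := q.θ) (η := q.η) (t0 := q.t0) (t1 := q.t1) (s1 := q.s1) (s2 := q.s2) h hx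

lemma Ew_add (h : C11 F D B L) (hx : 0 < q.x) {f g : (K4 κ → ℝ) → ℝ} (hf : EG f) (hg : EG g) :
    Ew q F (fun w => f w + g w) = Ew q F f + Ew q F g := by
  unfold Ew
  rw [← integral_add ((eg_den h hx).mul hf).integrable ((eg_den h hx).mul hg).integrable]
  exact integral_congr_ae (Filter.Eventually.of_forall fun w => mul_add _ _ _)

lemma Ew_const_mul (c : ℝ) (f : (K4 κ → ℝ) → ℝ) :
    Ew q F (fun w => c * f w) = c * Ew q F f := by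
  unfold Ew
  rw [← integral_const_mul]
  exact integral_congr_ae (Filter.Eventually.of_forall fun w => mul_left_comm _ _ _)

lemma Ew_mono (h : C11 F D B L) (hx : 0 < q.x) {f g : (K4 κ → ℝ) → ℝ} (hf : EG f) (hg : EG g)
    (hle : ∀ w, f w ≤ g w) : Ew q F f ≤ Ew q F g :=
  integral_mono ((eg_den h hx).mul hf).integrable ((eg_den h hx).mul hg).integrable
    fun w => mul_le_mul_of_nonneg_left (hle w) (den_pos w).le

lemma Ew_nonneg {f : (K4 κ → ℝ) → ℝ} (hle : ∀ w, 0 ≤ f w) : 0 ≤ Ew q F f :=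
  integral_nonneg fun w => mul_nonneg (den_pos w).le (hle w)

lemma En_add (h : C11 F D B L) (hx : 0 < q.x) {f g : (K4 κ → ℝ) → ℝ} (hf : EG f) (hg : EG g) :
    En q F (fun w => f w + g w) = En q F f + En q F g := by
  unfold En
  rw [Ew_add h hx hf hg, add_div]

lemma En_const_mul (c : ℝ) (f : (K4 κ → ℝ) → ℝ) :
    En q F (fun w => c * f w) = c * En q F f := by
  unfold En
  rw [Ew_const_mul, mul_div_assoc]

lemma En_mono (h : C11 F D B L) (hx : 0 < q.x) {f g : (K4 κ → ℝ) → ℝ} (hf : EG f) (hg : EG g)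
    (hle : ∀ w, f w ≤ g w) : En q F f ≤ En q F g :=
  div_le_div_of_nonneg_right (Ew_mono h hx hf hg hle) (Ew1_pos h hx).le

lemma En_nonneg {f : (K4 κ → ℝ) → ℝ} (hle : ∀ w, 0 ≤ f w) : 0 ≤ En q F f :=
  div_nonneg (Ew_nonneg hle) (Ew_nonneg fun _ => zero_le_one)

lemma En_const (h : C11 F D B L) (hx : 0 < q.x) (c : ℝ) : En q F (fun _ => c) = c := by
  have h1 := En_const_mul (q := q) (F := F) c fun _ => 1
  simp only [mul_one] at h1
  rw [h1]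
  unfold En
  rw [div_self (Ew1_pos h hx).ne', mul_one]

/-- bounded functions which are rarely large -/
lemma En_pow_le (h : C11 F D B L) (hx : 0 < q.x) {f : (K4 κ → ℝ) → ℝ} (hf : EG f)
    (h0 : ∀ w, 0 ≤ f w) {K M δ : ℝ} (hK : ∀ w, f w ≤ K) (hM : 0 ≤ M)
    (hδ : En q F (fun w => if M < f w then (1 : ℝ) else 0) ≤ δ) (p : ℕ) :
    En q F (fun w => f w ^ p) ≤ M ^ p + K ^ p * δ := by
  have hi : EG fun w => if M < f w then (1 : ℝ) else 0 := by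
    refine EG.of_bdd (C := 1) ?_ fun w => ?_
    · exact Measurable.ite (measurableSet_lt measurable_const hf.meas) measurable_const
        measurable_const
    · split_ifs <;> simp
  have hK0 : 0 ≤ K := (h0 0).trans (hK 0)
  refine (En_mono h hx (hf.pow p) ((EG.const (M ^ p)).add (hi.const_mul (K ^ p)))
    fun w => ?_).trans ?_
  · split_ifs with h1
    · have := pow_le_pow_left₀ (h0 w) (hK w) p
      have h2 : 0 ≤ M ^ p := by positivity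
      linarith
    · rw [mul_zero, add_zero]
      exact pow_le_pow_left₀ (h0 w) (not_lt.1 h1) p
  · rw [En_add h hx (EG.const _) (hi.const_mul _), En_const h hx, En_const_mul]
    have := mul_le_mul_of_nonneg_left hδ (pow_nonneg hK0 p)
    linarith

end mean

/-! ### sizes -/

section size

variable {n : ℕ} {β A δ T ρ Λ ye : ℝ} {q : Par} {F : (Pair n → ℝ) → ℝ}
  {AM : ℝ → (Pair n → ℝ) → Matrix (Fin n) (Fin n) ℝ}
  {DM : ℝ → Pair n → (Pair n → ℝ) → Matrix (Fin n) (Fin n) ℝ}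

lemma Fo.θe (h : Fo n β A δ T ρ Λ ye q F AM DM) : q.θ ≤ 1 / 64 := h.ok.θe

lemma Fo.n0 (h : Fo n β A δ T ρ Λ ye q F AM DM) : (2 : ℝ) ≤ n := by exact_mod_cast h.n2

lemma Fo.Tp (h : Fo n β A δ T ρ Λ ye q F AM DM) : 0 < T := by
  have := h.n0
  exact lt_of_lt_of_le (by positivity) h.T0

lemma Fo.Λ1 (h : Fo n β A δ T ρ Λ ye q F AM DM) : 1 ≤ Λ := (one_le_pow₀ h.A1).trans h.AΛ

lemma Fo.AΛ40 (h : Fo n β A δ T ρ Λ ye q F AM DM) : A ^ 40 ≤ Λ :=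
  (pow_le_pow_right₀ h.A1 (by norm_num)).trans h.AΛ

lemma Fo.y1 (h : Fo n β A δ T ρ Λ ye q F AM DM) : ye ≤ 1 := h.yx.trans h.ok.x1

/-- the action with the exponent `ye` -/
lemma Fo.yr (h : Fo n β A δ T ρ Λ ye q F AM DM) : A ^ 40 ≤ ye ^ 2 * ρ * T := h.AΛ40.trans h.yrT

lemma Fo.ρp (h : Fo n β A δ T ρ Λ ye q F AM DM) : 0 < ρ := by
  have h1 := h.yr
  have h2 : 0 < A ^ 40 := by have := h.A1; positivity
  by_contra hc
  push Not at hc
  have : ye ^ 2 * ρ * T ≤ 0 :=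
    mul_nonpos_of_nonpos_of_nonneg (mul_nonpos_of_nonneg_of_nonpos (by positivity) hc) h.Tp.le
  linarith

lemma Fo.Λρ (h : Fo n β A δ T ρ Λ ye q F AM DM) : Λ ≤ ρ := by
  have h1 := h.yrT
  have hy := h.y0
  have hy1 : ye ^ 2 ≤ 1 := pow_le_one₀ hy.le h.y1
  have hρ := h.ρp
  calc Λ ≤ ye ^ 2 * ρ * T := h1
    _ ≤ 1 * ρ * 1 := mul_le_mul (mul_le_mul_of_nonneg_right hy1 hρ.le) h.T1 h.Tp.le
        (by positivity)
    _ = ρ := by ring

lemma Fo.ρA (h : Fo n β A δ T ρ Λ ye q F AM DM) : A ^ 40 ≤ ρ := h.AΛ40.trans h.Λρ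

lemma Fo.ρ1 (h : Fo n β A δ T ρ Λ ye q F AM DM) : 1 ≤ ρ := h.Λ1.trans h.Λρ

/-- the action with the exponent `q.x` -/
lemma Fo.Λx (h : Fo n β A δ T ρ Λ ye q F AM DM) : Λ ≤ q.x ^ 2 * ρ * T := by
  refine h.yrT.trans ?_
  have h1 : ye ^ 2 ≤ q.x ^ 2 := pow_le_pow_left₀ h.y0.le h.yx 2
  exact mul_le_mul_of_nonneg_right (mul_le_mul_of_nonneg_right h1 h.ρp.le) h.Tp.le

lemma Fo.xrT (h : Fo n β A δ T ρ Λ ye q F AM DM) : A ^ 40 ≤ q.x ^ 2 * ρ * T := h.AΛ40.trans h.Λx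

lemma Fo.xr (h : Fo n β A δ T ρ Λ ye q F AM DM) : A ^ 40 ≤ q.x ^ 2 * ρ * T := h.xrT

lemma Fo.N0 (h : Fo n β A δ T ρ Λ ye q F AM DM) : 0 < NN n β ρ := by
  have h1 := h.ρ1
  have h2 := h.n0
  have h3 := h.β0
  unfold NN
  positivity

lemma Fo.N1 (h : Fo n β A δ T ρ Λ ye q F AM DM) : 2 ≤ NN n β ρ := by
  have h3 := h.β0
  unfold NN
  rw [le_div_iff₀ (by positivity)]
  have h5 := h.ρ1
  have h8 := h.βn
  have h2 := h.n0
  have h6 : (n : ℝ) ≤ ρ * n := le_mul_of_one_le_left (by linarith) h5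
  linarith

lemma Fo.AN1 (h : Fo n β A δ T ρ Λ ye q F AM DM) : 1 ≤ A * NN n β ρ :=
  one_le_mul_of_one_le_of_one_le h.A1 (by linarith [h.N1])

lemma Fo.NN_le (h : Fo n β A δ T ρ Λ ye q F AM DM) : NN n β ρ ≤ (n : ℝ) ^ 2 := by
  unfold NN
  have h3 := h.β0
  rw [div_le_iff₀ (by positivity)]
  have h1 := h.ρn
  have h2 := h.n0
  calc 2 * ρ * n ≤ β ^ 2 * n * n := mul_le_mul_of_nonneg_right h1 (by positivity)
    _ = _ := by ring

lemma Fo.Λn (h : Fo n β A δ T ρ Λ ye q F AM DM) : Λ ≤ (n : ℝ) ^ 2 := by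
  have h1 := h.Λρ
  have h2 := h.ρn
  have h3 := h.ρ1
  have h0 := h.n0
  have h4 : β ^ 2 * (n : ℝ) ≤ n * n := mul_le_mul_of_nonneg_right h.βn (by linarith)
  rw [pow_two]
  linarith

lemma Fo.A_le (h : Fo n β A δ T ρ Λ ye q F AM DM) : A ≤ (n : ℝ) ^ 2 :=
  (le_self_pow₀ h.A1 (by norm_num)).trans (h.AΛ.trans h.Λn)

/-- the errors of the law change against the powers of `Λ` -/
lemma Fo.nΛ (h : Fo n β A δ T ρ Λ ye q F AM DM) {a b : ℕ} (hab : 2 * b ≤ a) :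
    ((n : ℝ) ^ a)⁻¹ ≤ (Λ ^ b)⁻¹ := by
  have h0 := h.n0
  have h1 := h.Λ1
  refine inv_anti₀ (by positivity) ?_
  calc Λ ^ b ≤ ((n : ℝ) ^ 2) ^ b := pow_le_pow_left₀ (by linarith) h.Λn b
    _ = (n : ℝ) ^ (2 * b) := by rw [pow_mul]
    _ ≤ _ := pow_le_pow_right₀ (by linarith) hab

lemma Fo.δ_le (h : Fo n β A δ T ρ Λ ye q F AM DM) : δ ≤ (Λ ^ 1000)⁻¹ := by
  have h1 : 0 < Λ ^ 1000 := by have := h.Λ1; positivity
  rw [← one_div, le_div_iff₀ h1, mul_comm]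
  exact h.δΛ

lemma Fo.δ_leA (h : Fo n β A δ T ρ Λ ye q F AM DM) {p : ℕ} (hp : p ≤ 200000) :
    A ^ p * δ ≤ 1 := by
  refine le_trans (mul_le_mul_of_nonneg_right ?_ h.δ0) h.δΛ
  calc A ^ p ≤ A ^ (200 * 1000) := pow_le_pow_right₀ h.A1 (by omega)
    _ = (A ^ 200) ^ 1000 := pow_mul A 200 1000
    _ ≤ Λ ^ 1000 := pow_le_pow_left₀ (by have := h.A1; positivity) h.AΛ 1000

/-- `k² N = 2 ρ` -/
lemma kk_NN (h : Fo n β A δ T ρ Λ ye q F AM DM) : kk n β ^ 2 * NN n β ρ = 2 * ρ := by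
  have h2 := h.n0
  have h3 := h.β0
  unfold kk NN
  rw [div_pow, Real.sq_sqrt (by positivity)]
  field_simp

end size

/-! ### moments at the four positions -/

section mom

variable {κ : Type} [Fintype κ] [DecidableEq κ] {q : Par} {F : (κ → ℝ) → ℝ}
  {D : κ → (κ → ℝ) → ℝ} {B L : ℝ} {f : (κ → ℝ) → ℝ}

lemma En_P1_eq (hc : C11 F D B L) (hq : q.Ok) (hf : EG f) :
    En q F (fun w => f (P1 q w)) = Et q.x q.θ q.η q.t0 q.t1 q.t1 F (fun _ _ z2 => f z2) := by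
  have h1 : En q F (fun w => f (P1 q w)) = Et q.x q.θ q.η q.t0 q.t1 q.s1 F (fun _ z1 _ => f z1) :=
    Et4_123 (Ψ := fun _ z1 _ => f z1) hc hq.x0 (E3.of1 hf) hq.h12 hq.h2
  rw [h1, Et_fst_eq (ψ := fun _ z1 => f z1) hc hq.x0 (E3.of1 hf) hq.h1 (hq.h12.trans hq.h2)]
  have e : ∀ w : K3 κ → ℝ, q2 q.t0 q.t1 q.t1 w = q1 q.t0 q.t1 w := by
    intro w
    unfold q2
    simp
  unfold R1.Et R1.Eu
  simp only [e]

lemma En_P2_eq (hc : C11 F D B L) (hq : q.Ok) (hf : EG f) :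
    En q F (fun w => f (P2 q w)) = Et q.x q.θ q.η q.t0 q.t1 q.s1 F (fun _ _ z2 => f z2) :=
  Et4_123 (Ψ := fun _ _ z2 => f z2) hc hq.x0 (E3.of2 hf) hq.h12 hq.h2

lemma En_P3_eq (hc : C11 F D B L) (hq : q.Ok) (hf : EG f) :
    En q F (fun w => f (P3 q w)) = Et q.x q.θ q.η q.t0 q.t1 q.s2 F (fun _ _ z2 => f z2) :=
  Et4_124 (Ψ := fun _ _ z2 => f z2) hc hq.x0 (E3.of2 hf) hq.h1 hq.h12

end mom

section mom

variable {n : ℕ} {β A δ T ρ Λ ye : ℝ} {q : Par} {F : (Pair n → ℝ) → ℝ}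
  {AM : ℝ → (Pair n → ℝ) → Matrix (Fin n) (Fin n) ℝ}
  {DM : ℝ → Pair n → (Pair n → ℝ) → Matrix (Fin n) (Fin n) ℝ}
  {D : Pair n → (Pair n → ℝ) → ℝ} {B L : ℝ}

/-- all the moments at the position `t1` -/
lemma Fo.mo1 (h : Fo n β A δ T ρ Λ ye q F AM DM) (hc : C11 F D B L)
    (hg : ∀ s, EG fun z => fr (AM s z)) {p : ℕ} (hp : p ≤ 100) :
    En q F (fun w => fr (AM q.t1 (P1 q w)) ^ p) ≤ 2 * (A * NN n β ρ) ^ p := by
  rw [En_P1_eq (f := fun z => fr (AM q.t1 z) ^ p) hc h.ok ((hg _).pow p)]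
  have := h.ht1
  have := h.Tp
  exact h.mo q.t1 le_rfl (by linarith) p hp

/-- all the moments at the position `s1` -/
lemma Fo.mo2 (h : Fo n β A δ T ρ Λ ye q F AM DM) (hc : C11 F D B L)
    (hg : ∀ s, EG fun z => fr (AM s z)) {p : ℕ} (hp : p ≤ 100) :
    En q F (fun w => fr (AM q.s1 (P2 q w)) ^ p) ≤ 2 * (A * NN n β ρ) ^ p := by
  rw [En_P2_eq (f := fun z => fr (AM q.s1 z) ^ p) hc h.ok ((hg _).pow p)]
  have h1 := h.hs1
  have h2 := h.hs12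
  have h3 := h.hs2
  have := h.Tp
  exact h.mo q.s1 h1.le (by linarith) p hp

/-- all the moments at the position `s2` -/
lemma Fo.mo3 (h : Fo n β A δ T ρ Λ ye q F AM DM) (hc : C11 F D B L)
    (hg : ∀ s, EG fun z => fr (AM s z)) {p : ℕ} (hp : p ≤ 100) :
    En q F (fun w => fr (AM q.s2 (P3 q w)) ^ p) ≤ 2 * (A * NN n β ρ) ^ p := by
  rw [En_P3_eq (f := fun z => fr (AM q.s2 z) ^ p) hc h.ok ((hg _).pow p)]
  have h1 := h.hs1
  have h2 := h.hs12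
  have h3 := h.hs2
  have := h.Tp
  exact h.mo q.s2 (by linarith) (by linarith) p hp

end mom

end Vale.Agent.P146.U.R1C
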