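import Vale.Agent.P146.H522.Rad
import Vale.Agent.P146.U.H425_R1Def4
import Vale.Agent.P146.U.H425_R1Def
import Vale.Agent.P146.U.NS

/-!
The radial increments of the gradient of the value function: the conditional mean of
`(D_1 · (D_2 - D_1))²` given the past is at most `|D_1|² |Hs_1| / x`.
-/

open MeasureTheory ProbabilityTheory

namespace Vale.Agent.P146.U.H522

open Vale.Agent.P146.H522 hiding Et4_le_cond Eu4_le_cond radial

open Vale.Agent.P157.Lv Vale.Agent.P146.H425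

set_option linter.unusedSectionVars false
set_option linter.unusedDecidableInType false

variable {κ : Type} [Fintype κ] {F : (κ → ℝ) → ℝ} {D : κ → (κ → ℝ) → ℝ}
  {B L x θ η t0 t1 s1 s2 t t' M : ℝ} {H T : κ → κ → (κ → ℝ) → ℝ} {Ψ Ψ' : R1.Fn4 κ}

/-! ### conditional means -/

/-- A conditional inequality at the last step. -/
theorem Eu4_le_cond (h : C11 F D B L) (hx : 0 < x) (hΨ : R1.E4 Ψ) (hΨ' : R1.E4 Ψ')
    (hle : ∀ z0 z1 z2, R1.cw x s1 s2 F (Ψ z0 z1 z2) z2 ≤ R1.cw x s1 s2 F (Ψ' z0 z1 z2) z2) :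
    R1.Eu4 x θ η t0 t1 s1 s2 F Ψ ≤ R1.Eu4 x θ η t0 t1 s1 s2 F Ψ' := by
  have h1 : 0 ≤ R1.Eu4 x θ η t0 t1 s1 s2 F
      (fun z0 z1 z2 z3 => Ψ' z0 z1 z2 z3 + -1 * Ψ z0 z1 z2 z3) := by
    rw [R1.Eu4_cond h hx (hΨ'.add (hΨ.const_mul (-1)))]
    refine integral_nonneg fun y0 => integral_nonneg fun y1 => integral_nonneg fun y2 => ?_
    refine mul_nonneg (Real.exp_pos _).le ?_
    set z0 := √t0 • y0
    set z1 := √t0 • y0 + √(t1 - t0) • y1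
    set z2 := √t0 • y0 + √(t1 - t0) • y1 + √(s1 - t1) • y2
    have e1 := cw_int (x := x) (t := s1) (t' := s2) (F := F) z2
      (fun z3 => Ψ' z0 z1 z2 z3 + -1 * Ψ z0 z1 z2 z3)
    refine le_of_le_of_eq ?_ e1.symm
    refine mul_nonneg (Real.exp_pos _).le ?_
    rw [R1.cw_add h hx (E4_slice hΨ' z0 z1 z2) ((E4_slice hΨ z0 z1 z2).const_mul (-1)),
      R1.cw_const_mul]
    linarith [hle z0 z1 z2]
  rw [R1.Eu4_add h hx hΨ' (hΨ.const_mul (-1)), R1.Eu4_const_mul] at h1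
  linarith

/-- A conditional inequality at the last step. -/
theorem Et4_le_cond (h : C11 F D B L) (hx : 0 < x) (hΨ : R1.E4 Ψ) (hΨ' : R1.E4 Ψ')
    (hle : ∀ z0 z1 z2, R1.cw x s1 s2 F (Ψ z0 z1 z2) z2 ≤ R1.cw x s1 s2 F (Ψ' z0 z1 z2) z2) :
    R1.Et4 x θ η t0 t1 s1 s2 F Ψ ≤ R1.Et4 x θ η t0 t1 s1 s2 F Ψ' :=
  div_le_div_of_nonneg_right (Eu4_le_cond h hx hΨ hΨ' hle) (R1.Eu4_one_pos h hx).le

/-! ### radial increments -/

variable [DecidableEq κ]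

/-- **The radial bound.** -/
theorem radial (h : R1.Sm F D B L H T M) (hc : Cv F) (hx : 0 < x) (h1 : s1 ≤ s2)
    (hs : s2 ≤ 1) (θ η t0 t1 : ℝ) :
    x * R1.Et4 x θ η t0 t1 s1 s2 F (fun _ _ z2 z3 => (∑ e, R1.dd x s1 F D e z2 *
      (R1.dd x s2 F D e z3 - R1.dd x s1 F D e z2)) ^ 2) ≤
    R1.Et4 x θ η t0 t1 s1 s2 F (fun _ _ z2 _ => R1.sq x s1 F D z2 * √(R1.hq x s1 F D H z2)) := by
  have ed1 : ∀ e, R1.E4 fun _ _ z2 _ => R1.dd x s1 F D e z2 := fun e =>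
    R1.E4.of2 (R1.eg_dd h.c11 x s1 e)
  have ed2 : ∀ e, R1.E4 fun _ _ _ z3 => R1.dd x s2 F D e z3 := fun e =>
    R1.E4.of3 (R1.eg_dd h.c11 x s2 e)
  have eΨ : R1.E4 fun _ _ z2 z3 => (∑ e, R1.dd x s1 F D e z2 *
      (R1.dd x s2 F D e z3 - R1.dd x s1 F D e z2)) ^ 2 := by
    refine R1.E4.pow ?_ 2
    exact EG.sum _ fun e _ => (ed1 e).mul ((ed2 e).sub (ed1 e))
  have eΨ' : R1.E4 fun _ _ z2 _ => R1.sq x s1 F D z2 * √(R1.hq x s1 F D H z2) :=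
    R1.E4.of2 ((eg_sq h.c11 x s1).mul (EG_sqrt (R1.eg_hq h x s1)))
  rw [← R1.Et4_const_mul]
  refine Et4_le_cond h.c11 hx (eΨ.const_mul x) eΨ' fun z0 z1 z2 => ?_
  rw [R1.cw_const_mul, R1.cw_const h.c11 hx h1 hs]
  set v : κ → ℝ := fun e => R1.dd x s1 F D e z2 with hv
  have h3 := cw_radial (x := x) (t := s1) (t' := s2) h hc hx h1 hs v z2
  have e1 : (fun w => (R1.vD v (R1.dd x s2 F D) w - R1.vD v (R1.dd x s1 F D) z2) ^ 2) =
      fun z3 => (∑ e, R1.dd x s1 F D e z2 *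
        (R1.dd x s2 F D e z3 - R1.dd x s1 F D e z2)) ^ 2 := by
    funext w
    unfold R1.vD
    rw [← Finset.sum_sub_distrib]
    congr 1
    exact Finset.sum_congr rfl fun e _ => by rw [hv]; ring
  rw [e1] at h3
  refine h3.trans ?_
  exact vH_le v (R1.hh x s1 F D H) z2

end Vale.Agent.P146.U.H522
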