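import Vale.Agent.P146.H522.Pout
import Vale.Agent.P146.U.H522_Rad
import Vale.Agent.P146.U.H425_R1Def
import Vale.Agent.P146.U.NS

/-!
Macroscopic rotation of the matrices `C_1`, `C_2` at two times: lower bounds of
`E_θ |C_1 C_2|²` and of `E_θ |[C_1, C_2]|²`.
-/

open MeasureTheory ProbabilityTheory Matrix

namespace Vale.Agent.P146.U.H522

open Vale.Agent.P146.H522 hiding Et4_le_cond Eu4_le_cond radial

open Vale.Agent.P157.Lv Vale.Agent.P146.H425 Vale.Agent.P146.H332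

open Vale.Agent.P146.H325 hiding C2 fr_nonneg

set_option linter.unusedSectionVars false
set_option linter.unusedDecidableInType false

variable {n : ℕ} {k x : ℝ} {F : (Pair n → ℝ) → ℝ} {D : Pair n → (Pair n → ℝ) → ℝ}
  {H T : Pair n → Pair n → (Pair n → ℝ) → ℝ} {B L M θ η t0 t1 s1 s2 t t' : ℝ}
  {C : ℝ → (Pair n → ℝ) → Matrix (Fin n) (Fin n) ℝ}

namespace MRb

/-- **Jensen** -/
theorem jensen (h : MRb k x F D C) (hF : C11 F D B L) (hx : 0 < x) (h1 : s1 ≤ s2)
    (hs : s2 ≤ 1) (θ η t0 t1 : ℝ) :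
    R1.Et4 x θ η t0 t1 s1 s2 F (fun _ _ z2 _ => fr (C s1 z2 * C s1 z2)) ≤
      R1.Et4 x θ η t0 t1 s1 s2 F (fun _ _ z2 z3 => fr (C s1 z2 * C s2 z3)) := by
  refine Et4_le_cond hF hx (h.e4_fr11 s1) (h.e4_fr12 s1 s2) fun z0 z1 z2 => ?_
  rw [R1.cw_const hF hx h1 hs]
  set A := C s1 z2 with hA
  -- the linearised functional
  set G : Matrix (Fin n) (Fin n) ℝ := Aᵀ * (A * A) with hG
  have e1 : ∀ X : Matrix (Fin n) (Fin n) ℝ, ip (A * A) (A * X) = ip G X := by
    intro X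
    have e0 : Gᵀ = (A * A)ᵀ * A := by rw [hG, transpose_mul, transpose_transpose]
    rw [ip_eq_trace, ip_eq_trace, e0, Matrix.mul_assoc]
  have e2 : ∀ w, fr (A * A) + 2 * (ip G (C s2 w) - ip G A) ≤ fr (A * C s2 w) := by
    intro w
    have h2 := fr_lin (A * A) (A * C s2 w)
    rw [ip_sub_right, e1, e1] at h2
    exact h2
  have eG : EG fun w => ip G (C s2 w) := by
    unfold ip
    exact EG.sum _ fun i _ => EG.sum _ fun j _ => (h.eg s2 i j).const_mul _
  have e3 : R1.cw x s1 s2 F (fun w => fr (A * A) + 2 * (ip G (C s2 w) - ip G A)) z2 =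
      fr (A * A) := by
    have e4 : (fun w => fr (A * A) + 2 * (ip G (C s2 w) - ip G A)) = fun w =>
        2 * ip G (C s2 w) + (fr (A * A) - 2 * ip G A) := by
      funext w; ring
    rw [e4, R1.cw_add hF hx (eG.const_mul 2) (EG.const _), R1.cw_const_mul,
      h.cw_lin hF hx h1 hs, R1.cw_const hF hx h1 hs, ← hA]
    ring
  rw [← e3]
  exact R1.cw_mono hF hx ((EG.const _).add ((eG.sub (EG.const _)).const_mul 2))
    (E4_slice (h.e4_fr12 s1 s2) z0 z1 z2) e2 z2

end MRb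

end Vale.Agent.P146.U.H522
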