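import Vale.Agent.P146.H522.Pout2
import Vale.Agent.P146.U.H522_Pout
import Vale.Agent.P146.U.NS

/-!
Macroscopic rotation: the final statements `po1`, `po2`.
-/

open MeasureTheory ProbabilityTheory Matrix

namespace Vale.Agent.P146.U.H522

open Vale.Agent.P146.H522 hiding Et4_le_cond Eu4_le_cond po1 po2 radial

open Vale.Agent.P157.Lv Vale.Agent.P146.H425 Vale.Agent.P146.H332

open Vale.Agent.P146.H325 hiding C2 fr_nonneg

set_option linter.unusedSectionVars false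
set_option linter.unusedDecidableInType false

variable {n : ℕ} {k x : ℝ} {F : (Pair n → ℝ) → ℝ} {D : Pair n → (Pair n → ℝ) → ℝ}
  {H T : Pair n → Pair n → (Pair n → ℝ) → ℝ} {B L M θ η t0 t1 s1 s2 t t' : ℝ}
  {C : ℝ → (Pair n → ℝ) → Matrix (Fin n) (Fin n) ℝ}

/-! ### the two theorems -/

section main

variable (h : MRep k x F D H C) (hS : R1.Sm F D B L H T M) (hc : Cv F) (hx : 0 < x)

include h hS hx in
/-- **(PO1)** -/
theorem po1 (h1 : s1 ≤ s2) (hs : s2 ≤ 1) {ρ A T' δ : ℝ} (hρ : 0 < ρ) (hA : 1 ≤ A)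
    (hT : 0 < T') (hδ : δ ≤ 1 / 4)
    (hlo : R1.Et x θ η t0 t1 s1 F (fun _ _ z => if R1.sq x s1 F D z ≤ ρ / A then (1 : ℝ) else 0) ≤ δ)
    (hq1 : R1.Et x θ η t0 t1 s1 F (fun _ _ z => R1.hq x s1 F D H z) ≤ A * ρ / T')
    (hY : 8 * A ^ 3 ≤ x ^ 2 * ρ * T') :
    (2 * ρ / k ^ 2) ^ 2 / (2 * A ^ 2) ≤
      R1.Et4 x θ η t0 t1 s1 s2 F (fun _ _ z2 z3 => fr (C s1 z2 * C s2 z3)) := by
  have hC := hS.c11
  refine le_trans ?_ (MRb.jensen h.toMRb hC hx h1 hs θ η t0 t1)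
  have hk := h.ksq
  have hA0 : 0 < A := by linarith
  set N := 2 * ρ / k ^ 2 with hN
  have hN0 : 0 < N := by rw [hN]; positivity
  -- pass to the law at `s1`
  have e1 : R1.E3 fun _ _ z2 : Pair n → ℝ => fr (C s1 z2 * C s1 z2) :=
    R1.E3.of2 (eg_frM (eg_mulM (h.eg s1) (h.eg s1)))
  rw [R1.Et4_123 (Ψ := fun _ _ z2 => fr (C s1 z2 * C s1 z2)) hC hx e1 h1 hs]
  -- pointwise
  have hpt : ∀ z : Pair n → ℝ, (N / A) ^ 2 - (N / A) ^ 2 *
      (if R1.sq x s1 F D z ≤ ρ / A then (1 : ℝ) else 0) -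
        8 / (k ^ 4 * x ^ 2) * R1.hq x s1 F D H z ≤ fr (C s1 z * C s1 z) := by
    intro z
    have a1 := h.dfc s1 z
    have a2 := h.fr_rep s1 z
    unfold dfc at a1
    have a3 : (N / A) ^ 2 - (N / A) ^ 2 *
      (if R1.sq x s1 F D z ≤ ρ / A then (1 : ℝ) else 0) ≤ fr (C s1 z) ^ 2 := by
      split_ifs with hz
      · rw [mul_one, sub_self]; positivity
      · rw [mul_zero, sub_zero]
        push Not at hz
        refine pow_le_pow_left₀ (by positivity) ?_ 2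
        rw [a2]
        have a4 : N / A = 2 / k ^ 2 * (ρ / A) := by rw [hN]; ring
        rw [a4]
        have a5 := mul_le_mul_of_nonneg_left hz.le (by positivity : 0 ≤ 2 / k ^ 2)
        have a6 : (0 : ℝ) ≤ n := Nat.cast_nonneg n
        linarith
    linarith
  have ei : R1.E3 fun _ _ z : Pair n → ℝ => if R1.sq x s1 F D z ≤ ρ / A then (1 : ℝ) else 0 :=
    R1.E3.of2 (eg_ind_le (eg_sq hC x s1) _)
  have eq' : R1.E3 fun _ _ z : Pair n → ℝ => R1.hq x s1 F D H z := R1.E3.of2 (R1.eg_hq hS x s1)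
  have hmono := R1.Et_mono (x := x) (θ := θ) (η := η) (t0 := t0) (t1 := t1) (s := s1) hC hx
    (Ψ := fun _ _ z => (N / A) ^ 2 - (N / A) ^ 2 *
      (if R1.sq x s1 F D z ≤ ρ / A then (1 : ℝ) else 0) -
        8 / (k ^ 4 * x ^ 2) * R1.hq x s1 F D H z)
    (((R1.E3.const _).sub (ei.const_mul _)).sub (eq'.const_mul _)) e1 fun _ _ z => hpt z
  rw [R1.Et_sub hC hx ((R1.E3.const _).sub (ei.const_mul _)) (eq'.const_mul _),
    R1.Et_sub hC hx (R1.E3.const _) (ei.const_mul _), R1.Et_const hC hx, R1.Et_const_mul,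
    R1.Et_const_mul] at hmono
  refine le_trans ?_ hmono
  have b1 := mul_le_mul_of_nonneg_left (hlo.trans hδ) (by positivity : 0 ≤ (N / A) ^ 2)
  have b2 := mul_le_mul_of_nonneg_left hq1 (by positivity : 0 ≤ 8 / (k ^ 4 * x ^ 2))
  have b3 : 8 / (k ^ 4 * x ^ 2) * (A * ρ / T') ≤ 1 / 4 * (N / A) ^ 2 := by
    have hYp : 0 < x ^ 2 * ρ * T' := by positivity
    have c1 : 8 / (k ^ 4 * x ^ 2) * (A * ρ / T') = N ^ 2 * (2 * A / (x ^ 2 * ρ * T')) := by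
      rw [hN]
      have e4 : k ^ 4 = (k ^ 2) ^ 2 := by ring
      rw [e4]
      generalize k ^ 2 = K at *
      field_simp
      ring
    have c2 : 1 / 4 * (N / A) ^ 2 = N ^ 2 * (1 / (4 * A ^ 2)) := by
      rw [div_pow]; ring
    rw [c1, c2]
    refine mul_le_mul_of_nonneg_left ?_ (by positivity)
    rw [div_le_div_iff₀ hYp (by positivity)]
    nlinarith
  have b4 : N ^ 2 / (2 * A ^ 2) = 1 / 2 * (N / A) ^ 2 := by rw [div_pow]; ring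
  rw [b4]
  linarith

include h hS hc hx in
/-- **(PO2)** -/
theorem po2 (h01 : t1 ≤ s1) (h1 : s1 ≤ s2) (hs : s2 ≤ 1) {ρ A T' δ : ℝ} (hρ : 0 < ρ) (hA : 1 ≤ A)
    (hT : 0 < T')
    (hnA : (n : ℝ) ≤ 2 * ρ / k ^ 2) (hδ : 24 * A * ((n : ℝ) ^ 2 * δ) ≤ 2 * ρ / k ^ 2)
    (hlo : R1.Et x θ η t0 t1 s1 F (fun _ _ z => if R1.sq x s1 F D z ≤ ρ / A then (1 : ℝ) else 0) ≤ δ)
    (hup1 : R1.Et x θ η t0 t1 s1 F (fun _ _ z => if A * ρ ≤ R1.sq x s1 F D z then (1 : ℝ) else 0) ≤ δ)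
    (hup2 : R1.Et x θ η t0 t1 s2 F (fun _ _ z => if A * ρ ≤ R1.sq x s2 F D z then (1 : ℝ) else 0) ≤ δ)
    (hm : R1.Et x θ η t0 t1 s1 F (fun _ _ z => R1.sq x s1 F D z ^ 2) ≤ A * ρ ^ 2)
    (hq1 : R1.Et x θ η t0 t1 s1 F (fun _ _ z => R1.hq x s1 F D H z) ≤ A * ρ / T')
    (hq2 : R1.Et x θ η t0 t1 s2 F (fun _ _ z => R1.hq x s2 F D H z) ≤ A * ρ / T')
    (hgr : ρ / A ≤ R1.Qt x θ η t0 t1 s2 F D - R1.Qt x θ η t0 t1 s1 F D)
    (hY : 10 ^ 12 * A ^ 20 ≤ x ^ 2 * ρ * T') :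
    (2 * ρ / k ^ 2) ^ 2 / (4 * A ^ 3) ≤
      R1.Et4 x θ η t0 t1 s1 s2 F (fun _ _ z2 z3 =>
        fr (C s1 z2 * C s2 z3 - C s2 z3 * C s1 z2)) := by
  have hC := hS.c11
  have hk := h.ksq
  have hA0 : 0 < A := by linarith
  set N := 2 * ρ / k ^ 2 with hN
  have hN0 : 0 < N := by rw [hN]; positivity
  have hn0 : (0 : ℝ) ≤ n := Nat.cast_nonneg n
  set E : R1.Fn4 (Pair n) → ℝ := R1.Et4 x θ η t0 t1 s1 s2 F with hE
  -- the functions
  set χ1 : (Pair n → ℝ) → ℝ := fun z => if R1.sq x s1 F D z ≤ ρ / A then (1 : ℝ) else 0 with hχ1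
  set χ2 : (Pair n → ℝ) → ℝ := fun z => if A * ρ ≤ R1.sq x s1 F D z then (1 : ℝ) else 0 with hχ2
  set χ3 : (Pair n → ℝ) → ℝ := fun z => if A * ρ ≤ R1.sq x s2 F D z then (1 : ℝ) else 0 with hχ3
  set y : (Pair n → ℝ) → (Pair n → ℝ) → ℝ := fun z2 z3 => ∑ e, R1.dd x s1 F D e z2 *
      (R1.dd x s2 F D e z3 - R1.dd x s1 F D e z2) with hy
  have eχ1 : R1.E3 fun _ _ z : Pair n → ℝ => χ1 z := R1.E3.of2 (eg_ind_le (eg_sq hC x s1) _)
  have eχ2 : R1.E3 fun _ _ z : Pair n → ℝ => χ2 z := R1.E3.of2 (eg_ind_ge (eg_sq hC x s1) _)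
  have eχ3 : R1.E3 fun _ _ z : Pair n → ℝ => χ3 z := R1.E3.of2 (eg_ind_ge (eg_sq hC x s2) _)
  have ed1 : ∀ e, R1.E4 fun _ _ z2 _ => R1.dd x s1 F D e z2 := fun e =>
    R1.E4.of2 (R1.eg_dd hC x s1 e)
  have ed2 : ∀ e, R1.E4 fun _ _ _ z3 => R1.dd x s2 F D e z3 := fun e =>
    R1.E4.of3 (R1.eg_dd hC x s2 e)
  have ey : R1.E4 fun _ _ z2 z3 => y z2 z3 :=
    EG.sum _ fun e _ => (ed1 e).mul ((ed2 e).sub (ed1 e))
  have esq1 : R1.E4 fun _ _ z2 _ => R1.sq x s1 F D z2 := R1.E4.of2 (eg_sq hC x s1)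
  have esq2 : R1.E4 fun _ _ _ z3 => R1.sq x s2 F D z3 := R1.E4.of3 (eg_sq hC x s2)
  have edf1 : R1.E4 fun _ _ z2 _ => √(dfc (C s1 z2)) := R1.E4.of2 (EG_sqrt (eg_dfc h s1))
  have edf2 : R1.E4 fun _ _ _ z3 => √(dfc (C s2 z3)) := R1.E4.of3 (EG_sqrt (eg_dfc h s2))
  have eX1 : R1.E4 fun _ _ z2 _ => χ1 z2 := R1.E4.of_E3 eχ1
  have eX2 : R1.E4 fun _ _ z2 _ => χ2 z2 := R1.E4.of_E3 eχ2
  have eX3 : R1.E4 fun _ _ _ z3 => χ3 z3 := R1.E4.of_E3' eχ3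
  -- pointwise inequality
  have hpt : ∀ z2 z3 : Pair n → ℝ,
      N / (2 * A ^ 2) * (2 / k ^ 2 * (R1.sq x s2 F D z3 - R1.sq x s1 F D z2)) -
        18 * (2 * A * N) * (2 / k ^ 2 * |y z2 z3|) -
        2 * (2 * A * N) * (√(dfc (C s1 z2)) + √(dfc (C s2 z3))) -
        N / (2 * A ^ 2) * (n : ℝ) ^ 2 * (χ1 z2 + χ2 z2 + χ3 z3) ≤
      fr (C s1 z2 * C s2 z3 - C s2 z3 * C s1 z2) := by
    intro z2 z3
    have f1 := h.fr_rep s1 z2
    have f2 := h.fr_rep s2 z3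
    have f3 : 2 / k ^ 2 * (R1.sq x s2 F D z3 - R1.sq x s1 F D z2) =
        fr (C s2 z3) - fr (C s1 z2) := by rw [f1, f2]; ring
    have f4 : 2 / k ^ 2 * |y z2 z3| = |ip (C s1 z2) (C s2 z3) - fr (C s1 z2)| := by
      rw [h.ip_sub, abs_mul, abs_of_pos (by positivity : 0 < 2 / k ^ 2)]
    rw [f3, f4]
    have g1 : 0 ≤ χ1 z2 := by simp only [hχ1]; split_ifs <;> norm_num
    have g2 : 0 ≤ χ2 z2 := by simp only [hχ2]; split_ifs <;> norm_num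
    have g3 : 0 ≤ χ3 z3 := by simp only [hχ3]; split_ifs <;> norm_num
    have hc0 : 0 ≤ N / (2 * A ^ 2) := by positivity
    have d1 : 0 ≤ √(dfc (C s1 z2)) := Real.sqrt_nonneg _
    have d2 : 0 ≤ √(dfc (C s2 z3)) := Real.sqrt_nonneg _
    have d3 : 0 ≤ |ip (C s1 z2) (C s2 z3) - fr (C s1 z2)| := abs_nonneg _
    by_cases hgood : χ1 z2 + χ2 z2 + χ3 z3 < 1
    · -- all the indicators vanish
      have k1 : ρ / A < R1.sq x s1 F D z2 := by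
        by_contra hcon
        push Not at hcon
        have : χ1 z2 = 1 := by simp only [hχ1]; rw [if_pos hcon]
        linarith
      have k2 : R1.sq x s1 F D z2 < A * ρ := by
        by_contra hcon
        push Not at hcon
        have : χ2 z2 = 1 := by simp only [hχ2]; rw [if_pos hcon]
        linarith
      have k3 : R1.sq x s2 F D z3 < A * ρ := by
        by_contra hcon
        push Not at hcon
        have : χ3 z3 = 1 := by simp only [hχ3]; rw [if_pos hcon]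
        linarith
      have hk2 : 0 < 2 / k ^ 2 := by positivity
      have l1 : N / A ≤ fr (C s1 z2) := by
        have a4 : N / A = 2 / k ^ 2 * (ρ / A) := by rw [hN]; ring
        rw [f1, a4]
        linarith [mul_le_mul_of_nonneg_left k1.le hk2.le]
      have hNA : A * N = 2 / k ^ 2 * (A * ρ) := by rw [hN]; ring
      have hNAN : N ≤ A * N := by nlinarith
      have l2 : fr (C s1 z2) ≤ 2 * A * N := by
        rw [f1]
        linarith [mul_le_mul_of_nonneg_left k2.le hk2.le]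
      have l3 : fr (C s2 z3) ≤ 2 * A * N := by
        rw [f2]
        linarith [mul_le_mul_of_nonneg_left k3.le hk2.le]
      have l4 : (N / (2 * A ^ 2)) ^ 2 * (2 * A * N) ≤ (N / A) ^ 3 := by
        have e1 : (N / (2 * A ^ 2)) ^ 2 * (2 * A * N) = 1 / 2 * (N / A) ^ 3 := by
          field_simp
        rw [e1]
        have : 0 ≤ (N / A) ^ 3 := by positivity
        linarith
      have key := rot_point (h.psd s1 z2) (h.psd s2 z3) (by positivity : 0 < N / A) hc0 l4 l1 l2 l3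
      have h5 : 0 ≤ N / (2 * A ^ 2) * (n : ℝ) ^ 2 * (χ1 z2 + χ2 z2 + χ3 z3) := by positivity
      linarith
    · push Not at hgood
      have l1 : fr (C s2 z3) - fr (C s1 z2) ≤ (n : ℝ) ^ 2 := by
        have := h.fr_le s2 z3
        have h6 : 0 ≤ fr (C s1 z2) := fr_nonneg _
        linarith
      have l2 : N / (2 * A ^ 2) * (fr (C s2 z3) - fr (C s1 z2)) ≤
          N / (2 * A ^ 2) * (n : ℝ) ^ 2 * (χ1 z2 + χ2 z2 + χ3 z3) := by
        calc N / (2 * A ^ 2) * (fr (C s2 z3) - fr (C s1 z2)) ≤ N / (2 * A ^ 2) * (n : ℝ) ^ 2 :=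
              mul_le_mul_of_nonneg_left l1 hc0
          _ = N / (2 * A ^ 2) * (n : ℝ) ^ 2 * 1 := (mul_one _).symm
          _ ≤ _ := mul_le_mul_of_nonneg_left hgood (by positivity)
      have l3 : 0 ≤ fr (C s1 z2 * C s2 z3 - C s2 z3 * C s1 z2) := fr_nonneg _
      have l4 : 0 ≤ 18 * (2 * A * N) * |ip (C s1 z2) (C s2 z3) - fr (C s1 z2)| := by positivity
      have l5 : 0 ≤ 2 * (2 * A * N) * (√(dfc (C s1 z2)) + √(dfc (C s2 z3))) := by positivity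
      linarith
  -- the expectations
  have eA : R1.E4 fun _ _ z2 z3 => N / (2 * A ^ 2) * (2 / k ^ 2 *
      (R1.sq x s2 F D z3 - R1.sq x s1 F D z2)) := ((esq2.sub esq1).const_mul _).const_mul _
  have eB : R1.E4 fun _ _ z2 z3 => 18 * (2 * A * N) * (2 / k ^ 2 * |y z2 z3|) :=
    (ey.abs.const_mul _).const_mul _
  have eCC : R1.E4 fun _ _ z2 z3 => 2 * (2 * A * N) * (√(dfc (C s1 z2)) + √(dfc (C s2 z3))) :=
    (edf1.add edf2).const_mul _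
  have eD : R1.E4 fun _ _ z2 z3 => N / (2 * A ^ 2) * (n : ℝ) ^ 2 * (χ1 z2 + χ2 z2 + χ3 z3) :=
    ((eX1.add eX2).add eX3).const_mul _
  have hmono := R1.Et4_mono (x := x) (θ := θ) (η := η) (t0 := t0) (t1 := t1) (s1 := s1) (s2 := s2) hC hx
    (((eA.sub eB).sub eCC).sub eD) (h.e4_comm s1 s2) fun _ _ z2 z3 => hpt z2 z3
  rw [R1.Et4_sub hC hx ((eA.sub eB).sub eCC) eD, R1.Et4_sub hC hx (eA.sub eB) eCC,
    R1.Et4_sub hC hx eA eB] at hmono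
  rw [← hE] at hmono
  have vA : E (fun _ _ z2 z3 => N / (2 * A ^ 2) * (2 / k ^ 2 *
      (R1.sq x s2 F D z3 - R1.sq x s1 F D z2))) = N / (2 * A ^ 2) * (2 / k ^ 2 *
        (R1.Qt x θ η t0 t1 s2 F D - R1.Qt x θ η t0 t1 s1 F D)) := by
    rw [hE, R1.Et4_const_mul (Ψ := fun _ _ z2 z3 => 2 / k ^ 2 *
      (R1.sq x s2 F D z3 - R1.sq x s1 F D z2)),
      R1.Et4_const_mul (Ψ := fun _ _ z2 z3 => R1.sq x s2 F D z3 - R1.sq x s1 F D z2),
      R1.Et4_sub hC hx esq2 esq1,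
      R1.Et4_124 (Ψ := fun _ _ z => R1.sq x s2 F D z) hC hx (R1.E3.of2 (eg_sq hC x s2)) h01 h1,
      R1.Et4_123 (Ψ := fun _ _ z => R1.sq x s1 F D z) hC hx (R1.E3.of2 (eg_sq hC x s1)) h1 hs]
    rfl
  have vB : E (fun _ _ z2 z3 => 18 * (2 * A * N) * (2 / k ^ 2 * |y z2 z3|)) =
      18 * (2 * A * N) * (2 / k ^ 2 * E (fun _ _ z2 z3 => |y z2 z3|)) := by
    rw [hE, R1.Et4_const_mul (Ψ := fun _ _ z2 z3 => 2 / k ^ 2 * |y z2 z3|),
      R1.Et4_const_mul (Ψ := fun _ _ z2 z3 => |y z2 z3|)]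
  have vC : E (fun _ _ z2 z3 => 2 * (2 * A * N) * (√(dfc (C s1 z2)) + √(dfc (C s2 z3)))) =
      2 * (2 * A * N) * (E (fun _ _ z2 _ => √(dfc (C s1 z2))) +
        E (fun _ _ _ z3 => √(dfc (C s2 z3)))) := by
    rw [hE, R1.Et4_const_mul (Ψ := fun _ _ z2 z3 => √(dfc (C s1 z2)) + √(dfc (C s2 z3))),
      R1.Et4_add hC hx edf1 edf2]
  have vD : E (fun _ _ z2 z3 => N / (2 * A ^ 2) * (n : ℝ) ^ 2 * (χ1 z2 + χ2 z2 + χ3 z3)) =
      N / (2 * A ^ 2) * (n : ℝ) ^ 2 * (E (fun _ _ z2 _ => χ1 z2) + E (fun _ _ z2 _ => χ2 z2) +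
        E (fun _ _ _ z3 => χ3 z3)) := by
    rw [hE, R1.Et4_const_mul (Ψ := fun _ _ z2 z3 => χ1 z2 + χ2 z2 + χ3 z3),
      R1.Et4_add hC hx (eX1.add eX2) eX3, R1.Et4_add hC hx eX1 eX2]
  rw [vA, vB, vC, vD] at hmono
  -- indicators
  have w1 : E (fun _ _ z2 _ => χ1 z2) ≤ δ := by
    rw [hE, R1.Et4_123 (Ψ := fun _ _ z => χ1 z) hC hx eχ1 h1 hs]
    exact hlo
  have w2 : E (fun _ _ z2 _ => χ2 z2) ≤ δ := by
    rw [hE, R1.Et4_123 (Ψ := fun _ _ z => χ2 z) hC hx eχ2 h1 hs]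
    exact hup1
  have w3 : E (fun _ _ _ z3 => χ3 z3) ≤ δ := by
    rw [hE, R1.Et4_124 (Ψ := fun _ _ z => χ3 z) hC hx eχ3 h01 h1]
    exact hup2
  -- the Hessians
  have eq1 : R1.E4 fun _ _ z2 _ => R1.hq x s1 F D H z2 := R1.E4.of2 (R1.eg_hq hS x s1)
  have eq2 : R1.E4 fun _ _ _ z3 => R1.hq x s2 F D H z3 := R1.E4.of3 (R1.eg_hq hS x s2)
  have u1 : E (fun _ _ z2 _ => R1.hq x s1 F D H z2) ≤ A * ρ / T' := by
    rw [hE, R1.Et4_123 (Ψ := fun _ _ z => R1.hq x s1 F D H z) hC hx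
      (R1.E3.of2 (R1.eg_hq hS x s1)) h1 hs]
    exact hq1
  have u2 : E (fun _ _ _ z3 => R1.hq x s2 F D H z3) ≤ A * ρ / T' := by
    rw [hE, R1.Et4_124 (Ψ := fun _ _ z => R1.hq x s2 F D H z) hC hx
      (R1.E3.of2 (R1.eg_hq hS x s2)) h01 h1]
    exact hq2
  have u3 : E (fun _ _ z2 _ => R1.sq x s1 F D z2 ^ 2) ≤ A * ρ ^ 2 := by
    rw [hE, R1.Et4_123 (Ψ := fun _ _ z => R1.sq x s1 F D z ^ 2) hC hx
      (R1.E3.of2 ((eg_sq hC x s1).pow 2)) h1 hs]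
    exact hm
  -- Cauchy-Schwarz with the function 1
  have cs1 : ∀ {Ψ : R1.Fn4 (Pair n)}, R1.E4 Ψ → E Ψ ^ 2 ≤ E (fun z0 z1 z2 z3 => Ψ z0 z1 z2 z3 ^ 2) := by
    intro Ψ hΨ
    have := R1.Et4_cs (x := x) (θ := θ) (η := η) (t0 := t0) (t1 := t1) (s1 := s1) (s2 := s2) hC hx hΨ
      (R1.E4.const 1)
    simp only [mul_one, one_pow] at this
    rwa [R1.Et4_const hC hx, mul_one] at this
  -- radial term
  set W : ℝ := E (fun _ _ z2 z3 => y z2 z3 ^ 2) with hW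
  set S : ℝ := E (fun _ _ z2 _ => R1.sq x s1 F D z2 * √(R1.hq x s1 F D H z2)) with hSS
  have hrad : x * W ≤ S := radial hS hc hx h1 hs θ η t0 t1
  have hS0 : 0 ≤ S := R1.Et4_nonneg hC hx fun _ _ z2 _ =>
    mul_nonneg (sq_nonneg' z2) (Real.sqrt_nonneg _)
  have hS2 : S ^ 2 ≤ (A * ρ ^ 2) * (A * ρ / T') := by
    have c1 := R1.Et4_cs (x := x) (θ := θ) (η := η) (t0 := t0) (t1 := t1) (s1 := s1) (s2 := s2) hC hx
      (Ψ := fun _ _ z2 _ => R1.sq x s1 F D z2) (Ψ' := fun _ _ z2 _ => √(R1.hq x s1 F D H z2))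
      esq1 (R1.E4.of2 (EG_sqrt (R1.eg_hq hS x s1)))
    have c2 : ∀ z2 : Pair n → ℝ, √(R1.hq x s1 F D H z2) ^ 2 = R1.hq x s1 F D H z2 := fun z2 =>
      Real.sq_sqrt (R1.hq_nonneg z2)
    simp only [c2] at c1
    refine c1.trans ?_
    have c3 : 0 ≤ E (fun _ _ z2 _ => R1.hq x s1 F D H z2) :=
      R1.Et4_nonneg hC hx fun _ _ z2 _ => R1.hq_nonneg z2
    exact mul_le_mul u3 u1 c3 (by positivity)
  have hE2 : (2 / k ^ 2 * E (fun _ _ z2 z3 => |y z2 z3|)) ^ 2 ≤ (2 / k ^ 2) ^ 2 * W := by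
    rw [mul_pow]
    refine mul_le_mul_of_nonneg_left ?_ (by positivity)
    have := cs1 ey.abs
    simp only [sq_abs] at this
    exact this
  have r2 := num_rad hA hρ hT hx hk rfl hY hS2 hrad hE2
  -- defects
  have edd1 : R1.E4 fun _ _ z2 _ => dfc (C s1 z2) := R1.E4.of2 (eg_dfc h s1)
  have edd2 : R1.E4 fun _ _ _ z3 => dfc (C s2 z3) := R1.E4.of3 (eg_dfc h s2)
  have hE3 : E (fun _ _ z2 _ => √(dfc (C s1 z2))) ^ 2 ≤ 8 / (k ^ 4 * x ^ 2) * (A * ρ / T') := by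
    have c1 := cs1 edf1
    have c2 : ∀ z2 : Pair n → ℝ, √(dfc (C s1 z2)) ^ 2 = dfc (C s1 z2) := fun z2 =>
      Real.sq_sqrt (dfc_nonneg (h.psd s1 z2))
    simp only [c2] at c1
    refine c1.trans ?_
    have c3 := R1.Et4_mono (x := x) (θ := θ) (η := η) (t0 := t0) (t1 := t1) (s1 := s1) (s2 := s2) hC hx
      edd1 (eq1.const_mul (8 / (k ^ 4 * x ^ 2))) fun _ _ z2 _ => h.dfc s1 z2
    rw [R1.Et4_const_mul] at c3
    exact c3.trans (mul_le_mul_of_nonneg_left u1 (by positivity))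
  have hE4 : E (fun _ _ _ z3 => √(dfc (C s2 z3))) ^ 2 ≤ 8 / (k ^ 4 * x ^ 2) * (A * ρ / T') := by
    have c1 := cs1 edf2
    have c2 : ∀ z2 : Pair n → ℝ, √(dfc (C s2 z2)) ^ 2 = dfc (C s2 z2) := fun z2 =>
      Real.sq_sqrt (dfc_nonneg (h.psd s2 z2))
    simp only [c2] at c1
    refine c1.trans ?_
    have c3 := R1.Et4_mono (x := x) (θ := θ) (η := η) (t0 := t0) (t1 := t1) (s1 := s1) (s2 := s2) hC hx
      edd2 (eq2.const_mul (8 / (k ^ 4 * x ^ 2))) fun _ _ _ z3 => h.dfc s2 z3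
    rw [R1.Et4_const_mul] at c3
    exact c3.trans (mul_le_mul_of_nonneg_left u2 (by positivity))
  have r3 := num_def hA hρ hT hx hk rfl hY hE3
  have r4 := num_def hA hρ hT hx hk rfl hY hE4
  -- growth
  have r1 : N / A ≤ 2 / k ^ 2 * (R1.Qt x θ η t0 t1 s2 F D - R1.Qt x θ η t0 t1 s1 F D) := by
    have a4 : N / A = 2 / k ^ 2 * (ρ / A) := by rw [hN]; ring
    rw [a4]
    exact mul_le_mul_of_nonneg_left hgr (by positivity)
  have r5 : 8 * A * ((n : ℝ) ^ 2 * (E (fun _ _ z2 _ => χ1 z2) + E (fun _ _ z2 _ => χ2 z2) +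
        E (fun _ _ _ z3 => χ3 z3))) ≤ N := by
    have : E (fun _ _ z2 _ => χ1 z2) + E (fun _ _ z2 _ => χ2 z2) +
        E (fun _ _ _ z3 => χ3 z3) ≤ 3 * δ := by linarith
    have h7 := mul_le_mul_of_nonneg_left this (by positivity : 0 ≤ 8 * A * (n : ℝ) ^ 2)
    linarith
  exact num_fin hA hN0 r1 r2 r3 r4 r5 hmono

end main

end Vale.Agent.P146.U.H522
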