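import Vale.Agent.P146.H522.PoFo
import Vale.Agent.P146.U.H522_Pout2
import Vale.Agent.P146.U.H325_Fo
import Vale.Agent.P146.U.H332_CDef
import Vale.Agent.P146.U.NS

/-!
Macroscopic rotation, in the form of the output `Fo` of the block F: with `A1 = AM s1 (P2 w)`,
`A2 = AM s2 (P3 w)`, `N = NN n β ρ`,

* `po1_fo` : `N² / (2 A²) ≤ En |A1 A2|²`;
* `po2_fo` : with the growth inequality `Gro`, `N² / (4 A³) ≤ En |[A1, A2]|²`.
-/

open MeasureTheory ProbabilityTheory Matrix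

namespace Vale.Agent.P146.U.H522

open Vale.Agent.P146.H522 hiding Et4_le_cond Eu4_le_cond MR.radial NN_k po1 po1_fo po2 po2_fo
  radial

open Vale.Agent.P157.Lv Vale.Agent.P146.H425 Vale.Agent.P146.H332

open Vale.Agent.P146.H325 hiding C2 fr_nonneg

open Vale.Agent.P146.R1C (NN kk rt DC)
open Vale.Agent.P146.U.R1C (Par P0 P1 P2 P3 En Fo Gro kk_NN)

set_option linter.unusedSectionVars false
set_option linter.unusedDecidableInType false

variable {n : ℕ} {k x : ℝ} {F : (Pair n → ℝ) → ℝ} {D : Pair n → (Pair n → ℝ) → ℝ}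
  {B L β A δ T ρ Λ ye : ℝ} {q : Par}
  {C : ℝ → (Pair n → ℝ) → Matrix (Fin n) (Fin n) ℝ}
  {DM : ℝ → Pair n → (Pair n → ℝ) → Matrix (Fin n) (Fin n) ℝ}

/-- Matrix functions representing the gradient of the value function, with a bound of the distance
to rank one (exponent `y`) and a bound of the radial variance. -/
structure MR (k x y : ℝ) (F : (Pair n → ℝ) → ℝ) (D : Pair n → (Pair n → ℝ) → ℝ)
    (C : ℝ → (Pair n → ℝ) → Matrix (Fin n) (Fin n) ℝ)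
    (DM : ℝ → Pair n → (Pair n → ℝ) → Matrix (Fin n) (Fin n) ℝ) : Prop extends
    MRb k x F D C where
  egr : ∀ t, EG fun z => rt DM t z
  sw : ∀ t, 0 < t → ∀ z, dfc (C t z) ≤ 4 / (k ^ 2 * y ^ 2) * rt DM t z
  rad : ∀ t t', 0 < t → t ≤ t' → t' ≤ 1 → ∀ v z : Pair n → ℝ,
    x * R1.cw x t t' F (fun w => (R1.vD v (R1.dd x t' F D) w - R1.vD v (R1.dd x t F D) z) ^ 2) z ≤
      (∑ e, v e ^ 2) * √(k ^ 2 / 2 * rt DM t z)

/-- **The radial bound.** -/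
theorem MR.radial (h : MR k x ye F D C DM) (hC : C11 F D B L) (hx : 0 < x) {s1 s2 : ℝ} (h0 : 0 < s1)
    (h1 : s1 ≤ s2) (hs : s2 ≤ 1) (θ η t0 t1 : ℝ) :
    x * R1.Et4 x θ η t0 t1 s1 s2 F (fun _ _ z2 z3 => (∑ e, R1.dd x s1 F D e z2 *
      (R1.dd x s2 F D e z3 - R1.dd x s1 F D e z2)) ^ 2) ≤
    R1.Et4 x θ η t0 t1 s1 s2 F (fun _ _ z2 _ => R1.sq x s1 F D z2 *
      √(k ^ 2 / 2 * rt DM s1 z2)) := by
  have ed1 : ∀ e, R1.E4 fun _ _ z2 _ => R1.dd x s1 F D e z2 := fun e =>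
    R1.E4.of2 (R1.eg_dd hC x s1 e)
  have ed2 : ∀ e, R1.E4 fun _ _ _ z3 => R1.dd x s2 F D e z3 := fun e =>
    R1.E4.of3 (R1.eg_dd hC x s2 e)
  have eΨ : R1.E4 fun _ _ z2 z3 => (∑ e, R1.dd x s1 F D e z2 *
      (R1.dd x s2 F D e z3 - R1.dd x s1 F D e z2)) ^ 2 := by
    refine R1.E4.pow ?_ 2
    exact EG.sum _ fun e _ => (ed1 e).mul ((ed2 e).sub (ed1 e))
  have eΨ' : R1.E4 fun _ _ z2 _ => R1.sq x s1 F D z2 * √(k ^ 2 / 2 * rt DM s1 z2) :=
    R1.E4.of2 ((eg_sq hC x s1).mul (EG_sqrt ((h.egr s1).const_mul _)))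
  rw [← R1.Et4_const_mul]
  refine Et4_le_cond hC hx (eΨ.const_mul x) eΨ' fun z0 z1 z2 => ?_
  rw [R1.cw_const_mul, R1.cw_const hC hx h1 hs]
  set v : Pair n → ℝ := fun e => R1.dd x s1 F D e z2 with hv
  have h3 := h.rad s1 s2 h0 h1 hs v z2
  have e1 : (fun w => (R1.vD v (R1.dd x s2 F D) w - R1.vD v (R1.dd x s1 F D) z2) ^ 2) =
      fun z3 => (∑ e, R1.dd x s1 F D e z2 *
        (R1.dd x s2 F D e z3 - R1.dd x s1 F D e z2)) ^ 2 := by
    funext w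
    unfold R1.vD
    rw [← Finset.sum_sub_distrib]
    congr 1
    exact Finset.sum_congr rfl fun e _ => by rw [hv]; ring
  rw [e1] at h3
  exact h3

/-! ### numbers -/

section main

variable (h : MR k q.x ye F D C DM) (hC : C11 F D B L) (hf : Fo n β A δ T ρ Λ ye q F C DM)
  (hk : k = kk n β)

include hf hk in
lemma NN_k : NN n β ρ = 2 * ρ / k ^ 2 := by
  have h1 := kk_NN hf
  have h2 : kk n β ^ 2 ≠ 0 := by
    intro h0
    rw [h0, zero_mul] at h1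
    have := hf.ρ1
    linarith
  rw [hk, eq_div_iff h2, mul_comm]
  exact h1

include h hC hf hk in
/-- **(PO1)** -/
theorem po1_fo (hA : 2 ≤ A) : NN n β ρ ^ 2 / (2 * A ^ 2) ≤
    En q F (fun w => fr (C q.s1 (P2 q w) * C q.s2 (P3 q w))) := by
  have hx := hf.ok.x0
  have h1 := hf.ok.h12
  have hs := hf.ok.h2
  have hρ : 0 < ρ := by linarith [hf.ρ1]
  have hT := hf.Tp
  have h0s : 0 < q.s1 := by
    have := hf.hs1
    have := hf.ok.h0
    have := hf.ok.h01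
    linarith
  refine le_trans ?_ (MRb.jensen h.toMRb hC hx h1 hs q.θ q.η q.t0 q.t1)
  have hk2 := h.ksq
  have hA0 : 0 < A := by linarith
  have hNk := NN_k hf hk
  have hN0 := hf.N0
  set N := NN n β ρ with hN
  have e1 : R1.E4 fun _ _ z2 _ => fr (C q.s1 z2 * C q.s1 z2) :=
    R1.E4.of2 (eg_frM (eg_mulM (h.eg q.s1) (h.eg q.s1)))
  have hpt : ∀ z : Pair n → ℝ, (N / A) ^ 2 - (N / A) ^ 2 *
      (if fr (C q.s1 z) < N / A then (1 : ℝ) else 0) -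
        4 / (k ^ 2 * ye ^ 2) * rt DM q.s1 z ≤ fr (C q.s1 z * C q.s1 z) := by
    intro z
    have a1 := h.sw q.s1 h0s z
    unfold dfc at a1
    have a3 : (N / A) ^ 2 - (N / A) ^ 2 *
      (if fr (C q.s1 z) < N / A then (1 : ℝ) else 0) ≤ fr (C q.s1 z) ^ 2 := by
      split_ifs with hz
      · rw [mul_one, sub_self]; positivity
      · rw [mul_zero, sub_zero]
        push Not at hz
        exact pow_le_pow_left₀ (by positivity) hz 2
    linarith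
  have ei : R1.E4 fun _ _ z2 _ => if fr (C q.s1 z2) < N / A then (1 : ℝ) else 0 :=
    R1.E4.of2 (eg_ind_lt (eg_frM (h.eg q.s1)) _)
  have er : R1.E4 fun _ _ z2 _ => rt DM q.s1 z2 := R1.E4.of2 (h.egr q.s1)
  have hmono := R1.Et4_mono (x := q.x) (θ := q.θ) (η := q.η) (t0 := q.t0) (t1 := q.t1) (s1 := q.s1)
    (s2 := q.s2) hC hx (((R1.E4.const _).sub (ei.const_mul _)).sub (er.const_mul _)) e1
    fun _ _ z _ => hpt z
  rw [R1.Et4_sub hC hx ((R1.E4.const _).sub (ei.const_mul _)) (er.const_mul _),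
    R1.Et4_sub hC hx (R1.E4.const _) (ei.const_mul _), R1.Et4_const hC hx, R1.Et4_const_mul,
    R1.Et4_const_mul] at hmono
  refine le_trans ?_ hmono
  have hlo : R1.Et4 q.x q.θ q.η q.t0 q.t1 q.s1 q.s2 F (fun _ _ z2 _ =>
      if fr (C q.s1 z2) < N / A then (1 : ℝ) else 0) ≤ δ := hf.lo2
  have hrt : R1.Et4 q.x q.θ q.η q.t0 q.t1 q.s1 q.s2 F (fun _ _ z2 _ => rt DM q.s1 z2) ≤
      A * N / T := hf.rt2
  have hδ : δ ≤ 1 / 4 := by
    have h5 := hf.δ_leA (p := 2) (by norm_num)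
    have h7 : (4 : ℝ) ≤ A ^ 2 := by nlinarith
    have h8 := mul_le_mul_of_nonneg_right h7 hf.δ0
    linarith
  have b1 := mul_le_mul_of_nonneg_left (hlo.trans hδ) (by positivity : 0 ≤ (N / A) ^ 2)
  have b2 := mul_le_mul_of_nonneg_left hrt (by positivity : 0 ≤ 4 / (k ^ 2 * ye ^ 2))
  have hye := hf.y0
  have hY : 8 * A ^ 3 ≤ ye ^ 2 * ρ * T := by
    refine le_trans ?_ hf.yr
    calc 8 * A ^ 3 = 2 ^ 3 * A ^ 3 := by norm_num
      _ ≤ A ^ 3 * A ^ 3 := mul_le_mul_of_nonneg_right (pow_le_pow_left₀ (by norm_num) hA 3)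
          (by positivity)
      _ = A ^ 6 := by ring
      _ ≤ A ^ 40 := pow_le_pow_right₀ (by linarith) (by norm_num)
  have b3 : 4 / (k ^ 2 * ye ^ 2) * (A * N / T) ≤ 1 / 4 * (N / A) ^ 2 := by
    have hYp : 0 < ye ^ 2 * ρ * T := by positivity
    have c1 : 4 / (k ^ 2 * ye ^ 2) * (A * N / T) = N ^ 2 * (2 * A / (ye ^ 2 * ρ * T)) := by
      rw [hNk]
      generalize k ^ 2 = K at *
      field_simp
      ring
    have c2 : 1 / 4 * (N / A) ^ 2 = N ^ 2 * (1 / (4 * A ^ 2)) := by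
      rw [div_pow]; ring
    rw [c1, c2]
    refine mul_le_mul_of_nonneg_left ?_ (by positivity)
    rw [div_le_div_iff₀ hYp (by positivity)]
    nlinarith
  have b4 : N ^ 2 / (2 * A ^ 2) = 1 / 2 * (N / A) ^ 2 := by rw [div_pow]; ring
  rw [b4]
  linarith

include h hC hf hk in
/-- **(PO2)** -/
theorem po2_fo (hA : 10 ≤ A) (hg : Gro n β A ρ q F C) : NN n β ρ ^ 2 / (4 * A ^ 3) ≤
    En q F (fun w => fr (C q.s1 (P2 q w) * C q.s2 (P3 q w) -
      C q.s2 (P3 q w) * C q.s1 (P2 q w))) := by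
  have hx := hf.ok.x0
  have h1 := hf.ok.h12
  have hs := hf.ok.h2
  have h01 := hf.ok.h1
  have hρ : 0 < ρ := by linarith [hf.ρ1]
  have hT := hf.Tp
  have h0s : 0 < q.s1 := by
    have := hf.hs1
    have := hf.ok.h0
    have := hf.ok.h01
    linarith
  have h0s2 : 0 < q.s2 := by linarith
  have hk2 := h.ksq
  have hA0 : 0 < A := by linarith
  have hA1 : 1 ≤ A := by linarith
  have hNk := NN_k hf hk
  have hN0 := hf.N0
  have hk0 : k ≠ 0 := h.k0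
  have hmom := hf.mo2 hC (fun s => eg_frM (h.eg s)) (p := 2) (by norm_num)
  have hmom3 := hf.mo3 hC (fun s => eg_frM (h.eg s)) (p := 2) (by norm_num)
  have hY40 := hf.xrT
  have hye := hf.y0
  have hY40' := hf.yr
  have hup2' := hf.up2
  have hup3' := hf.up3
  have hlo' := hf.lo2
  have hr2' := hf.rt2
  have hr3' := hf.rt3
  have hgr' := hg
  have hAδ : 1152 * A ^ 4 * δ ≤ 1 := by
    have a1 := hf.δ_leA (p := 8) (by norm_num)
    have a2 : (1152 : ℝ) ≤ A ^ 4 := by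
      calc (1152 : ℝ) ≤ 10 ^ 4 := by norm_num
        _ ≤ A ^ 4 := pow_le_pow_left₀ (by norm_num) hA 4
    calc 1152 * A ^ 4 * δ ≤ A ^ 4 * A ^ 4 * δ := mul_le_mul_of_nonneg_right
          (mul_le_mul_of_nonneg_right a2 (by positivity)) hf.δ0
      _ = A ^ 8 * δ := by ring
      _ ≤ 1 := a1
  set N := NN n β ρ with hN
  set s1 := q.s1 with hs1
  set s2 := q.s2 with hs2
  set E : R1.Fn4 (Pair n) → ℝ := R1.Et4 q.x q.θ q.η q.t0 q.t1 s1 s2 F with hE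
  -- the functions
  set χ1 : (Pair n → ℝ) → ℝ := fun z => if fr (C s1 z) < N / A then (1 : ℝ) else 0 with hχ1
  set χ2 : (Pair n → ℝ) → ℝ := fun z => if A * N < fr (C s1 z) then (1 : ℝ) else 0 with hχ2
  set χ3 : (Pair n → ℝ) → ℝ := fun z => if A * N < fr (C s2 z) then (1 : ℝ) else 0 with hχ3
  set y : (Pair n → ℝ) → (Pair n → ℝ) → ℝ := fun z2 z3 => ∑ e, R1.dd q.x s1 F D e z2 *
      (R1.dd q.x s2 F D e z3 - R1.dd q.x s1 F D e z2) with hy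
  have w1 : E (fun _ _ z2 _ => χ1 z2) ≤ δ := hlo'
  have w2 : E (fun _ _ z2 _ => χ2 z2) ≤ δ := hup2'
  have w3 : E (fun _ _ _ z3 => χ3 z3) ≤ δ := hup3'
  have u1 : E (fun _ _ z2 _ => rt DM s1 z2) ≤ A * N / T := hr2'
  have u2 : E (fun _ _ _ z3 => rt DM s2 z3) ≤ A * N / T := hr3'
  have um : E (fun _ _ z2 _ => fr (C s1 z2) ^ 2) ≤ 2 * (A * N) ^ 2 := hmom
  have um3 : E (fun _ _ _ z3 => fr (C s2 z3) ^ 2) ≤ 2 * (A * N) ^ 2 := hmom3
  have ug : N / A ≤ E (fun _ _ _ z3 => fr (C s2 z3)) - E (fun _ _ z2 _ => fr (C s1 z2)) := hgr'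
  have eχ1 : R1.E4 fun _ _ z _ : Pair n → ℝ => χ1 z := R1.E4.of2 (eg_ind_lt (eg_frM (h.eg s1)) _)
  have eχ2 : R1.E4 fun _ _ z _ : Pair n → ℝ => χ2 z := R1.E4.of2 (eg_ind_gt (eg_frM (h.eg s1)) _)
  have eχ3 : R1.E4 fun _ _ _ z : Pair n → ℝ => χ3 z := R1.E4.of3 (eg_ind_gt (eg_frM (h.eg s2)) _)
  have ed1 : ∀ e, R1.E4 fun _ _ z2 _ => R1.dd q.x s1 F D e z2 := fun e =>
    R1.E4.of2 (R1.eg_dd hC q.x s1 e)
  have ed2 : ∀ e, R1.E4 fun _ _ _ z3 => R1.dd q.x s2 F D e z3 := fun e =>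
    R1.E4.of3 (R1.eg_dd hC q.x s2 e)
  have ey : R1.E4 fun _ _ z2 z3 => y z2 z3 :=
    EG.sum _ fun e _ => (ed1 e).mul ((ed2 e).sub (ed1 e))
  have ef1 : R1.E4 fun _ _ z2 _ => fr (C s1 z2) := R1.E4.of2 (eg_frM (h.eg s1))
  have ef2 : R1.E4 fun _ _ _ z3 => fr (C s2 z3) := R1.E4.of3 (eg_frM (h.eg s2))
  have eg_dfc' : ∀ s, EG fun z => dfc (C s z) := fun s => by
    unfold dfc
    exact ((eg_frM (h.eg s)).pow 2).sub (eg_frM (eg_mulM (h.eg s) (h.eg s)))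
  have edf1 : R1.E4 fun _ _ z2 _ => √(dfc (C s1 z2)) := R1.E4.of2 (EG_sqrt (eg_dfc' s1))
  have edf2 : R1.E4 fun _ _ _ z3 => √(dfc (C s2 z3)) := R1.E4.of3 (EG_sqrt (eg_dfc' s2))
  -- pointwise inequality
  have hpt : ∀ z2 z3 : Pair n → ℝ,
      N / (2 * A ^ 2) * (fr (C s2 z3) - fr (C s1 z2)) -
        18 * (2 * A * N) * (2 / k ^ 2 * |y z2 z3|) -
        2 * (2 * A * N) * (√(dfc (C s1 z2)) + √(dfc (C s2 z3))) -
        N / (2 * A ^ 2) * (fr (C s2 z3) * (χ1 z2 + χ2 z2 + χ3 z3)) ≤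
      fr (C s1 z2 * C s2 z3 - C s2 z3 * C s1 z2) := by
    intro z2 z3
    have f4 : 2 / k ^ 2 * |y z2 z3| = |ip (C s1 z2) (C s2 z3) - fr (C s1 z2)| := by
      rw [h.ip_sub, abs_mul, abs_of_pos (by positivity : 0 < 2 / k ^ 2)]
    rw [f4]
    have g1 : 0 ≤ χ1 z2 := by simp only [hχ1]; split_ifs <;> norm_num
    have g2 : 0 ≤ χ2 z2 := by simp only [hχ2]; split_ifs <;> norm_num
    have g3 : 0 ≤ χ3 z3 := by simp only [hχ3]; split_ifs <;> norm_num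
    have hc0 : 0 ≤ N / (2 * A ^ 2) := by positivity
    have d1 : 0 ≤ √(dfc (C s1 z2)) := Real.sqrt_nonneg _
    have d2 : 0 ≤ √(dfc (C s2 z3)) := Real.sqrt_nonneg _
    have d3 : 0 ≤ |ip (C s1 z2) (C s2 z3) - fr (C s1 z2)| := abs_nonneg _
    by_cases hgood : χ1 z2 + χ2 z2 + χ3 z3 < 1
    · have k1 : N / A ≤ fr (C s1 z2) := by
        by_contra hcon
        push Not at hcon
        have : χ1 z2 = 1 := by simp only [hχ1]; rw [if_pos hcon]
        linarith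
      have k2 : fr (C s1 z2) ≤ A * N := by
        by_contra hcon
        push Not at hcon
        have : χ2 z2 = 1 := by simp only [hχ2]; rw [if_pos hcon]
        linarith
      have k3 : fr (C s2 z3) ≤ A * N := by
        by_contra hcon
        push Not at hcon
        have : χ3 z3 = 1 := by simp only [hχ3]; rw [if_pos hcon]
        linarith
      have hAN : 0 ≤ A * N := by positivity
      have l2 : fr (C s1 z2) ≤ 2 * A * N := by linarith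
      have l3 : fr (C s2 z3) ≤ 2 * A * N := by linarith
      have l4 : (N / (2 * A ^ 2)) ^ 2 * (2 * A * N) ≤ (N / A) ^ 3 := by
        have e1 : (N / (2 * A ^ 2)) ^ 2 * (2 * A * N) = 1 / 2 * (N / A) ^ 3 := by
          field_simp
        rw [e1]
        have : 0 ≤ (N / A) ^ 3 := by positivity
        linarith
      have key := rot_point (h.psd s1 z2) (h.psd s2 z3) (by positivity : 0 < N / A) hc0 l4 k1 l2 l3
      have h50 : 0 ≤ fr (C s2 z3) := fr_nonneg _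
      have h5 : 0 ≤ N / (2 * A ^ 2) * (fr (C s2 z3) * (χ1 z2 + χ2 z2 + χ3 z3)) := by positivity
      linarith
    · push Not at hgood
      have l0 : 0 ≤ fr (C s2 z3) := fr_nonneg _
      have l1 : fr (C s2 z3) - fr (C s1 z2) ≤ fr (C s2 z3) * (χ1 z2 + χ2 z2 + χ3 z3) := by
        have h6 : 0 ≤ fr (C s1 z2) := fr_nonneg _
        have h7 := mul_le_mul_of_nonneg_left hgood l0
        linarith
      have l2 : N / (2 * A ^ 2) * (fr (C s2 z3) - fr (C s1 z2)) ≤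
          N / (2 * A ^ 2) * (fr (C s2 z3) * (χ1 z2 + χ2 z2 + χ3 z3)) :=
        mul_le_mul_of_nonneg_left l1 hc0
      have l3 : 0 ≤ fr (C s1 z2 * C s2 z3 - C s2 z3 * C s1 z2) := fr_nonneg _
      have l4 : 0 ≤ 18 * (2 * A * N) * |ip (C s1 z2) (C s2 z3) - fr (C s1 z2)| := by positivity
      have l5 : 0 ≤ 2 * (2 * A * N) * (√(dfc (C s1 z2)) + √(dfc (C s2 z3))) := by positivity
      linarith
  -- the expectations
  have eA : R1.E4 fun _ _ z2 z3 => N / (2 * A ^ 2) * (fr (C s2 z3) - fr (C s1 z2)) :=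
    (ef2.sub ef1).const_mul _
  have eB : R1.E4 fun _ _ z2 z3 => 18 * (2 * A * N) * (2 / k ^ 2 * |y z2 z3|) :=
    (ey.abs.const_mul _).const_mul _
  have eCC : R1.E4 fun _ _ z2 z3 => 2 * (2 * A * N) * (√(dfc (C s1 z2)) + √(dfc (C s2 z3))) :=
    (edf1.add edf2).const_mul _
  have eX : R1.E4 fun _ _ z2 z3 => fr (C s2 z3) * (χ1 z2 + χ2 z2 + χ3 z3) :=
    ef2.mul ((eχ1.add eχ2).add eχ3)
  have eD : R1.E4 fun _ _ z2 z3 => N / (2 * A ^ 2) *
      (fr (C s2 z3) * (χ1 z2 + χ2 z2 + χ3 z3)) := eX.const_mul _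
  have hmono := R1.Et4_mono (x := q.x) (θ := q.θ) (η := q.η) (t0 := q.t0) (t1 := q.t1) (s1 := s1) (s2 := s2)
    hC hx (((eA.sub eB).sub eCC).sub eD) (h.e4_comm s1 s2) fun _ _ z2 z3 => hpt z2 z3
  rw [R1.Et4_sub hC hx ((eA.sub eB).sub eCC) eD, R1.Et4_sub hC hx (eA.sub eB) eCC,
    R1.Et4_sub hC hx eA eB] at hmono
  rw [← hE] at hmono
  have vA : E (fun _ _ z2 z3 => N / (2 * A ^ 2) * (fr (C s2 z3) - fr (C s1 z2))) =
      N / (2 * A ^ 2) * (E (fun _ _ _ z3 => fr (C s2 z3)) - E (fun _ _ z2 _ => fr (C s1 z2))) := by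
    rw [hE, R1.Et4_const_mul (Ψ := fun _ _ z2 z3 => fr (C s2 z3) - fr (C s1 z2)),
      R1.Et4_sub hC hx ef2 ef1]
  have vB : E (fun _ _ z2 z3 => 18 * (2 * A * N) * (2 / k ^ 2 * |y z2 z3|)) =
      18 * (2 * A * N) * (2 / k ^ 2 * E (fun _ _ z2 z3 => |y z2 z3|)) := by
    rw [hE, R1.Et4_const_mul (Ψ := fun _ _ z2 z3 => 2 / k ^ 2 * |y z2 z3|),
      R1.Et4_const_mul (Ψ := fun _ _ z2 z3 => |y z2 z3|)]
  have vC : E (fun _ _ z2 z3 => 2 * (2 * A * N) * (√(dfc (C s1 z2)) + √(dfc (C s2 z3)))) =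
      2 * (2 * A * N) * (E (fun _ _ z2 _ => √(dfc (C s1 z2))) +
        E (fun _ _ _ z3 => √(dfc (C s2 z3)))) := by
    rw [hE, R1.Et4_const_mul (Ψ := fun _ _ z2 z3 => √(dfc (C s1 z2)) + √(dfc (C s2 z3))),
      R1.Et4_add hC hx edf1 edf2]
  set X : ℝ := E (fun _ _ z2 z3 => fr (C s2 z3) * (χ1 z2 + χ2 z2 + χ3 z3)) with hX
  have vD : E (fun _ _ z2 z3 => N / (2 * A ^ 2) * (fr (C s2 z3) * (χ1 z2 + χ2 z2 + χ3 z3))) =
      N / (2 * A ^ 2) * 1 * X := by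
    rw [hE, R1.Et4_const_mul (Ψ := fun _ _ z2 z3 => fr (C s2 z3) * (χ1 z2 + χ2 z2 + χ3 z3)),
      mul_one]
  rw [vA, vB, vC, vD] at hmono
  -- Cauchy-Schwarz with the function 1
  have cs1 : ∀ {Ψ : R1.Fn4 (Pair n)}, R1.E4 Ψ →
      E Ψ ^ 2 ≤ E (fun z0 z1 z2 z3 => Ψ z0 z1 z2 z3 ^ 2) := by
    intro Ψ hΨ
    have := R1.Et4_cs (x := q.x) (θ := q.θ) (η := q.η) (t0 := q.t0) (t1 := q.t1) (s1 := s1) (s2 := s2)
      hC hx hΨ (R1.E4.const 1)
    simp only [mul_one, one_pow] at this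
    rwa [R1.Et4_const hC hx, mul_one] at this
  -- radial term
  set W : ℝ := E (fun _ _ z2 z3 => y z2 z3 ^ 2) with hW
  set S : ℝ := E (fun _ _ z2 _ => R1.sq q.x s1 F D z2 * √(k ^ 2 / 2 * rt DM s1 z2)) with hSS
  have hrad : q.x * W ≤ S := h.radial hC hx h0s h1 hs q.θ q.η q.t0 q.t1
  have er1 : R1.E4 fun _ _ z2 _ => rt DM s1 z2 := R1.E4.of2 (h.egr s1)
  have er2 : R1.E4 fun _ _ _ z3 => rt DM s2 z3 := R1.E4.of3 (h.egr s2)
  have esq : R1.E4 fun _ _ z2 _ => R1.sq q.x s1 F D z2 := R1.E4.of2 (eg_sq hC q.x s1)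
  have u3 : E (fun _ _ z2 _ => R1.sq q.x s1 F D z2 ^ 2) ≤ 2 * A ^ 2 * ρ ^ 2 := by
    have c1 := R1.Et4_mono (x := q.x) (θ := q.θ) (η := q.η) (t0 := q.t0) (t1 := q.t1) (s1 := s1) (s2 := s2)
      (Ψ := fun _ _ z2 _ => R1.sq q.x s1 F D z2 ^ 2)
      (Ψ' := fun _ _ z2 _ => (k ^ 2 / 2) ^ 2 * fr (C s1 z2) ^ 2)
      hC hx (esq.pow 2) ((ef1.pow 2).const_mul _) fun _ _ z2 _ => by
        have d1 := h.fr_rep s1 z2
        have d2 : 0 ≤ R1.sq q.x s1 F D z2 := sq_nonneg' z2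
        have d3 : R1.sq q.x s1 F D z2 ≤ k ^ 2 / 2 * fr (C s1 z2) := by
          rw [d1]
          have : k ^ 2 / 2 * ((n : ℝ) + 2 / k ^ 2 * R1.sq q.x s1 F D z2) =
              k ^ 2 / 2 * n + R1.sq q.x s1 F D z2 := by
            rw [mul_add, ← mul_assoc, div_mul_div_comm, mul_comm (k ^ 2) 2, div_self (by positivity),
              one_mul]
          rw [this]
          have : 0 ≤ k ^ 2 / 2 * (n : ℝ) := by positivity
          linarith
        calc R1.sq q.x s1 F D z2 ^ 2 ≤ (k ^ 2 / 2 * fr (C s1 z2)) ^ 2 :=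
              pow_le_pow_left₀ d2 d3 2
          _ = _ := by ring
    rw [R1.Et4_const_mul, ← hE] at c1
    refine c1.trans ((mul_le_mul_of_nonneg_left um (by positivity)).trans (le_of_eq ?_))
    rw [hNk]
    field_simp
  have u4 : E (fun _ _ z2 _ => k ^ 2 / 2 * rt DM s1 z2) ≤ A * ρ / T := by
    rw [hE, R1.Et4_const_mul, ← hE]
    refine (mul_le_mul_of_nonneg_left u1 (by positivity)).trans (le_of_eq ?_)
    rw [hNk]
    field_simp
  have hS2 : S ^ 2 ≤ (2 * A ^ 2 * ρ ^ 2) * (A * ρ / T) := by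
    have c1 := R1.Et4_cs (x := q.x) (θ := q.θ) (η := q.η) (t0 := q.t0) (t1 := q.t1) (s1 := s1) (s2 := s2)
      hC hx (Ψ := fun _ _ z2 _ => R1.sq q.x s1 F D z2)
      (Ψ' := fun _ _ z2 _ => √(k ^ 2 / 2 * rt DM s1 z2))
      esq (R1.E4.of2 (EG_sqrt ((h.egr s1).const_mul _)))
    have c2 : ∀ z2 : Pair n → ℝ, √(k ^ 2 / 2 * rt DM s1 z2) ^ 2 = k ^ 2 / 2 * rt DM s1 z2 :=
      fun z2 => Real.sq_sqrt (mul_nonneg (by positivity) (rt_nonneg _ _))
    simp only [c2] at c1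
    refine c1.trans ?_
    have c3 : 0 ≤ E (fun _ _ z2 _ => k ^ 2 / 2 * rt DM s1 z2) :=
      R1.Et4_nonneg hC hx fun _ _ z2 _ => mul_nonneg (by positivity) (rt_nonneg _ _)
    exact mul_le_mul u3 u4 c3 (by positivity)
  have hE2 : (2 / k ^ 2 * E (fun _ _ z2 z3 => |y z2 z3|)) ^ 2 ≤ (2 / k ^ 2) ^ 2 * W := by
    rw [mul_pow]
    refine mul_le_mul_of_nonneg_left ?_ (by positivity)
    have := cs1 ey.abs
    simp only [sq_abs] at this
    exact this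
  have hA20 : (10 : ℝ) ^ 19 * A ^ 21 ≤ A ^ 40 := by
    calc (10 : ℝ) ^ 19 * A ^ 21 ≤ A ^ 19 * A ^ 21 :=
          mul_le_mul_of_nonneg_right (pow_le_pow_left₀ (by norm_num) hA 19) (by positivity)
      _ = A ^ 40 := by ring
  have hYA : 10 ^ 13 * A ^ 21 ≤ q.x ^ 2 * ρ * T := by
    refine le_trans ?_ hY40
    have : 0 < A ^ 21 := by positivity
    linarith
  have hYA' : 10 ^ 12 * A ^ 20 ≤ ye ^ 2 * ρ * T := by
    refine le_trans ?_ hY40'
    have : A ^ 20 ≤ A ^ 21 := pow_le_pow_right₀ hA1 (by norm_num)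
    have : 0 < A ^ 20 := by positivity
    linarith
  have r2 := num_rad' hA1 hρ hT hx hk2 rfl hYA hS2 hrad hE2
  -- defects
  have edd1 : R1.E4 fun _ _ z2 _ => dfc (C s1 z2) := R1.E4.of2 (eg_dfc' s1)
  have edd2 : R1.E4 fun _ _ _ z3 => dfc (C s2 z3) := R1.E4.of3 (eg_dfc' s2)
  have hcon : 4 / (k ^ 2 * ye ^ 2) * (A * N / T) = 8 / (k ^ 4 * ye ^ 2) * (A * ρ / T) := by
    rw [hNk]
    have e4 : k ^ 4 = k ^ 2 * k ^ 2 := by ring
    rw [e4]
    generalize k ^ 2 = K at *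
    field_simp
    ring
  have hE3 : E (fun _ _ z2 _ => √(dfc (C s1 z2))) ^ 2 ≤
      8 / (k ^ 4 * ye ^ 2) * (A * ρ / T) := by
    have c1 := cs1 edf1
    have c2 : ∀ z2 : Pair n → ℝ, √(dfc (C s1 z2)) ^ 2 = dfc (C s1 z2) := fun z2 =>
      Real.sq_sqrt (dfc_nonneg (h.psd s1 z2))
    simp only [c2] at c1
    refine c1.trans ?_
    have c3 := R1.Et4_mono (x := q.x) (θ := q.θ) (η := q.η) (t0 := q.t0) (t1 := q.t1) (s1 := s1) (s2 := s2)
      hC hx edd1 (er1.const_mul (4 / (k ^ 2 * ye ^ 2))) fun _ _ z2 _ => h.sw s1 h0s z2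
    rw [R1.Et4_const_mul] at c3
    refine c3.trans ?_
    rw [← hcon]
    exact mul_le_mul_of_nonneg_left u1 (by positivity)
  have hE4 : E (fun _ _ _ z3 => √(dfc (C s2 z3))) ^ 2 ≤
      8 / (k ^ 4 * ye ^ 2) * (A * ρ / T) := by
    have c1 := cs1 edf2
    have c2 : ∀ z2 : Pair n → ℝ, √(dfc (C s2 z2)) ^ 2 = dfc (C s2 z2) := fun z2 =>
      Real.sq_sqrt (dfc_nonneg (h.psd s2 z2))
    simp only [c2] at c1
    refine c1.trans ?_
    have c3 := R1.Et4_mono (x := q.x) (θ := q.θ) (η := q.η) (t0 := q.t0) (t1 := q.t1) (s1 := s1) (s2 := s2)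
      hC hx edd2 (er2.const_mul (4 / (k ^ 2 * ye ^ 2))) fun _ _ _ z3 => h.sw s2 h0s2 z3
    rw [R1.Et4_const_mul] at c3
    refine c3.trans ?_
    rw [← hcon]
    exact mul_le_mul_of_nonneg_left u2 (by positivity)
  have r3 := num_def hA1 hρ hT hye hk2 rfl hYA' hE3
  have r4 := num_def hA1 hρ hT hye hk2 rfl hYA' hE4
  rw [← hNk] at r2 r3 r4
  -- the bad events
  have hbad : ∀ {χ : R1.Fn4 (Pair n)}, R1.E4 χ → (∀ z0 z1 z2 z3, χ z0 z1 z2 z3 ^ 2 =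
      χ z0 z1 z2 z3) → E χ ≤ δ →
      E (fun z0 z1 z2 z3 => fr (C s2 z3) * χ z0 z1 z2 z3) ≤ N / (24 * A) := by
    intro χ hχ hsq hχδ
    have c1 := R1.Et4_cs (x := q.x) (θ := q.θ) (η := q.η) (t0 := q.t0) (t1 := q.t1) (s1 := s1)
      (s2 := s2) hC hx (Ψ := fun _ _ _ z3 => fr (C s2 z3)) (Ψ' := χ) ef2 hχ
    simp only [hsq] at c1
    rw [← hE] at c1
    have c2 : 0 ≤ E χ := R1.Et4_nonneg hC hx fun z0 z1 z2 z3 => by
      rw [← hsq]; positivity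
    have c3 : E (fun z0 z1 z2 z3 => fr (C s2 z3) * χ z0 z1 z2 z3) ^ 2 ≤
        2 * (A * N) ^ 2 * δ := c1.trans (mul_le_mul um3 hχδ c2 (by positivity))
    have c4 : 2 * (A * N) ^ 2 * δ ≤ (N / (24 * A)) ^ 2 := by
      have c5 : 2 * (A * N) ^ 2 * δ = (N / (24 * A)) ^ 2 * (1152 * A ^ 4 * δ) := by
        field_simp
        ring
      rw [c5]
      exact mul_le_of_le_one_right (by positivity) hAδ
    exact le_of_sq_le_sq (c3.trans c4) (by positivity)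
  have hX1 := hbad (χ := fun _ _ z _ => χ1 z) eχ1 (fun _ _ z _ => by
    simp only [hχ1]; split_ifs <;> norm_num) w1
  have hX2 := hbad (χ := fun _ _ z _ => χ2 z) eχ2 (fun _ _ z _ => by
    simp only [hχ2]; split_ifs <;> norm_num) w2
  have hX3 := hbad (χ := fun _ _ _ z => χ3 z) eχ3 (fun _ _ _ z => by
    simp only [hχ3]; split_ifs <;> norm_num) w3
  have hXe : X = E (fun _ _ z2 z3 => fr (C s2 z3) * χ1 z2) +
      E (fun _ _ z2 z3 => fr (C s2 z3) * χ2 z2) + E (fun _ _ _ z3 => fr (C s2 z3) * χ3 z3) := by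
    have e0 : (fun (_ _ z2 z3 : Pair n → ℝ) => fr (C s2 z3) * (χ1 z2 + χ2 z2 + χ3 z3)) =
        fun _ _ z2 z3 => fr (C s2 z3) * χ1 z2 + fr (C s2 z3) * χ2 z2 + fr (C s2 z3) * χ3 z3 := by
      funext z0 z1 z2 z3
      ring
    rw [hX, e0, hE, R1.Et4_add hC hx ((ef2.mul eχ1).add (ef2.mul eχ2)) (ef2.mul eχ3),
      R1.Et4_add hC hx (ef2.mul eχ1) (ef2.mul eχ2)]
  have r5 : 8 * A * (1 * X) ≤ N := by
    have h7 : X ≤ N / (24 * A) + N / (24 * A) + N / (24 * A) := by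
      rw [hXe]
      linarith
    have h8 := mul_le_mul_of_nonneg_left h7 (by positivity : 0 ≤ 8 * A)
    have h9 : 8 * A * (N / (24 * A) + N / (24 * A) + N / (24 * A)) = N := by
      field_simp
      ring
    rw [h9] at h8
    linarith
  exact num_fin hA1 hN0 ug r2 r3 r4 r5 hmono

end main

end Vale.Agent.P146.U.H522
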