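import Vale.Agent.P146.H645.CS0
import Vale.Agent.P146.U.H332_CDef
import Vale.Agent.P146.U.NS

/-!
Plan R1: the position system `CS`. It collects the facts on the matrices of conditional two point
functions at a position (time `s`, point `z`) which the blocks C, P, LAM, KAP use; the SK model and
its deep versions are instances.
-/

open MeasureTheory ProbabilityTheory

namespace Vale.Agent.P146.U.R1S

open Vale.Agent.P146.R1S hiding CS

open Vale.Agent.P157.Lv Vale.Agent.P146.H425 Vale.Agent.P146.H325 Vale.Agent.P146.H332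
  Vale.Agent.P146.H712 Vale.Agent.P146.H816 Matrix
open Vale.Agent.P146.R1 hiding Et Et4 Et4_123 Et4_124 Et4_add Et4_const Et4_const_mul Et4_cs
  Et4_mono Et4_nonneg Et4_sub Et_add Et_const Et_const_mul Et_cs Et_fst_eq Et_jensen Et_mono
  Et_nonneg Et_sub Et_weight Et_zero Eu Eu4 Eu4_123 Eu4_124 Eu4_add Eu4_cond Eu4_const_mul
  Eu4_iter Eu4_mono Eu4_nonneg Eu4_one_eq Eu4_one_eq' Eu4_one_pos Eu4_weight Eu_add Eu_const_mul
  Eu_fst Eu_fst_eq Eu_iter Eu_mono Eu_nonneg Eu_one Eu_one_eq Eu_one_pos Eu_weight Eu_zero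
  Eu_zero_one Lth Lth_zero Qt dn dn_pos e3_dn eg_Eu eg_Eu4
open Vale.Agent.P146.R1C hiding Ca Cd En En_eq Ew Ew_eq Gb Nd P0 P0_sw P1 P1_sw P2 P2_sw P3 P3_sw
  Par Sa Sd dens
open Vale.Agent.P146.U.R1 Vale.Agent.P146.U.R1C

/-- The position system: `F` the function, `D` its gradient; `A s z` the matrix of the conditional
two point functions at the time `s` and the position `z`, `DA s e` its derivative in the direction
of the coupling `e`, `H s b` the derivatives of the column `b` in its own row (divided by `k`),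
`mu s z` the law of the root configuration, `T4` its four point functions, `y ≤ x` the exponent of
the covariance inequality `kov`. -/
structure CS (n : ℕ) (k x : ℝ) where
  y : ℝ
  F : (Pair n → ℝ) → ℝ
  D : Pair n → (Pair n → ℝ) → ℝ
  bB : ℝ
  bL : ℝ
  A : ℝ → (Pair n → ℝ) → Matrix (Fin n) (Fin n) ℝ
  DA : ℝ → Pair n → (Pair n → ℝ) → Matrix (Fin n) (Fin n) ℝ
  H : ℝ → Fin n → (Pair n → ℝ) → Matrix (Fin n) (Fin n) ℝ
  mu : ℝ → (Pair n → ℝ) → (Fin n → ℤˣ) → ℝ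
  T4 : ℝ → (Pair n → ℝ) → Fin n → Fin n → Fin n → Fin n → ℝ
  k0 : 0 < k
  x0 : 0 < x
  x1 : x ≤ 1
  y0 : 0 < y
  yx : y ≤ x
  c11 : C11 F D bB bL
  cv : Cv F
  F_act : ∀ (π : Equiv.Perm (Fin n)) (z : Pair n → ℝ), F (act π z) = F z
  F_fl : ∀ (b : Fin n) (z : Pair n → ℝ), F (fl b z) = F z
  dd_eq : ∀ (s : ℝ) (e : Pair n) (z : Pair n → ℝ), dd x s F D e z = k * A s z e.1.1 e.1.2
  mu0 : ∀ (s : ℝ) (z : Pair n → ℝ) (σ : Fin n → ℤˣ), 0 ≤ mu s z σ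
  mu1 : ∀ (s : ℝ) (z : Pair n → ℝ), ∑ σ, mu s z σ = 1
  eg_mu : ∀ (s : ℝ) (σ : Fin n → ℤˣ), EG fun z => mu s z σ
  A_mu : ∀ (s : ℝ) (z : Pair n → ℝ) (i j : Fin n), A s z i j = ∑ σ, mu s z σ * pr i j σ
  T4_mu : ∀ (s : ℝ) (z : Pair n → ℝ) (i j p q : Fin n),
    T4 s z i j p q = ∑ σ, mu s z σ * (pr i j σ * pr p q σ)
  fd_A : ∀ (s : ℝ) (i j : Fin n) (z : Pair n → ℝ),
    HasFDerivAt (fun z => A s z i j) (H785.lf fun e => DA s e z i j) z
  eg_DA : ∀ (s : ℝ) (e : Pair n) (i j : Fin n), EG fun z => DA s e z i j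
  DA_row : ∀ {s : ℝ}, 0 < s → ∀ {b : Fin n} {e : Pair n}, e ∈ row b →
    ∀ (z : Pair n → ℝ) (i : Fin n), DA s e z i b = k * H s b z i (oth b e)
  H_comm : ∀ (s : ℝ) (b : Fin n) (z : Pair n → ℝ) (i j : Fin n), H s b z i j = H s b z j i
  H_row : ∀ {s : ℝ}, 0 < s → ∀ (b : Fin n) (z : Pair n → ℝ) (i : Fin n), H s b z i b = 0
  H_nonneg : ∀ {s : ℝ}, 0 < s → ∀ (b : Fin n) (z : Pair n → ℝ) (v : Fin n → ℝ),
    0 ≤ qf (fun i j => H s b z i j) v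
  H_le : ∀ {s : ℝ}, 0 < s → ∀ (b : Fin n) (z : Pair n → ℝ) (v : Fin n → ℝ),
    qf (fun i j => H s b z i j) v ≤ qf (fun i j => A s z i j) v
  cont_H : ∀ (s : ℝ) (b i j : Fin n), Continuous fun z => H s b z i j
  kov : ∀ {s : ℝ}, 0 < s → ∀ z : Pair n → ℝ,
    k ^ 2 * y ^ 2 / 2 * ∑ i, ∑ j, ∑ p, ∑ q, (T4 s z i j p q - A s z i j * A s z p q) ^ 2 ≤
      ∑ e : Pair n, fr (DA s e z)
  A_act : ∀ (π : Equiv.Perm (Fin n)) (s : ℝ) (z : Pair n → ℝ) (p q : Fin n),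
    A s (act π z) p q = A s z (π p) (π q)
  A_fl_row : ∀ (s : ℝ) {b p : Fin n}, p ≠ b → ∀ z : Pair n → ℝ, A s (fl b z) p b = -A s z p b
  A_fl_ne : ∀ (s : ℝ) {b p q : Fin n}, p ≠ b → q ≠ b → ∀ z : Pair n → ℝ,
    A s (fl b z) p q = A s z p q
  H_fl : ∀ (s : ℝ) {b p q : Fin n}, p ≠ b → q ≠ b → ∀ z : Pair n → ℝ,
    H s b (fl b z) p q = H s b z p q

end Vale.Agent.P146.U.R1S
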