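import Vale.Agent.P146.H645.CSys
import Vale.Agent.P146.U.H645_CS0
import Vale.Agent.P146.U.H425_R1Def
import Vale.Agent.P146.U.NS

/-!
Plan R1: consequences of the fields of the position system `CS`.
-/

open MeasureTheory ProbabilityTheory

namespace Vale.Agent.P146.U.R1S

open Vale.Agent.P146.R1S hiding CS

open Vale.Agent.P157.Lv Vale.Agent.P146.H425 Vale.Agent.P146.H325 Vale.Agent.P146.H332
  Vale.Agent.P146.H712 Vale.Agent.P146.H816 Matrix
open Vale.Agent.P146.R1 hiding Et Et4 Et4_123 Et4_124 Et4_add Et4_const Et4_const_mul Et4_cs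
  Et4_mono Et4_nonneg Et4_sub Et_add Et_const Et_const_mul Et_cs Et_fst_eq Et_jensen Et_mono
  Et_nonneg Et_sub Et_weight Et_zero Eu Eu4 Eu4_123 Eu4_124 Eu4_add Eu4_cond Eu4_const_mul
  Eu4_iter Eu4_mono Eu4_nonneg Eu4_one_eq Eu4_one_eq' Eu4_one_pos Eu4_weight Eu_add Eu_const_mul
  Eu_fst Eu_fst_eq Eu_iter Eu_mono Eu_nonneg Eu_one Eu_one_eq Eu_one_pos Eu_weight Eu_zero
  Eu_zero_one Lth Lth_zero Qt dn dn_pos e3_dn eg_Eu eg_Eu4
open Vale.Agent.P146.R1C hiding Ca Cd En En_eq Ew Ew_eq Gb Nd P0 P0_sw P1 P1_sw P2 P2_sw P3 P3_sw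
  Par Sa Sd dens
open Vale.Agent.P146.U.R1 Vale.Agent.P146.U.R1C

set_option linter.unusedSectionVars false

variable {n : ℕ} {k x : ℝ} (S : CS n k x)

namespace CS

open Vale.Agent.P146.R1S.CS (lin_sq pd_act abs_of_qf pd_fl oth_pf)

/-! ### the matrix `A` -/

lemma A_self (s : ℝ) (z : Pair n → ℝ) (i : Fin n) : S.A s z i i = 1 := by
  rw [S.A_mu]
  simp only [pr_self, mul_one]
  exact S.mu1 s z

lemma A_comm (s : ℝ) (z : Pair n → ℝ) (i j : Fin n) : S.A s z i j = S.A s z j i := by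
  rw [S.A_mu, S.A_mu, pr_comm]

lemma A_T (s : ℝ) (z : Pair n → ℝ) : (S.A s z)ᵀ = S.A s z := by
  ext i j
  exact S.A_comm s z j i

/-- the mean of a bounded function -/
lemma abs_mu_le (s : ℝ) (z : Pair n → ℝ) {f : (Fin n → ℤˣ) → ℝ} {C : ℝ} (hf : ∀ σ, |f σ| ≤ C) :
    |∑ σ, S.mu s z σ * f σ| ≤ C := by
  calc |∑ σ, S.mu s z σ * f σ| ≤ ∑ σ, |S.mu s z σ * f σ| := Finset.abs_sum_le_sum_abs _ _
    _ ≤ ∑ σ, S.mu s z σ * C := Finset.sum_le_sum fun σ _ => by
        rw [abs_mul, abs_of_nonneg (S.mu0 s z σ)]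
        exact mul_le_mul_of_nonneg_left (hf σ) (S.mu0 s z σ)
    _ = C := by rw [← Finset.sum_mul, S.mu1, one_mul]

/-- Cauchy-Schwarz for the mean -/
lemma mu_sq_le (s : ℝ) (z : Pair n → ℝ) (f : (Fin n → ℤˣ) → ℝ) :
    (∑ σ, S.mu s z σ * f σ) ^ 2 ≤ ∑ σ, S.mu s z σ * f σ ^ 2 := by
  have key : ∀ m : ℝ, 0 ≤ ∑ σ, S.mu s z σ * f σ ^ 2 - 2 * m * ∑ σ, S.mu s z σ * f σ + m ^ 2 := by
    intro m
    have h : 0 ≤ ∑ σ, S.mu s z σ * (f σ - m) ^ 2 :=
      Finset.sum_nonneg fun σ _ => mul_nonneg (S.mu0 s z σ) (sq_nonneg _)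
    have e : ∑ σ, S.mu s z σ * (f σ - m) ^ 2 = ∑ σ, S.mu s z σ * f σ ^ 2 -
        2 * m * ∑ σ, S.mu s z σ * f σ + m ^ 2 * ∑ σ, S.mu s z σ := by
      rw [Finset.mul_sum, Finset.mul_sum, ← Finset.sum_sub_distrib, ← Finset.sum_add_distrib]
      exact Finset.sum_congr rfl fun σ _ => by ring
    rw [e, S.mu1, mul_one] at h
    exact h
  have h := key (∑ σ, S.mu s z σ * f σ)
  nlinarith

lemma abs_A (s : ℝ) (z : Pair n → ℝ) (i j : Fin n) : |S.A s z i j| ≤ 1 := by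
  rw [S.A_mu]
  exact S.abs_mu_le s z fun σ => (abs_pr i j σ).le

lemma eg_mean (s : ℝ) (f : (Fin n → ℤˣ) → ℝ) : EG fun z => ∑ σ, S.mu s z σ * f σ :=
  EG.sum _ fun σ _ => (S.eg_mu s σ).mul (EG.const (f σ))

lemma eg_A (s : ℝ) (i j : Fin n) : EG fun z => S.A s z i j := by
  have e : (fun z => S.A s z i j) = fun z => ∑ σ, S.mu s z σ * pr i j σ :=
    funext fun z => S.A_mu s z i j
  rw [e]
  exact S.eg_mean s _

lemma eg_T4 (s : ℝ) (i j p q : Fin n) : EG fun z => S.T4 s z i j p q := by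
  have e : (fun z => S.T4 s z i j p q) = fun z => ∑ σ, S.mu s z σ * (pr i j σ * pr p q σ) :=
    funext fun z => S.T4_mu s z i j p q
  rw [e]
  exact S.eg_mean s _

lemma cont_A (s : ℝ) (i j : Fin n) : Continuous fun z => S.A s z i j :=
  continuous_iff_continuousAt.2 fun z => (S.fd_A s i j z).continuousAt

/-- **The derivative of `A`.** -/
lemma pd_A (s : ℝ) (e : Pair n) (i j : Fin n) :
    PD e (fun z => S.A s z i j) (fun z => S.DA s e z i j) :=
  H785.pd_of_fd (fun z => S.fd_A s i j z) e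

lemma DA_comm (s : ℝ) (e : Pair n) (z : Pair n → ℝ) (i j : Fin n) :
    S.DA s e z i j = S.DA s e z j i := by
  have h1 := S.pd_A s e i j
  have e1 : (fun z => S.A s z i j) = fun z => S.A s z j i := funext fun z => S.A_comm s z i j
  rw [e1] at h1
  exact PD_unique h1 (S.pd_A s e j i) z

lemma DA_self (s : ℝ) (e : Pair n) (z : Pair n → ℝ) (i : Fin n) : S.DA s e z i i = 0 := by
  have h1 := S.pd_A s e i i
  have e1 : (fun z => S.A s z i i) = fun _ => 1 := funext fun z => S.A_self s z i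
  rw [e1] at h1
  exact PD_unique h1 (PD.const 1) z

lemma DA_T (s : ℝ) (e : Pair n) (z : Pair n → ℝ) : (S.DA s e z)ᵀ = S.DA s e z := by
  ext i j
  exact S.DA_comm s e z j i

/-! ### quadratic forms -/

/-- the quadratic form of `A` is a mean of squares -/
lemma qf_A (s : ℝ) (z : Pair n → ℝ) (v : Fin n → ℝ) :
    qf (fun i j => S.A s z i j) v = ∑ σ, S.mu s z σ * lin v σ ^ 2 := by
  unfold qf
  simp only [S.A_mu, lin_sq, Finset.mul_sum, Finset.sum_mul]
  rw [Finset.sum_comm]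
  have e : ∀ j : Fin n, ∑ i : Fin n, ∑ σ, v i * (S.mu s z σ * pr i j σ) * v j =
      ∑ σ, ∑ i : Fin n, v i * (S.mu s z σ * pr i j σ) * v j := fun j => Finset.sum_comm
  simp only [e]
  rw [Finset.sum_comm]
  refine Finset.sum_congr rfl fun σ _ => ?_
  rw [Finset.sum_comm]
  exact Finset.sum_congr rfl fun i _ => Finset.sum_congr rfl fun j _ => by ring

lemma qf_A_nonneg (s : ℝ) (z : Pair n → ℝ) (v : Fin n → ℝ) :
    0 ≤ qf (fun i j => S.A s z i j) v := by
  rw [S.qf_A]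
  exact Finset.sum_nonneg fun σ _ => mul_nonneg (S.mu0 s z σ) (sq_nonneg _)

lemma psd_A (s : ℝ) (z : Pair n → ℝ) : Psd (S.A s z) := by
  refine ⟨S.A_T s z, fun c => ?_⟩
  have h := S.qf_A_nonneg s z c
  unfold qf at h
  refine h.trans (le_of_eq ?_)
  exact Finset.sum_congr rfl fun i _ => Finset.sum_congr rfl fun j _ => by ring

/-- `A` dominates the square of its column -/
lemma sq_col_le (s : ℝ) (b : Fin n) (z : Pair n → ℝ) (v : Fin n → ℝ) :
    (∑ i, v i * S.A s z i b) ^ 2 ≤ qf (fun i j => S.A s z i j) v := by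
  have e : ∑ i, v i * S.A s z i b = ∑ σ, S.mu s z σ * (lin v σ * sp σ b) := by
    simp only [S.A_mu, Finset.mul_sum]
    rw [Finset.sum_comm]
    refine Finset.sum_congr rfl fun σ _ => ?_
    unfold lin pr
    rw [Finset.sum_mul, Finset.mul_sum]
    exact Finset.sum_congr rfl fun i _ => by ring
  rw [e, S.qf_A]
  refine (S.mu_sq_le s z _).trans (le_of_eq ?_)
  refine Finset.sum_congr rfl fun σ _ => ?_
  rw [mul_pow, sp_sq, mul_one]

/-- `|U|⁴ ≤ |A|²` -/
lemma vn_col_le (s : ℝ) (b : Fin n) (z : Pair n → ℝ) :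
    vn (H816.col (S.A s z) b) ^ 2 ≤ fr (S.A s z) := by
  set U : Fin n → ℝ := fun j => S.A s z j b with hU
  have ha0 : 0 ≤ vn U := Finset.sum_nonneg fun _ _ => sq_nonneg _
  have h1 : vn U ^ 2 ≤ qf (fun i j => S.A s z i j) U := by
    have h2 := S.sq_col_le s b z U
    have e : ∑ i, U i * S.A s z i b = vn U := Finset.sum_congr rfl fun i _ => by
      rw [hU]; ring
    rwa [e] at h2
  have h4 := qf_sq_le (fun i j => S.A s z i j) U
  have h5 : vn U ^ 2 * vn U ^ 2 ≤ fr (S.A s z) * vn U ^ 2 := by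
    have h6 : vn U ^ 2 * vn U ^ 2 ≤ qf (fun i j => S.A s z i j) U ^ 2 := by
      rw [pow_two (qf _ _)]
      exact mul_le_mul h1 h1 (sq_nonneg _) ((sq_nonneg _).trans h1)
    exact h6.trans h4
  show vn U ^ 2 ≤ _
  rcases ha0.eq_or_lt with h | h
  · rw [← h]
    have := H332.fr_nonneg (S.A s z)
    simpa using this
  · exact le_of_mul_le_mul_right h5 (by positivity)

/-! ### the row gradient `H` -/

lemma H_T (s : ℝ) (b : Fin n) (z : Pair n → ℝ) : (S.H s b z)ᵀ = S.H s b z := by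
  ext i j
  exact S.H_comm s b z j i

lemma fr_H_le {s : ℝ} (hs : 0 < s) (b : Fin n) (z : Pair n → ℝ) :
    fr (S.H s b z) ≤ fr (S.A s z) := by
  refine psd_sq_mono (A := S.H s b z) (B := S.A s z) (fun i j => S.H_comm s b z i j)
    (fun v => ?_) (fun i j => S.A_comm s z i j) fun v => ?_
  · exact S.H_nonneg hs b z v
  · exact S.H_le hs b z v

lemma abs_H {s : ℝ} (hs : 0 < s) (b : Fin n) (z : Pair n → ℝ) (i j : Fin n) :
    |S.H s b z i j| ≤ 1 := by
  refine abs_of_qf (M := S.H s b z) (S.H_comm s b z) (S.H_nonneg hs b z) (fun i => ?_) i j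
  have h := S.H_le hs b z (fun l => if l = i then 1 else 0)
  have e : ∀ M : Matrix (Fin n) (Fin n) ℝ, qf (fun i j => M i j) (fun l => if l = i then 1 else 0) =
      M i i := by
    intro M
    unfold qf
    simp
  rw [e, e, S.A_self] at h
  exact h

lemma eg_H {s : ℝ} (hs : 0 < s) (b i j : Fin n) : EG fun z => S.H s b z i j :=
  EG.of_bdd (S.cont_H s b i j).measurable fun z => S.abs_H hs b z i j

/-- **Row gradients.** -/
lemma row_grad_eq {s : ℝ} (hs : 0 < s) (b : Fin n) (z : Pair n → ℝ) :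
    ∑ e ∈ row b, ∑ i, S.DA s e z i b ^ 2 = k ^ 2 * fr (S.H s b z) := by
  have e1 : ∀ e ∈ row b, ∑ i, S.DA s e z i b ^ 2 =
      k ^ 2 * ∑ i, S.H s b z i (oth b e) ^ 2 := by
    intro e he
    rw [Finset.mul_sum]
    refine Finset.sum_congr rfl fun i _ => ?_
    rw [S.DA_row hs he]
    ring
  rw [Finset.sum_congr rfl e1, ← Finset.mul_sum]
  congr 1
  rw [sum_row_all b (G := fun j => ∑ i, S.H s b z i j ^ 2) (by
    refine Finset.sum_eq_zero fun i _ => ?_
    rw [S.H_row hs]; ring)]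
  unfold fr
  exact Finset.sum_comm

lemma row_grad {s : ℝ} (hs : 0 < s) (b : Fin n) (z : Pair n → ℝ) :
    ∑ e ∈ row b, ∑ i, S.DA s e z i b ^ 2 ≤ k ^ 2 * fr (S.A s z) := by
  rw [S.row_grad_eq hs]
  exact mul_le_mul_of_nonneg_left (S.fr_H_le hs b z) (sq_nonneg k)

/-- the rates of all pairs of rows -/
lemma rate_pairs (s : ℝ) (z : Pair n → ℝ) :
    ∑ b, ∑ b', ∑ e ∈ row b', ∑ i, S.DA s e z i b ^ 2 = 2 * ∑ e, fr (S.DA s e z) := by
  rw [← sum_rows fun e => fr (S.DA s e z), Finset.sum_comm]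
  refine Finset.sum_congr rfl fun b' _ => ?_
  rw [Finset.sum_comm]
  refine Finset.sum_congr rfl fun e _ => ?_
  unfold fr
  exact Finset.sum_comm

/-! ### the tensor -/

lemma T4_12 (s : ℝ) (z : Pair n → ℝ) (i j p q : Fin n) : S.T4 s z i j p q = S.T4 s z j i p q := by
  rw [S.T4_mu, S.T4_mu, pr_comm i j]

lemma T4_34 (s : ℝ) (z : Pair n → ℝ) (i j p q : Fin n) : S.T4 s z i j p q = S.T4 s z i j q p := by
  rw [S.T4_mu, S.T4_mu, pr_comm p q]

lemma T4_23 (s : ℝ) (z : Pair n → ℝ) (i j p q : Fin n) : S.T4 s z i j p q = S.T4 s z i p j q := by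
  rw [S.T4_mu, S.T4_mu]
  refine Finset.sum_congr rfl fun σ _ => ?_
  unfold pr
  ring

lemma T4_pair (s : ℝ) (z : Pair n → ℝ) (i j p q : Fin n) :
    S.T4 s z i j p q = S.T4 s z p q i j := by
  rw [S.T4_mu, S.T4_mu]
  exact Finset.sum_congr rfl fun σ _ => by ring

lemma T4_ii (s : ℝ) (z : Pair n → ℝ) (i p q : Fin n) : S.T4 s z i i p q = S.A s z p q := by
  rw [S.T4_mu, S.A_mu]
  refine Finset.sum_congr rfl fun σ _ => ?_
  rw [pr_self, one_mul]

lemma T4_pp (s : ℝ) (z : Pair n → ℝ) (i j p : Fin n) : S.T4 s z i j p p = S.A s z i j := by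
  rw [S.T4_pair, S.T4_ii]

lemma abs_T4 (s : ℝ) (z : Pair n → ℝ) (i j p q : Fin n) : |S.T4 s z i j p q| ≤ 1 := by
  rw [S.T4_mu]
  refine S.abs_mu_le s z fun σ => ?_
  rw [abs_mul, abs_pr, abs_pr, one_mul]

/-- rank one at a position -/
theorem swap (s : ℝ) (z : Pair n → ℝ) :
    fr (S.A s z) ^ 2 - fr (S.A s z * S.A s z) ≤ 2 * ∑ i, ∑ j, ∑ p, ∑ q,
      (S.T4 s z i j p q - S.A s z i j * S.A s z p q) ^ 2 :=
  swap_le (S.A_T s z) (S.T4 s z) (S.T4_23 s z)

/-- the covariances are controlled by the rate -/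
theorem kov_le {s : ℝ} (hs : 0 < s) (z : Pair n → ℝ) :
    ∑ i, ∑ j, ∑ p, ∑ q, (S.T4 s z i j p q - S.A s z i j * S.A s z p q) ^ 2 ≤
      2 / (k ^ 2 * S.y ^ 2) * ∑ e : Pair n, fr (S.DA s e z) := by
  have h := S.kov hs z
  have hk := S.k0
  have hx := S.y0
  have h0 : 0 < k ^ 2 * S.y ^ 2 / 2 := by positivity
  have e : 2 / (k ^ 2 * S.y ^ 2) * ∑ e : Pair n, fr (S.DA s e z) =
      (∑ e : Pair n, fr (S.DA s e z)) / (k ^ 2 * S.y ^ 2 / 2) := by
    field_simp
  rw [e, le_div_iff₀ h0, mul_comm]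
  exact h

/-- **The rank one defect.** -/
theorem dfc_A {s : ℝ} (hs : 0 < s) (z : Pair n → ℝ) :
    H522.dfc (S.A s z) ≤ 4 / (k ^ 2 * S.y ^ 2) * ∑ e : Pair n, fr (S.DA s e z) := by
  have h1 := S.swap s z
  have h2 := S.kov_le hs z
  unfold H522.dfc
  calc _ ≤ _ := h1
    _ ≤ 2 * (2 / (k ^ 2 * S.y ^ 2) * ∑ e : Pair n, fr (S.DA s e z)) := by linarith
    _ = _ := by ring

/-! ### the value function -/

/-- **The gradient of the value function** is `k A`. -/
lemma pd_uu (s : ℝ) (e : Pair n) :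
    PD e (uu x s S.F) (fun z => k * S.A s z e.1.1 e.1.2) := by
  have h := H785.pd_of_fd (fun z => H785.C11.hasFDerivAt (c11_uu S.c11 S.x0 s) z) e
  exact h.congr fun z => (S.dd_eq s e z)

lemma D_eq (e : Pair n) (z : Pair n → ℝ) : S.D e z = k * S.A 1 z e.1.1 e.1.2 := by
  rw [← S.dd_eq]
  unfold dd DW
  simp only [sub_self, Real.sqrt_zero, zero_smul, add_zero, integral_const, probReal_univ,
    one_smul]
  exact (mul_div_cancel_left₀ _ (Real.exp_pos _).ne').symm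

lemma A_oth (s : ℝ) {b : Fin n} {e : Pair n} (he : e ∈ row b) (z : Pair n → ℝ) :
    S.A s z e.1.1 e.1.2 = S.A s z (oth b e) b := by
  rw [mem_row] at he
  unfold oth
  split_ifs with h1
  · rw [h1]; exact S.A_comm s z _ _
  · rw [he.resolve_left h1]

/-- the row of the gradient of the value function -/
lemma sum_row_A (s : ℝ) (b : Fin n) (z : Pair n → ℝ) :
    ∑ e ∈ row b, (k * S.A s z e.1.1 e.1.2) ^ 2 = k ^ 2 * (vn (H816.col (S.A s z) b) - 1) := by
  have e1 : ∀ e ∈ row b, (k * S.A s z e.1.1 e.1.2) ^ 2 =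
      k ^ 2 * (fun j => S.A s z j b ^ 2 - if j = b then 1 else 0) (oth b e) := by
    intro e he
    have h1 : oth b e ≠ b := oth_ne he
    rw [S.A_oth s he]
    simp only [h1, if_false]
    ring
  rw [Finset.sum_congr rfl e1, ← Finset.mul_sum, sum_row_all b
    (G := fun j => S.A s z j b ^ 2 - if j = b then 1 else 0) (by simp [S.A_self])]
  congr 1
  rw [Finset.sum_sub_distrib]
  simp [vn, H816.col]

lemma fr_A (s : ℝ) (z : Pair n → ℝ) :
    fr (S.A s z) = n + 2 * ∑ e : Pair n, S.A s z e.1.1 e.1.2 ^ 2 := by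
  have h1 := sum_pairs (fun i j : Fin n => if i = j then 0 else S.A s z i j ^ 2)
    (fun p q => by rw [S.A_comm s z p q]; simp only [eq_comm]) (fun p => by simp)
  have h2 : ∀ e : Pair n, (if e.1.1 = e.1.2 then (0 : ℝ) else S.A s z e.1.1 e.1.2 ^ 2) =
      S.A s z e.1.1 e.1.2 ^ 2 := fun e => by rw [if_neg e.2.ne]
  simp only [h2] at h1
  have h3 : fr (S.A s z) = ∑ i : Fin n, ∑ j : Fin n, ((if i = j then (1 : ℝ) else 0) +
      (if i = j then 0 else S.A s z i j ^ 2)) := by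
    unfold fr
    refine Finset.sum_congr rfl fun i _ => Finset.sum_congr rfl fun j _ => ?_
    split_ifs with h
    · rw [h, S.A_self]; norm_num
    · rw [zero_add]
  rw [h3]
  simp only [Finset.sum_add_distrib]
  rw [h1]
  simp

/-- the squared gradient of the value function -/
theorem sq_A (s : ℝ) (z : Pair n → ℝ) :
    R1.sq x s S.F S.D z = k ^ 2 / 2 * (fr (S.A s z) - n) := by
  have h1 : R1.sq x s S.F S.D z = ∑ e : Pair n, (k * S.A s z e.1.1 e.1.2) ^ 2 :=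
    Finset.sum_congr rfl fun e _ => by rw [← S.dd_eq]; rfl
  rw [h1, S.fr_A]
  have h2 : ∑ e : Pair n, (k * S.A s z e.1.1 e.1.2) ^ 2 =
      k ^ 2 * ∑ e : Pair n, S.A s z e.1.1 e.1.2 ^ 2 := by
    rw [Finset.mul_sum]
    exact Finset.sum_congr rfl fun e _ => by ring
  rw [h2]
  ring

lemma fr_A_le (s : ℝ) (z : Pair n → ℝ) : fr (S.A s z) ≤ (n : ℝ) ^ 2 := by
  unfold fr
  calc ∑ i, ∑ j, S.A s z i j ^ 2 ≤ ∑ _i : Fin n, ∑ _j : Fin n, (1 : ℝ) := by
        refine Finset.sum_le_sum fun i _ => Finset.sum_le_sum fun j _ => ?_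
        have h := abs_le.1 (S.abs_A s z i j)
        nlinarith [h.1, h.2]
    _ = (n : ℝ) ^ 2 := by simp [pow_two]

lemma le_fr_A (s : ℝ) (z : Pair n → ℝ) : (n : ℝ) ≤ fr (S.A s z) := by
  rw [S.fr_A]
  have : 0 ≤ ∑ e : Pair n, S.A s z e.1.1 e.1.2 ^ 2 := Finset.sum_nonneg fun _ _ => sq_nonneg _
  linarith

/-- the Hessian of the value function -/
lemma hh_DA {L B M : ℝ} {HF TF : Pair n → Pair n → (Pair n → ℝ) → ℝ}
    (h : Sm S.F S.D B L HF TF M) (s : ℝ) (e i : Pair n) (z : Pair n → ℝ) :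
    hh x s S.F S.D HF e i z = k * S.DA s i z e.1.1 e.1.2 := by
  have h1 : PD i (dd x s S.F S.D e) (hh x s S.F S.D HF e i) :=
    H325.pd_of_fd (fun u => hh_fd h x s e u) i
  have h2 : PD i (dd x s S.F S.D e) (fun z => k * S.DA s i z e.1.1 e.1.2) := by
    have e1 : dd x s S.F S.D e = fun z => k * S.A s z e.1.1 e.1.2 :=
      funext fun z => S.dd_eq s e z
    rw [e1]
    exact (S.pd_A s i e.1.1 e.1.2).const_mul k
  exact PD_unique h1 h2 z

/-- the squared Hessian of the value function -/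
lemma hq_DA {L B M : ℝ} {HF TF : Pair n → Pair n → (Pair n → ℝ) → ℝ}
    (h : Sm S.F S.D B L HF TF M) (s : ℝ) (z : Pair n → ℝ) :
    hq x s S.F S.D HF z = k ^ 2 / 2 * ∑ e : Pair n, fr (S.DA s e z) := by
  have h1 : ∀ e : Pair n, fr (S.DA s e z) = 2 * ∑ f : Pair n, S.DA s e z f.1.1 f.1.2 ^ 2 :=
    fun e => sum_pairs (fun i j => S.DA s e z i j ^ 2)
      (fun p q => by rw [S.DA_comm s e z p q]) (fun p => by rw [S.DA_self]; ring)
  unfold hq
  simp only [S.hh_DA h, h1, mul_pow]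
  rw [Finset.sum_comm, Finset.mul_sum]
  refine Finset.sum_congr rfl fun e _ => ?_
  rw [← Finset.mul_sum]
  ring

/-! ### symmetries -/

lemma F_sg (b : Fin n) (z : Pair n → ℝ) : S.F (fun e => sg b e * z e) = S.F z := S.F_fl b z

lemma DA_fl_row (s : ℝ) (e : Pair n) {b p : Fin n} (hp : p ≠ b) (z : Pair n → ℝ) :
    S.DA s e (fl b z) p b = -(sg b e * S.DA s e z p b) := by
  have h1 := pd_fl (S.pd_A s e p b) b
  have h2 : PD e (fun z => S.A s (fl b z) p b) (fun z => -(1 : ℝ) * S.DA s e z p b) := by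
    have e1 : (fun z => S.A s (fl b z) p b) = fun z => -(1 : ℝ) * S.A s z p b :=
      funext fun z => by rw [S.A_fl_row s hp, neg_one_mul]
    rw [e1]
    exact (S.pd_A s e p b).const_mul (-1)
  have h3 := PD_unique h1 h2 z
  have h4 : sg b e * sg b e = 1 := by rw [← pow_two]; exact sg_sq b e
  have h5 : S.DA s e (fl b z) p b = sg b e * (sg b e * S.DA s e (fl b z) p b) := by
    rw [← mul_assoc, h4, one_mul]
  rw [h5]
  have h6 : sg b e * S.DA s e (fl b z) p b = -(1 : ℝ) * S.DA s e z p b := h3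
  rw [h6]
  ring

lemma DA_fl_ne (s : ℝ) (e : Pair n) {b p q : Fin n} (hp : p ≠ b) (hq : q ≠ b) (z : Pair n → ℝ) :
    S.DA s e (fl b z) p q = sg b e * S.DA s e z p q := by
  have h1 := pd_fl (S.pd_A s e p q) b
  have h2 : PD e (fun z => S.A s (fl b z) p q) (fun z => S.DA s e z p q) := by
    have e1 : (fun z => S.A s (fl b z) p q) = fun z => S.A s z p q :=
      funext fun z => S.A_fl_ne s hp hq z
    rw [e1]
    exact S.pd_A s e p q
  have h3 := PD_unique h1 h2 z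
  have h4 : sg b e * sg b e = 1 := by rw [← pow_two]; exact sg_sq b e
  have h5 : S.DA s e (fl b z) p q = sg b e * (sg b e * S.DA s e (fl b z) p q) := by
    rw [← mul_assoc, h4, one_mul]
  rw [h5]
  exact congrArg (fun t => sg b e * t) h3

lemma DA_act (π : Equiv.Perm (Fin n)) (s : ℝ) (e : Pair n) (z : Pair n → ℝ) (p q : Fin n) :
    S.DA s e (act π z) p q = S.DA s (pf π e) z (π p) (π q) := by
  have h1 := pd_act π (S.pd_A s e p q)
  have e1 : (fun z => S.A s (act π z) p q) = fun z => S.A s z (π p) (π q) :=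
    funext fun z => S.A_act π s z p q
  rw [e1] at h1
  exact PD_unique h1 (S.pd_A s (pf π e) (π p) (π q)) z

lemma H_act (π : Equiv.Perm (Fin n)) {s : ℝ} (hs : 0 < s) (b : Fin n) (z : Pair n → ℝ)
    (i j : Fin n) : S.H s b (act π z) i j = S.H s (π b) z (π i) (π j) := by
  by_cases hj : j = b
  · rw [hj, S.H_row hs, S.H_row hs]
  · have he := cp_mem b j hj
    have ho := oth_cp b j hj
    have h1 := S.DA_row hs he (act π z) i
    rw [ho] at h1
    have he' : pf π (cp b j hj) ∈ row (π b) := (mem_row_pf π b _).2 he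
    have h2 := S.DA_row hs he' z (π i)
    rw [oth_pf π he, ho, ← S.DA_act, h1] at h2
    exact mul_left_cancel₀ S.k0.ne' h2

lemma fr_A_act (π : Equiv.Perm (Fin n)) (s : ℝ) (z : Pair n → ℝ) :
    fr (S.A s (act π z)) = fr (S.A s z) := by
  unfold fr
  simp only [S.A_act]
  rw [Equiv.sum_comp π fun i => ∑ j, S.A s z i (π j) ^ 2]
  exact Finset.sum_congr rfl fun i _ => Equiv.sum_comp π fun j => S.A s z i j ^ 2

lemma fr_A_fl (b : Fin n) (s : ℝ) (z : Pair n → ℝ) : fr (S.A s (fl b z)) = fr (S.A s z) := by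
  unfold fr
  refine Finset.sum_congr rfl fun i _ => Finset.sum_congr rfl fun j _ => ?_
  by_cases hi : i = b
  · by_cases hj : j = b
    · rw [hi, hj, S.A_self, S.A_self]
    · rw [hi, S.A_comm s _ b j, S.A_comm s z b j, S.A_fl_row s hj]
      ring
  · by_cases hj : j = b
    · rw [hj, S.A_fl_row s hi]
      ring
    · rw [S.A_fl_ne s hi hj]

end CS

end Vale.Agent.P146.U.R1S
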