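import Vale.Agent.P146.H826.LawP
import Vale.Agent.P146.U.H332_CDef
import Vale.Agent.P146.U.NS

/-!
The four positions of the plan R1 and the average over a set `R` of couplings, in all the blocks:
the positions of a row after averaging are again Gaussian positions of variance `s1`, `s2`.
The row model: the average over the couplings of the row `b` is an average over `Fin n → ℝ`.
-/

open MeasureTheory ProbabilityTheory

namespace Vale.Agent.P146.U.R1C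

open Vale.Agent.P146.R1C hiding Av_lf_P0 Av_lf_P1 Av_lf_P2 Av_lf_P23 Av_lf_P23_row Av_lf_P3 Ca Cd
  En En_eq Ew Ew_eq Gb Nd P0 P0_sw P1 P1_sw P2 P2_sw P3 P3_sw Par Sa Sd dens

open Vale.Agent.P157.Lv Vale.Agent.P146.H425 Vale.Agent.P146.H712
open Vale.Agent.P146.R1 hiding Et Et4 Et4_123 Et4_124 Et4_add Et4_const Et4_const_mul Et4_cs
  Et4_mono Et4_nonneg Et4_sub Et_add Et_const Et_const_mul Et_cs Et_fst_eq Et_jensen Et_mono
  Et_nonneg Et_sub Et_weight Et_zero Eu Eu4 Eu4_123 Eu4_124 Eu4_add Eu4_cond Eu4_const_mul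
  Eu4_iter Eu4_mono Eu4_nonneg Eu4_one_eq Eu4_one_eq' Eu4_one_pos Eu4_weight Eu_add Eu_const_mul
  Eu_fst Eu_fst_eq Eu_iter Eu_mono Eu_nonneg Eu_one Eu_one_eq Eu_one_pos Eu_weight Eu_zero
  Eu_zero_one Lth Lth_zero Qt dn dn_pos e3_dn eg_Eu eg_Eu4
open Vale.Agent.P146.U.R1

set_option linter.unusedSectionVars false

variable {κ : Type} [Fintype κ] [DecidableEq κ] {t0 t1 s1 s2 s : ℝ} {R R' : Finset κ}

/-! ### `sw` -/

/-! ### exponential growth -/

/-! ### the law of the positions of a set of couplings -/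

section one

variable {f : (κ → ℝ) → ℝ}

end one

/-! ### the calculus of `AvP` -/

section avp

variable {f φ g : (κ → ℝ) → ℝ}

end avp

/-! ### the row model -/

section row

open Vale.Agent.P146.H325 Vale.Agent.P146.H332

variable {n : ℕ} {b : Fin n}

end row

/-! ### the same with the parameters `q : Par` -/

section par

variable {q : Par}

theorem Av_lf_P23 (hq : q.Ok) {Φ : (κ → ℝ) → (κ → ℝ) → ℝ}
    (hΦ : EG fun w : κ ⊕ κ → ℝ => Φ (fun e => w (Sum.inl e)) (fun e => w (Sum.inr e)))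
    (R : Finset κ) (w : K4 κ → ℝ) :
    Av (lf R) (fun w => Φ (P2 q w) (P3 q w)) w =
      ∫ g, (∫ g', Φ (sw R (P2 q w) (√q.s1 • g))
        (sw R (P3 q w) (√q.s1 • g + √(q.s2 - q.s1) • g')) ∂(gI κ)) ∂(gI κ) :=
  Av_lf_two hΦ hq.h0 hq.h01 hq.h1 R w

variable {f : (κ → ℝ) → ℝ}

lemma Av_lf_P0 (hf : EG f) (R : Finset κ) (w : K4 κ → ℝ) :
    Av (lf R) (fun w => f (P0 q w)) w = AvP q.t0 R f (P0 q w) := Av_lf_0 hf R w

lemma Av_lf_P1 (hq : q.Ok) (hf : EG f) (R : Finset κ) (w : K4 κ → ℝ) :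
    Av (lf R) (fun w => f (P1 q w)) w = AvP q.t1 R f (P1 q w) := Av_lf_1 hf hq.h0 hq.h01 R w

lemma Av_lf_P2 (hq : q.Ok) (hf : EG f) (R : Finset κ) (w : K4 κ → ℝ) :
    Av (lf R) (fun w => f (P2 q w)) w = AvP q.s1 R f (P2 q w) :=
  Av_lf_2 hf hq.h0 hq.h01 hq.h1 R w

lemma Av_lf_P3 (hq : q.Ok) (hf : EG f) (R : Finset κ) (w : K4 κ → ℝ) :
    Av (lf R) (fun w => f (P3 q w)) w = AvP q.s2 R f (P3 q w) :=
  Av_lf_3 hf hq.h0 hq.h01 hq.h1 hq.h12 R w

open Vale.Agent.P146.H325 Vale.Agent.P146.H332 in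
theorem Av_lf_P23_row {n : ℕ} (hq : q.Ok) {Φ : (Pair n → ℝ) → (Pair n → ℝ) → ℝ}
    (hΦ : EG fun w : Pair n ⊕ Pair n → ℝ => Φ (fun e => w (Sum.inl e)) (fun e => w (Sum.inr e)))
    (b : Fin n) (w : K4 (Pair n) → ℝ) :
    Av (lf (row b)) (fun w => Φ (P2 q w) (P3 q w)) w =
      ∫ y, (∫ y', Φ (put b (√q.s1 • y) (P2 q w))
        (put b (√q.s1 • y + √(q.s2 - q.s1) • y') (P3 q w)) ∂(gI (Fin n))) ∂(gI (Fin n)) :=
  Av_lf_row hΦ hq.h0 hq.h01 hq.h1 b w

end par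

end Vale.Agent.P146.U.R1C
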