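import Vale.Agent.P146.H941.CDefS
import Vale.Agent.P146.U.H645_CS0
import Vale.Agent.P146.U.NS

/-!
Plan R1, block C in system form: the objects of `R1C` (helper332's `CDef`) for an abstract cavity
system `S : CS n k x` in the place of the SK model. The general part of `R1C` (`Par`, `P0`..`P3`,
`lf`, `AvP`, `dens`, `Ew`, `En`, `put`) is unchanged; the names which depend on the model are
repeated here with `S` in the place of `k x` (resp. `k`).
-/

open MeasureTheory ProbabilityTheory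

namespace Vale.Agent.P146.U.R1S

open Vale.Agent.P146.R1S hiding CS Ca Cd Gb MM Nd Sa Sd cl cl0 ee

open Vale.Agent.P157.Lv Vale.Agent.P146.H425 Vale.Agent.P146.H325 Vale.Agent.P146.H332
  Vale.Agent.P146.H712 Vale.Agent.P146.H816 Matrix
open Vale.Agent.P146.R1 hiding Et Et4 Et4_123 Et4_124 Et4_add Et4_const Et4_const_mul Et4_cs
  Et4_mono Et4_nonneg Et4_sub Et_add Et_const Et_const_mul Et_cs Et_fst_eq Et_jensen Et_mono
  Et_nonneg Et_sub Et_weight Et_zero Eu Eu4 Eu4_123 Eu4_124 Eu4_add Eu4_cond Eu4_const_mul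
  Eu4_iter Eu4_mono Eu4_nonneg Eu4_one_eq Eu4_one_eq' Eu4_one_pos Eu4_weight Eu_add Eu_const_mul
  Eu_fst Eu_fst_eq Eu_iter Eu_mono Eu_nonneg Eu_one Eu_one_eq Eu_one_pos Eu_weight Eu_zero
  Eu_zero_one Lth Lth_zero Qt dn dn_pos e3_dn eg_Eu eg_Eu4
open Vale.Agent.P146.R1C hiding Ca Cd En En_eq Ew Ew_eq Gb Nd P0 P0_sw P1 P1_sw P2 P2_sw P3 P3_sw
  Par Sa Sd dens
open Vale.Agent.P146.U.R1 Vale.Agent.P146.U.R1C

set_option linter.unusedSectionVars false

variable {n : ℕ} {k x : ℝ} (S : CS n k x) (s : ℝ)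

/-- The clean column of `b`: the row of `b'` is averaged. -/
noncomputable def cl (b b' : Fin n) (z : Pair n → ℝ) (i : Fin n) : ℝ :=
  AvP s (row b') (fun z => S.A s z i b) z

/-- The clean column, restricted to the bulk sites. -/
noncomputable def cl0 (b b' : Fin n) (z : Pair n → ℝ) (i : Fin n) : ℝ :=
  if i = b ∨ i = b' then 0 else cl S s b b' z i

/-- The mean gradient of the clean column. -/
noncomputable def MM (b b' : Fin n) (z : Pair n → ℝ) : Matrix (Fin n) (Fin n) ℝ :=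
  fun i j => k * AvP s (row b ∪ row b') (fun z => S.H s b z i j) z

/-- `E_y |a|²` -/
noncomputable def ee (b b' : Fin n) (z : Pair n → ℝ) : ℝ :=
  AvP s (row b ∪ row b') (fun z => ∑ i, cl0 S s b b' z i ^ 2) z

/-- `a`, function of the coordinates -/
noncomputable def Ca (q : Par) (b b' : Fin n) (w : K4 (Pair n) → ℝ) : Fin n → ℝ :=
  cl0 S q.s1 b b' (P2 q w)

/-- `d`, function of the coordinates -/
noncomputable def Cd (q : Par) (b b' : Fin n) (w : K4 (Pair n) → ℝ) : Fin n → ℝ :=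
  cl0 S q.s2 b b' (P3 q w)

/-- `S_a` -/
noncomputable def Sa (q : Par) (b b' : Fin n) (w : K4 (Pair n) → ℝ) :
    Matrix (Fin n) (Fin n) ℝ :=
  fun i j => Av (lf (row b ∪ row b')) (fun w => Ca S q b b' w i * Ca S q b b' w j) w

/-- `S_d` -/
noncomputable def Sd (q : Par) (b b' : Fin n) (w : K4 (Pair n) → ℝ) :
    Matrix (Fin n) (Fin n) ℝ :=
  fun i j => Av (lf (row b ∪ row b')) (fun w => Cd S q b b' w i * Cd S q b b' w j) w

/-- `N = E a d'` -/
noncomputable def Nd (q : Par) (b b' : Fin n) (w : K4 (Pair n) → ℝ) :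
    Matrix (Fin n) (Fin n) ℝ :=
  fun i j => Av (lf (row b ∪ row b')) (fun w => Ca S q b b' w i * Cd S q b b' w j) w

/-- `G` -/
noncomputable def Gb (q : Par) (b b' : Fin n) (w : K4 (Pair n) → ℝ) : ℝ :=
  ip (Sa S q b b' w) (Sd S q b b' w) - fr (Nd S q b b' w)

end Vale.Agent.P146.U.R1S
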