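import Vale.Agent.P146.H332.CRowS
import Vale.Agent.P146.U.H332_CRow
import Vale.Agent.P146.U.H941_CDefS
import Vale.Agent.P146.U.NS

/-!
Plan R1, block C in system form: the row model of the clean columns of a position system.
-/

open MeasureTheory ProbabilityTheory

namespace Vale.Agent.P146.U.R1S

open Vale.Agent.P146.R1S hiding CS Ca Cd Gb MM MM_row Nd Nd_row Sa Sa_row Sd Sd_row cl cl0 clz_S
  ee ee_row rowIn_S

open Vale.Agent.P157.Lv Vale.Agent.P146.H425 Vale.Agent.P146.H325 Vale.Agent.P146.H332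
  Vale.Agent.P146.H712 Vale.Agent.P146.H816 Matrix
open Vale.Agent.P146.R1 hiding Et Et4 Et4_123 Et4_124 Et4_add Et4_const Et4_const_mul Et4_cs
  Et4_mono Et4_nonneg Et4_sub Et_add Et_const Et_const_mul Et_cs Et_fst_eq Et_jensen Et_mono
  Et_nonneg Et_sub Et_weight Et_zero Eu Eu4 Eu4_123 Eu4_124 Eu4_add Eu4_cond Eu4_const_mul
  Eu4_iter Eu4_mono Eu4_nonneg Eu4_one_eq Eu4_one_eq' Eu4_one_pos Eu4_weight Eu_add Eu_const_mul
  Eu_fst Eu_fst_eq Eu_iter Eu_mono Eu_nonneg Eu_one Eu_one_eq Eu_one_pos Eu_weight Eu_zero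
  Eu_zero_one Lth Lth_zero Qt dn dn_pos e3_dn eg_Eu eg_Eu4
open Vale.Agent.P146.R1C hiding Av_aa Av_ad Av_dd Av_lf_P0 Av_lf_P1 Av_lf_P2 Av_lf_P23
  Av_lf_P23_row Av_lf_P3 Ca Cd En En_eq Ew Ew_eq Gb Nd Nd_row P0 P0_sw P1 P1_sw P2 P2_sw P3 P3_sw
  Par Sa Sa_row Sd Sd_row dens
open Vale.Agent.P146.U.R1 Vale.Agent.P146.U.R1C

set_option linter.unusedSectionVars false

variable {n : ℕ} {k x s : ℝ} (S : CS n k x)

private lemma egA_S (s : ℝ) (i j : Fin n) : EG fun z => S.A s z i j := by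
  have e : (fun z => S.A s z i j) = fun z => ∑ σ, pr i j σ * S.mu s z σ := by
    funext z
    rw [S.A_mu]
    exact Finset.sum_congr rfl fun σ _ => mul_comm _ _
  rw [e]
  exact EG.sum _ fun σ _ => (S.eg_mu s σ).const_mul (pr i j σ)

private lemma A_self_S (s : ℝ) (z : Pair n → ℝ) (i : Fin n) : S.A s z i i = 1 := by
  rw [S.A_mu, ← S.mu1 s z]
  refine Finset.sum_congr rfl fun σ _ => ?_
  have : pr i i σ = 1 := by
    unfold pr
    exact sp_mul_self σ i
  rw [this, mul_one]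

private lemma diag_H_S {s : ℝ} (hs : 0 < s) (b : Fin n) (z : Pair n → ℝ) (i : Fin n) :
    S.H s b z i i ≤ 1 := by
  have h1 := S.H_le hs b z (Pi.single i 1)
  have e1 : ∀ M : Fin n → Fin n → ℝ, qf M (Pi.single i 1) = M i i := by
    intro M
    unfold qf
    rw [Finset.sum_eq_single i, Finset.sum_eq_single i]
    · simp
    · intro j _ hj; simp [hj]
    · simp
    · intro j _ hj; simp [hj]
    · simp
  rw [e1, e1, A_self_S] at h1
  exact h1

private lemma abs_H_S {s : ℝ} (hs : 0 < s) (b : Fin n) (z : Pair n → ℝ) (i j : Fin n) :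
    |S.H s b z i j| ≤ 1 := by
  have e1 : ∀ c : ℝ, i ≠ j → qf (fun i j => S.H s b z i j) (Pi.single i 1 + c • Pi.single j 1) =
      S.H s b z i i + 2 * c * S.H s b z i j + c ^ 2 * S.H s b z j j := by
    intro c hij
    have hv : ∀ f : Fin n → ℝ, ∑ p, f p * (Pi.single i (1 : ℝ) + c • Pi.single j (1 : ℝ) :
        Fin n → ℝ) p = f i + c * f j := by
      intro f
      simp only [Pi.add_apply, Pi.smul_apply, smul_eq_mul, mul_add, Finset.sum_add_distrib]
      congr 1
      · rw [Finset.sum_eq_single i]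
        · simp
        · intro p _ hp; simp [hp]
        · simp
      · rw [Finset.sum_eq_single j]
        · simp; ring
        · intro p _ hp; simp [hp]
        · simp
    have h0 : ∀ (M : Fin n → Fin n → ℝ) (v : Fin n → ℝ), qf M v =
        ∑ p, (∑ q, M p q * v q) * v p := by
      intro M v
      unfold qf
      refine Finset.sum_congr rfl fun p _ => ?_
      rw [Finset.sum_mul]
      exact Finset.sum_congr rfl fun q _ => by ring
    rw [h0, hv, hv, hv, S.H_comm s b z j i]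
    ring
  by_cases hij : i = j
  · subst hij
    have h2 := S.H_nonneg hs b z (Pi.single i 1)
    have e2 : qf (fun i j => S.H s b z i j) (Pi.single i 1) = S.H s b z i i := by
      unfold qf
      rw [Finset.sum_eq_single i, Finset.sum_eq_single i]
      · simp
      · intro j _ hj; simp [hj]
      · simp
      · intro j _ hj; simp [hj]
      · simp
    rw [e2] at h2
    rw [abs_of_nonneg h2]
    exact diag_H_S S hs b z i
  have h1 := S.H_nonneg hs b z (Pi.single i 1 + (1 : ℝ) • Pi.single j 1)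
  have h2 := S.H_nonneg hs b z (Pi.single i 1 + (-1 : ℝ) • Pi.single j 1)
  rw [e1 _ hij] at h1 h2
  have h3 := diag_H_S S hs b z i
  have h4 := diag_H_S S hs b z j
  rw [abs_le]
  constructor <;> linarith

private lemma egH_S {s : ℝ} (hs : 0 < s) (b i j : Fin n) : EG fun z => S.H s b z i j :=
  EG.of_bdd (S.cont_H s b i j).measurable fun z => abs_H_S S hs b z i j

/-- **The row model of a position system.** -/
theorem rowIn_S (hs : 0 < s) : RowIn (n := n) k (S.A s) (S.DA s) (S.H s) where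
  egA i j := egA_S S s i j
  egD e i j := S.eg_DA s e i j
  egH b i j := egH_S S hs b i j
  fdA i j z := S.fd_A s i j z
  cH b i j := S.cont_H s b i j
  rowD _ _ he z i := S.DA_row hs he z i
  symH b z i j := S.H_comm s b z i j
  flA _ _ z hi := S.A_fl_row s hi z

lemma clz_S (b b' i : Fin n) (z : Pair n → ℝ) : clz (S.A s) s b b' z i = cl0 S s b b' z i := rfl

lemma Nd_row {q : Par} (hq : q.Ok) (b b' i j : Fin n) (w : K4 (Pair n) → ℝ) :
    Nd S q b b' w i j = ∫ y, (∫ y', gr (S.A q.s1) q.s1 b b' (P2 q w) i (√q.s1 • y) *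
        gr (S.A q.s2) q.s2 b b' (P3 q w) j (√q.s1 • y + √(q.s2 - q.s1) • y')
          ∂(gI (Fin n))) ∂(gI (Fin n)) :=
  Av_ad hq (fun i j => egA_S S q.s1 i j) (fun i j => egA_S S q.s2 i j) i j w

lemma Sa_row {q : Par} (hq : q.Ok) (b b' i j : Fin n) (w : K4 (Pair n) → ℝ) :
    Sa S q b b' w i j = ∫ y, gr (S.A q.s1) q.s1 b b' (P2 q w) i (√q.s1 • y) *
      gr (S.A q.s1) q.s1 b b' (P2 q w) j (√q.s1 • y) ∂(gI (Fin n)) :=
  Av_aa hq (fun i j => egA_S S q.s1 i j) i j w

lemma Sd_row {q : Par} (hq : q.Ok) (b b' i j : Fin n) (w : K4 (Pair n) → ℝ) :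
    Sd S q b b' w i j =
      ∫ y, (∫ y', gr (S.A q.s2) q.s2 b b' (P3 q w) i (√q.s1 • y + √(q.s2 - q.s1) • y') *
        gr (S.A q.s2) q.s2 b b' (P3 q w) j (√q.s1 • y + √(q.s2 - q.s1) • y')
          ∂(gI (Fin n))) ∂(gI (Fin n)) :=
  Av_dd hq (fun i j => egA_S S q.s2 i j) i j w

lemma MM_row (hs : 0 < s) {b b' i j : Fin n} (hi : i ≠ b) (hi' : i ≠ b')
    (hj : j ≠ b) (hj' : j ≠ b') (z : Pair n → ℝ) :
    ∫ y, kr k (S.H s) s b b' z i j (√s • y) ∂(gI (Fin n)) = MM S s b b' z i j :=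
  mean_kr (fun b i j => egH_S S hs b i j) hi hi' hj hj' z

lemma ee_row (b b' : Fin n) (z : Pair n → ℝ) :
    ee S s b b' z = ∑ i, ∫ y, gr (S.A s) s b b' z i (√s • y) ^ 2 ∂(gI (Fin n)) := by
  show AvP s (row b ∪ row b') (fun z => ∑ i, clz (S.A s) s b b' z i ^ 2) z = _
  rw [AvP_sum (R := row b ∪ row b') (s := s) Finset.univ
    (f := fun i z => clz (S.A s) s b b' z i ^ 2)
    (fun i _ => (eg_clz (fun i j => egA_S S s i j) s b b' i).pow 2)]
  refine Finset.sum_congr rfl fun i _ => ?_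
  have h := Av_a (A := S.A s) (s := s) (fun i j => egA_S S s i j) (b := b) (b' := b') i i z
  simp only [← _root_.sq] at h
  exact h

end Vale.Agent.P146.U.R1S
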