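import Vale.Agent.P146.H504.Cum4
import Vale.Agent.P146.U.H332_CDef
import Vale.Agent.P146.U.H645_CS0
import Vale.Agent.P146.U.H826_LawP
import Vale.Agent.P146.U.NS

/-!
Cumulant domination, part 4: the inequalities (I1), (I2).  The variance of the row gradients `H`
over the couplings of the row is bounded by the fourth moments of the overlap of two
configurations of the root law at the full level.
-/

open MeasureTheory ProbabilityTheory

namespace Vale.Agent.P146.U.Cum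

open Vale.Agent.P146.Cum hiding H_ev eg_qP qP qP_nonneg qT qT_eq

open Vale.Agent.P157.Lv Vale.Agent.P146.H425 Vale.Agent.P146.H325 Vale.Agent.P146.H712
open Vale.Agent.P146.R1 hiding Et Et4 Et4_123 Et4_124 Et4_add Et4_const Et4_const_mul Et4_cs
  Et4_mono Et4_nonneg Et4_sub Et_add Et_const Et_const_mul Et_cs Et_fst_eq Et_jensen Et_mono
  Et_nonneg Et_sub Et_weight Et_zero Eu Eu4 Eu4_123 Eu4_124 Eu4_add Eu4_cond Eu4_const_mul
  Eu4_iter Eu4_mono Eu4_nonneg Eu4_one_eq Eu4_one_eq' Eu4_one_pos Eu4_weight Eu_add Eu_const_mul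
  Eu_fst Eu_fst_eq Eu_iter Eu_mono Eu_nonneg Eu_one Eu_one_eq Eu_one_pos Eu_weight Eu_zero
  Eu_zero_one Lth Lth_zero Qt dn dn_pos e3_dn eg_Eu eg_Eu4
open Vale.Agent.P146.R1C hiding Av_lf_P0 Av_lf_P1 Av_lf_P2 Av_lf_P23 Av_lf_P23_row Av_lf_P3 Ca Cd
  En En_eq Ew Ew_eq Gb Nd P0 P0_sw P1 P1_sw P2 P2_sw P3 P3_sw Par Sa Sd dens
open Vale.Agent.P146.R1S hiding CS
open Vale.Agent.P146.U.R1 Vale.Agent.P146.U.R1C Vale.Agent.P146.U.R1S

set_option linter.unusedSectionVars false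

/-! ### second order Poincare inequality over a row -/

section poin

variable {n : ℕ} {s : ℝ} {b : Fin n}

end poin

/-! ### the row gradients as kernels -/

section rows

variable {n : ℕ} {k x s Γ : ℝ} (S : CS n k x)

/-- Fourth moment of the overlap of the projected configurations. -/
noncomputable def qP (P : Matrix (Fin n) (Fin n) ℝ) (s : ℝ) (z : Pair n → ℝ) : ℝ :=
  ∑ σ, S.mu s z σ * ∑ τ, S.mu s z τ *
    (∑ i, (∑ l, P i l * sp σ l) * (∑ l, P i l * sp τ l)) ^ 4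

/-- Sum of the squares of the four point functions. -/
noncomputable def qT (s : ℝ) (z : Pair n → ℝ) : ℝ :=
  ∑ i, ∑ j, ∑ p, ∑ q, S.T4 s z i j p q ^ 2

lemma qP_nonneg (P : Matrix (Fin n) (Fin n) ℝ) (s : ℝ) (z : Pair n → ℝ) : 0 ≤ qP S P s z :=
  Finset.sum_nonneg fun σ _ => mul_nonneg (S.mu0 s z σ) (Finset.sum_nonneg fun τ _ =>
    mul_nonneg (S.mu0 s z τ) (by positivity))

lemma eg_qP (P : Matrix (Fin n) (Fin n) ℝ) (s : ℝ) : EG (qP S P s) :=
  EG.sum _ fun σ _ => (S.eg_mu s σ).mul (EG.sum _ fun τ _ => (S.eg_mu s τ).mul (EG.const _))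

lemma qT_eq (s : ℝ) (z : Pair n → ℝ) : qT S s z =
    ∑ σ, S.mu s z σ * ∑ τ, S.mu s z τ * (∑ i, sp σ i * sp τ i) ^ 4 := by
  have e1 : ∀ σ τ : Fin n → ℤˣ, (∑ i, sp σ i * sp τ i) ^ 4 =
      ∑ i, ∑ j, ∑ p, ∑ q, (pr i j σ * pr p q σ) * (pr i j τ * pr p q τ) := by
    intro σ τ
    have : (∑ i, sp σ i * sp τ i) ^ 4 = ((∑ i, sp σ i * sp τ i) * (∑ j, sp σ j * sp τ j)) *
      ((∑ p, sp σ p * sp τ p) * (∑ q, sp σ q * sp τ q)) := by ring
    rw [this, Finset.sum_mul_sum, Finset.sum_mul_sum]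
    simp only [Finset.sum_mul, Finset.mul_sum]
    refine Finset.sum_congr rfl fun i _ => Finset.sum_congr rfl fun j _ =>
      Finset.sum_congr rfl fun p _ => Finset.sum_congr rfl fun q _ => ?_
    unfold pr
    ring
  have e2 : ∀ i j p q, S.T4 s z i j p q ^ 2 = ∑ σ, ∑ τ, S.mu s z σ * (S.mu s z τ *
      ((pr i j σ * pr p q σ) * (pr i j τ * pr p q τ))) := by
    intro i j p q
    rw [S.T4_mu, pow_two, Finset.sum_mul_sum]
    refine Finset.sum_congr rfl fun σ _ => Finset.sum_congr rfl fun τ _ => ?_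
    ring
  unfold qT
  simp_rw [e1, e2, Finset.mul_sum]
  calc _ = ∑ i, ∑ j, ∑ p, ∑ σ, ∑ q, ∑ τ, S.mu s z σ * (S.mu s z τ *
        ((pr i j σ * pr p q σ) * (pr i j τ * pr p q τ))) :=
        Finset.sum_congr rfl fun i _ => Finset.sum_congr rfl fun j _ =>
          Finset.sum_congr rfl fun p _ => Finset.sum_comm
    _ = ∑ i, ∑ j, ∑ σ, ∑ p, ∑ τ, ∑ q, S.mu s z σ * (S.mu s z τ *
        ((pr i j σ * pr p q σ) * (pr i j τ * pr p q τ))) :=
        Finset.sum_congr rfl fun i _ => Finset.sum_congr rfl fun j _ => by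
          rw [Finset.sum_comm]
          exact Finset.sum_congr rfl fun σ _ => Finset.sum_congr rfl fun p _ => Finset.sum_comm
    _ = ∑ i, ∑ σ, ∑ j, ∑ τ, ∑ p, ∑ q, S.mu s z σ * (S.mu s z τ *
        ((pr i j σ * pr p q σ) * (pr i j τ * pr p q τ))) :=
        Finset.sum_congr rfl fun i _ => by
          rw [Finset.sum_comm]
          exact Finset.sum_congr rfl fun σ _ => Finset.sum_congr rfl fun j _ => Finset.sum_comm
    _ = ∑ σ, ∑ i, ∑ τ, ∑ j, ∑ p, ∑ q, S.mu s z σ * (S.mu s z τ *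
        ((pr i j σ * pr p q σ) * (pr i j τ * pr p q τ))) := by
          rw [Finset.sum_comm]
          exact Finset.sum_congr rfl fun σ _ => Finset.sum_congr rfl fun i _ => Finset.sum_comm
    _ = ∑ σ, ∑ τ, ∑ i, ∑ j, ∑ p, ∑ q, S.mu s z σ * (S.mu s z τ *
        ((pr i j σ * pr p q σ) * (pr i j τ * pr p q τ))) :=
          Finset.sum_congr rfl fun σ _ => Finset.sum_comm
    _ = _ := rfl

variable {S} {b : Fin n} {T2 : (Pair n → ℝ) → (Lg2 → Fin n → ℤˣ) → ℝ}
  {T3 : (Pair n → ℝ) → (Lg3 → Fin n → ℤˣ) → ℝ} {T4 : (Pair n → ℝ) → (Lg4 → Fin n → ℤˣ) → ℝ}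

/-- The row gradients. -/
lemma H_ev (hF : Four k SkS (S.mu s) Γ T2 T3 T4) (hs : 0 < s) (z : Pair n → ℝ) {i j : Fin n}
    (hj : j ≠ b) : S.H s b z i j = ev T2 (exg (fun _ => lg b i) (lg b j)) z := by
  have he := cp_mem b j hj
  have h1 : PD (cp b j hj) (fun z => S.A s z i b) (fun z => S.DA s (cp b j hj) z i b) :=
    pd_of_fd (S.fd_A s i b) (cp b j hj)
  have h2 := pd_ev hF.d2 (fun _ => lg b i) (cp b j hj)
  have e1 : ev (fun z (x : Unit → Fin n → ℤˣ) => S.mu s z (x ())) (fun _ => lg b i) =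
      fun z => S.A s z i b := by
    funext z
    unfold ev
    rw [S.A_mu]
    simp only [Finset.univ_unique, Finset.prod_singleton]
    rw [sum_unit (fun σ => S.mu s z σ * lg b i σ)]
    refine Finset.sum_congr rfl fun σ _ => ?_
    unfold lg pr
    ring
  rw [e1] at h2
  have h3 := pd_unique h1 h2 z
  rw [S.DA_row hs he, oth_cp, lg_SkS he, oth_cp] at h3
  exact mul_left_cancel₀ S.k0.ne' h3

end rows

end Vale.Agent.P146.U.Cum
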