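import Vale.Agent.P146.H504.Cum5
import Vale.Agent.P146.U.H504_Cum4
import Vale.Agent.P146.U.NS

/-!
Cumulant domination, part 5: the inequalities (I1), (I2) for every position system whose value
functions are cascades.
-/

open MeasureTheory ProbabilityTheory

namespace Vale.Agent.P146.U.Cum

open Vale.Agent.P146.Cum hiding H_ev eg_H eg_qP eg_qT i2 m4_lg m4_pg qP qP_nonneg qT qT_eq
  qT_nonneg row_sq

open Vale.Agent.P157.Lv Vale.Agent.P146.H425 Vale.Agent.P146.H325 Vale.Agent.P146.H712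
open Vale.Agent.P146.R1 hiding Et Et4 Et4_123 Et4_124 Et4_add Et4_const Et4_const_mul Et4_cs
  Et4_mono Et4_nonneg Et4_sub Et_add Et_const Et_const_mul Et_cs Et_fst_eq Et_jensen Et_mono
  Et_nonneg Et_sub Et_weight Et_zero Eu Eu4 Eu4_123 Eu4_124 Eu4_add Eu4_cond Eu4_const_mul
  Eu4_iter Eu4_mono Eu4_nonneg Eu4_one_eq Eu4_one_eq' Eu4_one_pos Eu4_weight Eu_add Eu_const_mul
  Eu_fst Eu_fst_eq Eu_iter Eu_mono Eu_nonneg Eu_one Eu_one_eq Eu_one_pos Eu_weight Eu_zero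
  Eu_zero_one Lth Lth_zero Qt dn dn_pos e3_dn eg_Eu eg_Eu4
open Vale.Agent.P146.R1C hiding Av_lf_P0 Av_lf_P1 Av_lf_P2 Av_lf_P23 Av_lf_P23_row Av_lf_P3 Ca Cd
  En En_eq Ew Ew_eq Gb Nd P0 P0_sw P1 P1_sw P2 P2_sw P3 P3_sw Par Sa Sd dens
open Vale.Agent.P146.R1S hiding CS
open Vale.Agent.P146.U.R1 Vale.Agent.P146.U.R1C Vale.Agent.P146.U.R1S

set_option linter.unusedSectionVars false

variable {n : ℕ} {k x s Γ η : ℝ} {S : CS n k x} {b : Fin n}
  {T2 : (Pair n → ℝ) → (Lg2 → Fin n → ℤˣ) → ℝ}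
  {T3 : (Pair n → ℝ) → (Lg3 → Fin n → ℤˣ) → ℝ} {T4 : (Pair n → ℝ) → (Lg4 → Fin n → ℤˣ) → ℝ}

lemma m4_lg (s : ℝ) (z : Pair n → ℝ) : m4 (S.mu s) (lg b) z = qT S s z := by
  rw [qT_eq]
  unfold m4
  refine Finset.sum_congr rfl fun σ _ => ?_
  congr 1
  refine Finset.sum_congr rfl fun τ _ => ?_
  congr 1
  have h1 : ∑ i, lg b i σ * lg b i τ = (sp σ b * sp τ b) * ∑ i, sp σ i * sp τ i := by
    rw [Finset.mul_sum]
    refine Finset.sum_congr rfl fun i _ => ?_
    unfold lg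
    ring
  rw [h1, mul_pow]
  have h2 : (sp σ b * sp τ b) ^ 4 = 1 := by
    rw [mul_pow, show (4 : ℕ) = 2 * 2 by norm_num, pow_mul, pow_mul, sp_sq, sp_sq]
    norm_num
  rw [h2, one_mul]

lemma m4_pg (P : Matrix (Fin n) (Fin n) ℝ) (s : ℝ) (z : Pair n → ℝ) :
    m4 (S.mu s) (pg P b) z = qP S P s z := by
  unfold m4 qP
  refine Finset.sum_congr rfl fun σ _ => ?_
  congr 1
  refine Finset.sum_congr rfl fun τ _ => ?_
  congr 1
  have h0 : ∀ (i : Fin n) (σ : Fin n → ℤˣ), pg P b i σ = sp σ b * ∑ l, P i l * sp σ l := by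
    intro i σ
    unfold pg lg
    rw [Finset.mul_sum]
    exact Finset.sum_congr rfl fun l _ => by ring
  have h1 : ∑ i, pg P b i σ * pg P b i τ = (sp σ b * sp τ b) *
      ∑ i, (∑ l, P i l * sp σ l) * (∑ l, P i l * sp τ l) := by
    rw [Finset.mul_sum]
    refine Finset.sum_congr rfl fun i _ => ?_
    rw [h0, h0]
    ring
  rw [h1, mul_pow]
  have h2 : (sp σ b * sp τ b) ^ 4 = 1 := by
    rw [mul_pow, show (4 : ℕ) = 2 * 2 by norm_num, pow_mul, pow_mul, sp_sq, sp_sq]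
    norm_num
  rw [h2, one_mul]

/-- **The fourth derivatives in the row.** -/
lemma row_sq (hF : Four k SkS (S.mu s) Γ T2 T3 T4) (hη : 0 < η)
    (P : Matrix (Fin n) (Fin n) ℝ) (z : Pair n → ℝ) :
    ∑ i, ∑ j ∈ Finset.univ.erase b, ∑ e ∈ row b, ∑ e' ∈ row b,
      (k * (k * ev T4 (exg (exg (exg (fun _ => pg P b i) (lg b j)) (SkS e)) (SkS e')) z)) ^ 2 ≤
      k ^ 4 * (6 * Γ ^ 3) ^ 2 * ((η⁻¹) ^ 3 / 4 * qP S P s z + 3 * η / 4 * qT S s z) := by
  set Ψ : Fin n → Fin n → Fin n → Fin n → ℝ := fun i j p q =>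
    ev T4 (exg (exg (exg (fun _ => pg P b i) (lg b j)) (lg b p)) (lg b q)) z ^ 2 with hΨ
  have h0 : ∀ i j p q, 0 ≤ Ψ i j p q := fun i j p q => sq_nonneg _
  have h1 : ∀ i j, ∑ e ∈ row b, ∑ e' ∈ row b,
      (k * (k * ev T4 (exg (exg (exg (fun _ => pg P b i) (lg b j)) (SkS e)) (SkS e')) z)) ^ 2 =
      k ^ 4 * ∑ e ∈ row b, ∑ e' ∈ row b, Ψ i j (oth b e) (oth b e') := by
    intro i j
    rw [Finset.mul_sum]
    refine Finset.sum_congr rfl fun e he => ?_
    rw [Finset.mul_sum]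
    refine Finset.sum_congr rfl fun e' he' => ?_
    rw [lg_SkS he, lg_SkS he']
    simp only [hΨ]
    ring
  have h2 : ∀ i j, ∑ e ∈ row b, ∑ e' ∈ row b, Ψ i j (oth b e) (oth b e') ≤
      ∑ p, ∑ q, Ψ i j p q := by
    intro i j
    have h3 : ∀ p, ∑ e' ∈ row b, Ψ i j p (oth b e') ≤ ∑ q, Ψ i j p q := by
      intro p
      rw [sum_row]
      exact Finset.sum_le_univ_sum_of_nonneg fun q => h0 i j p q
    calc ∑ e ∈ row b, ∑ e' ∈ row b, Ψ i j (oth b e) (oth b e')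
        ≤ ∑ e ∈ row b, ∑ q, Ψ i j (oth b e) q := Finset.sum_le_sum fun e _ => h3 _
      _ ≤ ∑ p, ∑ q, Ψ i j p q := by
        rw [sum_row b (fun p => ∑ q, Ψ i j p q)]
        exact Finset.sum_le_univ_sum_of_nonneg fun p => Finset.sum_nonneg fun q _ => h0 i j p q
  have h4 : ∑ i, ∑ j ∈ Finset.univ.erase b, ∑ e ∈ row b, ∑ e' ∈ row b,
      (k * (k * ev T4 (exg (exg (exg (fun _ => pg P b i) (lg b j)) (SkS e)) (SkS e')) z)) ^ 2 ≤
      k ^ 4 * ∑ i, ∑ j, ∑ p, ∑ q, Ψ i j p q := by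
    simp_rw [h1]
    rw [Finset.mul_sum]
    refine Finset.sum_le_sum fun i _ => ?_
    rw [← Finset.mul_sum]
    refine mul_le_mul_of_nonneg_left ?_ (by positivity)
    refine (Finset.sum_le_sum fun j _ => h2 i j).trans ?_
    exact Finset.sum_le_univ_sum_of_nonneg fun j => Finset.sum_nonneg fun p _ =>
      Finset.sum_nonneg fun q _ => h0 i j p q
  have hl : ∀ a, 0 < wts η a := by
    intro a
    rcases a with _ | _ | _ | a
    · exact hη
    · exact hη
    · exact hη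
    · show 0 < (η⁻¹) ^ 3
      positivity
  have hp : ∏ a, wts η a = 1 := by
    rw [Fintype.prod_option, Fintype.prod_option, Fintype.prod_option]
    simp only [Finset.univ_unique, Finset.prod_singleton]
    show η * (η * (η * (η⁻¹) ^ 3)) = 1
    field_simp
  have h5 := ev_sq_sum (I := Fin n) (by decide) hF.c4 (S.mu0 s) (fam P b) hl hp z
  have h6 : ∑ f : Lg4 → Fin n, ev T4 (fun a => fam P b a (f a)) z ^ 2 =
      ∑ i, ∑ j, ∑ p, ∑ q, Ψ i j p q := by
    rw [sum_Lg4]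
    refine Finset.sum_congr rfl fun i _ => Finset.sum_congr rfl fun j _ =>
      Finset.sum_congr rfl fun p _ => Finset.sum_congr rfl fun q _ => ?_
    simp only [hΨ]
    congr 2
    funext a
    rcases a with _ | _ | _ | a <;> rfl
  have h7 : ∑ a, wts η a / 4 * m4 (S.mu s) (fam P b a) z =
      (η⁻¹) ^ 3 / 4 * qP S P s z + 3 * η / 4 * qT S s z := by
    rw [Fintype.sum_option, Fintype.sum_option, Fintype.sum_option]
    simp only [Finset.univ_unique, Finset.sum_singleton]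
    show η / 4 * m4 (S.mu s) (lg b) z + (η / 4 * m4 (S.mu s) (lg b) z +
      (η / 4 * m4 (S.mu s) (lg b) z + (η⁻¹) ^ 3 / 4 * m4 (S.mu s) (pg P b) z)) = _
    rw [m4_lg, m4_pg]
    ring
  rw [h6, h7] at h5
  refine h4.trans ?_
  rw [mul_assoc]
  exact mul_le_mul_of_nonneg_left h5 (by positivity)

lemma eg_qT (S : CS n k x) (s : ℝ) : EG (qT S s) := by
  have h1 : qT S s = m4 (S.mu s) (fun i σ => sp σ i) := by
    funext z
    rw [qT_eq]
    rfl
  rw [h1]
  exact eg_m4 (S.eg_mu s) _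

lemma qT_nonneg (S : CS n k x) (s : ℝ) (z : Pair n → ℝ) : 0 ≤ qT S s z := by
  unfold qT
  positivity

/-- Growth of the row gradients. -/
lemma eg_H (hF : Four k SkS (S.mu s) Γ T2 T3 T4) (hs : 0 < s) (i j : Fin n) :
    EG fun z => S.H s b z i j := by
  by_cases hj : j = b
  · subst hj
    have : (fun z => S.H s j z i j) = fun _ => 0 := by
      funext z
      exact S.H_row hs j z i
    rw [this]
    exact EG.const 0
  · have : (fun z => S.H s b z i j) = ev T2 (exg (fun _ => lg b i) (lg b j)) := by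
      funext z
      exact H_ev hF hs z hj
    rw [this]
    exact hF.c2.eg_ev _

/-- **(I2).**  The inequality (I1) is the case `P = 1`, `η = 1`. -/
theorem i2 (hFn : Fn k SkS (uu x s S.F) (S.mu s) Γ) (hs : 0 < s) (hη : 0 < η)
    (P : Matrix (Fin n) (Fin n) ℝ) (R' : Finset (Pair n)) (b : Fin n) (z : Pair n → ℝ) :
    AvP s (row b ∪ R') (fun z => ∑ i, ∑ j, (∑ l, P i l * (AvP s R' (fun z => S.H s b z l j) z -
      AvP s (row b ∪ R') (fun z => S.H s b z l j) z)) ^ 2) z ≤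
    s ^ 2 * (k ^ 4 * (6 * Γ ^ 3) ^ 2) * AvP s (row b ∪ R') (fun z =>
      (η⁻¹) ^ 3 / 4 * qP S P s z + 3 * η / 4 * qT S s z) z := by
  obtain ⟨T2, T3, T4, hF⟩ := hFn.four
  have hH := fun l j => eg_H (b := b) hF hs l j
  set f : Fin n → Fin n → (Pair n → ℝ) → ℝ := fun i j z => ∑ l, P i l * S.H s b z l j with hf
  have hfe : ∀ i j, EG (f i j) := fun i j => EG.sum _ fun l _ => (hH l j).const_mul _
  have e1 : ∀ i j z, ∑ l, P i l * (AvP s R' (fun z => S.H s b z l j) z -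
      AvP s (row b ∪ R') (fun z => S.H s b z l j) z) =
      AvP s R' (f i j) z - AvP s (row b ∪ R') (f i j) z := by
    intro i j z
    simp only [hf]
    rw [R1C.AvP_sum Finset.univ (fun l _ => (hH l j).const_mul _),
      R1C.AvP_sum Finset.univ (fun l _ => (hH l j).const_mul _), ← Finset.sum_sub_distrib]
    refine Finset.sum_congr rfl fun l _ => ?_
    rw [R1C.AvP_const_mul, R1C.AvP_const_mul]
    ring
  simp only [e1]
  have hb0 : ∀ i z, f i b z = 0 := by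
    intro i z
    simp only [hf, S.H_row hs, mul_zero, Finset.sum_const_zero]
  have heg : ∀ i j, EG fun z => (AvP s R' (f i j) z - AvP s (row b ∪ R') (f i j) z) ^ 2 :=
    fun i j => ((eg_AvP (hfe i j) s R').sub (eg_AvP (hfe i j) s (row b ∪ R'))).pow 2
  rw [R1C.AvP_sum Finset.univ (fun i _ => EG.sum _ fun j _ => heg i j)]
  simp_rw [R1C.AvP_sum Finset.univ (fun j _ => heg _ j)]
  have e2 : ∀ i, AvP s (row b ∪ R') (fun z => (AvP s R' (f i b) z -
      AvP s (row b ∪ R') (f i b) z) ^ 2) z = 0 := by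
    intro i
    have h1 : f i b = fun _ => 0 := funext (hb0 i)
    rw [h1]
    simp only [R1C.AvP_const, sub_self]
    norm_num
  have e3 : ∀ i, ∑ j, AvP s (row b ∪ R') (fun z => (AvP s R' (f i j) z -
      AvP s (row b ∪ R') (f i j) z) ^ 2) z = ∑ j ∈ Finset.univ.erase b,
        AvP s (row b ∪ R') (fun z => (AvP s R' (f i j) z -
          AvP s (row b ∪ R') (f i j) z) ^ 2) z := by
    intro i
    rw [← Finset.add_sum_erase _ _ (Finset.mem_univ b), e2, zero_add]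
  simp_rw [e3]
  -- derivatives
  set f1 : Fin n → Fin n → Pair n → (Pair n → ℝ) → ℝ := fun i j e z =>
    k * ev T3 (exg (exg (fun _ => pg P b i) (lg b j)) (SkS e)) z with hf1
  set f2 : Fin n → Fin n → Pair n → Pair n → (Pair n → ℝ) → ℝ := fun i j e e' z =>
    k * (k * ev T4 (exg (exg (exg (fun _ => pg P b i) (lg b j)) (SkS e)) (SkS e')) z) with hf2
  have g1 : ∀ i j e, EG (f1 i j e) := fun i j e => (hF.c3.eg_ev _).const_mul k
  have g2 : ∀ i j e e', EG (f2 i j e e') := fun i j e e' =>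
    ((hF.c4.eg_ev _).const_mul k).const_mul k
  have hfv : ∀ i j, j ≠ b → f i j = ev T2 (exg (fun _ => pg P b i) (lg b j)) := by
    intro i j hj
    funext z
    rw [ev_pg]
    simp only [hf]
    exact Finset.sum_congr rfl fun l _ => by rw [H_ev hF hs z hj]
  have hfl : ∀ i j, j ≠ b → ∀ z, f i j (fl b z) = f i j z := by
    intro i j hj z
    simp only [hf]
    refine Finset.sum_congr rfl fun l _ => ?_
    by_cases hl : l = b
    · subst hl
      rw [S.H_comm, S.H_row hs, S.H_comm s l z, S.H_row hs]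
    · rw [S.H_fl s hl hj]
  have key : ∀ i, ∀ j ∈ Finset.univ.erase b, AvP s (row b ∪ R') (fun z => (AvP s R' (f i j) z -
      AvP s (row b ∪ R') (f i j) z) ^ 2) z ≤ s ^ 2 * AvP s (row b ∪ R') (fun z =>
        ∑ e ∈ row b, ∑ e' ∈ row b, f2 i j e e' z ^ 2) z := by
    intro i j hj
    have hjb : j ≠ b := Finset.ne_of_mem_erase hj
    refine poin2_av hs.le R' (hfe i j) (g1 i j) (g2 i j) (fun e _ => ?_) (fun e _ e' _ => ?_)
      (hfl i j hjb) z
    · rw [hfv i j hjb]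
      exact pd_ev hF.d3 _ e
    · exact (pd_ev hF.d4 _ e').const_mul k
  refine (Finset.sum_le_sum fun i _ => Finset.sum_le_sum fun j hj => key i j hj).trans ?_
  have hg3 : ∀ i j, EG fun z => ∑ e ∈ row b, ∑ e' ∈ row b, f2 i j e e' z ^ 2 := fun i j =>
    EG.sum _ fun e _ => EG.sum _ fun e' _ => (g2 i j e e').pow 2
  simp_rw [← Finset.mul_sum]
  rw [mul_assoc]
  refine mul_le_mul_of_nonneg_left ?_ (by positivity)
  have e4 : ∑ i, ∑ j ∈ Finset.univ.erase b, AvP s (row b ∪ R') (fun z =>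
        ∑ e ∈ row b, ∑ e' ∈ row b, f2 i j e e' z ^ 2) z =
      AvP s (row b ∪ R') (fun z => ∑ i, ∑ j ∈ Finset.univ.erase b,
        ∑ e ∈ row b, ∑ e' ∈ row b, f2 i j e e' z ^ 2) z := by
    rw [R1C.AvP_sum Finset.univ (fun i _ => EG.sum _ fun j _ => hg3 i j)]
    refine Finset.sum_congr rfl fun i _ => ?_
    rw [R1C.AvP_sum (Finset.univ.erase b) (fun j _ => hg3 i j)]
  rw [e4, ← R1C.AvP_const_mul]
  refine R1C.AvP_mono (EG.sum _ fun i _ => EG.sum _ fun j _ => hg3 i j)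
    ((((eg_qP S P s).const_mul _).add ((eg_qT S s).const_mul _)).const_mul _) (fun z => ?_) z
  exact row_sq hF hη P z

end Vale.Agent.P146.U.Cum
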