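import Vale.Agent.P146.H645.SkCS
import Vale.Agent.P146.U.H645_CSys
import Vale.Agent.P146.U.H425_R1Def
import Vale.Agent.P146.U.NS

/-!
Plan R1: the SK model is a position system.
-/

open MeasureTheory ProbabilityTheory

namespace Vale.Agent.P146.U.R1S

open Vale.Agent.P146.R1S hiding CS skCS skCS_A skCS_D skCS_DA skCS_F skCS_H skCS_T4 sm_skCS

open Vale.Agent.P157.Lv Vale.Agent.P146.H425 Vale.Agent.P146.H325 Vale.Agent.P146.H332
  Vale.Agent.P146.H712 Vale.Agent.P146.H816 Matrix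
open Vale.Agent.P146.R1 hiding Et Et4 Et4_123 Et4_124 Et4_add Et4_const Et4_const_mul Et4_cs
  Et4_mono Et4_nonneg Et4_sub Et_add Et_const Et_const_mul Et_cs Et_fst_eq Et_jensen Et_mono
  Et_nonneg Et_sub Et_weight Et_zero Eu Eu4 Eu4_123 Eu4_124 Eu4_add Eu4_cond Eu4_const_mul
  Eu4_iter Eu4_mono Eu4_nonneg Eu4_one_eq Eu4_one_eq' Eu4_one_pos Eu4_weight Eu_add Eu_const_mul
  Eu_fst Eu_fst_eq Eu_iter Eu_mono Eu_nonneg Eu_one Eu_one_eq Eu_one_pos Eu_weight Eu_zero
  Eu_zero_one Lth Lth_zero Qt dn dn_pos e3_dn eg_Eu eg_Eu4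
open Vale.Agent.P146.R1C hiding Ca Cd En En_eq Ew Ew_eq Gb Nd P0 P0_sw P1 P1_sw P2 P2_sw P3 P3_sw
  Par Sa Sd dens
open Vale.Agent.P146.U.R1 Vale.Agent.P146.U.R1C

set_option linter.unusedSectionVars false

variable {n : ℕ} (k x : ℝ)

variable {k x}

/-- **The SK model is a position system.** -/
noncomputable def skCS (n : ℕ) {k x : ℝ} (hk : 0 < k) (hx : 0 < x) (hx1 : x ≤ 1) : CS n k x where
  F := lz k SkS
  D := skD k
  bB := Kb k (SkS (n := n))
  bL := 3 * Kb k (SkS (n := n)) ^ 2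
  A := AA k x
  DA := DC k x
  H := fun s b => HH k x s b
  mu := skmu k x
  T4 := T4 k x
  k0 := hk
  y := x
  x0 := hx
  x1 := hx1
  y0 := hx
  yx := le_rfl
  c11 := c11_lz k SkS
  cv := cv_lz k SkS
  F_act := fun π z => by
    show Real.log (Zp k SkS (H816.act π z)) = Real.log (Zp k SkS z)
    rw [Zp_act]
  F_fl := fun b z => by
    show Real.log (Zp k SkS (fl b z)) = Real.log (Zp k SkS z)
    have h : Zp k (SkS (n := n)) (fl b z) = Zp k SkS z := Zp_flp b z
    rw [h]
  dd_eq := fun s e z => H522.dd_sk k x s e z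
  mu0 := skmu_nonneg
  mu1 := fun s z => by
    have h := RR_av (k := k) (x := x) s z fun _ => 1
    simp only [mul_one] at h
    rw [← h]
    have e : av k (SkS (n := n)) (fun _ => 1) = fun _ => 1 := by
      funext u
      unfold av Zp
      simp only [mul_one]
      exact div_self (Zp_pos k SkS u).ne'
    rw [e]
    exact H522.RR_const k SkS x _ 1 z
  eg_mu := fun s σ => EG.of_bdd (meas_RR k SkS x (eg_av k SkS _) _) fun z => abs_RR_av_ind s z σ
  A_mu := fun s z i j => RR_av s z (pr i j)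
  T4_mu := fun s z i j p q => RR_av s z fun σ => pr i j σ * pr p q σ
  fd_A := fun s i j z => fd_AA i j z
  eg_DA := fun s e i j => eg_DC hx.le e i j
  DA_row := fun hs _ _ he z i => DC_row hs he z i
  H_comm := fun s b z i j => HH_comm b z i j
  H_row := fun hs b z i => HH_row hs b z i
  H_nonneg := fun hs b z v => qf_HH_nonneg hs hx.le hx1 b z v
  H_le := fun hs b z v => qf_HH_le hs hx.le hx1 b z v
  cont_H := fun s b i j => cont_HH b i j
  kov := fun hs z => kov_pos hs hx.le hx1 z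
  A_act := fun π s z p q => AA_act π s z p q
  A_fl_row := fun s _ _ hp z => AA_fl_row hp z
  A_fl_ne := fun s _ _ _ hp hq z => AA_fl_ne hp hq z
  H_fl := fun s _ _ _ hp hq z => HH_fl hp hq z

section

variable (hk : 0 < k) (hx : 0 < x) (hx1 : x ≤ 1)

@[simp] lemma skCS_F : (skCS n hk hx hx1).F = lz k SkS := rfl
@[simp] lemma skCS_y : (skCS n hk hx hx1).y = x := rfl
@[simp] lemma skCS_D : (skCS n hk hx hx1).D = fun e u => k * av k SkS (SkS e) u := rfl
@[simp] lemma skCS_A : (skCS n hk hx hx1).A = AA k x := rfl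
@[simp] lemma skCS_DA : (skCS n hk hx hx1).DA = DC k x := rfl
@[simp] lemma skCS_H : (skCS n hk hx hx1).H = fun s b => HH k x s b := rfl
@[simp] lemma skCS_T4 : (skCS n hk hx hx1).T4 = T4 k x := rfl

/-- the smoothness data of the SK model -/
theorem sm_skCS : Sm (skCS n hk hx hx1).F (skCS n hk hx hx1).D (Kb k (SkS (n := n)))
    (3 * Kb k (SkS (n := n)) ^ 2) (Hz k SkS) (Tz k SkS) (2 * Kb k (SkS (n := n)) ^ 2) :=
  sm_lz k SkS

end

end Vale.Agent.P146.U.R1S
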