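import Vale.Agent.P146.H504.Cum6
import Vale.Agent.P146.U.H504_Cum5
import Vale.Agent.P146.U.H645_SkCS
import Vale.Agent.P146.U.H425_R1Def
import Vale.Agent.P146.U.NS

/-!
Cumulant domination, part 6: the forms of (I1), (I2) for the users; the SK model and the deep
functionals are cascades.
-/

open MeasureTheory ProbabilityTheory Matrix

namespace Vale.Agent.P146.U.Cum

open Vale.Agent.P146.Cum hiding H_ev eg_H eg_qP eg_qT fn_skCS i1 i1z i2 i2z m4_lg m4_pg qP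
  qP_nonneg qP_one qP_pqm qT qT_eq qT_nonneg row_sq

open Vale.Agent.P157.Lv Vale.Agent.P146.H425 Vale.Agent.P146.H325 Vale.Agent.P146.H712
open Vale.Agent.P146.R1 hiding Et Et4 Et4_123 Et4_124 Et4_add Et4_const Et4_const_mul Et4_cs
  Et4_mono Et4_nonneg Et4_sub Et_add Et_const Et_const_mul Et_cs Et_fst_eq Et_jensen Et_mono
  Et_nonneg Et_sub Et_weight Et_zero Eu Eu4 Eu4_123 Eu4_124 Eu4_add Eu4_cond Eu4_const_mul
  Eu4_iter Eu4_mono Eu4_nonneg Eu4_one_eq Eu4_one_eq' Eu4_one_pos Eu4_weight Eu_add Eu_const_mul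
  Eu_fst Eu_fst_eq Eu_iter Eu_mono Eu_nonneg Eu_one Eu_one_eq Eu_one_pos Eu_weight Eu_zero
  Eu_zero_one Lth Lth_zero Qt dn dn_pos e3_dn eg_Eu eg_Eu4
open Vale.Agent.P146.R1C hiding Av_lf_P0 Av_lf_P1 Av_lf_P2 Av_lf_P23 Av_lf_P23_row Av_lf_P3 Ca Cd
  En En_eq Ew Ew_eq Gb Nd P0 P0_sw P1 P1_sw P2 P2_sw P3 P3_sw Par Sa Sd dens
open Vale.Agent.P146.R1S hiding CS skCS skCS_A skCS_D skCS_DA skCS_F skCS_H skCS_T4 sm_skCS
open Vale.Agent.P146.U.R1 Vale.Agent.P146.U.R1C Vale.Agent.P146.U.R1S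

open Vale.Agent.P146.H633 (pj)

set_option linter.unusedSectionVars false

/-! ### the instances -/

section inst

variable {ι X : Type} [Fintype ι] [DecidableEq ι] [Fintype X] [DecidableEq X]

end inst

section sk

variable {n : ℕ} {k x : ℝ}

theorem fn_skCS (hk : 0 < k) (hx : 0 < x) (hx1 : x ≤ 1) (s : ℝ) :
    Fn k SkS (R1.uu x s (skCS n hk hx hx1).F) ((skCS n hk hx hx1).mu s) 4 := fn_sk hx hx1 s

end sk

/-! ### the forms of the inequalities -/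

section forms

variable {n : ℕ} {k x s Γ η : ℝ} {S : CS n k x}

lemma qP_one (s : ℝ) (z : Pair n → ℝ) : qP S 1 s z = qT S s z := by
  rw [qT_eq]
  unfold qP
  simp only [Matrix.one_apply, ite_mul, one_mul, zero_mul, Finset.sum_ite_eq, Finset.mem_univ,
    if_true]

/-- **(I1)** -/
theorem i1 (hFn : Fn k SkS (uu x s S.F) (S.mu s) Γ) (hs : 0 < s) (R' : Finset (Pair n))
    (b : Fin n) (z : Pair n → ℝ) :
    AvP s (row b ∪ R') (fun u => ∑ i, ∑ j, (AvP s R' (fun u => S.H s b u i j) u -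
      AvP s (row b ∪ R') (fun u => S.H s b u i j) u) ^ 2) z ≤
    36 * Γ ^ 6 * s ^ 2 * k ^ 4 * AvP s (row b ∪ R') (qT S s) z := by
  have h := i2 hFn hs one_pos 1 R' b z
  simp only [Matrix.one_apply, ite_mul, one_mul, zero_mul, Finset.sum_ite_eq, Finset.mem_univ,
    if_true] at h
  refine h.trans (le_of_eq ?_)
  have e1 : (fun z => ((1 : ℝ)⁻¹) ^ 3 / 4 * qP S 1 s z + 3 * 1 / 4 * qT S s z) = qT S s := by
    funext z
    rw [qP_one]
    ring
  rw [e1]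
  ring

/-- **(I2)**, mean at the bulk position. -/
theorem i2z (hFn : Fn k SkS (uu x s S.F) (S.mu s) Γ) (hs : 0 < s) (hη : 0 < η)
    (P : Matrix (Fin n) (Fin n) ℝ) (R' : Finset (Pair n)) (b : Fin n) (z : Pair n → ℝ) :
    AvP s (row b ∪ R') (fun u => ∑ i, ∑ j, (∑ l, P i l * (AvP s R' (fun u => S.H s b u l j) u -
      AvP s (row b ∪ R') (fun u => S.H s b u l j) z)) ^ 2) z ≤
    s ^ 2 * (k ^ 4 * (6 * Γ ^ 3) ^ 2) * AvP s (row b ∪ R') (fun z =>
      (η⁻¹) ^ 3 / 4 * qP S P s z + 3 * η / 4 * qT S s z) z := by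
  have h := i2 hFn hs hη P R' b z
  have h1 := AvP_in s (row b ∪ R') (fun (p : Fin n × Fin n) u => S.H s b u p.1 p.2)
    (fun u m => ∑ i, ∑ j, (∑ l, P i l * (AvP s R' (fun u => S.H s b u l j) u - m (l, j))) ^ 2) z
  simp only at h1
  rwa [h1] at h

/-- **(I1)**, mean at the bulk position. -/
theorem i1z (hFn : Fn k SkS (uu x s S.F) (S.mu s) Γ) (hs : 0 < s) (R' : Finset (Pair n))
    (b : Fin n) (z : Pair n → ℝ) :
    AvP s (row b ∪ R') (fun u => ∑ i, ∑ j, (AvP s R' (fun u => S.H s b u i j) u -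
      AvP s (row b ∪ R') (fun u => S.H s b u i j) z) ^ 2) z ≤
    36 * Γ ^ 6 * s ^ 2 * k ^ 4 * AvP s (row b ∪ R') (qT S s) z := by
  have h := i1 hFn hs R' b z
  have h1 := AvP_in s (row b ∪ R') (fun (p : Fin n × Fin n) u => S.H s b u p.1 p.2)
    (fun u m => ∑ i, ∑ j, (AvP s R' (fun u => S.H s b u i j) u - m (i, j)) ^ 2) z
  simp only at h1
  rwa [h1] at h

/-- The projected moments in the letters of helper633. -/
theorem qP_pqm {b b' : Fin n} {v : Fin n → ℝ} (hv : ∑ i, v i ^ 2 = 1) (hb : v b = 0)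
    (hb' : v b' = 0) (s : ℝ) (z : Pair n → ℝ) : qP S (pqm b b' v) s z =
      ∑ σ, ∑ τ, S.mu s z σ * S.mu s z τ * (ubk b b' σ ⬝ᵥ pj v *ᵥ ubk b b' τ) ^ 4 := by
  unfold qP
  refine Finset.sum_congr rfl fun σ _ => ?_
  rw [Finset.mul_sum]
  refine Finset.sum_congr rfl fun τ _ => ?_
  rw [← mul_assoc]
  congr 2
  simp only [pqm_u hb hb']
  show (pj v *ᵥ ubk b b' σ) ⬝ᵥ (pj v *ᵥ ubk b b' τ) = _
  rw [Matrix.dotProduct_mulVec, Matrix.vecMul_mulVec, H633.pj_T, H633.pj_mul_self hv,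
    ← Matrix.mulVec_transpose, H633.pj_T, Matrix.dotProduct_mulVec, ← Matrix.mulVec_transpose,
    H633.pj_T]

end forms

end Vale.Agent.P146.U.Cum
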