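import Vale.Agent.P146.H632.LamE
import Vale.Agent.P146.U.H632_LamD
import Vale.Agent.P146.U.H941_CDefS
import Vale.Agent.P146.U.NS

/-!
P146, plan R1, row LAM: the fixed bulk inequality in the letters of `CDef` and of `CDefS`.
-/

open MeasureTheory ProbabilityTheory

set_option linter.unusedSectionVars false

namespace Vale.Agent.P146.U.R1C

open Vale.Agent.P146.R1C hiding Av_aa Av_ad Av_dd Av_lf_P0 Av_lf_P1 Av_lf_P2 Av_lf_P23
  Av_lf_P23_row Av_lf_P3 Ca Cd En En_eq Ew Ew_eq Gb Nd Nd_row P0 P0_sw P1 P1_sw P2 P2_sw P3 P3_sw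
  Par Sa Sa_row Sd Sd_row dens lam_fix

open Vale.Agent.P157.Lv Vale.Agent.P146.H425 Vale.Agent.P146.H325 Vale.Agent.P146.H712
  Vale.Agent.P146.H332 Matrix
open Vale.Agent.P146.R1 hiding Et Et4 Et4_123 Et4_124 Et4_add Et4_const Et4_const_mul Et4_cs
  Et4_mono Et4_nonneg Et4_sub Et_add Et_const Et_const_mul Et_cs Et_fst_eq Et_jensen Et_mono
  Et_nonneg Et_sub Et_weight Et_zero Eu Eu4 Eu4_123 Eu4_124 Eu4_add Eu4_cond Eu4_const_mul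
  Eu4_iter Eu4_mono Eu4_nonneg Eu4_one_eq Eu4_one_eq' Eu4_one_pos Eu4_weight Eu_add Eu_const_mul
  Eu_fst Eu_fst_eq Eu_iter Eu_mono Eu_nonneg Eu_one Eu_one_eq Eu_one_pos Eu_weight Eu_zero
  Eu_zero_one Lth Lth_zero Qt dn dn_pos e3_dn eg_Eu eg_Eu4
open Vale.Agent.P146.H632 hiding lam_row
open Vale.Agent.P146.U.R1 Vale.Agent.P146.U.H632

variable {n : ℕ} {k : ℝ}

/-- **(LAM), fixed bulk, SK.** -/
theorem lam_fix {q : Par} (hq : q.Ok) (hs : 0 < q.s1) {b b' : Fin n} (hb : b ≠ b')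
    (w : K4 (Pair n) → ℝ) :
    (q.s2 - q.s1) / (2 * q.s1) * fr (Nd k q b b' w) ≤ Gb k q b b' w +
    2 * (q.s2 / q.s1) * (ee k q.x q.s1 b b' (P2 q w) *
        (q.s2 * k ^ 2 * hvr (HH k q.x q.s2) q.s2 b b' (P3 q w)) +
      (q.s1 * k ^ 2 * hvr (HH k q.x q.s1) q.s1 b b' (P2 q w)) *
        ee k q.x q.s2 b b' (P3 q w)) := by
  have h := lam_row hq hs (rowIn_sk (n := n) (k := k) hs hq.x0.le hq.x1)
    (rowIn_sk (n := n) (k := k) (lt_of_lt_of_le hs hq.h12) hq.x0.le hq.x1) hb w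
  rw [ee_eer, ee_eer]
  unfold Gb
  rw [← sum_ip_sub_fr]
  exact h

end Vale.Agent.P146.U.R1C

namespace Vale.Agent.P146.U.R1S

open Vale.Agent.P146.R1S hiding CS Ca Cd Gb MM Nd Sa Sd cl cl0 ee ee_eer lam_fix

open Vale.Agent.P157.Lv Vale.Agent.P146.H425 Vale.Agent.P146.H325 Vale.Agent.P146.H712
  Vale.Agent.P146.H332 Matrix
open Vale.Agent.P146.R1 hiding Et Et4 Et4_123 Et4_124 Et4_add Et4_const Et4_const_mul Et4_cs
  Et4_mono Et4_nonneg Et4_sub Et_add Et_const Et_const_mul Et_cs Et_fst_eq Et_jensen Et_mono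
  Et_nonneg Et_sub Et_weight Et_zero Eu Eu4 Eu4_123 Eu4_124 Eu4_add Eu4_cond Eu4_const_mul
  Eu4_iter Eu4_mono Eu4_nonneg Eu4_one_eq Eu4_one_eq' Eu4_one_pos Eu4_weight Eu_add Eu_const_mul
  Eu_fst Eu_fst_eq Eu_iter Eu_mono Eu_nonneg Eu_one Eu_one_eq Eu_one_pos Eu_weight Eu_zero
  Eu_zero_one Lth Lth_zero Qt dn dn_pos e3_dn eg_Eu eg_Eu4
open Vale.Agent.P146.H632 hiding lam_row
open Vale.Agent.P146.R1C hiding Av_aa Av_ad Av_dd Av_lf_P0 Av_lf_P1 Av_lf_P2 Av_lf_P23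
  Av_lf_P23_row Av_lf_P3 Ca Cd En En_eq Ew Ew_eq Gb Nd Nd_row P0 P0_sw P1 P1_sw P2 P2_sw P3 P3_sw
  Par Sa Sa_row Sd Sd_row dens lam_fix
open Vale.Agent.P146.U.R1 Vale.Agent.P146.U.H632 Vale.Agent.P146.U.R1C

variable {n : ℕ} {k x : ℝ}

lemma ee_eer {S : CS n k x} {s : ℝ} (hA : ∀ i j, EG fun z => S.A s z i j) (b b' : Fin n)
    (z : Pair n → ℝ) : ee S s b b' z = eer (S.A s) s b b' z := by
  show AvP s (row b ∪ row b') (fun z => ∑ i, clz (S.A s) s b b' z i ^ 2) z = _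
  exact AvP_sum (R := row b ∪ row b') (s := s) Finset.univ
    (f := fun i z => clz (S.A s) s b b' z i ^ 2)
    (fun i _ => (eg_clz hA s b b' i).pow 2) z

/-- **(LAM), fixed bulk, any system.** -/
theorem lam_fix {S : CS n k x} {q : Par} (hq : q.Ok) (hs : 0 < q.s1)
    (h1 : RowIn k (S.A q.s1) (S.DA q.s1) (S.H q.s1))
    (h2 : RowIn k (S.A q.s2) (S.DA q.s2) (S.H q.s2)) {b b' : Fin n} (hb : b ≠ b')
    (w : K4 (Pair n) → ℝ) :
    (q.s2 - q.s1) / (2 * q.s1) * fr (Nd S q b b' w) ≤ Gb S q b b' w +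
    2 * (q.s2 / q.s1) * (ee S q.s1 b b' (P2 q w) *
        (q.s2 * k ^ 2 * hvr (S.H q.s2) q.s2 b b' (P3 q w)) +
      (q.s1 * k ^ 2 * hvr (S.H q.s1) q.s1 b b' (P2 q w)) * ee S q.s2 b b' (P3 q w)) := by
  have h := lam_row hq hs h1 h2 hb w
  rw [ee_eer h1.egA, ee_eer h2.egA]
  unfold Gb
  rw [← sum_ip_sub_fr]
  exact h

end Vale.Agent.P146.U.R1S
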