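import Vale.Agent.P146.H712.Pos
import Vale.Agent.P146.U.H332_CDef
import Vale.Agent.P146.U.NS

/-!
The chain rule for functions of the four positions `p0, p1, p2, p3` of `R1Def4`.
`bs j` is the coupling of the coordinate `j : K4 κ`; `lf R` are the four copies of `R`.
-/

open MeasureTheory ProbabilityTheory

namespace Vale.Agent.P146.U.H712

open Vale.Agent.P146.H712 hiding eg_P0 eg_P1 eg_P2 eg_P3 k0 k1 k2 k3 pd_P0 pd_P1 pd_P2 pd_P3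
  sum_k0 sum_k1 sum_k2 sum_k3

open Vale.Agent.P157.Lv
open Vale.Agent.P146.R1 hiding Et Et4 Et4_123 Et4_124 Et4_add Et4_const Et4_const_mul Et4_cs
  Et4_mono Et4_nonneg Et4_sub Et_add Et_const Et_const_mul Et_cs Et_fst_eq Et_jensen Et_mono
  Et_nonneg Et_sub Et_weight Et_zero Eu Eu4 Eu4_123 Eu4_124 Eu4_add Eu4_cond Eu4_const_mul
  Eu4_iter Eu4_mono Eu4_nonneg Eu4_one_eq Eu4_one_eq' Eu4_one_pos Eu4_weight Eu_add Eu_const_mul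
  Eu_fst Eu_fst_eq Eu_iter Eu_mono Eu_nonneg Eu_one Eu_one_eq Eu_one_pos Eu_weight Eu_zero
  Eu_zero_one Lth Lth_zero Qt dn dn_pos e3_dn eg_Eu eg_Eu4 q0 q1 q2
open Vale.Agent.P146.R1C hiding Ca Cd En En_eq Ew Ew_eq Gb Nd P0 P0_sw P1 P1_sw P2 P2_sw P3 P3_sw
  Par Sa Sd dens
open Vale.Agent.P146.U.R1 Vale.Agent.P146.U.R1C

set_option linter.unusedSectionVars false
set_option linter.unusedSimpArgs false

variable {κ : Type} [Fintype κ] [DecidableEq κ]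

variable {f f' : (κ → ℝ) → ℝ} {j : K4 κ} {t0 t1 s1 s2 : ℝ}

/-! ### the positions of `CDef` -/

section par

variable (q : Par)

/-- The coefficients of the positions of `q`. -/
noncomputable def k0 : Fin 4 → ℝ := q0 q.t0
noncomputable def k1 : Fin 4 → ℝ := q1 q.t0 q.t1
noncomputable def k2 : Fin 4 → ℝ := q2 q.t0 q.t1 q.s1
noncomputable def k3 : Fin 4 → ℝ := q3 q.t0 q.t1 q.s1 q.s2

variable {q}

theorem pd_P0 (hd : PD (bs j) f f') :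
    PD j (fun w => f (P0 q w)) (fun w => k0 q (bl j) * f' (P0 q w)) := pd_p0 _ hd
theorem pd_P1 (hd : PD (bs j) f f') :
    PD j (fun w => f (P1 q w)) (fun w => k1 q (bl j) * f' (P1 q w)) := pd_p1 _ _ hd
theorem pd_P2 (hd : PD (bs j) f f') :
    PD j (fun w => f (P2 q w)) (fun w => k2 q (bl j) * f' (P2 q w)) := pd_p2 _ _ _ hd
theorem pd_P3 (hd : PD (bs j) f f') :
    PD j (fun w => f (P3 q w)) (fun w => k3 q (bl j) * f' (P3 q w)) := pd_p3 _ _ _ _ hd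

lemma eg_P0 (hf : EG f) : EG fun w : K4 κ → ℝ => f (P0 q w) := eg_p0 _ hf
lemma eg_P1 (hf : EG f) : EG fun w : K4 κ → ℝ => f (P1 q w) := eg_p1 _ _ hf
lemma eg_P2 (hf : EG f) : EG fun w : K4 κ → ℝ => f (P2 q w) := eg_p2 _ _ _ hf
lemma eg_P3 (hf : EG f) : EG fun w : K4 κ → ℝ => f (P3 q w) := eg_p3 _ _ _ _ hf

theorem sum_k0 (hq : q.Ok) (R : Finset κ) (g : κ → ℝ) :
    ∑ j ∈ lf R, (k0 q (bl j) * g (bs j)) ^ 2 = q.t0 * ∑ e ∈ R, g e ^ 2 := sum_q0 hq.h0 R g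
theorem sum_k1 (hq : q.Ok) (R : Finset κ) (g : κ → ℝ) :
    ∑ j ∈ lf R, (k1 q (bl j) * g (bs j)) ^ 2 = q.t1 * ∑ e ∈ R, g e ^ 2 := sum_q1 hq.h0 hq.h01 R g
theorem sum_k2 (hq : q.Ok) (R : Finset κ) (g : κ → ℝ) :
    ∑ j ∈ lf R, (k2 q (bl j) * g (bs j)) ^ 2 = q.s1 * ∑ e ∈ R, g e ^ 2 :=
  sum_q2 hq.h0 hq.h01 hq.h1 R g
theorem sum_k3 (hq : q.Ok) (R : Finset κ) (g : κ → ℝ) :
    ∑ j ∈ lf R, (k3 q (bl j) * g (bs j)) ^ 2 = q.s2 * ∑ e ∈ R, g e ^ 2 :=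
  sum_q3 hq.h0 hq.h01 hq.h1 hq.h12 R g

end par

end Vale.Agent.P146.U.H712
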