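import Vale.Agent.P146.H425.FoN
import Vale.Agent.P146.U.H325_Fo
import Vale.Agent.P146.U.H706_LawK
import Vale.Agent.P146.U.NS

/-!
Plan R1: consequences of the package `Fo`. The laws `E_θ` and its row average are comparable up
to a factor `2` and an error `n⁻²⁰⁰` (`Law2`).
-/

open MeasureTheory ProbabilityTheory

namespace Vale.Agent.P146.U.R1C

open Vale.Agent.P146.R1C hiding Ca Cd En En_add En_const En_const_mul En_eq En_mono En_nonneg
  En_pow_le En_rare Ew Ew1_pos Ew_add Ew_const_mul Ew_eq Ew_mono Ew_nonneg Ew_one_pos Fo Gb Law2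
  Law2.nlow Law2.nup Nd P0 P0_lp P0_sw P1 P1_lp P1_sw P2 P2_lp P2_sw P3 P3_lp P3_sw Par Sa Sd
  den_pos dens dens_eq eg_den eg_dens eg_psi' kk_NN lam_le law2_of law_low law_up lf_psi lip_psi
  pd_psi psi psi' psi_four_le psi_sq_le

open Vale.Agent.P157.Lv Vale.Agent.P146.H425 Vale.Agent.P146.H325 Vale.Agent.P146.H332
  Vale.Agent.P146.H816 Matrix
open Vale.Agent.P146.H712 hiding eg_P0 eg_P1 eg_P2 eg_P3 k0 k1 k2 k3 pd_P0 pd_P1 pd_P2 pd_P3
  sum_k0 sum_k1 sum_k2 sum_k3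
open Vale.Agent.P146.R1 hiding Et Et4 Et4_123 Et4_124 Et4_add Et4_const Et4_const_mul Et4_cs
  Et4_mono Et4_nonneg Et4_sub Et_add Et_const Et_const_mul Et_cs Et_fst_eq Et_jensen Et_mono
  Et_nonneg Et_sub Et_weight Et_zero Eu Eu4 Eu4_123 Eu4_124 Eu4_add Eu4_cond Eu4_const_mul
  Eu4_iter Eu4_mono Eu4_nonneg Eu4_one_eq Eu4_one_eq' Eu4_one_pos Eu4_weight Eu_add Eu_const_mul
  Eu_fst Eu_fst_eq Eu_iter Eu_mono Eu_nonneg Eu_one Eu_one_eq Eu_one_pos Eu_weight Eu_zero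
  Eu_zero_one Lth Lth_zero Qt dn dn_pos e3_dn eg_Eu eg_Eu4
open Vale.Agent.P146.U.H712 Vale.Agent.P146.U.R1

set_option linter.unusedSectionVars false

/-- **(N1)** the constants of the law change -/
theorem law_constU {β : ℝ} (hβ : 0 < β) : ∃ n₀ : ℕ, 2 ≤ n₀ ∧ ∀ n : ℕ, n₀ ≤ n → ∀ x : ℝ, 0 < x →
    x * (n : ℝ) ^ ((1 : ℝ) / 22) ≤ 1 → 288 * x ^ 2 * kk n β ^ 2 * n ≤ 1 ∧
      ∃ p : ℕ, ((p : ℝ) + 1) ^ 2 * (18 * x ^ 2 * kk n β ^ 2 * n) ≤ 1 ∧
        3 / 2 ^ p ≤ ((n : ℝ) ^ 200)⁻¹ := by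
  obtain ⟨n₃, hn₃, hlog⟩ := H737.R1.log_le_pow (A := 5000 * (β + 1)) (δ := (1 : ℝ) / 22)
    (by norm_num)
  obtain ⟨n₀, hn₀⟩ := exists_nat_ge (max n₃ 3)
  refine ⟨max n₀ 2, le_max_right _ _, fun n hn x hx hx7 => ?_⟩
  have hnr : max n₃ 3 ≤ (n : ℝ) := hn₀.trans (by exact_mod_cast (le_max_left _ _).trans hn)
  have hn3 : n₃ ≤ (n : ℝ) := (le_max_left _ _).trans hnr
  have hn30 : (3 : ℝ) ≤ n := (le_max_right _ _).trans hnr
  have hn0 : 0 < (n : ℝ) := by linarith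
  have hnn : 0 < n := by exact_mod_cast hn0
  have hlog1 : 1 ≤ Real.log n := by
    rw [Real.le_log_iff_exp_le hn0]
    exact (Real.exp_one_lt_d9.le.trans (by norm_num)).trans hn30
  set y := (n : ℝ) ^ ((1 : ℝ) / 22) with hy
  have hyl : 5000 * (β + 1) * Real.log n ≤ y := hlog n hn3
  have hy0 : 0 < y := Real.rpow_pos_of_pos hn0 _
  have hxy : x * y ≤ 1 := hx7
  have hk : kk n β ^ 2 * n = β ^ 2 := kk_sq hnn β
  have hxy2 : x ^ 2 * y ^ 2 ≤ 1 := by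
    have := pow_le_one₀ (by positivity : 0 ≤ x * y) hxy (n := 2)
    linarith [mul_pow x y 2]
  have hyβ : 5000 * β ≤ y := by
    nlinarith
  refine ⟨?_, ?_⟩
  · have h1 : 288 * x ^ 2 * kk n β ^ 2 * n = 288 * x ^ 2 * β ^ 2 := by
      rw [← hk]; ring
    rw [h1]
    have h2 : 288 * β ^ 2 ≤ y ^ 2 := by nlinarith
    have h3 : x ^ 2 * (288 * β ^ 2) ≤ x ^ 2 * y ^ 2 := mul_le_mul_of_nonneg_left h2 (sq_nonneg x)
    linarith
  · set m := ⌊y / (5 * β)⌋₊ with hm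
    have hm0 : (m : ℝ) ≤ y / (5 * β) := Nat.floor_le (by positivity)
    have hm1 : y / (5 * β) < m + 1 := Nat.lt_floor_add_one _
    have hq : 800 * Real.log n ≤ y / (5 * β) := by
      rw [le_div_iff₀ (by positivity)]
      nlinarith
    have hm2 : 1 ≤ m := by
      have : (0 : ℝ) < m := by linarith
      exact_mod_cast this
    have e1 : (((m - 1 : ℕ) : ℝ) + 1) = m := by
      rw [Nat.cast_sub hm2]; push_cast; ring
    refine ⟨m - 1, ?_, ?_⟩
    · rw [e1]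
      have h1 : 18 * x ^ 2 * kk n β ^ 2 * n = 18 * x ^ 2 * β ^ 2 := by
        rw [← hk]; ring
      rw [h1]
      have h2 : (m : ℝ) * β ≤ y / 5 := by
        have := mul_le_mul_of_nonneg_right hm0 hβ.le
        refine this.trans (le_of_eq ?_)
        field_simp
      have h3 : ((m : ℝ) * β) ^ 2 ≤ (y / 5) ^ 2 := pow_le_pow_left₀ (by positivity) h2 2
      have h4 : x ^ 2 * ((m : ℝ) * β) ^ 2 ≤ x ^ 2 * (y / 5) ^ 2 :=
        mul_le_mul_of_nonneg_left h3 (sq_nonneg x)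
      nlinarith
    · have h1 : 3 * (n : ℝ) ^ 200 ≤ 2 ^ (m - 1) := by
        have h2 : (3 : ℝ) * (n : ℝ) ^ 200 ≤ Real.exp (2 + 200 * Real.log n) := by
          rw [Real.exp_add, mul_comm (200 : ℝ), Real.exp_mul, Real.exp_log hn0]
          have h3 : (3 : ℝ) ≤ Real.exp 2 := by
            have := Real.add_one_le_exp (2 : ℝ)
            linarith
          have h4 : (n : ℝ) ^ (200 : ℝ) = (n : ℝ) ^ (200 : ℕ) := by norm_cast
          rw [h4]
          exact mul_le_mul_of_nonneg_right h3 (by positivity)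
        have h5 : Real.exp (2 + 200 * Real.log n) ≤ 2 ^ (m - 1) := by
          have h6 : (2 : ℝ) ^ (m - 1) = Real.exp (((m - 1 : ℕ) : ℝ) * Real.log 2) := by
            rw [Real.exp_nat_mul, Real.exp_log (by norm_num)]
          rw [h6]
          refine Real.exp_le_exp.2 ?_
          have h7 : (1 : ℝ) / 2 ≤ Real.log 2 := by
            have := Real.log_two_gt_d9
            linarith
          have h8 : 4 + 400 * Real.log n ≤ ((m - 1 : ℕ) : ℝ) := by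
            linarith
          have h9 : ((m - 1 : ℕ) : ℝ) * (1 / 2) ≤ ((m - 1 : ℕ) : ℝ) * Real.log 2 :=
            mul_le_mul_of_nonneg_left h7 (Nat.cast_nonneg _)
          linarith
        exact h2.trans h5
      rw [div_le_iff₀ (by positivity), inv_mul_eq_div, le_div_iff₀ (by positivity)]
      linarith

/-- The comparison of the law and its average over two rows. -/
structure Law2 (n : ℕ) (ε : ℝ) (q : Par) (F : (Pair n → ℝ) → ℝ) : Prop where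
  up : ∀ (b b' : Fin n) (f : (K4 (Pair n) → ℝ) → ℝ) (K : ℝ), EG f → (∀ w, 0 ≤ f w) →
    (∀ w, f w ≤ K) → Ew q F f ≤ 2 * Ew q F (Av (lf (row b ∪ row b')) f) +
      ε * K * Ew q F (fun _ => 1)
  low : ∀ (b b' : Fin n) (f : (K4 (Pair n) → ℝ) → ℝ) (K : ℝ), EG f → (∀ w, 0 ≤ f w) →
    (∀ w, f w ≤ K) → Ew q F (Av (lf (row b ∪ row b')) f) ≤ 2 * Ew q F f +
      ε * K * Ew q F (fun _ => 1)

/-- **(N1)** the comparison with the error `n⁻²⁰⁰`; `n₀` depends only on the upper bound `β` -/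
theorem law2_of {β : ℝ} (hβ : 0 < β) : ∃ n₀ : ℕ, 2 ≤ n₀ ∧ ∀ n : ℕ, n₀ ≤ n → ∀ (q : Par)
    (F : (Pair n → ℝ) → ℝ) (D : Pair n → (Pair n → ℝ) → ℝ) (B L : ℝ), C11 F D B L → q.Ok →
    q.x * (n : ℝ) ^ ((1 : ℝ) / 22) ≤ 1 →
    (∀ b b' z, ∑ e ∈ row b ∪ row b', D e z ^ 2 ≤ 2 * β ^ 2) → Law2 n ((n : ℝ) ^ 200)⁻¹ q F := by
  obtain ⟨n₀, h2, hn₀⟩ := law_constU hβ
  refine ⟨n₀, h2, fun n hn q F D B L hc hq hx7 hrow => ?_⟩
  obtain ⟨-, p, hp, hε⟩ := hn₀ n hn q.x hq.x0 hx7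
  have hnn : 0 < n := by omega
  have hk : kk n β ^ 2 * n = β ^ 2 := kk_sq hnn β
  have e0 : 18 * q.x ^ 2 * kk n β ^ 2 * n = 18 * q.x ^ 2 * β ^ 2 := by rw [← hk]; ring
  rw [e0] at hp
  have e : √(18 * q.x ^ 2 * β ^ 2) ^ 2 = 18 * q.x ^ 2 * β ^ 2 := Real.sq_sqrt (by positivity)
  have hE : 0 ≤ Ew q F fun _ => 1 := (Ew1_pos hc hq.x0).le
  have hK : ∀ K : ℝ, 0 ≤ K → 3 * K / 2 ^ p * Ew q F (fun _ => 1) ≤
      ((n : ℝ) ^ 200)⁻¹ * K * Ew q F (fun _ => 1) := by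
    intro K hK
    refine mul_le_mul_of_nonneg_right ?_ hE
    have := mul_le_mul_of_nonneg_right hε hK
    calc 3 * K / 2 ^ p = 3 / 2 ^ p * K := by ring
      _ ≤ _ := this
  constructor
  · intro b b' f K hf h0 hfK
    have hK0 : 0 ≤ K := (h0 0).trans (hfK 0)
    have := law_up (l := √(18 * q.x ^ 2 * β ^ 2)) hc hq (hrow b b') (Real.sqrt_nonneg _)
      (by rw [e]; linarith) p (by rw [e]; exact hp) hf h0 hfK
    linarith [hK K hK0]
  · intro b b' f K hf h0 hfK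
    have hK0 : 0 ≤ K := (h0 0).trans (hfK 0)
    have := law_low (l := √(18 * q.x ^ 2 * β ^ 2)) hc hq (hrow b b') (Real.sqrt_nonneg _)
      (by rw [e]; linarith) p (by rw [e]; exact hp) hf h0 hfK
    linarith [hK K hK0]

section tail

variable {n : ℕ} {ε : ℝ} {q : Par} {F : (Pair n → ℝ) → ℝ} {D : Pair n → (Pair n → ℝ) → ℝ}
  {B L : ℝ}

lemma Law2.nup (h : Law2 n ε q F) (hc : C11 F D B L) (hx : 0 < q.x) (b b' : Fin n)
    {f : (K4 (Pair n) → ℝ) → ℝ} {K : ℝ} (hf : EG f) (h0 : ∀ w, 0 ≤ f w) (hK : ∀ w, f w ≤ K) :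
    En q F f ≤ 2 * En q F (Av (lf (row b ∪ row b')) f) + ε * K := by
  have h1 := h.up b b' f K hf h0 hK
  have hE := Ew1_pos (F := F) hc hx (q := q)
  unfold En
  rw [div_le_iff₀ hE]
  have e : (2 * (Ew q F (Av (lf (row b ∪ row b')) f) / Ew q F fun _ => 1) + ε * K) *
      (Ew q F fun _ => 1) = 2 * Ew q F (Av (lf (row b ∪ row b')) f) +
        ε * K * Ew q F fun _ => 1 := by
    field_simp
  rw [e]
  exact h1

lemma Law2.nlow (h : Law2 n ε q F) (hc : C11 F D B L) (hx : 0 < q.x) (b b' : Fin n)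
    {f : (K4 (Pair n) → ℝ) → ℝ} {K : ℝ} (hf : EG f) (h0 : ∀ w, 0 ≤ f w) (hK : ∀ w, f w ≤ K) :
    En q F (Av (lf (row b ∪ row b')) f) ≤ 2 * En q F f + ε * K := by
  have h1 := h.low b b' f K hf h0 hK
  have hE := Ew1_pos (F := F) hc hx (q := q)
  unfold En
  rw [div_le_iff₀ hE]
  have e : (2 * (Ew q F f / Ew q F fun _ => 1) + ε * K) * (Ew q F fun _ => 1) =
      2 * Ew q F f + ε * K * Ew q F fun _ => 1 := by
    field_simp
  rw [e]
  exact h1

/-- **(N2)** a bounded function supported on a rare event -/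
lemma En_rare (hc : C11 F D B L) (hx : 0 < q.x) {f g : (K4 (Pair n) → ℝ) → ℝ} (hf : EG f)
    (hg : EG g) {K M δ : ℝ} (hK0 : 0 ≤ K) (hK : ∀ w, M < g w → f w ≤ K)
    (hs : ∀ w, ¬ M < g w → f w ≤ 0)
    (hδ : En q F (fun w => if M < g w then (1 : ℝ) else 0) ≤ δ) : En q F f ≤ K * δ := by
  have hi : EG fun w => if M < g w then (1 : ℝ) else 0 := by
    refine EG.of_bdd (C := 1) ?_ fun w => ?_
    · exact Measurable.ite (measurableSet_lt measurable_const hg.meas) measurable_const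
        measurable_const
    · split_ifs <;> simp
  refine (En_mono hc hx hf (hi.const_mul K) fun w => ?_).trans ?_
  · split_ifs with h1
    · rw [mul_one]; exact hK w h1
    · rw [mul_zero]; exact hs w h1
  · rw [En_const_mul]
    exact mul_le_mul_of_nonneg_left hδ hK0

end tail

end Vale.Agent.P146.U.R1C
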