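import Vale.Agent.P146.H816.TwoSk
import Vale.Agent.P146.U.H332_CDef
import Vale.Agent.P146.U.H712_Pos
import Vale.Agent.P146.U.H826_LawP
import Vale.Agent.P146.U.NS

/-!
R1, item (8): the clean columns of the SK model satisfy the hypotheses `Two` of the cleaning of a
pair of sites; the fixed bulk functionals of `CDef`.
-/

open MeasureTheory ProbabilityTheory

namespace Vale.Agent.P146.U.H816

open Vale.Agent.P146.H816 hiding Gb_eq Nd_eq P0_act P1_act P2_act P3_act Sa_eq Sd_eq Xb_eq Yb_eq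
  blk_a blk_d eg_Ca eg_Cd ind_Ca ind_Cd ind_cl2 ind_cl3 two_sk

open Vale.Agent.P157.Lv Vale.Agent.P146.H425 Matrix
open Vale.Agent.P146.H332 hiding Gf Nf
open Vale.Agent.P146.H325 hiding act
open Vale.Agent.P146.H712 hiding eg_P0 eg_P1 eg_P2 eg_P3 k0 k1 k2 k3 pd_P0 pd_P1 pd_P2 pd_P3
  sum_k0 sum_k1 sum_k2 sum_k3
open Vale.Agent.P146.R1 hiding Et Et4 Et4_123 Et4_124 Et4_add Et4_const Et4_const_mul Et4_cs
  Et4_mono Et4_nonneg Et4_sub Et_add Et_const Et_const_mul Et_cs Et_fst_eq Et_jensen Et_mono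
  Et_nonneg Et_sub Et_weight Et_zero Eu Eu4 Eu4_123 Eu4_124 Eu4_add Eu4_cond Eu4_const_mul
  Eu4_iter Eu4_mono Eu4_nonneg Eu4_one_eq Eu4_one_eq' Eu4_one_pos Eu4_weight Eu_add Eu_const_mul
  Eu_fst Eu_fst_eq Eu_iter Eu_mono Eu_nonneg Eu_one Eu_one_eq Eu_one_pos Eu_weight Eu_zero
  Eu_zero_one Lth Lth_zero Qt dn dn_pos e3_dn eg_Eu eg_Eu4
open Vale.Agent.P146.R1C hiding Av_lf_P0 Av_lf_P1 Av_lf_P2 Av_lf_P23 Av_lf_P23_row Av_lf_P3 Ca Cd
  En En_eq Ew Ew_eq Gb Nd P0 P0_sw P1 P1_sw P2 P2_sw P3 P3_sw Par Sa Sd dens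
open Vale.Agent.P146.U.H712 Vale.Agent.P146.U.R1 Vale.Agent.P146.U.R1C

set_option linter.unusedSectionVars false

variable {n : ℕ} {k x s : ℝ}

/-! ### flips of the spin of a site -/

/-! ### permutations of the sites -/

lemma P0_act (π : Equiv.Perm (Fin n)) (q : Par) (w : K4 (Pair n) → ℝ) :
    P0 q (actp (pk π) w) = act π (P0 q w) := rfl

lemma P1_act (π : Equiv.Perm (Fin n)) (q : Par) (w : K4 (Pair n) → ℝ) :
    P1 q (actp (pk π) w) = act π (P1 q w) := rfl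

lemma P2_act (π : Equiv.Perm (Fin n)) (q : Par) (w : K4 (Pair n) → ℝ) :
    P2 q (actp (pk π) w) = act π (P2 q w) := rfl

lemma P3_act (π : Equiv.Perm (Fin n)) (q : Par) (w : K4 (Pair n) → ℝ) :
    P3 q (actp (pk π) w) = act π (P3 q w) := rfl

/-! ### the instance -/

lemma ind_cl2 (q : Par) (s : ℝ) (b b' i : Fin n) :
    Ind (lf (row b')) fun w => cl k x s b b' (P2 q w) i := by
  intro w w'
  simp only
  rw [P2_sw]
  exact ind_AvP _ _ _ _ _

lemma ind_cl3 (q : Par) (s : ℝ) (b b' i : Fin n) :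
    Ind (lf (row b')) fun w => cl k x s b b' (P3 q w) i := by
  intro w w'
  simp only
  rw [P3_sw]
  exact ind_AvP _ _ _ _ _

/-- **The SK instance.** -/
theorem two_sk (k : ℝ) (q : Par) {b b' : Fin n} (h : b' ≠ b) :
    Two (lf (row b)) (lf (row b')) (pk (Equiv.swap b b')) b b'
      (fun w => cl k q.x q.s1 b b' (P2 q w)) (fun w => cl k q.x q.s2 b b' (P3 q w))
      (fun w => cl k q.x q.s1 b' b (P2 q w)) (fun w => cl k q.x q.s2 b' b (P3 q w)) where
  ea i := eg_P2 (eg_cl b b' i)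
  ed i := eg_P3 (eg_cl b b' i)
  ia i := ind_cl2 q _ b b' i
  id i := ind_cl3 q _ b b' i
  a0 _ := cl_other h _
  d0 _ := cl_other h _
  a0' _ := cl_other h.symm _
  d0' _ := cl_other h.symm _
  ha i h1 h2 w := by rw [P2_act, cl_act h1 h2]
  hd i h1 h2 w := by rw [P3_act, cl_act h1 h2]
  hR e := by
    have := mem_lf_pk (Equiv.swap b b') b e
    rwa [Equiv.swap_apply_left] at this
  hR' e := by
    have := mem_lf_pk (Equiv.swap b b') b' e
    rwa [Equiv.swap_apply_right] at this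
  hρ e := pk_fix

/-- the columns of `CDef` -/
lemma blk_a (q : Par) (b b' : Fin n) :
    blk b b' (fun w => cl k q.x q.s1 b b' (P2 q w)) = Ca k q b b' := rfl

lemma blk_d (q : Par) (b b' : Fin n) :
    blk b b' (fun w => cl k q.x q.s2 b b' (P3 q w)) = Cd k q b b' := rfl

lemma ind_Ca (q : Par) (b b' i : Fin n) : Ind (lf (row b')) fun w => Ca k q b b' w i :=
  ind_blk (a := fun w => cl k q.x q.s1 b b' (P2 q w)) (fun i => ind_cl2 q _ b b' i) i

lemma ind_Cd (q : Par) (b b' i : Fin n) : Ind (lf (row b')) fun w => Cd k q b b' w i :=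
  ind_blk (a := fun w => cl k q.x q.s2 b b' (P3 q w)) (fun i => ind_cl3 q _ b b' i) i

lemma eg_Ca (q : Par) (b b' i : Fin n) : EG fun w => Ca k q b b' w i :=
  eg_blk (a := fun w => cl k q.x q.s1 b b' (P2 q w)) (fun i => eg_P2 (eg_cl b b' i)) i

lemma eg_Cd (q : Par) (b b' i : Fin n) : EG fun w => Cd k q b b' w i :=
  eg_blk (a := fun w => cl k q.x q.s2 b b' (P3 q w)) (fun i => eg_P3 (eg_cl b b' i)) i

lemma Nd_eq (q : Par) (b b' i j : Fin n) (w : K4 (Pair n) → ℝ) :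
    Nd k q b b' w i j = Nf (lf (row b)) b b' (fun w => cl k q.x q.s1 b b' (P2 q w))
      (fun w => cl k q.x q.s2 b b' (P3 q w)) i j w := by
  unfold Nd Nf
  rw [lf_union]
  exact Av_union_ind (ind_mul (ind_Ca q b b' i) (ind_Cd q b b' j)) w

lemma Sa_eq (q : Par) (b b' i j : Fin n) (w : K4 (Pair n) → ℝ) :
    Sa k q b b' w i j = Nf (lf (row b)) b b' (fun w => cl k q.x q.s1 b b' (P2 q w))
      (fun w => cl k q.x q.s1 b b' (P2 q w)) i j w := by
  unfold Sa Nf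
  rw [lf_union]
  exact Av_union_ind (ind_mul (ind_Ca q b b' i) (ind_Ca q b b' j)) w

lemma Sd_eq (q : Par) (b b' i j : Fin n) (w : K4 (Pair n) → ℝ) :
    Sd k q b b' w i j = Nf (lf (row b)) b b' (fun w => cl k q.x q.s2 b b' (P3 q w))
      (fun w => cl k q.x q.s2 b b' (P3 q w)) i j w := by
  unfold Sd Nf
  rw [lf_union]
  exact Av_union_ind (ind_mul (ind_Cd q b b' i) (ind_Cd q b b' j)) w

lemma Gb_eq (q : Par) (b b' : Fin n) (w : K4 (Pair n) → ℝ) :
    Gb k q b b' w = Gf (lf (row b)) b b' (fun w => cl k q.x q.s1 b b' (P2 q w))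
      (fun w => cl k q.x q.s2 b b' (P3 q w)) w := by
  unfold Gb Gf ip fr
  rw [← Finset.sum_sub_distrib]
  refine Finset.sum_congr rfl fun i _ => ?_
  rw [← Finset.sum_sub_distrib]
  refine Finset.sum_congr rfl fun j _ => ?_
  rw [Sa_eq, Sd_eq, Nd_eq]

lemma Yb_eq (q : Par) (b b' : Fin n) (w : K4 (Pair n) → ℝ) :
    fr (Nd k q b b' w - (Nd k q b b' w)ᵀ) = Yf (lf (row b)) b b'
      (fun w => cl k q.x q.s1 b b' (P2 q w)) (fun w => cl k q.x q.s2 b b' (P3 q w)) w := by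
  unfold Yf fr
  refine Finset.sum_congr rfl fun i _ => Finset.sum_congr rfl fun j _ => ?_
  rw [Matrix.sub_apply, transpose_apply, Nd_eq, Nd_eq]

lemma Xb_eq (q : Par) (b b' : Fin n) (w : K4 (Pair n) → ℝ) :
    fr (Nd k q b b' w) = Xf (lf (row b)) b b'
      (fun w => cl k q.x q.s1 b b' (P2 q w)) (fun w => cl k q.x q.s2 b b' (P3 q w)) w := by
  unfold Xf fr
  refine Finset.sum_congr rfl fun i _ => Finset.sum_congr rfl fun j _ => ?_
  rw [Nd_eq]

end Vale.Agent.P146.U.H816
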