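import Vale.Agent.P146.H941.TwoS
import Vale.Agent.P146.U.H941_CDefS
import Vale.Agent.P146.U.H816_TwoSk
import Vale.Agent.P146.U.NS

/-!
R1, item (8): the clean columns of a position system satisfy the hypotheses `Two` of the cleaning
of a pair of sites; the fixed bulk functionals of `CDefS`.
-/

open MeasureTheory ProbabilityTheory

namespace Vale.Agent.P146.U.R1S

open Vale.Agent.P146.R1S hiding CS Ca Cd Gb Gb_eq MM Nd Nd_eq Sa Sa_eq Sd Sd_eq Xb_eq Yb_eq abs_cl
  blk_a blk_d cl cl0 cl_act cl_odd cl_other cl_self ee eg_Ca eg_Cd eg_cl eg_cl0 ind_Ca ind_Cd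
  ind_cl ind_cl2 ind_cl3 tA_T tA_abs tA_comm tA_cont tA_eg tA_self two_cs

open Vale.Agent.P157.Lv Vale.Agent.P146.H425 Matrix
open Vale.Agent.P146.H325 hiding abs_pr
open Vale.Agent.P146.H712 hiding eg_P0 eg_P1 eg_P2 eg_P3 k0 k1 k2 k3 pd_P0 pd_P1 pd_P2 pd_P3
  sum_k0 sum_k1 sum_k2 sum_k3
open Vale.Agent.P146.R1 hiding Et Et4 Et4_123 Et4_124 Et4_add Et4_const Et4_const_mul Et4_cs
  Et4_mono Et4_nonneg Et4_sub Et_add Et_const Et_const_mul Et_cs Et_fst_eq Et_jensen Et_mono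
  Et_nonneg Et_sub Et_weight Et_zero Eu Eu4 Eu4_123 Eu4_124 Eu4_add Eu4_cond Eu4_const_mul
  Eu4_iter Eu4_mono Eu4_nonneg Eu4_one_eq Eu4_one_eq' Eu4_one_pos Eu4_weight Eu_add Eu_const_mul
  Eu_fst Eu_fst_eq Eu_iter Eu_mono Eu_nonneg Eu_one Eu_one_eq Eu_one_pos Eu_weight Eu_zero
  Eu_zero_one Lth Lth_zero Qt dn dn_pos e3_dn eg_Eu eg_Eu4
open Vale.Agent.P146.R1C hiding Av_lf_P0 Av_lf_P1 Av_lf_P2 Av_lf_P23 Av_lf_P23_row Av_lf_P3 Ca Cd
  En En_eq Ew Ew_eq Gb Nd P0 P0_sw P1 P1_sw P2 P2_sw P3 P3_sw Par Sa Sd dens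
open Vale.Agent.P146.H816 hiding Gb_eq Nd_eq P0_act P1_act P2_act P3_act Sa_eq Sd_eq Xb_eq Yb_eq
  blk_a blk_d eg_Ca eg_Cd ind_Ca ind_Cd ind_cl2 ind_cl3 two_sk
open Vale.Agent.P146.U.H712 Vale.Agent.P146.U.R1 Vale.Agent.P146.U.R1C Vale.Agent.P146.U.H816

open Vale.Agent.P146.H332 hiding Gf Nf

set_option linter.unusedSectionVars false

variable {n : ℕ} {k x : ℝ} (S : CS n k x) (s : ℝ)

/-! ### elementary facts on the matrices -/

lemma tA_self (z : Pair n → ℝ) (i : Fin n) : S.A s z i i = 1 := by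
  rw [S.A_mu]
  have h : ∀ σ : Fin n → ℤˣ, pr i i σ = 1 := fun σ => by rw [pr_self i]
  simp only [h, mul_one]
  exact S.mu1 s z

lemma tA_comm (z : Pair n → ℝ) (i j : Fin n) : S.A s z i j = S.A s z j i := by
  rw [S.A_mu, S.A_mu, pr_comm]

lemma tA_T (z : Pair n → ℝ) : (S.A s z)ᵀ = S.A s z := by
  ext i j
  exact tA_comm S s z j i

lemma tA_eg (i j : Fin n) : EG fun z => S.A s z i j := by
  have e : (fun z => S.A s z i j) = fun z => ∑ σ, S.mu s z σ * pr i j σ := by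
    funext z
    exact S.A_mu s z i j
  rw [e]
  refine EG.sum _ fun σ _ => ?_
  have h1 := (S.eg_mu s σ).const_mul (pr i j σ)
  have e2 : (fun z => S.mu s z σ * pr i j σ) = fun z => pr i j σ * S.mu s z σ := by
    funext z
    ring
  rw [e2]
  exact h1

lemma tA_abs (z : Pair n → ℝ) (i j : Fin n) : |S.A s z i j| ≤ 1 := by
  rw [S.A_mu]
  refine (Finset.abs_sum_le_sum_abs _ _).trans (le_of_eq ?_)
  rw [← S.mu1 s z]
  refine Finset.sum_congr rfl fun σ _ => ?_
  rw [abs_mul, abs_pr, mul_one, abs_of_nonneg (S.mu0 s z σ)]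

lemma tA_cont (i j : Fin n) : Continuous fun z => S.A s z i j :=
  continuous_iff_continuousAt.2 fun z => (S.fd_A s i j z).continuousAt

/-! ### the clean columns -/

lemma cl_self (b b' : Fin n) (z : Pair n → ℝ) : cl S s b b' z b = 1 := by
  unfold cl AvP
  simp only [tA_self]
  simp

/-- the clean column of `b` vanishes at the other site -/
lemma cl_other {b b' : Fin n} (h : b' ≠ b) (z : Pair n → ℝ) : cl S s b b' z b' = 0 := by
  unfold cl
  refine AvP_odd b' (tA_eg S s b' b) (fun z => ?_) z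
  rw [tA_comm S s _ b' b, tA_comm S s z b' b]
  exact S.A_fl_row s h.symm z

/-- the clean column is odd in its row -/
lemma cl_odd {b b' i : Fin n} (hi : i ≠ b) (z : Pair n → ℝ) :
    cl S s b b' (fl b z) i = -cl S s b b' z i := by
  have hm : Measurable fun z : Pair n → ℝ => S.A s z i b := (tA_cont S s i b).measurable
  unfold cl
  rw [AvP_fl b b' hm]
  unfold AvP
  rw [← integral_neg]
  refine integral_congr_ae (Filter.Eventually.of_forall fun g => ?_)
  simp only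
  rw [S.A_fl_row s hi]

lemma abs_cl (b b' : Fin n) (z : Pair n → ℝ) (i : Fin n) : |cl S s b b' z i| ≤ 1 :=
  abs_AvP_le (fun z => tA_abs S s z i b) z

/-- equivariance of the clean columns -/
lemma cl_act {b b' : Fin n} {i : Fin n} (h1 : i ≠ b) (h2 : i ≠ b') (z : Pair n → ℝ) :
    cl S s b b' (act (Equiv.swap b b') z) i = cl S s b' b z i := by
  unfold cl
  rw [AvP_act (Equiv.swap b b') (R := row b) fun e => by
    have := mem_row_pf (Equiv.swap b b') b' e
    rwa [Equiv.swap_apply_right] at this]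
  congr 1
  funext z
  rw [S.A_act, Equiv.swap_apply_of_ne_of_ne h1 h2, Equiv.swap_apply_left]

lemma eg_cl (b b' i : Fin n) : EG fun z => cl S s b b' z i := eg_AvP (tA_eg S s i b) s _

lemma eg_cl0 (b b' i : Fin n) : EG fun z => cl0 S s b b' z i := by
  unfold cl0
  by_cases h : i = b ∨ i = b'
  · simp only [h, if_true]; exact EG.const 0
  · simp only [h, if_false]; exact eg_cl S s b b' i

lemma ind_cl (b b' i : Fin n) : Ind (row b') fun z => cl S s b b' z i := ind_AvP _ _ _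

lemma ind_cl2 (q : Par) (s : ℝ) (b b' i : Fin n) :
    Ind (lf (row b')) fun w => cl S s b b' (P2 q w) i := by
  intro w w'
  simp only
  rw [P2_sw]
  exact ind_AvP _ _ _ _ _

lemma ind_cl3 (q : Par) (s : ℝ) (b b' i : Fin n) :
    Ind (lf (row b')) fun w => cl S s b b' (P3 q w) i := by
  intro w w'
  simp only
  rw [P3_sw]
  exact ind_AvP _ _ _ _ _

/-- **The hypotheses `Two` for a position system.** -/
theorem two_cs (q : Par) {b b' : Fin n} (h : b' ≠ b) :
    Two (lf (row b)) (lf (row b')) (pk (Equiv.swap b b')) b b'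
      (fun w => cl S q.s1 b b' (P2 q w)) (fun w => cl S q.s2 b b' (P3 q w))
      (fun w => cl S q.s1 b' b (P2 q w)) (fun w => cl S q.s2 b' b (P3 q w)) where
  ea i := eg_P2 (eg_cl S _ b b' i)
  ed i := eg_P3 (eg_cl S _ b b' i)
  ia i := ind_cl2 S q _ b b' i
  id i := ind_cl3 S q _ b b' i
  a0 _ := cl_other S _ h _
  d0 _ := cl_other S _ h _
  a0' _ := cl_other S _ h.symm _
  d0' _ := cl_other S _ h.symm _
  ha i h1 h2 w := by rw [P2_act, cl_act S _ h1 h2]
  hd i h1 h2 w := by rw [P3_act, cl_act S _ h1 h2]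
  hR e := by
    have := mem_lf_pk (Equiv.swap b b') b e
    rwa [Equiv.swap_apply_left] at this
  hR' e := by
    have := mem_lf_pk (Equiv.swap b b') b' e
    rwa [Equiv.swap_apply_right] at this
  hρ e := pk_fix

/-- the columns of `CDefS` -/
lemma blk_a (q : Par) (b b' : Fin n) :
    blk b b' (fun w => cl S q.s1 b b' (P2 q w)) = Ca S q b b' := rfl

lemma blk_d (q : Par) (b b' : Fin n) :
    blk b b' (fun w => cl S q.s2 b b' (P3 q w)) = Cd S q b b' := rfl

lemma ind_Ca (q : Par) (b b' i : Fin n) : Ind (lf (row b')) fun w => Ca S q b b' w i :=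
  ind_blk (a := fun w => cl S q.s1 b b' (P2 q w)) (fun i => ind_cl2 S q _ b b' i) i

lemma ind_Cd (q : Par) (b b' i : Fin n) : Ind (lf (row b')) fun w => Cd S q b b' w i :=
  ind_blk (a := fun w => cl S q.s2 b b' (P3 q w)) (fun i => ind_cl3 S q _ b b' i) i

lemma eg_Ca (q : Par) (b b' i : Fin n) : EG fun w => Ca S q b b' w i :=
  eg_blk (a := fun w => cl S q.s1 b b' (P2 q w)) (fun i => eg_P2 (eg_cl S _ b b' i)) i

lemma eg_Cd (q : Par) (b b' i : Fin n) : EG fun w => Cd S q b b' w i :=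
  eg_blk (a := fun w => cl S q.s2 b b' (P3 q w)) (fun i => eg_P3 (eg_cl S _ b b' i)) i

lemma Nd_eq (q : Par) (b b' i j : Fin n) (w : K4 (Pair n) → ℝ) :
    Nd S q b b' w i j = Nf (lf (row b)) b b' (fun w => cl S q.s1 b b' (P2 q w))
      (fun w => cl S q.s2 b b' (P3 q w)) i j w := by
  unfold Nd Nf
  rw [lf_union]
  exact Av_union_ind (ind_mul (ind_Ca S q b b' i) (ind_Cd S q b b' j)) w

lemma Sa_eq (q : Par) (b b' i j : Fin n) (w : K4 (Pair n) → ℝ) :
    Sa S q b b' w i j = Nf (lf (row b)) b b' (fun w => cl S q.s1 b b' (P2 q w))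
      (fun w => cl S q.s1 b b' (P2 q w)) i j w := by
  unfold Sa Nf
  rw [lf_union]
  exact Av_union_ind (ind_mul (ind_Ca S q b b' i) (ind_Ca S q b b' j)) w

lemma Sd_eq (q : Par) (b b' i j : Fin n) (w : K4 (Pair n) → ℝ) :
    Sd S q b b' w i j = Nf (lf (row b)) b b' (fun w => cl S q.s2 b b' (P3 q w))
      (fun w => cl S q.s2 b b' (P3 q w)) i j w := by
  unfold Sd Nf
  rw [lf_union]
  exact Av_union_ind (ind_mul (ind_Cd S q b b' i) (ind_Cd S q b b' j)) w

lemma Gb_eq (q : Par) (b b' : Fin n) (w : K4 (Pair n) → ℝ) :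
    Gb S q b b' w = Gf (lf (row b)) b b' (fun w => cl S q.s1 b b' (P2 q w))
      (fun w => cl S q.s2 b b' (P3 q w)) w := by
  unfold Gb Gf ip fr
  rw [← Finset.sum_sub_distrib]
  refine Finset.sum_congr rfl fun i _ => ?_
  rw [← Finset.sum_sub_distrib]
  refine Finset.sum_congr rfl fun j _ => ?_
  rw [Sa_eq, Sd_eq, Nd_eq]

lemma Yb_eq (q : Par) (b b' : Fin n) (w : K4 (Pair n) → ℝ) :
    fr (Nd S q b b' w - (Nd S q b b' w)ᵀ) = Yf (lf (row b)) b b'
      (fun w => cl S q.s1 b b' (P2 q w)) (fun w => cl S q.s2 b b' (P3 q w)) w := by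
  unfold Yf fr
  refine Finset.sum_congr rfl fun i _ => Finset.sum_congr rfl fun j _ => ?_
  rw [Matrix.sub_apply, transpose_apply, Nd_eq, Nd_eq]

lemma Xb_eq (q : Par) (b b' : Fin n) (w : K4 (Pair n) → ℝ) :
    fr (Nd S q b b' w) = Xf (lf (row b)) b b'
      (fun w => cl S q.s1 b b' (P2 q w)) (fun w => cl S q.s2 b b' (P3 q w)) w := by
  unfold Xf fr
  refine Finset.sum_congr rfl fun i _ => Finset.sum_congr rfl fun j _ => ?_
  rw [Nd_eq]

end Vale.Agent.P146.U.R1S
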