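import Vale.Agent.P146.H640.LamP
import Vale.Agent.P146.U.H332_CDef
import Vale.Agent.P146.U.H826_LawP
import Vale.Agent.P146.U.H645_CSys
import Vale.Agent.P146.U.H941_SkTS
import Vale.Agent.P146.U.H425_FoN
import Vale.Agent.P146.U.H712_Pos
import Vale.Agent.P146.U.NS

/-!
Plan R1, the row (LAM) for a position system: the sum over the pairs of sites of the products of
the size of a clean column and of the size of the nonlinear part of the other one.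
-/

open MeasureTheory ProbabilityTheory

namespace Vale.Agent.P146.U.R1S

open Vale.Agent.P146.R1S hiding A1 A2 CS Ca Cd ClS Dg Gb Gb_eq LamS MM Nd Nd_eq Nd_ind PrS Q4
  Q4_le Q4_le_pow Q4_nonneg Sa Sa_eq Sa_ind Sd Sd_eq Sd_ind Xb_eq Yb_eq a1 a1_eq a2 a2_eq abs_cl
  blk_a blk_d cl cl0 cl_act cl_cs cl_odd cl_other cl_self ee ee_le ee_nonneg eg_A1 eg_A2 eg_Ca
  eg_Cd eg_Gb eg_Nd eg_Q4 eg_Sa eg_Sd eg_Yd eg_cl eg_cl0 eg_ee eg_frNd eg_vH ind_Ca ind_Cd ind_Gb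
  ind_Yd ind_cl ind_cl2 ind_cl3 ind_frNd nl_En tA_T tA_abs tA_comm tA_cont tA_eg tA_self two_cs vH
  vH_nonneg

open Vale.Agent.P157.Lv Vale.Agent.P146.H425 Vale.Agent.P146.H325 Matrix
open Vale.Agent.P146.H712 hiding eg_P0 eg_P1 eg_P2 eg_P3 k0 k1 k2 k3 pd_P0 pd_P1 pd_P2 pd_P3
  sum_k0 sum_k1 sum_k2 sum_k3
open Vale.Agent.P146.R1 hiding Et Et4 Et4_123 Et4_124 Et4_add Et4_const Et4_const_mul Et4_cs
  Et4_mono Et4_nonneg Et4_sub Et_add Et_const Et_const_mul Et_cs Et_fst_eq Et_jensen Et_mono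
  Et_nonneg Et_sub Et_weight Et_zero Eu Eu4 Eu4_123 Eu4_124 Eu4_add Eu4_cond Eu4_const_mul
  Eu4_iter Eu4_mono Eu4_nonneg Eu4_one_eq Eu4_one_eq' Eu4_one_pos Eu4_weight Eu_add Eu_const_mul
  Eu_fst Eu_fst_eq Eu_iter Eu_mono Eu_nonneg Eu_one Eu_one_eq Eu_one_pos Eu_weight Eu_zero
  Eu_zero_one Lth Lth_zero Qt dn dn_pos e3_dn eg_Eu eg_Eu4
open Vale.Agent.P146.R1C hiding A1 A2 Av_lf_P0 Av_lf_P1 Av_lf_P2 Av_lf_P23 Av_lf_P23_row Av_lf_P3
  Ca Cd ClSk Dg En En_add En_const En_const_mul En_eq En_mono En_nonneg En_pow_le En_rare En_sum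
  Ew Ew1_pos Ew_add Ew_const_mul Ew_eq Ew_mono Ew_nonneg Ew_one_pos Fo Gb LamSk Law2 Nb Nd Nd_ind
  P0 P0_lp P0_sw P1 P1_lp P1_sw P2 P2_lp P2_sw P3 P3_lp P3_sw Par PrSk Sa Sa_ind Sd Sd_ind a1
  a1_eq a2 a2_eq cl_sk den_pos dens dens_eq eg_A1 eg_A2 eg_Gb eg_Nd eg_Sa eg_Sd eg_Yd eg_den
  eg_dens eg_frNd eg_psi' ind_Gb ind_Yd ind_frNd int_ph kk_NN lam_le law2_of law_low law_up lf_psi
  lip_psi pd_psi ph psi psi' psi_four_le psi_sq_le
open Vale.Agent.P146.U.H712 Vale.Agent.P146.U.R1 Vale.Agent.P146.U.R1C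

open Vale.Agent.P146.H332 hiding Gf Nf

set_option linter.unusedSectionVars false

variable {n : ℕ} {k x : ℝ} (S : CS n k x)

/-- the sum of the squares of the four point functions -/
noncomputable def Q4 (s : ℝ) (z : Pair n → ℝ) : ℝ := ∑ i, ∑ j, ∑ p, ∑ r, S.T4 s z i j p r ^ 2

/-- the variance of the mean row gradient -/
noncomputable def vH (s : ℝ) (b b' : Fin n) (z : Pair n → ℝ) : ℝ :=
  AvP s (row b ∪ row b') (fun u => ∑ i, ∑ j, (AvP s (row b') (fun u => S.H s b u i j) u -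
    AvP s (row b ∪ row b') (fun u => S.H s b u i j) u) ^ 2) z

variable {S} {s : ℝ} {q : Par}

/-- **`ee ≤ s k² E_y |A|²`** -/
theorem ee_le (hs : 0 < s) (b b' : Fin n) (z : Pair n → ℝ) :
    ee S s b b' z ≤ s * k ^ 2 * AvP s (row b ∪ row b') (fun z => fr (S.A s z)) z :=
  ee_gen hs.le (A := fun z => S.A s z) (DA := fun e z => S.DA s e z) (fun i j => S.eg_A s i j)
    (fun e i j => S.pd_A s e i j) (fun e i j => S.eg_DA s e i j)
    (fun hp z => S.A_fl_row s hp z) (fun b z => S.row_grad hs b z) b b' z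

lemma ee_nonneg (b b' : Fin n) (z : Pair n → ℝ) : 0 ≤ ee S s b b' z :=
  AvP_nonneg (fun _ => Finset.sum_nonneg fun _ _ => sq_nonneg _) z

lemma eg_ee (b b' : Fin n) : EG fun z => ee S s b b' z :=
  eg_AvP (EG.sum _ fun i _ => (eg_cl0 S s b b' i).pow 2) s _

lemma vH_nonneg (b b' : Fin n) (z : Pair n → ℝ) : 0 ≤ vH S s b b' z :=
  AvP_nonneg (fun _ => Finset.sum_nonneg fun _ _ => Finset.sum_nonneg fun _ _ => sq_nonneg _) z

lemma eg_vH (hs : 0 < s) (b b' : Fin n) : EG fun z => vH S s b b' z :=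
  eg_AvP (EG.sum _ fun i _ => EG.sum _ fun j _ =>
    ((eg_AvP (S.eg_H hs b i j) s _).sub (eg_AvP (S.eg_H hs b i j) s _)).pow 2) s _

lemma Q4_nonneg (z : Pair n → ℝ) : 0 ≤ Q4 S s z :=
  Finset.sum_nonneg fun _ _ => Finset.sum_nonneg fun _ _ => Finset.sum_nonneg fun _ _ =>
    Finset.sum_nonneg fun _ _ => sq_nonneg _

lemma eg_Q4 : EG fun z => Q4 S s z :=
  EG.sum _ fun i _ => EG.sum _ fun j _ => EG.sum _ fun p _ => EG.sum _ fun r _ =>
    (S.eg_T4 s i j p r).pow 2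

lemma Q4_le_pow (z : Pair n → ℝ) : Q4 S s z ≤ (n : ℝ) ^ 4 := by
  unfold Q4
  calc ∑ i, ∑ j, ∑ p, ∑ r, S.T4 s z i j p r ^ 2
      ≤ ∑ _i : Fin n, ∑ _j : Fin n, ∑ _p : Fin n, ∑ _r : Fin n, (1 : ℝ) := by
        refine Finset.sum_le_sum fun i _ => Finset.sum_le_sum fun j _ =>
          Finset.sum_le_sum fun p _ => Finset.sum_le_sum fun r _ => ?_
        have h := abs_le.1 (S.abs_T4 s z i j p r)
        nlinarith
    _ = (n : ℝ) ^ 4 := by
        simp only [Finset.sum_const, Finset.card_univ, Fintype.card_fin, nsmul_eq_mul, mul_one]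
        ring

/-- `∑ T4² ≤ 2 |A|⁴ + 4/(k² x²) ∑ |DA|²` -/
lemma Q4_le (hs : 0 < s) (z : Pair n → ℝ) :
    Q4 S s z ≤ 2 * fr (S.A s z) ^ 2 + 4 / (k ^ 2 * S.y ^ 2) * ∑ e, fr (S.DA s e z) := by
  have h1 := S.kov_le hs z
  have e1 : ∑ i, ∑ j, ∑ p, ∑ r, (S.A s z i j * S.A s z p r) ^ 2 = fr (S.A s z) ^ 2 := by
    rw [_root_.sq]
    unfold fr
    simp only [mul_pow, Finset.mul_sum, Finset.sum_mul]
    refine (Finset.sum_congr rfl fun i _ => Finset.sum_congr rfl fun j _ =>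
      Finset.sum_congr rfl fun p _ => Finset.sum_congr rfl fun r _ => rfl).trans ?_
    have h2 : ∀ f : Fin n → Fin n → Fin n → Fin n → ℝ, ∑ i, ∑ j, ∑ p, ∑ r, f i j p r =
        ∑ p, ∑ r, ∑ i, ∑ j, f i j p r := by
      intro f
      have a1 : ∀ i, ∑ j, ∑ p, ∑ r, f i j p r = ∑ p, ∑ r, ∑ j, f i j p r := by
        intro i
        rw [Finset.sum_comm]
        exact Finset.sum_congr rfl fun p _ => Finset.sum_comm
      simp only [a1]
      rw [Finset.sum_comm]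
      exact Finset.sum_congr rfl fun p _ => Finset.sum_comm
    rw [h2]
  have h3 : Q4 S s z ≤ ∑ i, ∑ j, ∑ p, ∑ r, (2 * (S.T4 s z i j p r - S.A s z i j * S.A s z p r) ^ 2
      + 2 * (S.A s z i j * S.A s z p r) ^ 2) := by
    unfold Q4
    refine Finset.sum_le_sum fun i _ => Finset.sum_le_sum fun j _ =>
      Finset.sum_le_sum fun p _ => Finset.sum_le_sum fun r _ => ?_
    nlinarith [sq_nonneg (S.T4 s z i j p r - S.A s z i j * S.A s z p r - S.A s z i j * S.A s z p r)]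
  simp only [Finset.sum_add_distrib, ← Finset.mul_sum] at h3
  rw [e1] at h3
  have h4 : 4 / (k ^ 2 * S.y ^ 2) * ∑ e, fr (S.DA s e z) =
      2 * (2 / (k ^ 2 * S.y ^ 2) * ∑ e, fr (S.DA s e z)) := by ring
  rw [h4]
  linarith

/-! ### the mean of a product -/

section prod

variable {F : (Pair n → ℝ) → ℝ} {D : Pair n → (Pair n → ℝ) → ℝ} {B L ε : ℝ}

/-- **The mean of a product of two bulk functionals.** -/
theorem nl_En (h : C11 F D B L) (hx : 0 < q.x) (hL : Law2 n ε q F) (b b' : Fin n)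
    {f g u v : (K4 (Pair n) → ℝ) → ℝ} (ef : EG f) (eg : EG g) (eu : EG u) (ev : EG v)
    {F1 G1 K0 c0 c1 η : ℝ} (hF1 : 0 ≤ F1) (hK0 : 0 ≤ K0) (hc0 : 0 ≤ c0) (hc1 : 0 ≤ c1)
    (hf1 : ∀ w, f w ≤ F1) (hg0 : ∀ w, 0 ≤ g w) (hg1 : ∀ w, g w ≤ G1)
    (hu : ∀ w, u w ≤ c0 * Av (lf (row b ∪ row b')) f w) (hv0 : ∀ w, 0 ≤ v w)
    (hv : ∀ w, v w ≤ c1 * Av (lf (row b ∪ row b')) g w)
    (hη : En q F (fun w => if K0 < f w then (1 : ℝ) else 0) ≤ η) :
    En q F (fun w => u w * v w) ≤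
      c0 * c1 * K0 * (2 * En q F g + ε * G1) + c0 * F1 * (c1 * G1) * (2 * η + ε) := by
  set R := lf (row b ∪ row b') with hR
  set χ : (K4 (Pair n) → ℝ) → ℝ := fun w => if K0 < f w then (1 : ℝ) else 0 with hχ
  have eχ : EG χ := by
    refine EG.of_bdd (C := 1) ?_ fun w => ?_
    · exact Measurable.ite (measurableSet_lt measurable_const ef.meas) measurable_const
        measurable_const
    · rw [hχ]
      simp only
      split_ifs <;> simp
  have χ0 : ∀ w, 0 ≤ χ w := fun w => by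
    rw [hχ]; simp only; split_ifs <;> norm_num
  have χ1 : ∀ w, χ w ≤ 1 := fun w => by
    rw [hχ]; simp only; split_ifs <;> norm_num
  have hle : ∀ w, f w ≤ K0 + F1 * χ w := fun w => by
    rw [hχ]
    simp only
    split_ifs with h1
    · linarith [hf1 w]
    · linarith [not_lt.1 h1]
  have hG1 : 0 ≤ G1 := (hg0 0).trans (hg1 0)
  have h1 : ∀ w, Av R f w ≤ K0 + F1 * Av R χ w := by
    intro w
    have h2 := Av_mono (R := R) ef ((EG.const K0).add (eχ.const_mul F1)) hle w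
    rw [Av_add (EG.const K0) (eχ.const_mul F1), Av_const_mul, Av_const] at h2
    exact h2
  have hχ0 : ∀ w, 0 ≤ Av R χ w := fun w => Av_nonneg χ0 w
  have hgA : ∀ w, Av R g w ≤ G1 := fun w => by
    have h2 := Av_mono (R := R) eg (EG.const G1) hg1 w
    rwa [Av_const] at h2
  have hv1 : ∀ w, v w ≤ c1 * G1 := fun w =>
    (hv w).trans (mul_le_mul_of_nonneg_left (hgA w) hc1)
  have hpt : ∀ w, u w * v w ≤ c0 * c1 * K0 * Av R g w + c0 * F1 * (c1 * G1) * Av R χ w := by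
    intro w
    have h3 : u w * v w ≤ c0 * (K0 + F1 * Av R χ w) * v w :=
      mul_le_mul_of_nonneg_right ((hu w).trans (mul_le_mul_of_nonneg_left (h1 w) hc0)) (hv0 w)
    have h4 : c0 * K0 * v w ≤ c0 * K0 * (c1 * Av R g w) :=
      mul_le_mul_of_nonneg_left (hv w) (by positivity)
    have h5 : c0 * F1 * Av R χ w * v w ≤ c0 * F1 * Av R χ w * (c1 * G1) :=
      mul_le_mul_of_nonneg_left (hv1 w) (mul_nonneg (by positivity) (hχ0 w))
    linarith
  have eAg := (eg_Av R eg).const_mul (c0 * c1 * K0)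
  have eAχ := (eg_Av R eχ).const_mul (c0 * F1 * (c1 * G1))
  refine (En_mono h hx (eu.mul ev) (eAg.add eAχ) hpt).trans ?_
  rw [En_add h hx eAg eAχ, En_const_mul, En_const_mul]
  have h6 := hL.nlow h hx b b' eg hg0 hg1
  have h7 := hL.nlow h hx b b' eχ χ0 χ1
  rw [mul_one] at h7
  refine add_le_add (mul_le_mul_of_nonneg_left h6 (by positivity))
    (mul_le_mul_of_nonneg_left (h7.trans ?_) (by positivity))
  linarith

end prod

end Vale.Agent.P146.U.R1S
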