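import Vale.Agent.P146.H640.LamQ
import Vale.Agent.P146.H326.Mom
import Vale.Agent.P146.U.H640_LamP
import Vale.Agent.P146.U.NS

/-!
Plan R1, the row (LAM) for a position system: the sum over the pairs of sites of the products of
the size of a clean column and the size of a nonlinear part is at most `C N³ / n²`, where `N` bounds
the second moments of the sizes of the matrices (and `N²` those of the four point functions).
-/

open MeasureTheory ProbabilityTheory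

namespace Vale.Agent.P146.U.R1S

open Vale.Agent.P146.R1S hiding A1 A2 CS Ca Cd ClS Dg Gb Gb_eq LamS MM NN_one Nd Nd_eq Nd_ind PrS
  Q4 Q4_En Q4_le Q4_le_pow Q4_nonneg Sa Sa_eq Sa_ind Sd Sd_eq Sd_ind Xb_eq Yb_eq a1 a1_eq a2 a2_eq
  abs_cl blk_a blk_d cl cl0 cl_act cl_cs cl_odd cl_other cl_self ee ee_le ee_nonneg eg_A1 eg_A2
  eg_Ca eg_Cd eg_Gb eg_Nd eg_Q4 eg_Sa eg_Sd eg_Yd eg_cl eg_cl0 eg_ee eg_frNd eg_vH ind_Ca ind_Cd
  ind_Gb ind_Yd ind_cl ind_cl2 ind_cl3 ind_frNd nl_En nl_one nl_sum tA_T tA_abs tA_comm tA_cont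
  tA_eg tA_self two_cs vH vH_nonneg

open Vale.Agent.P157.Lv Vale.Agent.P146.H425 Vale.Agent.P146.H325 Matrix
open Vale.Agent.P146.H712 hiding eg_P0 eg_P1 eg_P2 eg_P3 k0 k1 k2 k3 pd_P0 pd_P1 pd_P2 pd_P3
  sum_k0 sum_k1 sum_k2 sum_k3
open Vale.Agent.P146.R1 hiding Et Et4 Et4_123 Et4_124 Et4_add Et4_const Et4_const_mul Et4_cs
  Et4_mono Et4_nonneg Et4_sub Et_add Et_const Et_const_mul Et_cs Et_fst_eq Et_jensen Et_mono
  Et_nonneg Et_sub Et_weight Et_zero Eu Eu4 Eu4_123 Eu4_124 Eu4_add Eu4_cond Eu4_const_mul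
  Eu4_iter Eu4_mono Eu4_nonneg Eu4_one_eq Eu4_one_eq' Eu4_one_pos Eu4_weight Eu_add Eu_const_mul
  Eu_fst Eu_fst_eq Eu_iter Eu_mono Eu_nonneg Eu_one Eu_one_eq Eu_one_pos Eu_weight Eu_zero
  Eu_zero_one Lth Lth_zero Qt dn dn_pos e3_dn eg_Eu eg_Eu4
open Vale.Agent.P146.R1C hiding A1 A2 Av_lf_P0 Av_lf_P1 Av_lf_P2 Av_lf_P23 Av_lf_P23_row Av_lf_P3
  Ca Cd ClSk Dg En En_add En_const En_const_mul En_eq En_mono En_nonneg En_pow_le En_rare En_sum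
  Ew Ew1_pos Ew_add Ew_const_mul Ew_eq Ew_mono Ew_nonneg Ew_one_pos Fo Gb LamSk Law2 Nb Nd Nd_ind
  P0 P0_lp P0_sw P1 P1_lp P1_sw P2 P2_lp P2_sw P3 P3_lp P3_sw Par PrSk Sa Sa_ind Sd Sd_ind a1
  a1_eq a2 a2_eq cl_sk den_pos dens dens_eq eg_A1 eg_A2 eg_Gb eg_Nd eg_Sa eg_Sd eg_Yd eg_den
  eg_dens eg_frNd eg_psi' ind_Gb ind_Yd ind_frNd int_ph kk_NN lam_le law2_of law_low law_up lf_psi
  lip_psi pd_psi ph psi psi' psi_four_le psi_sq_le
open Vale.Agent.P146.U.H712 Vale.Agent.P146.U.R1 Vale.Agent.P146.U.R1C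

open Vale.Agent.P146.H332 hiding Gf NN Nf fr_nonneg

set_option linter.unusedSectionVars false

variable {n : ℕ} {β A δ T ρ Λ ye : ℝ} {q : Par} {S : CS n (kk n β) q.x} {s s' : ℝ}
  {P P' : (K4 (Pair n) → ℝ) → Pair n → ℝ}

lemma NN_one {F : (Pair n → ℝ) → ℝ} {AM : ℝ → (Pair n → ℝ) → Matrix (Fin n) (Fin n) ℝ}
    {DM : ℝ → Pair n → (Pair n → ℝ) → Matrix (Fin n) (Fin n) ℝ}
    (h : Fo n β A δ T ρ Λ ye q F AM DM) : 1 ≤ NN n β ρ := by
  have h3 := h.β0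
  unfold NN
  rw [le_div_iff₀ (by positivity)]
  have h5 := h.ρ1
  have h8 := h.βn
  have h2 := h.n0
  nlinarith

section prod

variable {n : ℕ} {q : Par} {F : (Pair n → ℝ) → ℝ} {D : Pair n → (Pair n → ℝ) → ℝ} {B L ε : ℝ}

/-- **The mean of a product of two bulk functionals**, from the second moments. -/
theorem nl_En2 (h : C11 F D B L) (hx : 0 < q.x) (hL : Law2 n ε q F) (b b' : Fin n)
    {f g u v : (K4 (Pair n) → ℝ) → ℝ} (ef : EG f) (eg : EG g) (eu : EG u) (ev : EG v)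
    {F1 G1 N c0 c1 : ℝ} (hN : 0 < N) (hc0 : 0 ≤ c0) (hc1 : 0 ≤ c1)
    (hf0 : ∀ w, 0 ≤ f w) (hf1 : ∀ w, f w ≤ F1) (hg0 : ∀ w, 0 ≤ g w) (hg1 : ∀ w, g w ≤ G1)
    (hu : ∀ w, u w ≤ c0 * Av (lf (row b ∪ row b')) f w) (hv0 : ∀ w, 0 ≤ v w)
    (hv : ∀ w, v w ≤ c1 * Av (lf (row b ∪ row b')) g w) :
    En q F (fun w => u w * v w) ≤
      c0 * c1 * ((N * (2 * En q F (fun w => f w ^ 2) + ε * F1 ^ 2) +
        N⁻¹ * (2 * En q F (fun w => g w ^ 2) + ε * G1 ^ 2)) / 2) := by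
  set R := lf (row b ∪ row b') with hR
  have a0 : ∀ w, 0 ≤ Av R f w := fun w => Av_nonneg hf0 w
  have hpt : ∀ w, u w * v w ≤ c0 * c1 / 2 * (N * Av R (fun w => f w ^ 2) w +
      N⁻¹ * Av R (fun w => g w ^ 2) w) := by
    intro w
    have h1 : u w * v w ≤ c0 * Av R f w * v w :=
      mul_le_mul_of_nonneg_right (hu w) (hv0 w)
    have h2 : c0 * Av R f w * v w ≤ c0 * Av R f w * (c1 * Av R g w) :=
      mul_le_mul_of_nonneg_left (hv w) (mul_nonneg hc0 (a0 w))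
    have h3 : Av R f w ^ 2 ≤ Av R (fun w => f w ^ 2) w := Vale.Agent.P146.H326.Av_pow_le ef hf0 2 w
    have h4 : Av R g w ^ 2 ≤ Av R (fun w => g w ^ 2) w := Vale.Agent.P146.H326.Av_pow_le eg hg0 2 w
    have h5 : 2 * (Av R f w * Av R g w) ≤ N * Av R f w ^ 2 + N⁻¹ * Av R g w ^ 2 := by
      have h6 : 0 ≤ N⁻¹ * (N * Av R f w - Av R g w) ^ 2 := by positivity
      have h7 : N⁻¹ * (N * Av R f w - Av R g w) ^ 2 =
          N * Av R f w ^ 2 - 2 * (Av R f w * Av R g w) + N⁻¹ * Av R g w ^ 2 := by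
        field_simp
        ring
      linarith
    have h8 := mul_le_mul_of_nonneg_left h3 hN.le
    have h9 := mul_le_mul_of_nonneg_left h4 (by positivity : 0 ≤ N⁻¹)
    have h10 := mul_le_mul_of_nonneg_left (h5.trans (add_le_add h8 h9))
      (by positivity : 0 ≤ c0 * c1 / 2)
    calc u w * v w ≤ c0 * Av R f w * (c1 * Av R g w) := h1.trans h2
      _ = c0 * c1 / 2 * (2 * (Av R f w * Av R g w)) := by ring
      _ ≤ _ := h10
  have e1 := (eg_Av R (ef.pow 2)).const_mul N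
  have e2 := (eg_Av R (eg.pow 2)).const_mul N⁻¹
  refine (En_mono h hx (eu.mul ev) ((e1.add e2).const_mul (c0 * c1 / 2)) hpt).trans ?_
  rw [En_const_mul, En_add h hx e1 e2, En_const_mul, En_const_mul]
  have h6 := hL.nlow h hx b b' (f := fun w => f w ^ 2) (K := F1 ^ 2) (ef.pow 2)
    (fun w => sq_nonneg _) (fun w => pow_le_pow_left₀ (hf0 w) (hf1 w) 2)
  have h7 := hL.nlow h hx b b' (f := fun w => g w ^ 2) (K := G1 ^ 2) (eg.pow 2)
    (fun w => sq_nonneg _) (fun w => pow_le_pow_left₀ (hg0 w) (hg1 w) 2)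
  have h8 := mul_le_mul_of_nonneg_left h6 hN.le
  have h9 := mul_le_mul_of_nonneg_left h7 (by positivity : 0 ≤ N⁻¹)
  have h10 := mul_le_mul_of_nonneg_left (add_le_add h8 h9) (by positivity : 0 ≤ c0 * c1 / 2)
  refine h10.trans (le_of_eq ?_)
  ring

end prod

section one

variable {n : ℕ} {β : ℝ} {q : Par} {S : CS n (kk n β) q.x} {s s' : ℝ}
  {P P' : (K4 (Pair n) → ℝ) → Pair n → ℝ}

/-- **One pair.** -/
theorem nl_one2 (hx : 0 < q.x) (hn : (2 : ℝ) ≤ n) (hL : Law2 n ((n : ℝ) ^ 200)⁻¹ q S.F)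
    (hP : ∀ f : (Pair n → ℝ) → ℝ, EG f → EG fun w => f (P w))
    (hP' : ∀ f : (Pair n → ℝ) → ℝ, EG f → EG fun w => f (P' w))
    (hAv : ∀ f : (Pair n → ℝ) → ℝ, EG f → ∀ R w,
      Av (lf R) (fun w => f (P w)) w = AvP s R f (P w))
    (hAv' : ∀ f : (Pair n → ℝ) → ℝ, EG f → ∀ R w,
      Av (lf R) (fun w => f (P' w)) w = AvP s' R f (P' w))
    (hs : 0 < s) (hs1 : s ≤ 1) (hs' : 0 < s') (hs1' : s' ≤ 1) {N cQ : ℝ} (hN : 1 ≤ N)
    (hmo : En q S.F (fun w => fr (S.A s (P w)) ^ 2) ≤ 2 * N ^ 2)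
    (hQ : En q S.F (fun w => Q4 S s' (P' w) ^ 2) ≤ cQ * N ^ 4)
    {cI : ℝ} (hcI : 0 ≤ cI)
    {b b' : Fin n} (hI : ∀ z, vH S s' b b' z ≤ cI * s' ^ 2 * kk n β ^ 4 *
      AvP s' (row b ∪ row b') (fun z => Q4 S s' z) z) :
    En q S.F (fun w => ee S s b b' (P w) * (s' * kk n β ^ 2 * vH S s' b b' (P' w))) ≤
      (3 + cQ) * cI * kk n β ^ 8 * N ^ 3 := by
  have hc := S.c11
  have hk := S.k0
  have hn0 : (0 : ℝ) < n := by linarith
  have hN0 : 0 < N := by linarith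
  have efr : EG fun z => fr (S.A s z) :=
    EG.sum _ fun i _ => EG.sum _ fun j _ => (S.eg_A s i j).pow 2
  have h1 := nl_En2 (q := q) (F := S.F) hc hx hL b b' (f := fun w => fr (S.A s (P w)))
    (g := fun w => Q4 S s' (P' w)) (u := fun w => ee S s b b' (P w))
    (v := fun w => s' * kk n β ^ 2 * vH S s' b b' (P' w)) (hP _ efr) (hP' _ eg_Q4)
    (hP _ (eg_ee b b')) ((hP' _ (eg_vH hs' b b')).const_mul _) (F1 := (n : ℝ) ^ 2)
    (G1 := (n : ℝ) ^ 4) (N := N) (c0 := kk n β ^ 2) (c1 := cI * kk n β ^ 6) hN0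
    (by positivity) (by positivity) (fun w => fr_nonneg _)
    (fun w => S.fr_A_le s (P w)) (fun w => Q4_nonneg _) (fun w => Q4_le_pow _)
    (fun w => by
      rw [hAv _ efr]
      refine (ee_le hs b b' (P w)).trans ?_
      have h2 : 0 ≤ AvP s (row b ∪ row b') (fun z => fr (S.A s z)) (P w) :=
        AvP_nonneg (fun _ => fr_nonneg _) _
      refine mul_le_mul_of_nonneg_right ?_ h2
      have := mul_le_mul_of_nonneg_right hs1 (sq_nonneg (kk n β))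
      linarith)
    (fun w => by
      have := vH_nonneg (S := S) (s := s') b b' (P' w)
      positivity)
    (fun w => by
      rw [hAv' _ eg_Q4]
      have h2 : 0 ≤ AvP s' (row b ∪ row b') (fun z => Q4 S s' z) (P' w) :=
        AvP_nonneg (fun _ => Q4_nonneg _) _
      have h3 := mul_le_mul_of_nonneg_left (hI (P' w)) (by positivity : 0 ≤ s' * kk n β ^ 2)
      refine h3.trans ?_
      have h4 : s' ^ 3 ≤ 1 := pow_le_one₀ hs'.le hs1'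
      have h5 : 0 ≤ cI * kk n β ^ 6 *
        AvP s' (row b ∪ row b') (fun z => Q4 S s' z) (P' w) := by positivity
      have := mul_le_mul_of_nonneg_right h4 h5
      calc s' * kk n β ^ 2 * (cI * s' ^ 2 * kk n β ^ 4 *
          AvP s' (row b ∪ row b') (fun z => Q4 S s' z) (P' w)) =
          s' ^ 3 * (cI * kk n β ^ 6 * AvP s' (row b ∪ row b') (fun z => Q4 S s' z) (P' w)) := by
            ring
        _ ≤ 1 * (cI * kk n β ^ 6 * AvP s' (row b ∪ row b') (fun z => Q4 S s' z) (P' w)) := this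
        _ = _ := by ring)
  refine h1.trans ?_
  have hn200 : (0 : ℝ) < (n : ℝ) ^ 200 := by positivity
  have e1 : ((n : ℝ) ^ 200)⁻¹ * ((n : ℝ) ^ 2) ^ 2 ≤ 1 := by
    rw [inv_mul_le_iff₀ hn200, mul_one, ← pow_mul]
    exact pow_le_pow_right₀ (by linarith) (by norm_num)
  have e2 : ((n : ℝ) ^ 200)⁻¹ * ((n : ℝ) ^ 4) ^ 2 ≤ 1 := by
    rw [inv_mul_le_iff₀ hn200, mul_one, ← pow_mul]
    exact pow_le_pow_right₀ (by linarith) (by norm_num)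
  have hk8 : 0 ≤ cI * kk n β ^ 8 := by positivity
  have hN3 : N ≤ N ^ 3 := le_self_pow₀ hN (by norm_num)
  have hNi : N⁻¹ ≤ 1 := inv_le_one_of_one_le₀ hN
  have h13 : 1 ≤ N ^ 3 := one_le_pow₀ hN
  have a1 : N * (2 * En q S.F (fun w => fr (S.A s (P w)) ^ 2) +
      ((n : ℝ) ^ 200)⁻¹ * ((n : ℝ) ^ 2) ^ 2) ≤ N * (2 * (2 * N ^ 2) + 1) :=
    mul_le_mul_of_nonneg_left (by linarith) hN0.le
  have a2 : N⁻¹ * (2 * En q S.F (fun w => Q4 S s' (P' w) ^ 2) +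
      ((n : ℝ) ^ 200)⁻¹ * ((n : ℝ) ^ 4) ^ 2) ≤ N⁻¹ * (2 * (cQ * N ^ 4) + 1) :=
    mul_le_mul_of_nonneg_left (by linarith) (by positivity)
  have a3 : N⁻¹ * (2 * (cQ * N ^ 4) + 1) = 2 * cQ * N ^ 3 + N⁻¹ := by
    field_simp
  calc kk n β ^ 2 * (cI * kk n β ^ 6) * ((N * (2 * En q S.F (fun w => fr (S.A s (P w)) ^ 2) +
        ((n : ℝ) ^ 200)⁻¹ * ((n : ℝ) ^ 2) ^ 2) + N⁻¹ * (2 * En q S.F (fun w =>
        Q4 S s' (P' w) ^ 2) + ((n : ℝ) ^ 200)⁻¹ * ((n : ℝ) ^ 4) ^ 2)) / 2)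
      = cI * kk n β ^ 8 * ((N * (2 * En q S.F (fun w => fr (S.A s (P w)) ^ 2) +
        ((n : ℝ) ^ 200)⁻¹ * ((n : ℝ) ^ 2) ^ 2) + N⁻¹ * (2 * En q S.F (fun w =>
        Q4 S s' (P' w) ^ 2) + ((n : ℝ) ^ 200)⁻¹ * ((n : ℝ) ^ 4) ^ 2)) / 2) := by ring
    _ ≤ cI * kk n β ^ 8 * ((3 + cQ) * N ^ 3) := by
        refine mul_le_mul_of_nonneg_left ?_ hk8
        rw [a3] at a2
        have a4 : N * (2 * (2 * N ^ 2) + 1) = 4 * N ^ 3 + N := by ring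
        rw [a4] at a1
        linarith
    _ = _ := by ring

end one

section sum

variable {n : ℕ} {β ρ A : ℝ} {q : Par} {S : CS n (kk n β) q.x}

/-- **The sum over the pairs of sites.** -/
theorem nl_sum2 (hn : 2 ≤ n) (hq : q.Ok) (hL : Law2 n ((n : ℝ) ^ 200)⁻¹ q S.F)
    (hs1 : 0 < q.s1) {N cQ : ℝ} (hN : 1 ≤ N)
    (m2 : En q S.F (fun w => fr (S.A q.s1 (P2 q w)) ^ 2) ≤ 2 * N ^ 2)
    (m3 : En q S.F (fun w => fr (S.A q.s2 (P3 q w)) ^ 2) ≤ 2 * N ^ 2)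
    (q2 : En q S.F (fun w => Q4 S q.s1 (P2 q w) ^ 2) ≤ cQ * N ^ 4)
    (q3 : En q S.F (fun w => Q4 S q.s2 (P3 q w) ^ 2) ≤ cQ * N ^ 4) (hcQ : 0 ≤ cQ)
    {cI : ℝ} (hcI : 0 ≤ cI)
    (hI : ∀ s, 0 < s → s ≤ 1 → ∀ b b' : Fin n, b' ≠ b → ∀ z, vH S s b b' z ≤
      cI * s ^ 2 * kk n β ^ 4 * AvP s (row b ∪ row b') (fun z => Q4 S s z) z) :
    ∑ b : Fin n, ∑ b' ∈ Finset.univ.erase b, En q S.F (fun w =>
      ee S q.s1 b b' (P2 q w) * (q.s2 * kk n β ^ 2 * vH S q.s2 b b' (P3 q w)) +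
      ee S q.s2 b b' (P3 q w) * (q.s1 * kk n β ^ 2 * vH S q.s1 b b' (P2 q w))) ≤
      2 * (3 + cQ) * cI * β ^ 8 * (N ^ 3 / (n : ℝ) ^ 2) := by
  have hc := S.c11
  have hx := hq.x0
  have hs2 : 0 < q.s2 := lt_of_lt_of_le hs1 hq.h12
  have hs11 : q.s1 ≤ 1 := hq.h12.trans hq.h2
  have hk := S.k0
  have hn2 : (2 : ℝ) ≤ n := by exact_mod_cast hn
  have key : ∀ b : Fin n, ∀ b' ∈ Finset.univ.erase b, En q S.F (fun w =>
      ee S q.s1 b b' (P2 q w) * (q.s2 * kk n β ^ 2 * vH S q.s2 b b' (P3 q w)) +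
      ee S q.s2 b b' (P3 q w) * (q.s1 * kk n β ^ 2 * vH S q.s1 b b' (P2 q w))) ≤
      2 * ((3 + cQ) * cI * kk n β ^ 8 * N ^ 3) := by
    intro b b' hb
    have hb' := Finset.ne_of_mem_erase hb
    have a1 := nl_one2 hx hn2 hL (P := P2 q) (P' := P3 q) (s := q.s1) (s' := q.s2)
      (fun f hf => eg_P2 hf) (fun f hf => eg_P3 hf) (fun f hf R w => Av_lf_P2 hq hf R w)
      (fun f hf R w => Av_lf_P3 hq hf R w) hs1 hs11 hs2 hq.h2 hN m2 q3 hcI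
      (hI q.s2 hs2 hq.h2 b b' hb')
    have a2 := nl_one2 hx hn2 hL (P := P3 q) (P' := P2 q) (s := q.s2) (s' := q.s1)
      (fun f hf => eg_P3 hf) (fun f hf => eg_P2 hf) (fun f hf R w => Av_lf_P3 hq hf R w)
      (fun f hf R w => Av_lf_P2 hq hf R w) hs2 hq.h2 hs1 hs11 hN m3 q2 hcI
      (hI q.s1 hs1 hs11 b b' hb')
    rw [En_add hc hx ((eg_P2 (eg_ee b b')).mul ((eg_P3 (eg_vH hs2 b b')).const_mul _))
      ((eg_P3 (eg_ee b b')).mul ((eg_P2 (eg_vH hs1 b b')).const_mul _))]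
    linarith
  have hX : 0 ≤ 2 * ((3 + cQ) * cI * kk n β ^ 8 * N ^ 3) := by
    have : 0 ≤ N := by linarith
    positivity
  have h1 : ∀ b : Fin n, ∑ b' ∈ Finset.univ.erase b, En q S.F (fun w =>
      ee S q.s1 b b' (P2 q w) * (q.s2 * kk n β ^ 2 * vH S q.s2 b b' (P3 q w)) +
      ee S q.s2 b b' (P3 q w) * (q.s1 * kk n β ^ 2 * vH S q.s1 b b' (P2 q w))) ≤
      n * (2 * ((3 + cQ) * cI * kk n β ^ 8 * N ^ 3)) := by
    intro b
    refine (Finset.sum_le_sum (key b)).trans ?_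
    rw [Finset.sum_const, nsmul_eq_mul]
    refine mul_le_mul_of_nonneg_right ?_ hX
    have h2 := Finset.card_le_univ (Finset.univ.erase b)
    rw [Fintype.card_fin] at h2
    exact_mod_cast h2
  refine (Finset.sum_le_sum fun b _ => h1 b).trans (le_of_eq ?_)
  rw [Finset.sum_const, Finset.card_univ, Fintype.card_fin, nsmul_eq_mul]
  have hkk := kk_sq (by omega : 0 < n) β
  have e8 : kk n β ^ 8 = β ^ 8 / (n : ℝ) ^ 4 := by
    rw [eq_div_iff (by positivity), show kk n β ^ 8 * (n : ℝ) ^ 4 = (kk n β ^ 2 * n) ^ 4 by ring,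
      hkk]
    ring
  rw [e8]
  field_simp

end sum

end Vale.Agent.P146.U.R1S
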