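import Vale.Agent.P146.H640.LamSk
import Vale.Agent.P146.U.H640_LamO
import Vale.Agent.P146.U.H632_LamE
import Vale.Agent.P146.U.H332_CRowS
import Vale.Agent.P146.U.H504_Cum6
import Vale.Agent.P146.U.NS

/-!
Plan R1, the row (LAM): the inequality on a fixed bulk and the variance of the row gradients.
-/

open MeasureTheory ProbabilityTheory

namespace Vale.Agent.P146.U.R1S

open Vale.Agent.P146.R1S hiding A1 A2 CS Ca Cd ClS Dg Fo_s1 Gb Gb_eq LamS MM MM_row NN_one Nd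
  Nd_eq Nd_ind Nd_row PrS Q4 Q4_En Q4_le Q4_le_pow Q4_nonneg Sa Sa_eq Sa_ind Sa_row Sd Sd_eq
  Sd_ind Sd_row Xb_eq Yb_eq a1 a1_eq a2 a2_eq abs_cl blk_a blk_d cl cl0 cl_act cl_cs cl_odd
  cl_other cl_self clz_S ee ee_eer ee_le ee_nonneg ee_row eg_A1 eg_A2 eg_Ca eg_Cd eg_Gb eg_Nd
  eg_Q4 eg_Sa eg_Sd eg_Yd eg_cl eg_cl0 eg_ee eg_frNd eg_nlb eg_vH ind_Ca ind_Cd ind_Gb ind_Yd
  ind_cl ind_cl2 ind_cl3 ind_frNd lam_fix lam_out_S nl_En nl_one nl_sum nlb nlb_fix rowIn_S skCS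
  skCS_A skCS_D skCS_DA skCS_F skCS_H skCS_T4 sm_skCS tA_T tA_abs tA_comm tA_cont tA_eg tA_self
  two_cs vH vH_hvr vH_le vH_nonneg

open Vale.Agent.P157.Lv Vale.Agent.P146.H425 Vale.Agent.P146.H325 Matrix
open Vale.Agent.P146.H712 hiding eg_P0 eg_P1 eg_P2 eg_P3 k0 k1 k2 k3 pd_P0 pd_P1 pd_P2 pd_P3
  sum_k0 sum_k1 sum_k2 sum_k3
open Vale.Agent.P146.R1 hiding Et Et4 Et4_123 Et4_124 Et4_add Et4_const Et4_const_mul Et4_cs
  Et4_mono Et4_nonneg Et4_sub Et_add Et_const Et_const_mul Et_cs Et_fst_eq Et_jensen Et_mono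
  Et_nonneg Et_sub Et_weight Et_zero Eu Eu4 Eu4_123 Eu4_124 Eu4_add Eu4_cond Eu4_const_mul
  Eu4_iter Eu4_mono Eu4_nonneg Eu4_one_eq Eu4_one_eq' Eu4_one_pos Eu4_weight Eu_add Eu_const_mul
  Eu_fst Eu_fst_eq Eu_iter Eu_mono Eu_nonneg Eu_one Eu_one_eq Eu_one_pos Eu_weight Eu_zero
  Eu_zero_one Lth Lth_zero Qt dn dn_pos e3_dn eg_Eu eg_Eu4
open Vale.Agent.P146.R1C hiding A1 A2 Av_aa Av_ad Av_dd Av_lf_P0 Av_lf_P1 Av_lf_P2 Av_lf_P23
  Av_lf_P23_row Av_lf_P3 Ca Cd ClSk Dg En En_add En_const En_const_mul En_eq En_mono En_nonneg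
  En_pow_le En_rare En_sum Ew Ew1_pos Ew_add Ew_const_mul Ew_eq Ew_mono Ew_nonneg Ew_one_pos Fo
  FoSk Gb H4 H8 LamSk Law2 Low Nb Nd Nd_ind Nd_row NumH P0 P0_lp P0_sw P1 P1_lp P1_sw P2 P2_lp
  P2_sw P3 P3_lp P3_sw Par PrSk Rare Sa Sa_ind Sa_row Sd Sd_ind Sd_row Zk a1 a1_eq a2 a2_eq cl_sk
  den_pos dens dens_eq eC eg_A1 eg_A2 eg_Gb eg_Nd eg_Sa eg_Sd eg_Yd eg_den eg_dens eg_frNd eg_psi'
  ind_Gb ind_Yd ind_frNd int_Av_dens int_Av_one int_ph k0_sum k1_sum kk_NN lamSk_num lam_fix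
  lam_gen_num lam_gen_sk lam_le lam_sk lam_sk_out law2_of law_low law_low_sk law_up law_up_sk
  lf_psi lip_psi low_int lsk numH_of pd_psi ph psi psi' psi_four_le psi_four_sk psi_sq_le
open Vale.Agent.P146.H632 hiding lam_row
open Vale.Agent.P146.U.H712 Vale.Agent.P146.U.R1 Vale.Agent.P146.U.R1C Vale.Agent.P146.U.H632

open Vale.Agent.P146.H332 hiding Gf NN Nf fr_nonneg

set_option linter.unusedSectionVars false

variable {n : ℕ} {k x s : ℝ} {S : CS n k x} {q : Par}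

lemma vH_hvr (hs : 0 < s) (b b' : Fin n) (z : Pair n → ℝ) :
    vH S s b b' z = hvr (S.H s) s b b' z := by
  have e : ∀ i j, EG fun u => (AvP s (row b') (fun u => S.H s b u i j) u -
      AvP s (row b ∪ row b') (fun u => S.H s b u i j) u) ^ 2 := fun i j =>
    ((eg_AvP (S.eg_H hs b i j) s _).sub (eg_AvP (S.eg_H hs b i j) s _)).pow 2
  unfold vH hvr
  rw [R1C.AvP_sum (R := row b ∪ row b') (s := s) Finset.univ
    (f := fun i u => ∑ j, (AvP s (row b') (fun u => S.H s b u i j) u -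
      AvP s (row b ∪ row b') (fun u => S.H s b u i j) u) ^ 2)
    (fun i _ => EG.sum _ fun j _ => e i j)]
  refine Finset.sum_congr rfl fun i _ => ?_
  exact R1C.AvP_sum (R := row b ∪ row b') (s := s) Finset.univ (fun j _ => e i j) z

/-- the inequality on a fixed bulk -/
theorem nlb_fix (S : CS n k x) (hq : q.Ok) (hs : 0 < q.s1) (b b' : Fin n) (hb : b' ≠ b)
    (w : K4 (Pair n) → ℝ) : (q.s2 - q.s1) / (2 * q.s1) * fr (Nd S q b b' w) ≤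
      Gb S q b b' w + 2 * (q.s2 / q.s1) * nlb S q b b' w := by
  have hs2 : 0 < q.s2 := lt_of_lt_of_le hs hq.h12
  have h := lam_fix (S := S) hq hs (rowIn_S S hs) (rowIn_S S hs2) (Ne.symm hb) w
  rw [← vH_hvr hs, ← vH_hvr hs2] at h
  unfold nlb
  linarith

/-- the variance of the row gradients -/
lemma vH_le {Γ : ℝ} (hFn : Cum.Fn k SkS (uu x s S.F) (S.mu s) Γ) (hs : 0 < s) (b b' : Fin n)
    (z : Pair n → ℝ) : vH S s b b' z ≤ 36 * Γ ^ 6 * s ^ 2 * k ^ 4 *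
      AvP s (row b ∪ row b') (fun z => Q4 S s z) z :=
  Cum.i1 hFn hs (row b') b z

end Vale.Agent.P146.U.R1S
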