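import Mathlib

/-!
Bulk transfer: the numbers of the constants version.
-/

namespace Vale.Agent.P146.U.BtG

/-- the law errors -/
lemma bt_err {n A N s L : ℝ} (hn : 2 ≤ n) (hA : A ≤ n ^ 2) (hN0 : 0 ≤ N)
    (hN : N ≤ n ^ 2) (hs : 0 ≤ s) (hs1 : s ≤ 1) (hL : 1 ≤ L) (hLn : L ≤ n ^ 2) :
    (n ^ 200)⁻¹ * n ^ 2 * (4 * n ^ 4 + 2 * (A * N) * s * n ^ 20 + (2 + 3 * L) * (n ^ 2) ^ 2 +
      3 * (1 / L) * (n ^ 2) ^ 2) ≤ 1 := by
  have hn1 : 1 ≤ n := by linarith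
  have c1 : 2 * (A * N) * s * n ^ 20 ≤ 2 * n ^ 24 := by
    have d1 : A * N ≤ n ^ 2 * n ^ 2 := mul_le_mul hA hN hN0 (by positivity)
    have d2 : A * N * s ≤ n ^ 2 * n ^ 2 * 1 := mul_le_mul d1 hs1 hs (by positivity)
    have d3 := mul_le_mul_of_nonneg_right d2 (by positivity : 0 ≤ 2 * n ^ 20)
    have d4 : n ^ 2 * n ^ 2 * 1 * (2 * n ^ 20) = 2 * n ^ 24 := by ring
    have d5 : A * N * s * (2 * n ^ 20) = 2 * (A * N) * s * n ^ 20 := by ring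
    linarith
  have c2 : n ^ 4 ≤ n ^ 24 := pow_le_pow_right₀ hn1 (by norm_num)
  have c2' : n ^ 6 ≤ n ^ 24 := pow_le_pow_right₀ hn1 (by norm_num)
  have c3 : (32 : ℝ) ≤ n ^ 5 := by
    calc (32 : ℝ) = 2 ^ 5 := by norm_num
      _ ≤ _ := pow_le_pow_left₀ (by norm_num) hn 5
  have c4 : n ^ 31 ≤ n ^ 200 := pow_le_pow_right₀ hn1 (by norm_num)
  have c7 : (n ^ 2) ^ 2 = n ^ 4 := by ring
  have c8 : L * n ^ 4 ≤ n ^ 6 := by
    have := mul_le_mul_of_nonneg_right hLn (by positivity : 0 ≤ n ^ 4)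
    have e : n ^ 2 * n ^ 4 = n ^ 6 := by ring
    linarith
  have c9 : 1 / L * n ^ 4 ≤ n ^ 4 := by
    have h1 : 1 / L ≤ 1 := by rw [div_le_one (by linarith)]; exact hL
    have := mul_le_mul_of_nonneg_right h1 (by positivity : 0 ≤ n ^ 4)
    linarith
  have c5 : 4 * n ^ 4 + 2 * (A * N) * s * n ^ 20 + (2 + 3 * L) * (n ^ 2) ^ 2 +
      3 * (1 / L) * (n ^ 2) ^ 2 ≤ 14 * n ^ 24 := by
    rw [c7]
    nlinarith
  have d1 : (32 : ℝ) * n ^ 26 ≤ n ^ 5 * n ^ 26 := mul_le_mul_of_nonneg_right c3 (by positivity)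
  have d2 : n ^ 5 * n ^ 26 = n ^ 31 := by ring
  have d3 : n ^ 2 * (14 * n ^ 24) = 14 * n ^ 26 := by ring
  have d4 : (0 : ℝ) ≤ n ^ 26 := by positivity
  have c6 := mul_le_mul_of_nonneg_left c5 (by positivity : 0 ≤ n ^ 2)
  rw [mul_assoc, inv_mul_le_iff₀ (by positivity)]
  linarith

/-- **the numbers of (BT3)** -/
lemma bt_main {n A N L T s X1 X2 X3 X4 : ℝ} (hn : 2 ≤ n) (hA : 1 ≤ A) (hAn : A ≤ n ^ 2)
    (hN1 : 1 ≤ N) (hN : N ≤ n ^ 2) (hL : 1 ≤ L) (hLn : L ≤ n ^ 2) (hT : 0 < T) (hs : 0 ≤ s)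
    (hs1 : s ≤ 1) (h1 : X1 ≤ N ^ 2 * A / L) (h20 : 0 ≤ X2) (h2 : X2 ≤ A * N / T)
    (h3 : X3 ≤ 3 / 2 * (A * N) ^ 2 / L ^ 2) (h4 : X4 ≤ 2 * (A * N) ^ 2) :
    2 * n ^ 2 * X1 + 16 * n * (A * N) * s * X2 +
        2 * n ^ 2 * ((2 + 3 / (1 / L)) * X3 + 3 * (1 / L) * X4) +
        (n ^ 200)⁻¹ * n ^ 2 * (4 * n ^ 4 + 2 * (A * N) * s * n ^ 20 +
          (2 + 3 / (1 / L)) * (n ^ 2) ^ 2 + 3 * (1 / L) * (n ^ 2) ^ 2) ≤
      n ^ 2 * N ^ 2 * (30 * A ^ 2 * (1 / L + 1 / (n * T))) := by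
  have hn0 : 0 < n := by linarith
  have hL0 : 0 < L := by linarith
  have hA0 : 0 < A := by linarith
  have hN0 : 0 < N := by linarith
  have e1 : 3 / (1 / L) = 3 * L := by field_simp
  rw [e1]
  have a0 := bt_err hn hAn hN0.le hN hs hs1 hL hLn
  set W := n ^ 2 * N ^ 2 * A ^ 2 * (1 / L) with hW
  have hW0 : 0 ≤ W := by positivity
  have hW1 : 1 ≤ W := by
    have b1 : 1 ≤ n ^ 2 * (1 / L) := by
      rw [mul_one_div, le_div_iff₀ hL0, one_mul]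
      exact hLn
    have b2 : 1 ≤ N ^ 2 * A ^ 2 :=
      one_le_mul_of_one_le_of_one_le (one_le_pow₀ hN1) (one_le_pow₀ hA)
    calc (1 : ℝ) ≤ (n ^ 2 * (1 / L)) * (N ^ 2 * A ^ 2) := one_le_mul_of_one_le_of_one_le b1 b2
      _ = W := by rw [hW]; ring
  have t1 : 2 * n ^ 2 * X1 ≤ 2 * W := by
    have b1 : N ^ 2 * A / L ≤ N ^ 2 * A ^ 2 * (1 / L) := by
      rw [div_eq_mul_one_div]
      refine mul_le_mul_of_nonneg_right (mul_le_mul_of_nonneg_left ?_ (by positivity))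
        (by positivity)
      nlinarith
    calc 2 * n ^ 2 * X1 ≤ 2 * n ^ 2 * (N ^ 2 * A ^ 2 * (1 / L)) :=
          mul_le_mul_of_nonneg_left (h1.trans b1) (by positivity)
      _ = 2 * W := by rw [hW]; ring
  have t2 : 16 * n * (A * N) * s * X2 ≤ 16 * (n ^ 2 * N ^ 2 * A ^ 2 * (1 / (n * T))) := by
    calc 16 * n * (A * N) * s * X2 ≤ 16 * n * (A * N) * 1 * (A * N / T) := by
          refine mul_le_mul (mul_le_mul_of_nonneg_left hs1 (by positivity)) h2 h20 (by positivity)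
      _ = _ := by field_simp
  have t3 : 2 * n ^ 2 * ((2 + 3 * L) * X3 + 3 * (1 / L) * X4) ≤ 27 * W := by
    have b1 : (2 + 3 * L) * X3 ≤ 5 * L * (3 / 2 * (A * N) ^ 2 / L ^ 2) := by
      calc (2 + 3 * L) * X3 ≤ (2 + 3 * L) * (3 / 2 * (A * N) ^ 2 / L ^ 2) :=
            mul_le_mul_of_nonneg_left h3 (by positivity)
        _ ≤ _ := mul_le_mul_of_nonneg_right (by linarith) (by positivity)
    have b2 : 5 * L * (3 / 2 * (A * N) ^ 2 / L ^ 2) = 15 / 2 * ((A * N) ^ 2 * (1 / L)) := by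
      field_simp
      ring
    have b3 : 3 * (1 / L) * X4 ≤ 6 * ((A * N) ^ 2 * (1 / L)) := by
      calc 3 * (1 / L) * X4 ≤ 3 * (1 / L) * (2 * (A * N) ^ 2) :=
            mul_le_mul_of_nonneg_left h4 (by positivity)
        _ = _ := by ring
    have b4 : (2 + 3 * L) * X3 + 3 * (1 / L) * X4 ≤ 27 / 2 * ((A * N) ^ 2 * (1 / L)) := by
      linarith
    calc 2 * n ^ 2 * ((2 + 3 * L) * X3 + 3 * (1 / L) * X4) ≤
          2 * n ^ 2 * (27 / 2 * ((A * N) ^ 2 * (1 / L))) :=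
          mul_le_mul_of_nonneg_left b4 (by positivity)
      _ = 27 * W := by rw [hW]; ring
  have e2 : n ^ 2 * N ^ 2 * (30 * A ^ 2 * (1 / L + 1 / (n * T))) =
      30 * W + 30 * (n ^ 2 * N ^ 2 * A ^ 2 * (1 / (n * T))) := by
    rw [hW]; ring
  have hz : 0 ≤ n ^ 2 * N ^ 2 * A ^ 2 * (1 / (n * T)) := by positivity
  rw [e2]
  linarith

end Vale.Agent.P146.U.BtG
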