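import Vale.Agent.P146.H712.BtSum

/-!
Bulk transfer, the pointwise bound of the smallness functional `Th` with moments instead of sup
bounds on the event that the matrix is large.
-/

open MeasureTheory ProbabilityTheory Matrix

namespace Vale.Agent.P146.U.BtG

open Vale.Agent.P157.Lv Vale.Agent.P146.H332 Vale.Agent.P146.R1C Vale.Agent.P146.H712
  Vale.Agent.P146.H633

set_option linter.unusedSectionVars false

variable {κ ι : Type} [Fintype κ] [DecidableEq κ] [Fintype ι] {s : ℝ} {R : Finset κ}
  {C : (κ → ℝ) → Matrix ι ι ℝ} {K : (κ → ℝ) → ℝ}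

lemma AvP_mul_ind (F G : (κ → ℝ) → ℝ) (z : κ → ℝ) :
    AvP s R (fun z => AvP s R F z * G z) z = AvP s R F z * AvP s R G z := by
  have h1 : AvP s R (fun z => AvP s R F z * G z) z =
      ∫ g, AvP s R F z * G (H712.sw R z (√s • g)) ∂(gI κ) := by
    unfold AvP
    refine integral_congr_ae (Filter.Eventually.of_forall fun g => ?_)
    have := AvP_sw (s := s) (R := R) F z (√s • g)
    unfold AvP at this
    simp only [this]
  rw [h1, integral_const_mul]
  rfl

/-- the pointwise bound of `Dlt` by the sizes -/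
lemma Dlt_le2 (hC : ∀ i j, EG fun z => C z i j) (z : κ → ℝ) :
    Dlt s R C z ≤ 2 * fr (C z) + 2 * AvP s R (fun z => fr (C z)) z := by
  have h1 := fr_CB_le (s := s) (R := R) hC z
  have h3 := fr_sub_le (C z) (CB s R C z)
  unfold Dlt
  linarith

/-- the square of the size, on the event that it is large -/
noncomputable def fx (B : ℝ) (C : (κ → ℝ) → Matrix ι ι ℝ) (z : κ → ℝ) : ℝ :=
  fr (C z) ^ 2 * chi B C z

lemma fx_nonneg (B : ℝ) (z : κ → ℝ) : 0 ≤ fx B C z :=
  mul_nonneg (sq_nonneg _) (chi_nonneg B z)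

lemma eg_fx (hC : ∀ i j, EG fun z => C z i j) (B : ℝ) : EG (fx B C) :=
  ((eg_frC hC).pow 2).mul (eg_chi hC B)

lemma fx_le_sq (B : ℝ) (z : κ → ℝ) : fx B C z ≤ fr (C z) ^ 2 :=
  mul_le_of_le_one_right (sq_nonneg _) (chi_le B z)

lemma chi_sq (B : ℝ) (z : κ → ℝ) : chi B C z ^ 2 = chi B C z := by
  unfold chi; split_ifs <;> norm_num

/-- **(BT3a)**, moment form -/
theorem bt3m {B lam : ℝ} (hB : 0 ≤ B) (hl : 0 < lam) (hC : ∀ i j, EG fun z => C z i j)
    (z : κ → ℝ) :
    Th s R C K z ≤ AvP s R K z + 2 * B * AvP s R (Dlt s R C) z +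
      ((2 + 3 / lam) * AvP s R (fx B C) z + 3 * lam * AvP s R (fun z => fr (C z) ^ 2) z) := by
  have hf := eg_frC hC
  have hD := eg_Dlt hC s R
  have hx := eg_chi hC B
  have hfx := hf.mul hx
  set a := AvP s R (fun z => fr (C z)) z with ha
  set c := AvP s R (fun z => fr (C z) * chi B C z) z with hc
  set d := AvP s R (Dlt s R C) z with hd
  set X := AvP s R (fx B C) z with hX
  set Y := AvP s R (fun z => fr (C z) ^ 2) z with hY
  have ha0 : 0 ≤ a := AvP_nonneg (fun z => frn _) z
  have hc0 : 0 ≤ c := AvP_nonneg (fun z => mul_nonneg (frn _) (chi_nonneg B z)) z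
  have hd0 : 0 ≤ d := AvP_nonneg (fun z => Dlt_nonneg z) z
  have haY : a ^ 2 ≤ Y := AvP_sq_le hf z
  have hcX : c ^ 2 ≤ X := by
    refine (AvP_sq_le hfx z).trans (le_of_eq (AvP_congr (fun z => ?_) z))
    rw [mul_pow, chi_sq]
    rfl
  have h0 : ∀ z, fr (C z) ≤ B + fr (C z) * chi B C z := by
    intro z
    unfold chi
    split_ifs with h
    · rw [mul_one]
      linarith
    · rw [mul_zero, add_zero]
      exact not_lt.1 h
  have h1 : a ≤ B + c := by
    have := AvP_mono (s := s) (R := R) hf ((EG.const B).add hfx) h0 z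
    rwa [AvP_add (EG.const B) hfx, AvP_const] at this
  have hd4 : d ≤ 4 * a := by
    have ea := eg_AvP hf s R
    have := AvP_mono (s := s) (R := R) hD ((hf.const_mul 2).add (ea.const_mul 2))
      (fun z => Dlt_le2 hC z) z
    rw [AvP_add (hf.const_mul 2) (ea.const_mul 2), AvP_const_mul, AvP_const_mul] at this
    have e1 : AvP s R (fun z => AvP s R (fun z => fr (C z)) z) z = a := by
      have := AvP_mul_ind (s := s) (R := R) (fun z => fr (C z)) (fun _ => 1) z
      simp only [mul_one] at this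
      rw [this, AvP_const, mul_one]
    rw [e1] at this
    linarith
  have h2 : AvP s R (fun z => Dlt s R C z * fr (C z)) z ≤ B * d + (2 * X + 2 * (a * c)) := by
    have ea := eg_AvP hf s R
    have g1 : EG fun z => AvP s R (fun z => fr (C z)) z * (fr (C z) * chi B C z) := ea.mul hfx
    have := AvP_mono (s := s) (R := R) (hD.mul hf) ((hD.const_mul B).add
      (((eg_fx hC B).const_mul 2).add (g1.const_mul 2))) (fun z => by
        have a1 := h0 z
        have a2 := Dlt_nonneg (s := s) (R := R) (C := C) z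
        have a3 := Dlt_le2 (s := s) (R := R) hC z
        have a4 := mul_nonneg (frn (C z)) (chi_nonneg (C := C) B z)
        have a5 := mul_le_mul_of_nonneg_left a1 a2
        have a6 := mul_le_mul_of_nonneg_right a3 a4
        have e : fx B C z = fr (C z) * (fr (C z) * chi B C z) := by
          unfold fx
          ring
        rw [e]
        linarith) z
    rwa [AvP_add (hD.const_mul B) (((eg_fx hC B).const_mul 2).add (g1.const_mul 2)),
      AvP_add ((eg_fx hC B).const_mul 2) (g1.const_mul 2), AvP_const_mul, AvP_const_mul,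
      AvP_const_mul, AvP_mul_ind] at this
  have h3 : a * d ≤ B * d + 4 * (a * c) := by
    have b1 := mul_le_mul_of_nonneg_right h1 hd0
    have b2 := mul_le_mul_of_nonneg_left hd4 hc0
    nlinarith
  have h4 : 2 * (a * c) ≤ lam * a ^ 2 + c ^ 2 / lam := by
    have e1 : lam * a ^ 2 + c ^ 2 / lam - 2 * (a * c) = (lam * a - c) ^ 2 / lam := by
      field_simp
      ring
    have e2 : 0 ≤ (lam * a - c) ^ 2 / lam := by positivity
    linarith
  have h5 : lam * a ^ 2 + c ^ 2 / lam ≤ lam * Y + X / lam :=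
    add_le_add (mul_le_mul_of_nonneg_left haY hl.le) (div_le_div_of_nonneg_right hcX hl.le)
  have e3 : (2 + 3 / lam) * X = 2 * X + 3 * (X / lam) := by ring
  unfold Th
  rw [← ha, ← hd, e3]
  nlinarith

end Vale.Agent.P146.U.BtG
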