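import Vale.Agent.P146.H712.EnCalc
import Vale.Agent.P146.U.H706_LawK
import Vale.Agent.P146.U.H826_LawP
import Vale.Agent.P146.U.H325_Fo
import Vale.Agent.P146.U.NS

/-!
Calculus of the mean `En q F` of functions of the coordinates `K4 κ` (the basic rules are in
`H325.Fo`), and the form of the law change which is used for sums over pairs of rows.
-/

open MeasureTheory ProbabilityTheory

namespace Vale.Agent.P146.U.H712

open Vale.Agent.P146.H712 hiding En_sub En_sum LLow LUp eg_P0 eg_P1 eg_P2 eg_P3 int_dens k0 k1 k2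
  k3 llow lup pd_P0 pd_P1 pd_P2 pd_P3 sum_k0 sum_k1 sum_k2 sum_k3

open Vale.Agent.P157.Lv Vale.Agent.P146.H425
open Vale.Agent.P146.R1 hiding Et Et4 Et4_123 Et4_124 Et4_add Et4_const Et4_const_mul Et4_cs
  Et4_mono Et4_nonneg Et4_sub Et_add Et_const Et_const_mul Et_cs Et_fst_eq Et_jensen Et_mono
  Et_nonneg Et_sub Et_weight Et_zero Eu Eu4 Eu4_123 Eu4_124 Eu4_add Eu4_cond Eu4_const_mul
  Eu4_iter Eu4_mono Eu4_nonneg Eu4_one_eq Eu4_one_eq' Eu4_one_pos Eu4_weight Eu_add Eu_const_mul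
  Eu_fst Eu_fst_eq Eu_iter Eu_mono Eu_nonneg Eu_one Eu_one_eq Eu_one_pos Eu_weight Eu_zero
  Eu_zero_one Lth Lth_zero Qt dn dn_pos e3_dn eg_Eu eg_Eu4
open Vale.Agent.P146.R1C hiding Av_lf_P0 Av_lf_P1 Av_lf_P2 Av_lf_P23 Av_lf_P23_row Av_lf_P3 Ca Cd
  En En_add En_const En_const_mul En_eq En_mono En_nonneg En_pow_le Ew Ew1_pos Ew_add Ew_const_mul
  Ew_eq Ew_mono Ew_nonneg Ew_one_pos Fo Gb Nd P0 P0_lp P0_sw P1 P1_lp P1_sw P2 P2_lp P2_sw P3
  P3_lp P3_sw Par Sa Sd den_pos dens dens_eq eg_den eg_dens eg_psi' kk_NN lam_le law_low law_up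
  lf_psi lip_psi pd_psi psi psi' psi_four_le psi_sq_le
open Vale.Agent.P146.U.R1 Vale.Agent.P146.U.R1C

set_option linter.unusedSectionVars false

variable {κ : Type} [Fintype κ] [DecidableEq κ] {q : Par} {F : (κ → ℝ) → ℝ}
  {D : κ → (κ → ℝ) → ℝ} {B L : ℝ} {f g : (K4 κ → ℝ) → ℝ}

lemma int_dens (h : C11 F D B L) (hx : 0 < q.x) (hf : EG f) :
    Integrable (fun w => dens q F w * f w) (gI (K4 κ)) := ((eg_dens h hx).mul hf).integrable

lemma En_sub (h : C11 F D B L) (hx : 0 < q.x) (hf : EG f) (hg : EG g) :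
    En q F (fun w => f w - g w) = En q F f - En q F g := by
  unfold En Ew
  simp only [mul_sub]
  rw [integral_sub (int_dens h hx hf) (int_dens h hx hg), sub_div]

lemma En_sum (h : C11 F D B L) (hx : 0 < q.x) {α : Type*} (s : Finset α)
    {f : α → (K4 κ → ℝ) → ℝ} (hf : ∀ i ∈ s, EG (f i)) :
    En q F (fun w => ∑ i ∈ s, f i w) = ∑ i ∈ s, En q F (f i) := by
  classical
  induction s using Finset.induction_on with
  | empty => simpa using En_const h hx 0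
  | insert a s ha ih =>
    simp only [Finset.sum_insert ha]
    rw [En_add h hx (hf a (Finset.mem_insert_self a s))
      (EG.sum s fun i hi => hf i (Finset.mem_insert_of_mem hi)),
      ih fun i hi => hf i (Finset.mem_insert_of_mem hi)]

/-- The law change in the direction clean at most full, for a set `R` of couplings. -/
def LLow (q : Par) (F : (κ → ℝ) → ℝ) (R : Finset κ) (ε : ℝ) : Prop :=
  ∀ f : (K4 κ → ℝ) → ℝ, EG f → ∀ K : ℝ, (∀ w, 0 ≤ f w) → (∀ w, f w ≤ K) →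
    En q F (Av (lf R) f) ≤ 2 * En q F f + ε * K

/-- The law change in the direction full at most clean, for a set `R` of couplings. -/
def LUp (q : Par) (F : (κ → ℝ) → ℝ) (R : Finset κ) (ε : ℝ) : Prop :=
  ∀ f : (K4 κ → ℝ) → ℝ, EG f → ∀ K : ℝ, (∀ w, 0 ≤ f w) → (∀ w, f w ≤ K) →
    En q F f ≤ 2 * En q F (Av (lf R) f) + ε * K

theorem llow {R : Finset κ} (h : C11 F D B L) (hq : q.Ok) {Bd l : ℝ}
    (hR : ∀ z, ∑ e ∈ R, D e z ^ 2 ≤ Bd) (hl0 : 0 ≤ l) (hl : 9 * q.x ^ 2 * Bd ≤ l ^ 2) (p : ℕ)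
    (hp : ((p : ℝ) + 1) ^ 2 * l ^ 2 ≤ 1) : LLow q F R (3 / 2 ^ p) := by
  intro f hf K h0 hK
  have h1 := law_low h hq hR hl0 hl p hp hf h0 hK
  have hE := Ew_one_pos (q := q) h hq.x0
  unfold En
  rw [div_le_iff₀ hE]
  refine h1.trans (le_of_eq ?_)
  have e1 : Ew q F f / Ew q F (fun _ => 1) * Ew q F (fun _ => 1) = Ew q F f :=
    div_mul_cancel₀ _ hE.ne'
  rw [add_mul, mul_assoc, e1]
  ring

theorem lup {R : Finset κ} (h : C11 F D B L) (hq : q.Ok) {Bd l : ℝ}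
    (hR : ∀ z, ∑ e ∈ R, D e z ^ 2 ≤ Bd) (hl0 : 0 ≤ l) (hl : 9 * q.x ^ 2 * Bd ≤ l ^ 2) (p : ℕ)
    (hp : ((p : ℝ) + 1) ^ 2 * l ^ 2 ≤ 1) : LUp q F R (3 / 2 ^ p) := by
  intro f hf K h0 hK
  have h1 := law_up h hq hR hl0 hl p hp hf h0 hK
  have hE := Ew_one_pos (q := q) h hq.x0
  unfold En
  rw [div_le_iff₀ hE]
  refine h1.trans (le_of_eq ?_)
  have e1 : Ew q F (Av (lf R) f) / Ew q F (fun _ => 1) * Ew q F (fun _ => 1) =
      Ew q F (Av (lf R) f) := div_mul_cancel₀ _ hE.ne'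
  rw [add_mul, mul_assoc, e1]
  ring

end Vale.Agent.P146.U.H712
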