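import Vale.Agent.P146.H712.BtSum
import Vale.Agent.P146.U.BtG
import Vale.Agent.P146.U.H826_LawP
import Vale.Agent.P146.U.H712_EnCalc
import Vale.Agent.P146.U.H332_CDef
import Vale.Agent.P146.U.NS

/-!
Bulk transfer, (BT2) and (BT3): the functional `Th` and its sum over the pairs of rows.
-/

open MeasureTheory ProbabilityTheory Matrix

namespace Vale.Agent.P146.U.H712

open Vale.Agent.P146.H712 hiding En_sub En_sum LLow LUp bt3 eg_P0 eg_P1 eg_P2 eg_P3 int_dens k0 k1
  k2 k3 llow lup pd_P0 pd_P1 pd_P2 pd_P3 sum_k0 sum_k1 sum_k2 sum_k3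

open Vale.Agent.P157.Lv Vale.Agent.P146.H425 Vale.Agent.P146.H325 Vale.Agent.P146.H332
  Vale.Agent.P146.H633
open Vale.Agent.P146.R1 hiding Et Et4 Et4_123 Et4_124 Et4_add Et4_const Et4_const_mul Et4_cs
  Et4_mono Et4_nonneg Et4_sub Et_add Et_const Et_const_mul Et_cs Et_fst_eq Et_jensen Et_mono
  Et_nonneg Et_sub Et_weight Et_zero Eu Eu4 Eu4_123 Eu4_124 Eu4_add Eu4_cond Eu4_const_mul
  Eu4_iter Eu4_mono Eu4_nonneg Eu4_one_eq Eu4_one_eq' Eu4_one_pos Eu4_weight Eu_add Eu_const_mul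
  Eu_fst Eu_fst_eq Eu_iter Eu_mono Eu_nonneg Eu_one Eu_one_eq Eu_one_pos Eu_weight Eu_zero
  Eu_zero_one Lth Lth_zero Qt dn dn_pos e3_dn eg_Eu eg_Eu4
open Vale.Agent.P146.R1C hiding Av_lf_P0 Av_lf_P1 Av_lf_P2 Av_lf_P23 Av_lf_P23_row Av_lf_P3 Ca Cd
  En En_add En_const En_const_mul En_eq En_mono En_nonneg En_pow_le Ew Ew1_pos Ew_add Ew_const_mul
  Ew_eq Ew_mono Ew_nonneg Ew_one_pos Fo Gb Nd P0 P0_lp P0_sw P1 P1_lp P1_sw P2 P2_lp P2_sw P3
  P3_lp P3_sw Par Sa Sd den_pos dens dens_eq eg_den eg_dens eg_psi' kk_NN lam_le law_low law_up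
  lf_psi lip_psi pd_psi psi psi' psi_four_le psi_sq_le
open Vale.Agent.P146.U.R1 Vale.Agent.P146.U.R1C Vale.Agent.P146.U.BtG

set_option linter.unusedSectionVars false

section gen

variable {κ ι : Type} [Fintype κ] [DecidableEq κ] [Fintype ι] {s : ℝ} {R : Finset κ}
  {C : (κ → ℝ) → Matrix ι ι ℝ} {K : (κ → ℝ) → ℝ}

end gen

/-! ### the sum over the pairs of rows -/

section sum

variable {n : ℕ} {ι : Type} [Fintype ι] {q : Par} {F : (Pair n → ℝ) → ℝ}
  {D : Pair n → (Pair n → ℝ) → ℝ} {Bf Lf : ℝ} {C : (Pair n → ℝ) → Matrix ι ι ℝ}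
  {DC : Pair n → (Pair n → ℝ) → Matrix ι ι ℝ} {K : (Pair n → ℝ) → ℝ} {s : ℝ}
  {P : (K4 (Pair n) → ℝ) → Pair n → ℝ}

/-- **(BT3)** the sum over the pairs of rows. `P` is one of the positions, `s` its time. -/
theorem bt3 (h : C11 F D Bf Lf) (hx : 0 < q.x) (hs : 0 ≤ s)
    (hP : ∀ f : (Pair n → ℝ) → ℝ, EG f → EG fun w => f (P w))
    (hA : ∀ f : (Pair n → ℝ) → ℝ, EG f → ∀ (R : Finset (Pair n)) (w),
      Av (lf R) (fun w => f (P w)) w = AvP s R f (P w))
    {ε : ℝ} (hε : 0 ≤ ε) (hlaw : ∀ b b' : Fin n, b ≠ b' → LLow q F (row b ∪ row b') ε)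
    (hC : ∀ i j, EG fun z => C z i j)
    (hd : ∀ e i j, PD e (fun z => C z i j) (fun z => DC e z i j))
    (hD : ∀ e i j, EG fun z => DC e z i j) (hK : EG K) (hK0 : ∀ z, 0 ≤ K z)
    {n2 B KK KR : ℝ} (hB : 0 ≤ B) (hb : ∀ z, fr (C z) ≤ n2) (hKK : ∀ z, K z ≤ KK)
    (hKR : ∀ z, ∑ e, fr (DC e z) ≤ KR) :
    ∑ b : Fin n, ∑ b' ∈ Finset.univ.erase b,
        En q F (fun w => Th s (row b ∪ row b') C K (P w)) ≤
      2 * n ^ 2 * En q F (fun w => K (P w)) +
        16 * n * B * s * En q F (fun w => ∑ e, fr (DC e (P w))) +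
        16 * n ^ 2 * n2 ^ 2 * En q F (fun w => chi B C (P w)) +
        ε * n ^ 2 * (KK + 2 * B * s * KR + 8 * n2 ^ 2) := by
  have hr : ∀ R : Finset (Pair n), EG fun z => ∑ e ∈ R, fr (DC e z) :=
    fun R => EG.sum R fun e _ => eg_frC (hD e)
  have hn2 : 0 ≤ n2 := (frn _).trans (hb 0)
  have hKK0 : 0 ≤ KK := (hK0 0).trans (hKK 0)
  have hKR0 : 0 ≤ KR := (Finset.sum_nonneg fun e _ => frn _).trans (hKR 0)
  have hrn : ∀ (R : Finset (Pair n)) z, 0 ≤ ∑ e ∈ R, fr (DC e z) :=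
    fun R z => Finset.sum_nonneg fun e _ => frn _
  have hrK : ∀ (R : Finset (Pair n)) z, ∑ e ∈ R, fr (DC e z) ≤ KR := fun R z =>
    (Finset.sum_le_sum_of_subset_of_nonneg (Finset.subset_univ R)
      fun e _ _ => frn _).trans (hKR z)
  -- one pair
  have one : ∀ b b' : Fin n, b ≠ b' → En q F (fun w => Th s (row b ∪ row b') C K (P w)) ≤
      2 * En q F (fun w => K (P w)) +
        4 * B * s * En q F (fun w => ∑ e ∈ row b ∪ row b', fr (DC e (P w))) +
        16 * n2 ^ 2 * En q F (fun w => chi B C (P w)) +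
        ε * (KK + 2 * B * s * KR + 8 * n2 ^ 2) := by
    intro b b' hbb
    set R := row b ∪ row b' with hR
    have hl := hlaw b b' hbb
    have u1 : EG fun w => Av (lf R) (fun w => K (P w)) w := eg_Av _ (hP _ hK)
    have u2 : EG fun w => Av (lf R) (fun w => ∑ e ∈ R, fr (DC e (P w))) w :=
      eg_Av _ (hP _ (hr R))
    have u3 : EG fun w => Av (lf R) (fun w => chi B C (P w)) w := eg_Av _ (hP _ (eg_chi hC B))
    have pt : ∀ w, Th s R C K (P w) ≤ (Av (lf R) (fun w => K (P w)) w +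
        2 * B * s * Av (lf R) (fun w => ∑ e ∈ R, fr (DC e (P w))) w) +
        8 * n2 ^ 2 * Av (lf R) (fun w => chi B C (P w)) w := by
      intro w
      have a1 := bt3a (s := s) (R := R) (K := K) hB hC hb (P w)
      have a2 := bt2 (R := R) hs hC (fun e _ i j => hd e i j) (fun e _ i j => hD e i j) (P w)
      have a3 := mul_le_mul_of_nonneg_left a2 (by positivity : (0 : ℝ) ≤ 2 * B)
      rw [hA K hK R w, hA (fun z => ∑ e ∈ R, fr (DC e z)) (hr R) R w,
        hA (chi B C) (eg_chi hC B) R w]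
      linarith
    have e1 := En_mono h hx (hP _ (eg_Th hC hK s R)) ((u1.add (u2.const_mul (2 * B * s))).add
      (u3.const_mul (8 * n2 ^ 2))) pt
    rw [En_add h hx (u1.add (u2.const_mul (2 * B * s))) (u3.const_mul (8 * n2 ^ 2)),
      En_add h hx u1 (u2.const_mul (2 * B * s)), En_const_mul, En_const_mul] at e1
    have v1 := hl _ (hP _ hK) KK (fun w => hK0 _) (fun w => hKK _)
    have v2 := hl _ (hP _ (hr R)) KR (fun w => hrn R _) (fun w => hrK R _)
    have v3 := hl _ (hP _ (eg_chi hC B)) 1 (fun w => chi_nonneg B _) (fun w => chi_le B _)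
    have c2 : 0 ≤ 2 * B * s := by positivity
    have c3 : 0 ≤ 8 * n2 ^ 2 := by positivity
    have w2 := mul_le_mul_of_nonneg_left v2 c2
    have w3 := mul_le_mul_of_nonneg_left v3 c3
    nlinarith
  -- the sum
  have hsum : ∑ b : Fin n, ∑ b' ∈ Finset.univ.erase b,
      En q F (fun w => ∑ e ∈ row b ∪ row b', fr (DC e (P w))) ≤
      4 * n * En q F (fun w => ∑ e, fr (DC e (P w))) := by
    have g0 : ∀ e, 0 ≤ En q F (fun w => fr (DC e (P w))) := fun e =>
      En_nonneg fun w => frn _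
    have ge : ∀ e, EG fun w => fr (DC e (P w)) := fun e => hP _ (eg_frC (hD e))
    have := sum_pairs_rows g0
    rw [En_sum h hx _ fun e _ => ge e]
    refine le_trans (le_of_eq ?_) this
    refine Finset.sum_congr rfl fun b _ => Finset.sum_congr rfl fun b' _ => ?_
    rw [En_sum h hx _ fun e _ => ge e]
  have hKn : 0 ≤ En q F (fun w => K (P w)) := En_nonneg fun w => hK0 _
  have hχn : 0 ≤ En q F (fun w => chi B C (P w)) := En_nonneg fun w => chi_nonneg B _
  calc ∑ b : Fin n, ∑ b' ∈ Finset.univ.erase b, En q F (fun w => Th s (row b ∪ row b') C K (P w))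
      ≤ ∑ b : Fin n, ∑ b' ∈ Finset.univ.erase b, (4 * B * s *
          En q F (fun w => ∑ e ∈ row b ∪ row b', fr (DC e (P w))) +
          (2 * En q F (fun w => K (P w)) + 16 * n2 ^ 2 * En q F (fun w => chi B C (P w)) +
            ε * (KK + 2 * B * s * KR + 8 * n2 ^ 2))) := by
        refine Finset.sum_le_sum fun b _ => Finset.sum_le_sum fun b' hb' => ?_
        have := one b b' (Finset.ne_of_mem_erase hb').symm
        linarith
    _ = 4 * B * s * ∑ b : Fin n, ∑ b' ∈ Finset.univ.erase b,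
          En q F (fun w => ∑ e ∈ row b ∪ row b', fr (DC e (P w))) +
        ∑ b : Fin n, ∑ _b' ∈ Finset.univ.erase b, (2 * En q F (fun w => K (P w)) +
          16 * n2 ^ 2 * En q F (fun w => chi B C (P w)) +
            ε * (KK + 2 * B * s * KR + 8 * n2 ^ 2)) := by
        simp only [Finset.sum_add_distrib, Finset.mul_sum]
    _ ≤ 4 * B * s * (4 * n * En q F (fun w => ∑ e, fr (DC e (P w)))) +
        (n : ℝ) ^ 2 * (2 * En q F (fun w => K (P w)) +
          16 * n2 ^ 2 * En q F (fun w => chi B C (P w)) +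
            ε * (KK + 2 * B * s * KR + 8 * n2 ^ 2)) := by
        refine add_le_add (mul_le_mul_of_nonneg_left hsum (by positivity)) ?_
        exact sum_pairs_const _ (by positivity)
    _ = _ := by ring

/-- **(BT3)** the sum over the pairs of rows, moment form. `P` is one of the positions, `s` its
time. -/
theorem bt3n (h : C11 F D Bf Lf) (hx : 0 < q.x) (hs : 0 ≤ s)
    (hP : ∀ f : (Pair n → ℝ) → ℝ, EG f → EG fun w => f (P w))
    (hA : ∀ f : (Pair n → ℝ) → ℝ, EG f → ∀ (R : Finset (Pair n)) (w),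
      Av (lf R) (fun w => f (P w)) w = AvP s R f (P w))
    {ε : ℝ} (hε : 0 ≤ ε) (hlaw : ∀ b b' : Fin n, b ≠ b' → LLow q F (row b ∪ row b') ε)
    (hC : ∀ i j, EG fun z => C z i j)
    (hd : ∀ e i j, PD e (fun z => C z i j) (fun z => DC e z i j))
    (hD : ∀ e i j, EG fun z => DC e z i j) (hK : EG K) (hK0 : ∀ z, 0 ≤ K z)
    {n2 B lam KK KR : ℝ} (hB : 0 ≤ B) (hl : 0 < lam) (hb : ∀ z, fr (C z) ≤ n2)
    (hKK : ∀ z, K z ≤ KK) (hKR : ∀ z, ∑ e, fr (DC e z) ≤ KR) :
    ∑ b : Fin n, ∑ b' ∈ Finset.univ.erase b,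
        En q F (fun w => Th s (row b ∪ row b') C K (P w)) ≤
      2 * n ^ 2 * En q F (fun w => K (P w)) +
        16 * n * B * s * En q F (fun w => ∑ e, fr (DC e (P w))) +
        2 * n ^ 2 * ((2 + 3 / lam) * En q F (fun w => fx B C (P w)) +
          3 * lam * En q F (fun w => fr (C (P w)) ^ 2)) +
        ε * n ^ 2 * (KK + 2 * B * s * KR + (2 + 3 / lam) * n2 ^ 2 + 3 * lam * n2 ^ 2) := by
  have hf2 : EG fun z => fr (C z) ^ 2 := (eg_frC hC).pow 2
  have hr : ∀ R : Finset (Pair n), EG fun z => ∑ e ∈ R, fr (DC e z) :=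
    fun R => EG.sum R fun e _ => eg_frC (hD e)
  have hn2 : 0 ≤ n2 := (frn _).trans (hb 0)
  have hKK0 : 0 ≤ KK := (hK0 0).trans (hKK 0)
  have hKR0 : 0 ≤ KR := (Finset.sum_nonneg fun e _ => frn _).trans (hKR 0)
  have hrn : ∀ (R : Finset (Pair n)) z, 0 ≤ ∑ e ∈ R, fr (DC e z) :=
    fun R z => Finset.sum_nonneg fun e _ => frn _
  have hrK : ∀ (R : Finset (Pair n)) z, ∑ e ∈ R, fr (DC e z) ≤ KR := fun R z =>
    (Finset.sum_le_sum_of_subset_of_nonneg (Finset.subset_univ R)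
      fun e _ _ => frn _).trans (hKR z)
  have hc1 : 0 ≤ 2 + 3 / lam := by positivity
  -- one pair
  have one : ∀ b b' : Fin n, b ≠ b' → En q F (fun w => Th s (row b ∪ row b') C K (P w)) ≤
      2 * En q F (fun w => K (P w)) +
        4 * B * s * En q F (fun w => ∑ e ∈ row b ∪ row b', fr (DC e (P w))) +
        2 * ((2 + 3 / lam) * En q F (fun w => fx B C (P w)) +
          3 * lam * En q F (fun w => fr (C (P w)) ^ 2)) +
        ε * (KK + 2 * B * s * KR + (2 + 3 / lam) * n2 ^ 2 + 3 * lam * n2 ^ 2) := by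
    intro b b' hbb
    set R := row b ∪ row b' with hR
    have hl' := hlaw b b' hbb
    have u1 : EG fun w => Av (lf R) (fun w => K (P w)) w := eg_Av _ (hP _ hK)
    have u2 : EG fun w => Av (lf R) (fun w => ∑ e ∈ R, fr (DC e (P w))) w :=
      eg_Av _ (hP _ (hr R))
    have u3 : EG fun w => Av (lf R) (fun w => fx B C (P w)) w := eg_Av _ (hP _ (eg_fx hC B))
    have u4 : EG fun w => Av (lf R) (fun w => fr (C (P w)) ^ 2) w := eg_Av _ (hP _ hf2)
    have pt : ∀ w, Th s R C K (P w) ≤ (Av (lf R) (fun w => K (P w)) w +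
        2 * B * s * Av (lf R) (fun w => ∑ e ∈ R, fr (DC e (P w))) w) +
        ((2 + 3 / lam) * Av (lf R) (fun w => fx B C (P w)) w +
          3 * lam * Av (lf R) (fun w => fr (C (P w)) ^ 2) w) := by
      intro w
      have a1 := bt3m (s := s) (R := R) (K := K) hB hl hC (P w)
      have a2 := bt2 (R := R) hs hC (fun e _ i j => hd e i j) (fun e _ i j => hD e i j) (P w)
      have a3 := mul_le_mul_of_nonneg_left a2 (by positivity : (0 : ℝ) ≤ 2 * B)
      rw [hA K hK R w, hA (fun z => ∑ e ∈ R, fr (DC e z)) (hr R) R w,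
        hA (fx B C) (eg_fx hC B) R w, hA (fun z => fr (C z) ^ 2) hf2 R w]
      linarith
    have g12 := u1.add (u2.const_mul (2 * B * s))
    have g34 := (u3.const_mul (2 + 3 / lam)).add (u4.const_mul (3 * lam))
    have e1 := En_mono h hx (hP _ (eg_Th hC hK s R)) (g12.add g34) pt
    rw [En_add h hx g12 g34, En_add h hx u1 (u2.const_mul (2 * B * s)),
      En_add h hx (u3.const_mul (2 + 3 / lam)) (u4.const_mul (3 * lam)), En_const_mul,
      En_const_mul, En_const_mul] at e1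
    have v1 := hl' _ (hP _ hK) KK (fun w => hK0 _) (fun w => hKK _)
    have v2 := hl' _ (hP _ (hr R)) KR (fun w => hrn R _) (fun w => hrK R _)
    have v3 := hl' _ (hP _ (eg_fx hC B)) (n2 ^ 2) (fun w => fx_nonneg B _) (fun w =>
      (fx_le_sq B _).trans (pow_le_pow_left₀ (frn _) (hb _) 2))
    have v4 := hl' _ (hP _ hf2) (n2 ^ 2) (fun w => sq_nonneg _) (fun w =>
      pow_le_pow_left₀ (frn _) (hb _) 2)
    have w2 := mul_le_mul_of_nonneg_left v2 (by positivity : 0 ≤ 2 * B * s)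
    have w3 := mul_le_mul_of_nonneg_left v3 hc1
    have w4 := mul_le_mul_of_nonneg_left v4 (by positivity : 0 ≤ 3 * lam)
    nlinarith
  -- the sum
  have hsum : ∑ b : Fin n, ∑ b' ∈ Finset.univ.erase b,
      En q F (fun w => ∑ e ∈ row b ∪ row b', fr (DC e (P w))) ≤
      4 * n * En q F (fun w => ∑ e, fr (DC e (P w))) := by
    have g0 : ∀ e, 0 ≤ En q F (fun w => fr (DC e (P w))) := fun e =>
      En_nonneg fun w => frn _
    have ge : ∀ e, EG fun w => fr (DC e (P w)) := fun e => hP _ (eg_frC (hD e))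
    have := sum_pairs_rows g0
    rw [En_sum h hx _ fun e _ => ge e]
    refine le_trans (le_of_eq ?_) this
    refine Finset.sum_congr rfl fun b _ => Finset.sum_congr rfl fun b' _ => ?_
    rw [En_sum h hx _ fun e _ => ge e]
  have hKn : 0 ≤ En q F (fun w => K (P w)) := En_nonneg fun w => hK0 _
  have hχn : 0 ≤ En q F (fun w => fx B C (P w)) := En_nonneg fun w => fx_nonneg B _
  have hfn : 0 ≤ En q F (fun w => fr (C (P w)) ^ 2) := En_nonneg fun w => sq_nonneg _
  calc ∑ b : Fin n, ∑ b' ∈ Finset.univ.erase b, En q F (fun w => Th s (row b ∪ row b') C K (P w))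
      ≤ ∑ b : Fin n, ∑ b' ∈ Finset.univ.erase b, (4 * B * s *
          En q F (fun w => ∑ e ∈ row b ∪ row b', fr (DC e (P w))) +
          (2 * En q F (fun w => K (P w)) +
            2 * ((2 + 3 / lam) * En q F (fun w => fx B C (P w)) +
              3 * lam * En q F (fun w => fr (C (P w)) ^ 2)) +
            ε * (KK + 2 * B * s * KR + (2 + 3 / lam) * n2 ^ 2 + 3 * lam * n2 ^ 2))) := by
        refine Finset.sum_le_sum fun b _ => Finset.sum_le_sum fun b' hb' => ?_
        have := one b b' (Finset.ne_of_mem_erase hb').symm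
        linarith
    _ = 4 * B * s * ∑ b : Fin n, ∑ b' ∈ Finset.univ.erase b,
          En q F (fun w => ∑ e ∈ row b ∪ row b', fr (DC e (P w))) +
        ∑ b : Fin n, ∑ _b' ∈ Finset.univ.erase b, (2 * En q F (fun w => K (P w)) +
            2 * ((2 + 3 / lam) * En q F (fun w => fx B C (P w)) +
              3 * lam * En q F (fun w => fr (C (P w)) ^ 2)) +
            ε * (KK + 2 * B * s * KR + (2 + 3 / lam) * n2 ^ 2 + 3 * lam * n2 ^ 2)) := by
        simp only [Finset.sum_add_distrib, Finset.mul_sum]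
    _ ≤ 4 * B * s * (4 * n * En q F (fun w => ∑ e, fr (DC e (P w)))) +
        (n : ℝ) ^ 2 * (2 * En q F (fun w => K (P w)) +
            2 * ((2 + 3 / lam) * En q F (fun w => fx B C (P w)) +
              3 * lam * En q F (fun w => fr (C (P w)) ^ 2)) +
            ε * (KK + 2 * B * s * KR + (2 + 3 / lam) * n2 ^ 2 + 3 * lam * n2 ^ 2)) := by
        refine add_le_add (mul_le_mul_of_nonneg_left hsum (by positivity)) ?_
        exact sum_pairs_const _ (by positivity)
    _ = _ := by ring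

end sum

end Vale.Agent.P146.U.H712
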