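import Vale.Agent.P146.H712.BtS
import Vale.Agent.P146.U.H712_BtSum
import Vale.Agent.P146.U.H941_TwoS
import Vale.Agent.P146.U.H425_FoN
import Vale.Agent.P146.U.BtNum
import Vale.Agent.P146.U.NS

/-!
Bulk transfer, the sum over the pairs of rows for a position system `S : CS n (kk n β) q.x` which
satisfies the output `Fo` of the block F: the smallness functional `Th` is, on the average over the
pairs, at most `30 A² NN² (1 / Λ + 1 / (n T))`.
-/

open MeasureTheory ProbabilityTheory Matrix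

namespace Vale.Agent.P146.U.H712

open Vale.Agent.P146.H712 hiding En_sub En_sum Fo_A_le Fo_one_le KV KV_le KV_nonneg LLow LUp Th_le
  bt3 bt3_pos bt3_three bt3_two eg_KV eg_P0 eg_P1 eg_P2 eg_P3 eg_ThS int_dens k0 k1 k2 k3 llow lup
  pd_P0 pd_P1 pd_P2 pd_P3 sum_k0 sum_k1 sum_k2 sum_k3 tT_abs tT_eg tfr_le tpd

open Vale.Agent.P157.Lv Vale.Agent.P146.H425 Vale.Agent.P146.H325 Vale.Agent.P146.H332
  Vale.Agent.P146.H633
open Vale.Agent.P146.R1 hiding Et Et4 Et4_123 Et4_124 Et4_add Et4_const Et4_const_mul Et4_cs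
  Et4_mono Et4_nonneg Et4_sub Et_add Et_const Et_const_mul Et_cs Et_fst_eq Et_jensen Et_mono
  Et_nonneg Et_sub Et_weight Et_zero Eu Eu4 Eu4_123 Eu4_124 Eu4_add Eu4_cond Eu4_const_mul
  Eu4_iter Eu4_mono Eu4_nonneg Eu4_one_eq Eu4_one_eq' Eu4_one_pos Eu4_weight Eu_add Eu_const_mul
  Eu_fst Eu_fst_eq Eu_iter Eu_mono Eu_nonneg Eu_one Eu_one_eq Eu_one_pos Eu_weight Eu_zero
  Eu_zero_one Lth Lth_zero Qt dn dn_pos e3_dn eg_Eu eg_Eu4
open Vale.Agent.P146.R1C hiding Av_lf_P0 Av_lf_P1 Av_lf_P2 Av_lf_P23 Av_lf_P23_row Av_lf_P3 Ca Cd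
  En En_add En_const En_const_mul En_eq En_mono En_nonneg En_pow_le En_rare Ew Ew1_pos Ew_add
  Ew_const_mul Ew_eq Ew_mono Ew_nonneg Ew_one_pos Fo Gb Law2 Nd P0 P0_lp P0_sw P1 P1_lp P1_sw P2
  P2_lp P2_sw P3 P3_lp P3_sw Par Sa Sd den_pos dens dens_eq eg_den eg_dens eg_psi' kk_NN lam_le
  law2_of law_low law_up lf_psi lip_psi pd_psi psi psi' psi_four_le psi_sq_le
open Vale.Agent.P146.R1S hiding CS Ca Cd Gb Gb_eq MM Nd Nd_eq Sa Sa_eq Sd Sd_eq Xb_eq Yb_eq abs_cl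
  blk_a blk_d cl cl0 cl_act cl_odd cl_other cl_self ee eg_Ca eg_Cd eg_cl eg_cl0 ind_Ca ind_Cd
  ind_cl ind_cl2 ind_cl3 tA_T tA_abs tA_comm tA_cont tA_eg tA_self two_cs
open Vale.Agent.P146.U.R1 Vale.Agent.P146.U.R1C Vale.Agent.P146.U.R1S Vale.Agent.P146.U.BtG

set_option linter.unusedSectionVars false

section gen

variable {n : ℕ} {k x : ℝ} (S : CS n k x) (s : ℝ)

/-- The size of the defect of the four point functions. -/
noncomputable def KV (z : Pair n → ℝ) : ℝ := KT (S.T4 s z) (S.A s z)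

lemma KV_nonneg (z : Pair n → ℝ) : 0 ≤ KV S s z := KT_nonneg _ _

lemma tT_eg (i j p l : Fin n) : EG fun z => S.T4 s z i j p l := by
  have e : (fun z => S.T4 s z i j p l) = fun z => ∑ σ, (pr i j σ * pr p l σ) * S.mu s z σ := by
    funext z
    rw [S.T4_mu]
    exact Finset.sum_congr rfl fun σ _ => mul_comm _ _
  rw [e]
  exact EG.sum _ fun σ _ => (S.eg_mu s σ).const_mul _

lemma tT_abs (z : Pair n → ℝ) (i j p l : Fin n) : |S.T4 s z i j p l| ≤ 1 := by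
  rw [S.T4_mu]
  refine (Finset.abs_sum_le_sum_abs _ _).trans (le_of_eq ?_)
  rw [← S.mu1 s z]
  refine Finset.sum_congr rfl fun σ _ => ?_
  rw [abs_mul, abs_mul, R1S.abs_pr, R1S.abs_pr, mul_one, mul_one, abs_of_nonneg (S.mu0 s z σ)]

lemma eg_KV : EG (KV S s) := by
  unfold KV KT
  exact EG.sum _ fun i _ => EG.sum _ fun j _ => EG.sum _ fun p _ => EG.sum _ fun l _ =>
    ((tT_eg S s i j p l).sub ((tA_eg S s i j).mul (tA_eg S s p l))).pow 2

lemma KV_le (z : Pair n → ℝ) : KV S s z ≤ 4 * (n : ℝ) ^ 4 := by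
  unfold KV KT
  have h1 : ∀ i j p l, (S.T4 s z i j p l - S.A s z i j * S.A s z p l) ^ 2 ≤ 4 := by
    intro i j p l
    have a1 := abs_le.1 (tT_abs S s z i j p l)
    have a2 : |S.A s z i j * S.A s z p l| ≤ 1 := by
      rw [abs_mul]
      exact mul_le_one₀ (tA_abs S s z i j) (abs_nonneg _) (tA_abs S s z p l)
    have a3 := abs_le.1 a2
    nlinarith
  refine (Finset.sum_le_sum fun i _ => Finset.sum_le_sum fun j _ => Finset.sum_le_sum fun p _ =>
    Finset.sum_le_sum fun l _ => h1 i j p l).trans (le_of_eq ?_)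
  simp only [Finset.sum_const, Finset.card_univ, Fintype.card_fin, nsmul_eq_mul]
  ring

lemma tfr_le (z : Pair n → ℝ) : fr (S.A s z) ≤ (n : ℝ) ^ 2 := by
  unfold H332.fr
  have h1 : ∀ i j, S.A s z i j ^ 2 ≤ 1 := by
    intro i j
    have a1 := abs_le.1 (tA_abs S s z i j)
    nlinarith
  refine (Finset.sum_le_sum fun i _ => Finset.sum_le_sum fun j _ => h1 i j).trans (le_of_eq ?_)
  simp only [Finset.sum_const, Finset.card_univ, Fintype.card_fin, nsmul_eq_mul]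
  ring

lemma tpd (e : Pair n) (i j : Fin n) :
    PD e (fun z => S.A s z i j) (fun z => S.DA s e z i j) :=
  H785.pd_of_fd (G' := fun e z => S.DA s e z i j) (S.fd_A s i j) e

end gen

/-! ### numbers -/

section fo

variable {n : ℕ} {β A δ T ρ Λ ye : ℝ} {q : Par}

/-- the size on the event that it is large, from the moments -/
lemma En_fx_le (S : CS n (kk n β) q.x) (h : Fo n β A δ T ρ Λ S.y q S.F S.A S.DA) {s : ℝ}
    {P : (K4 (Pair n) → ℝ) → Pair n → ℝ}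
    (hP : ∀ f : (Pair n → ℝ) → ℝ, EG f → EG fun w => f (P w))
    (hup : En q S.F (fun w => if A * R1C.NN n β ρ < fr (S.A s (P w)) then (1 : ℝ) else 0) ≤ δ)
    (hm4 : En q S.F (fun w => fr (S.A s (P w)) ^ 4) ≤ 2 * (A * R1C.NN n β ρ) ^ 4) :
    En q S.F (fun w => fx (A * R1C.NN n β ρ) (S.A s) (P w)) ≤
      3 / 2 * (A * R1C.NN n β ρ) ^ 2 / Λ ^ 2 := by
  have hc := S.c11
  have hx := S.x0
  have hL1 := h.Λ1
  have hAN := h.AN1
  have hd := h.δΛ
  have hd0 := h.δ0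
  set W := A * R1C.NN n β ρ with hW
  have hC : ∀ i j, EG fun z => S.A s z i j := fun i j => tA_eg S s i j
  have hf4 : EG fun w => fr (S.A s (P w)) ^ 4 := hP _ ((eg_frC hC).pow 4)
  have hχ : EG fun w => chi W (S.A s) (P w) := hP _ (eg_chi hC W)
  have hpt : ∀ w, fx W (S.A s) (P w) ≤ 1 / (2 * W ^ 2 * Λ ^ 2) * fr (S.A s (P w)) ^ 4 +
      W ^ 2 * Λ ^ 2 / 2 * chi W (S.A s) (P w) := by
    intro w
    unfold fx
    set a := fr (S.A s (P w))
    set c := chi W (S.A s) (P w) with hcd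
    have hc2 : c ^ 2 = c := chi_sq W (P w)
    have e : 1 / (2 * W ^ 2 * Λ ^ 2) * a ^ 4 + W ^ 2 * Λ ^ 2 / 2 * c - a ^ 2 * c =
        (a ^ 2 - W ^ 2 * Λ ^ 2 * c) ^ 2 / (2 * W ^ 2 * Λ ^ 2) := by
      have hW0 : W ≠ 0 := by linarith
      have hL0 : Λ ≠ 0 := by linarith
      field_simp
      linear_combination (-(W ^ 4 * Λ ^ 4)) * hc2
    have : 0 ≤ (a ^ 2 - W ^ 2 * Λ ^ 2 * c) ^ 2 / (2 * W ^ 2 * Λ ^ 2) := by positivity
    linarith
  have h1 := En_mono hc hx (hP _ (eg_fx hC W)) ((hf4.const_mul (1 / (2 * W ^ 2 * Λ ^ 2))).add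
    (hχ.const_mul (W ^ 2 * Λ ^ 2 / 2))) hpt
  rw [En_add hc hx (hf4.const_mul _) (hχ.const_mul _), En_const_mul, En_const_mul] at h1
  refine h1.trans ?_
  have h2 : En q S.F (fun w => chi W (S.A s) (P w)) ≤ δ := hup
  have h3 : 1 / (2 * W ^ 2 * Λ ^ 2) * En q S.F (fun w => fr (S.A s (P w)) ^ 4) ≤
      W ^ 2 / Λ ^ 2 := by
    calc 1 / (2 * W ^ 2 * Λ ^ 2) * En q S.F (fun w => fr (S.A s (P w)) ^ 4) ≤
          1 / (2 * W ^ 2 * Λ ^ 2) * (2 * W ^ 4) := mul_le_mul_of_nonneg_left hm4 (by positivity)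
      _ = W ^ 2 / Λ ^ 2 := by
          have hW0 : W ≠ 0 := by linarith
          have hL0 : Λ ≠ 0 := by linarith
          field_simp
  have h4 : W ^ 2 * Λ ^ 2 / 2 * En q S.F (fun w => chi W (S.A s) (P w)) ≤
      1 / 2 * (W ^ 2 / Λ ^ 2) := by
    have k1 : Λ ^ 4 * δ ≤ 1 := by
      refine le_trans (mul_le_mul_of_nonneg_right ?_ hd0) hd
      exact pow_le_pow_right₀ hL1 (by norm_num)
    calc W ^ 2 * Λ ^ 2 / 2 * En q S.F (fun w => chi W (S.A s) (P w)) ≤ W ^ 2 * Λ ^ 2 / 2 * δ :=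
          mul_le_mul_of_nonneg_left h2 (by positivity)
      _ = 1 / 2 * (W ^ 2 / Λ ^ 2) * (Λ ^ 4 * δ) := by
          have hL0 : Λ ≠ 0 := by linarith
          field_simp
      _ ≤ 1 / 2 * (W ^ 2 / Λ ^ 2) * 1 := mul_le_mul_of_nonneg_left k1 (by positivity)
      _ = _ := mul_one _
  have e : 3 / 2 * W ^ 2 / Λ ^ 2 = W ^ 2 / Λ ^ 2 + 1 / 2 * (W ^ 2 / Λ ^ 2) := by ring
  rw [e]
  linarith

/-- one position -/
theorem bt3_pos (S : CS n (kk n β) q.x) (h : Fo n β A δ T ρ Λ S.y q S.F S.A S.DA)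
    (hL : Law2 n ((n : ℝ) ^ 200)⁻¹ q S.F) {s : ℝ} (hs : 0 < s) (hs1 : s ≤ 1)
    {P : (K4 (Pair n) → ℝ) → Pair n → ℝ}
    (hP : ∀ f : (Pair n → ℝ) → ℝ, EG f → EG fun w => f (P w))
    (hA : ∀ f : (Pair n → ℝ) → ℝ, EG f → ∀ (R : Finset (Pair n)) (w),
      Av (lf R) (fun w => f (P w)) w = AvP s R f (P w))
    (hup : En q S.F (fun w => if A * R1C.NN n β ρ < fr (S.A s (P w)) then (1 : ℝ) else 0) ≤ δ)
    (hm2 : En q S.F (fun w => fr (S.A s (P w)) ^ 2) ≤ 2 * (A * R1C.NN n β ρ) ^ 2)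
    (hm4 : En q S.F (fun w => fr (S.A s (P w)) ^ 4) ≤ 2 * (A * R1C.NN n β ρ) ^ 4)
    (hrt : En q S.F (fun w => rt S.DA s (P w)) ≤ A * R1C.NN n β ρ / T)
    (hKR : ∀ z, rt S.DA s z ≤ (n : ℝ) ^ 20) :
    ∑ b : Fin n, ∑ b' ∈ Finset.univ.erase b,
        En q S.F (fun w => Th s (row b ∪ row b') (S.A s) (KV S s) (P w)) ≤
      30 * A ^ 2 * n ^ 2 * (R1C.NN n β ρ) ^ 2 * (1 / Λ + 1 / (n * T)) := by
  have hc := S.c11
  have hx := S.x0
  have hy := S.y0
  have hn2 : (2 : ℝ) ≤ n := h.n0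
  have hNp := h.N0
  have hT := h.Tp
  have hL1 := h.Λ1
  have hkN := kk_NN h
  have hk2 : 0 < kk n β ^ 2 := by have := S.k0; positivity
  have hε : (0 : ℝ) ≤ ((n : ℝ) ^ 200)⁻¹ := by positivity
  have hlaw : ∀ b b' : Fin n, b ≠ b' → LLow q S.F (row b ∪ row b') ((n : ℝ) ^ 200)⁻¹ := by
    intro b b' _ f hf K h0 hK
    exact hL.nlow hc hx b b' hf h0 hK
  have main := bt3n (q := q) (F := S.F) (s := s) (P := P) (C := S.A s) (DC := S.DA s)
    (K := KV S s) hc hx hs.le hP hA hε hlaw (fun i j => tA_eg S s i j)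
    (fun e i j => tpd S s e i j) (fun e i j => S.eg_DA s e i j) (eg_KV S s)
    (fun z => KV_nonneg S s z) (n2 := (n : ℝ) ^ 2) (B := A * R1C.NN n β ρ) (lam := 1 / Λ)
    (KK := 4 * (n : ℝ) ^ 4) (KR := (n : ℝ) ^ 20) (by have := h.AN1; linarith) (by positivity)
    (fun z => tfr_le S s z) (fun z => KV_le S s z) hKR
  -- the tensors
  have hK : En q S.F (fun w => KV S s (P w)) ≤ (R1C.NN n β ρ) ^ 2 * A / Λ := by
    have hrate : EG fun w => rt S.DA s (P w) := hP _ (by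
      unfold rt
      exact EG.sum _ fun e _ => eg_frC fun i j => S.eg_DA s e i j)
    have h1 := En_mono hc hx (hP _ (eg_KV S s)) (hrate.const_mul (2 / (kk n β ^ 2 * S.y ^ 2)))
      fun w => by
        have h2 := S.kov hs (P w)
        have h3 : kk n β ^ 2 * S.y ^ 2 / 2 * KV S s (P w) ≤ rt S.DA s (P w) := h2
        rw [div_mul_eq_mul_div, le_div_iff₀ (by positivity)]
        linarith
    rw [En_const_mul] at h1
    refine h1.trans ((mul_le_mul_of_nonneg_left hrt (by positivity)).trans ?_)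
    have hyr := h.yrT
    have hA0 : 0 < A := by have := h.A1; linarith
    have hρ := h.ρp
    have hYT : 0 < S.y ^ 2 * ρ * T := by positivity
    have e1 : 2 / (kk n β ^ 2 * S.y ^ 2) * (A * R1C.NN n β ρ / T) =
        (R1C.NN n β ρ) ^ 2 * A / (S.y ^ 2 * ρ * T) := by
      have : ρ = kk n β ^ 2 * R1C.NN n β ρ / 2 := by linarith
      generalize R1C.NN n β ρ = N at *
      rw [this]
      field_simp
    rw [e1]
    exact div_le_div_of_nonneg_left (by positivity) (by linarith) hyr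
  have hR : En q S.F (fun w => ∑ e, fr (S.DA s e (P w))) ≤ A * R1C.NN n β ρ / T := hrt
  have h0 : 0 ≤ En q S.F (fun w => ∑ e, fr (S.DA s e (P w))) :=
    En_nonneg fun w => Finset.sum_nonneg fun e _ => frn _
  have h3 := En_fx_le S h hP hup hm4
  refine main.trans ((bt_main hn2 h.A1 h.A_le (by have := h.N1; linarith) h.NN_le hL1 h.Λn hT
    hs.le hs1 hK h0 hR h3 hm2).trans (le_of_eq ?_))
  ring

/-- **(BT3)** at the time `s1`. -/
theorem bt3_two (S : CS n (kk n β) q.x) (h : Fo n β A δ T ρ Λ S.y q S.F S.A S.DA)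
    (hL : Law2 n ((n : ℝ) ^ 200)⁻¹ q S.F) (hKR : ∀ s z, rt S.DA s z ≤ (n : ℝ) ^ 20) :
    ∑ b : Fin n, ∑ b' ∈ Finset.univ.erase b,
        En q S.F (fun w => Th q.s1 (row b ∪ row b') (S.A q.s1) (KV S q.s1) (P2 q w)) ≤
      30 * A ^ 2 * n ^ 2 * (R1C.NN n β ρ) ^ 2 * (1 / Λ + 1 / (n * T)) := by
  have hT := h.Tp
  have hT1 := h.T1
  have h1 := h.hs1
  have h2 := h.hs12
  have h3 := h.hs2
  have h4 := h.ht1
  have hg : ∀ s, EG fun z => fr (S.A s z) := fun s => eg_frC fun i j => tA_eg S s i j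
  exact bt3_pos S h hL (by linarith) (by linarith) (fun f hf => eg_P2 hf)
    (fun f hf R w => Av_lf_P2 h.ok hf R w) h.up2 (h.mo2 S.c11 hg (by norm_num))
    (h.mo2 S.c11 hg (by norm_num)) h.rt2 (hKR q.s1)

/-- **(BT3)** at the time `s2`. -/
theorem bt3_three (S : CS n (kk n β) q.x) (h : Fo n β A δ T ρ Λ S.y q S.F S.A S.DA)
    (hL : Law2 n ((n : ℝ) ^ 200)⁻¹ q S.F) (hKR : ∀ s z, rt S.DA s z ≤ (n : ℝ) ^ 20) :
    ∑ b : Fin n, ∑ b' ∈ Finset.univ.erase b,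
        En q S.F (fun w => Th q.s2 (row b ∪ row b') (S.A q.s2) (KV S q.s2) (P3 q w)) ≤
      30 * A ^ 2 * n ^ 2 * (R1C.NN n β ρ) ^ 2 * (1 / Λ + 1 / (n * T)) := by
  have hT := h.Tp
  have hT1 := h.T1
  have h1 := h.hs1
  have h2 := h.hs12
  have h3 := h.hs2
  have h4 := h.ht1
  have hg : ∀ s, EG fun z => fr (S.A s z) := fun s => eg_frC fun i j => tA_eg S s i j
  exact bt3_pos S h hL (by linarith) (by linarith) (fun f hf => eg_P3 hf)
    (fun f hf R w => Av_lf_P3 h.ok hf R w) h.up3 (h.mo3 S.c11 hg (by norm_num))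
    (h.mo3 S.c11 hg (by norm_num)) h.rt3 (hKR q.s2)

/-- the sup bounds and the class of `Th`, for the position systems -/
lemma eg_ThS {k x : ℝ} (S : CS n k x) (s : ℝ) (R : Finset (Pair n)) :
    EG (Th s R (S.A s) (KV S s)) := eg_Th (fun i j => tA_eg S s i j) (eg_KV S s) s R

lemma Th_le {k x : ℝ} (S : CS n k x) (s : ℝ) (R : Finset (Pair n)) (z : Pair n → ℝ) :
    Th s R (S.A s) (KV S s) z ≤ 12 * (n : ℝ) ^ 4 := by
  have hC : ∀ i j, EG fun z => S.A s z i j := fun i j => tA_eg S s i j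
  have hf := eg_frC hC
  have hD := eg_Dlt hC s R
  have h0 : (0 : ℝ) ≤ (n : ℝ) ^ 2 := by positivity
  have a1 : AvP s R (KV S s) z ≤ 4 * (n : ℝ) ^ 4 := by
    have := AvP_mono (s := s) (R := R) (eg_KV S s) (EG.const _) (KV_le S s) z
    rwa [AvP_const] at this
  have a2 : AvP s R (fun z => fr (S.A s z)) z ≤ (n : ℝ) ^ 2 := by
    have := AvP_mono (s := s) (R := R) hf (EG.const _) (tfr_le S s) z
    rwa [AvP_const] at this
  have a3 : AvP s R (Dlt s R (S.A s)) z ≤ 4 * (n : ℝ) ^ 2 := by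
    have := AvP_mono (s := s) (R := R) hD (EG.const _) (fun z => Dlt_le hC (tfr_le S s) z) z
    rwa [AvP_const] at this
  have a4 : AvP s R (fun z => Dlt s R (S.A s) z * fr (S.A s z)) z ≤ 4 * (n : ℝ) ^ 4 := by
    have := AvP_mono (s := s) (R := R) (hD.mul hf) (EG.const (4 * (n : ℝ) ^ 4)) (fun z => by
      have b1 := mul_le_mul (Dlt_le (s := s) (R := R) hC (tfr_le S s) z) (tfr_le S s z) (frn _)
        (by positivity)
      calc Dlt s R (S.A s) z * fr (S.A s z) ≤ 4 * (n : ℝ) ^ 2 * (n : ℝ) ^ 2 := b1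
        _ = 4 * (n : ℝ) ^ 4 := by ring) z
    rwa [AvP_const] at this
  have a5 : AvP s R (fun z => fr (S.A s z)) z * AvP s R (Dlt s R (S.A s)) z ≤
      (n : ℝ) ^ 2 * (4 * (n : ℝ) ^ 2) :=
    mul_le_mul a2 a3 (AvP_nonneg (fun z => Dlt_nonneg z) z) h0
  have a6 : (n : ℝ) ^ 2 * (4 * (n : ℝ) ^ 2) = 4 * (n : ℝ) ^ 4 := by ring
  unfold Th
  linarith

end fo

end Vale.Agent.P146.U.H712
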