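import Vale.Agent.P146.U.MKb

/-!
Plan R1 with constants: the conditional Gibbs means are martingales (`Mt`) in the systems, from the
formula of the mean at the time `s` as a tilted Gaussian mean of the mean at the time `1`.
-/

open MeasureTheory ProbabilityTheory

namespace Vale.Agent.P146.U

open Vale.Agent.P157.Lv Vale.Agent.P146.H425 Vale.Agent.P146.R1

variable {κ : Type} [Fintype κ] {F : (κ → ℝ) → ℝ} {x : ℝ} {X : Type}
  {mu : ℝ → (κ → ℝ) → X → ℝ} {μ1 : (κ → ℝ) → X → ℝ}

/-- `ew` is the tilted Gaussian mean `Ax` -/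
lemma ew_eq_Ax (x t : ℝ) (F φ : (κ → ℝ) → ℝ) (z : κ → ℝ) :
    ew x t F φ z = H785.Ax x (√(1 - t)) F φ z := rfl

lemma Ax_zero (x : ℝ) (F φ : (κ → ℝ) → ℝ) (z : κ → ℝ) : H785.Ax x 0 F φ z = φ z := by
  unfold H785.Ax
  simp only [zero_smul, add_zero, integral_const, probReal_univ, one_smul]
  exact mul_div_cancel_left₀ _ (Real.exp_pos _).ne'

/-- **The martingale property** of the Gibbs means of a system. -/
theorem Mt_of_Ax (h : ∀ s z σ, mu s z σ = H785.Ax x (√(1 - s)) F (fun u => μ1 u σ) z) :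
    Mt x F mu := by
  intro s z σ
  have e : (fun u => mu 1 u σ) = fun u => μ1 u σ := by
    funext u
    rw [h, sub_self, Real.sqrt_zero, Ax_zero]
  rw [ew_eq_Ax, e, h]

end Vale.Agent.P146.U
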