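import Vale.Agent.P146.U.MKc
import Vale.Agent.P146.U.MKd
import Vale.Agent.P146.U.H640_LamP
import Vale.Agent.P146.U.H712_BtS
import Vale.Agent.P146.U.H325_Fo
import Vale.Agent.P146.U.NS

/-!
Plan R1 with constants: the moments of the sum of the squares of the four point functions, and of
the defect of the four point functions, at the positions `s1`, `s2`, from the moments of the two
point functions at slightly later times (bound (MK)).
-/

open MeasureTheory ProbabilityTheory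

namespace Vale.Agent.P146.U.R1S

open Vale.Agent.P146.R1S hiding A1 A2 CS Ca Cd ClS Dg Gb Gb_eq LamS MM Nd Nd_eq Nd_ind PrS Q4
  Q4_le Q4_le_pow Q4_nonneg Sa Sa_eq Sa_ind Sd Sd_eq Sd_ind Xb_eq Yb_eq a1 a1_eq a2 a2_eq abs_cl
  blk_a blk_d cl cl0 cl_act cl_cs cl_odd cl_other cl_self ee ee_le ee_nonneg eg_A1 eg_A2 eg_Ca
  eg_Cd eg_Gb eg_Nd eg_Q4 eg_Sa eg_Sd eg_Yd eg_cl eg_cl0 eg_ee eg_frNd eg_vH ind_Ca ind_Cd ind_Gb
  ind_Yd ind_cl ind_cl2 ind_cl3 ind_frNd nl_En tA_T tA_abs tA_comm tA_cont tA_eg tA_self two_cs vH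
  vH_nonneg

open Vale.Agent.P157.Lv Vale.Agent.P146.H425 Vale.Agent.P146.H325 Matrix
open Vale.Agent.P146.H712 hiding En_sub En_sum Fo_A_le Fo_one_le KV KV_le KV_nonneg LLow LUp Th_le
  bt3 bt3_pos bt3_three bt3_two eg_KV eg_P0 eg_P1 eg_P2 eg_P3 eg_ThS int_dens k0 k1 k2 k3 llow lup
  pd_P0 pd_P1 pd_P2 pd_P3 sum_k0 sum_k1 sum_k2 sum_k3 tT_abs tT_eg tfr_le tpd
open Vale.Agent.P146.R1 hiding Et Et4 Et4_123 Et4_124 Et4_add Et4_const Et4_const_mul Et4_cs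
  Et4_mono Et4_nonneg Et4_sub Et_add Et_const Et_const_mul Et_cs Et_fst_eq Et_jensen Et_mono
  Et_nonneg Et_sub Et_weight Et_zero Eu Eu4 Eu4_123 Eu4_124 Eu4_add Eu4_cond Eu4_const_mul
  Eu4_iter Eu4_mono Eu4_nonneg Eu4_one_eq Eu4_one_eq' Eu4_one_pos Eu4_weight Eu_add Eu_const_mul
  Eu_fst Eu_fst_eq Eu_iter Eu_mono Eu_nonneg Eu_one Eu_one_eq Eu_one_pos Eu_weight Eu_zero
  Eu_zero_one Lth Lth_zero Qt dn dn_pos e3_dn eg_Eu eg_Eu4
open Vale.Agent.P146.R1C hiding A1 A2 Av_lf_P0 Av_lf_P1 Av_lf_P2 Av_lf_P23 Av_lf_P23_row Av_lf_P3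
  Ca Cd ClSk Dg En En_add En_const En_const_mul En_eq En_mono En_nonneg En_pow_le En_rare En_sum
  Ew Ew1_pos Ew_add Ew_const_mul Ew_eq Ew_mono Ew_nonneg Ew_one_pos Fo Gb LamSk Law2 Nb Nd Nd_ind
  P0 P0_lp P0_sw P1 P1_lp P1_sw P2 P2_lp P2_sw P3 P3_lp P3_sw Par PrSk Sa Sa_ind Sd Sd_ind a1
  a1_eq a2 a2_eq cl_sk den_pos dens dens_eq eg_A1 eg_A2 eg_Gb eg_Nd eg_Sa eg_Sd eg_Yd eg_den
  eg_dens eg_frNd eg_psi' ind_Gb ind_Yd ind_frNd int_ph kk_NN lam_le law2_of law_low law_up lf_psi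
  lip_psi pd_psi ph psi psi' psi_four_le psi_sq_le
open Vale.Agent.P146.U.H712 Vale.Agent.P146.U.R1 Vale.Agent.P146.U.R1C

open Vale.Agent.P146.H332 hiding Gf Nf
open Vale.Agent.P146.H633 (KT)
open Vale.Agent.P146.U (Mt sqs mk_point eg_cw abs_cw_le cw_pow_le cw_sq_le)

set_option linter.unusedSectionVars false

section point

variable {n : ℕ} {k x : ℝ} {S : CS n k x} {L B M : ℝ}
  {HF TF : Pair n → Pair n → (Pair n → ℝ) → ℝ}

lemma sqs_A (s : ℝ) (z : Pair n → ℝ) :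
    sqs S.mu (fun (i : Fin n × Fin n) σ => pr i.1 i.2 σ) s z = fr (S.A s z) := by
  unfold sqs fr
  rw [Fintype.sum_prod_type]
  refine Finset.sum_congr rfl fun i _ => Finset.sum_congr rfl fun j _ => ?_
  rw [S.A_mu]

lemma sqs_T (s : ℝ) (z : Pair n → ℝ) :
    sqs S.mu (fun (i : Fin n × Fin n × Fin n × Fin n) σ =>
      pr i.1 i.2.1 σ * pr i.2.2.1 i.2.2.2 σ) s z = Q4 S s z := by
  unfold sqs Q4
  rw [Fintype.sum_prod_type]
  refine Finset.sum_congr rfl fun i _ => ?_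
  rw [Fintype.sum_prod_type]
  refine Finset.sum_congr rfl fun j _ => ?_
  rw [Fintype.sum_prod_type]
  refine Finset.sum_congr rfl fun p _ => Finset.sum_congr rfl fun r _ => ?_
  rw [S.T4_mu]

/-- **(MK)** for the four point functions of a system. -/
theorem Q4_mk (hS : Sm S.F S.D B L HF TF M) (hm : Mt x S.F S.mu) {s a : ℝ} (hs : 0 < s)
    (hsa : s < a) (ha : a ≤ 1) (z : Pair n → ℝ) :
    Q4 S s z ≤ 2 * cw x s a S.F (fun z => fr (S.A a z) ^ 2) z +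
      4 / (k ^ 2 * S.y ^ 2 * (a - s)) * cw x s a S.F (fun z => fr (S.A a z)) z := by
  have hk := S.k0
  have hx := S.x0
  have hy := S.y0
  have has : 0 < a - s := by linarith
  have eA : ∀ r, sqs S.mu (fun (i : Fin n × Fin n) σ => pr i.1 i.2 σ) r =
      fun z => fr (S.A r z) := fun r => funext fun z => sqs_A r z
  have key := mk_point (c1 := 8 / (k ^ 4 * S.y ^ 2)) (c2 := k ^ 2 / 2) (C := (n : ℝ) ^ 2) hS hx hm
    (fun s σ => S.eg_mu s σ) hsa ha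
    (fun (i : Fin n × Fin n × Fin n × Fin n) σ => pr i.1 i.2.1 σ * pr i.2.2.1 i.2.2.2 σ)
    (fun (i : Fin n × Fin n) σ => pr i.1 i.2 σ) (by positivity)
    (fun r z => by rw [sqs_A]; exact S.fr_A_le r z)
    (fun r hr _ z => by
      rw [sqs_A, sqs_T, S.hq_DA hS]
      refine (Q4_le (S := S) (hs.trans hr) z).trans (le_of_eq ?_)
      field_simp
      ring)
    (fun z => by
      rw [sqs_A, S.sq_A]
      exact mul_le_mul_of_nonneg_left (by
        have : (0 : ℝ) ≤ n := Nat.cast_nonneg n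
        linarith) (by positivity)) z
  rw [sqs_T] at key
  simp only [eA] at key
  refine key.trans (le_of_eq ?_)
  congr 1
  congr 1
  field_simp
  ring

/-- the same, with one conditional mean -/
lemma Q4_mk' (hS : Sm S.F S.D B L HF TF M) (hm : Mt x S.F S.mu) {s a W : ℝ} (hs : 0 < s)
    (hsa : s < a) (ha : a ≤ 1) (hW : 4 / (k ^ 2 * S.y ^ 2 * (a - s)) ≤ 32 * W)
    (z : Pair n → ℝ) :
    Q4 S s z ≤ 18 * cw x s a S.F (fun z => fr (S.A a z) ^ 2) z + 16 * W ^ 2 := by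
  have h1 := Q4_mk hS hm hs hsa ha z
  have hf : EG fun z => fr (S.A a z) := eg_frC fun i j => S.eg_A a i j
  have h2 : cw x s a S.F (fun z => fr (S.A a z)) z ^ 2 ≤
      cw x s a S.F (fun z => fr (S.A a z) ^ 2) z :=
    cw_sq_le S.c11 S.x0 hsa.le ha hf z
  have h0 : 0 ≤ cw x s a S.F (fun z => fr (S.A a z)) z := cw_nonneg (fun y => frn _) z
  have h3 := mul_le_mul_of_nonneg_right hW h0
  nlinarith [sq_nonneg (W - cw x s a S.F (fun z => fr (S.A a z)) z)]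

/-- **The moments of the four point functions.** -/
theorem moQ_gen (hS : Sm S.F S.D B L HF TF M) (hm : Mt x S.F S.mu) {θ η t0 t1 s a W : ℝ}
    (hs : 0 < s) (h1 : t1 ≤ s) (hsa : s < a) (ha : a ≤ 1)
    (hW : 4 / (k ^ 2 * S.y ^ 2 * (a - s)) ≤ 32 * W) {p : ℕ}
    (hmo : R1.Et x θ η t0 t1 a S.F (fun _ _ z2 => fr (S.A a z2) ^ (2 * p)) ≤
      2 * W ^ (2 * p)) :
    R1.Et x θ η t0 t1 s S.F (fun _ _ z2 => Q4 S s z2 ^ p) ≤ 3 * 36 ^ p * W ^ (2 * p) := by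
  have hc := S.c11
  have hx := S.x0
  have hf : EG fun z => fr (S.A a z) := eg_frC fun i j => S.eg_A a i j
  have hb : ∀ z, |fr (S.A a z) ^ (2 * p)| ≤ ((n : ℝ) ^ 2) ^ (2 * p) := fun z => by
    rw [abs_of_nonneg (pow_nonneg (frn _) _)]
    exact pow_le_pow_left₀ (frn _) (S.fr_A_le a z) _
  have eg2 : EG (cw x s a S.F fun z => fr (S.A a z) ^ (2 * p)) :=
    eg_cw hc hx hsa.le ha (hf.pow (2 * p)) hb
  have pt : ∀ z, Q4 S s z ^ p ≤ 36 ^ p * cw x s a S.F (fun z => fr (S.A a z) ^ (2 * p)) z +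
      36 ^ p * W ^ (2 * p) := by
    intro z
    have g2 := Q4_mk' hS hm hs hsa ha hW z
    set G := cw x s a S.F (fun z => fr (S.A a z) ^ 2) z with hG
    have hG0 : 0 ≤ G := cw_nonneg (fun y => sq_nonneg _) z
    have g3 : G ^ p ≤ cw x s a S.F (fun z => fr (S.A a z) ^ (2 * p)) z := by
      have := cw_pow_le hc hx hsa.le ha (hf.pow 2) (fun y => sq_nonneg _) z p
      simp only [← pow_mul] at this
      exact this
    have g4 : Q4 S s z ^ p ≤ (18 * G + 16 * W ^ 2) ^ p := pow_le_pow_left₀ (Q4_nonneg z) g2 p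
    have g5 : (18 * G + 16 * W ^ 2) ^ p ≤ 2 ^ (p - 1) * ((18 * G) ^ p + (16 * W ^ 2) ^ p) :=
      add_pow_le (by positivity) (by positivity) p
    have g6 : (2 : ℝ) ^ (p - 1) ≤ 2 ^ p := pow_le_pow_right₀ (by norm_num) (by omega)
    have g7 : (2 : ℝ) ^ (p - 1) * ((18 * G) ^ p + (16 * W ^ 2) ^ p) ≤
        2 ^ p * ((18 * G) ^ p + (18 * W ^ 2) ^ p) := by
      refine mul_le_mul g6 (add_le_add le_rfl (pow_le_pow_left₀ (by positivity) ?_ p))
        (by positivity) (by positivity)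
      nlinarith [sq_nonneg W]
    have e : (2 : ℝ) ^ p * ((18 * G) ^ p + (18 * W ^ 2) ^ p) =
        36 ^ p * G ^ p + 36 ^ p * W ^ (2 * p) := by
      rw [mul_pow, mul_pow, ← pow_mul, show (36 : ℝ) = 2 * 18 by norm_num, mul_pow]
      ring
    rw [e] at g7
    have g8 := mul_le_mul_of_nonneg_left g3 (by positivity : (0 : ℝ) ≤ 36 ^ p)
    linarith
  have e2 : E3 fun (_ _ z2 : Pair n → ℝ) => Q4 S s z2 ^ p := E3.of2 ((eg_Q4 (S := S)).pow p)
  have k1 := R1.Et_mono (θ := θ) (η := η) (t0 := t0) (t1 := t1) (s := s) hc hx e2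
    (((E3.of2 eg2).const_mul (36 ^ p)).add (E3.const (36 ^ p * W ^ (2 * p))))
    fun _ _ z2 => pt z2
  rw [R1.Et_add hc hx ((E3.of2 eg2).const_mul _) (E3.const _), R1.Et_const_mul,
    R1.Et_const hc hx, R1.Et_cw hc hx (hf.pow (2 * p)) eg2 h1 hsa.le ha] at k1
  have k2 := mul_le_mul_of_nonneg_left hmo (by positivity : (0 : ℝ) ≤ 36 ^ p)
  have e3 : (3 : ℝ) * 36 ^ p * W ^ (2 * p) = 36 ^ p * (2 * W ^ (2 * p)) + 36 ^ p * W ^ (2 * p) := by
    ring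
  rw [e3]
  linarith

end point

section fo

variable {n : ℕ} {β A δ T ρ Λ : ℝ} {q : Par} {S : CS n (kk n β) q.x} {L B M : ℝ}
  {HF TF : Pair n → Pair n → (Pair n → ℝ) → ℝ}

/-- the constant of (MK) -/
lemma mk_const (h : Fo n β A δ T ρ Λ S.y q S.F S.A S.DA) {s a : ℝ} (hh : T / 16 ≤ a - s) :
    4 / (kk n β ^ 2 * S.y ^ 2 * (a - s)) ≤ 32 * (A * R1C.NN n β ρ) := by
  have hy0 := S.y0
  have hy := h.yrT
  generalize S.y = y at hy0 hy ⊢
  have h1 := h.ρ1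
  have h2 := h.Tp
  have h3 := h.N0
  have hA := h.A1
  have hΛ := h.Λ1
  have hk : 0 < kk n β := S.k0
  have has : 0 < a - s := by linarith
  have e := kk_NN h
  rw [div_le_iff₀ (by positivity)]
  have e1 : 32 * (A * R1C.NN n β ρ) * (kk n β ^ 2 * y ^ 2 * (a - s)) =
      32 * A * (kk n β ^ 2 * R1C.NN n β ρ) * y ^ 2 * (a - s) := by ring
  rw [e1, e]
  have h4 : 64 * A * (y ^ 2 * ρ) * (T / 16) ≤ 64 * A * (y ^ 2 * ρ) * (a - s) :=
    mul_le_mul_of_nonneg_left hh (by positivity)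
  have h5 : 4 * 1 * 1 ≤ 4 * A * (y ^ 2 * ρ * T) :=
    mul_le_mul (by linarith) (hΛ.trans hy) zero_le_one (by positivity)
  nlinarith

/-- **moments of the four point functions at a time in `[t1, s2]`** -/
theorem moQ_s (h : Fo n β A δ T ρ Λ S.y q S.F S.A S.DA) (hS : Sm S.F S.D B L HF TF M)
    (hm : Mt q.x S.F S.mu) {s : ℝ} (hs : q.t1 ≤ s) (hs2 : s ≤ q.s2) {p : ℕ} (hp : p ≤ 50) :
    R1.Et q.x q.θ q.η q.t0 q.t1 s S.F (fun _ _ z2 => Q4 S s z2 ^ p) ≤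
      3 * 36 ^ p * (A * R1C.NN n β ρ) ^ (2 * p) := by
  have h1 := h.Tp
  have h2 := h.ht1
  have h3 := h.T1
  have h4 := h.hs2
  refine moQ_gen hS hm (a := s + T / 16) (by linarith) hs (by linarith) (by linarith)
    (mk_const h (by linarith)) ?_
  exact h.mo _ (by linarith) (by linarith) (2 * p) (by omega)

/-- **at the position `s1`** -/
theorem moQ2 (h : Fo n β A δ T ρ Λ S.y q S.F S.A S.DA) (hS : Sm S.F S.D B L HF TF M)
    (hm : Mt q.x S.F S.mu) {p : ℕ} (hp : p ≤ 50) :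
    En q S.F (fun w => Q4 S q.s1 (P2 q w) ^ p) ≤
      3 * 36 ^ p * (A * R1C.NN n β ρ) ^ (2 * p) := by
  have h1 := h.Tp
  have h2 := h.hs1
  have h3 := h.hs12
  rw [En_P2_eq (f := fun z => Q4 S q.s1 z ^ p) S.c11 h.ok ((eg_Q4 (S := S)).pow p)]
  exact moQ_s h hS hm h2.le (by linarith) hp

/-- **at the position `s2`** -/
theorem moQ3 (h : Fo n β A δ T ρ Λ S.y q S.F S.A S.DA) (hS : Sm S.F S.D B L HF TF M)
    (hm : Mt q.x S.F S.mu) {p : ℕ} (hp : p ≤ 50) :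
    En q S.F (fun w => Q4 S q.s2 (P3 q w) ^ p) ≤
      3 * 36 ^ p * (A * R1C.NN n β ρ) ^ (2 * p) := by
  have h1 := h.Tp
  have h2 := h.hs1
  have h3 := h.hs12
  rw [En_P3_eq (f := fun z => Q4 S q.s2 z ^ p) S.c11 h.ok ((eg_Q4 (S := S)).pow p)]
  exact moQ_s h hS hm (by linarith) le_rfl hp

/-- the defect against the two sums of squares -/
lemma KV_le_Q4 (s : ℝ) (z : Pair n → ℝ) : KV S s z ≤ 2 * Q4 S s z + 2 * fr (S.A s z) ^ 2 := by
  have e1 : ∑ i, ∑ j, ∑ p, ∑ r, (S.A s z i j * S.A s z p r) ^ 2 = fr (S.A s z) ^ 2 := by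
    unfold fr
    rw [_root_.sq, Finset.sum_mul_sum]
    refine Finset.sum_congr rfl fun i _ => ?_
    rw [Finset.sum_comm]
    refine Finset.sum_congr rfl fun p _ => ?_
    rw [Finset.sum_mul_sum]
    exact Finset.sum_congr rfl fun j _ => Finset.sum_congr rfl fun r _ => mul_pow _ _ _
  rw [← e1]
  unfold KV KT Q4
  simp only [Finset.mul_sum, ← Finset.sum_add_distrib]
  refine Finset.sum_le_sum fun i _ => Finset.sum_le_sum fun j _ =>
    Finset.sum_le_sum fun p _ => Finset.sum_le_sum fun r _ => ?_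
  nlinarith [sq_nonneg (S.T4 s z i j p r + S.A s z i j * S.A s z p r)]

/-- the fourth moment of the defect -/
lemma KV_four (s : ℝ) (z : Pair n → ℝ) :
    KV S s z ^ 4 ≤ 128 * Q4 S s z ^ 4 + 128 * fr (S.A s z) ^ 8 := by
  have h1 := pow_le_pow_left₀ (KV_nonneg S s z) (KV_le_Q4 s z) 4
  have h2 : (2 * Q4 S s z + 2 * fr (S.A s z) ^ 2) ^ 4 ≤
      2 ^ (4 - 1) * ((2 * Q4 S s z) ^ 4 + (2 * fr (S.A s z) ^ 2) ^ 4) :=
    add_pow_le (by have := Q4_nonneg (S := S) (s := s) z; positivity) (by positivity) 4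
  have e : (2 : ℝ) ^ (4 - 1) * ((2 * Q4 S s z) ^ 4 + (2 * fr (S.A s z) ^ 2) ^ 4) =
      128 * Q4 S s z ^ 4 + 128 * fr (S.A s z) ^ 8 := by
    norm_num
    ring
  linarith

/-- the constant of the fourth moments of the defect -/
noncomputable def cK : ℝ := 645000000

theorem moK2 (h : Fo n β A δ T ρ Λ S.y q S.F S.A S.DA) (hS : Sm S.F S.D B L HF TF M)
    (hm : Mt q.x S.F S.mu) :
    En q S.F (fun w => KV S q.s1 (P2 q w) ^ 4) ≤ cK * (A * R1C.NN n β ρ) ^ 8 := by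
  have hfr : ∀ s, EG fun z => fr (S.A s z) := fun s => eg_frC fun i j => S.eg_A s i j
  have h1 := moQ2 h hS hm (p := 4) (by norm_num)
  have h2 := h.mo2 S.c11 hfr (p := 8) (by norm_num)
  have h3 := En_mono S.c11 S.x0 (q := q) (eg_P2 ((eg_KV S q.s1).pow 4))
    ((eg_P2 (((eg_Q4 (S := S) (s := q.s1)).pow 4).const_mul 128)).add
      (eg_P2 (((hfr q.s1).pow 8).const_mul 128)))
    fun w => KV_four q.s1 (P2 q w)
  rw [En_add S.c11 S.x0 (eg_P2 (((eg_Q4 (S := S) (s := q.s1)).pow 4).const_mul 128))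
    (eg_P2 (((hfr q.s1).pow 8).const_mul 128)), En_const_mul, En_const_mul] at h3
  have h4 : 0 ≤ (A * R1C.NN n β ρ) ^ 8 := by positivity
  have e : (A * R1C.NN n β ρ) ^ (2 * 4) = (A * R1C.NN n β ρ) ^ 8 := by norm_num
  rw [e] at h1
  norm_num at h1
  unfold cK
  linarith

theorem moK3 (h : Fo n β A δ T ρ Λ S.y q S.F S.A S.DA) (hS : Sm S.F S.D B L HF TF M)
    (hm : Mt q.x S.F S.mu) :
    En q S.F (fun w => KV S q.s2 (P3 q w) ^ 4) ≤ cK * (A * R1C.NN n β ρ) ^ 8 := by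
  have hfr : ∀ s, EG fun z => fr (S.A s z) := fun s => eg_frC fun i j => S.eg_A s i j
  have h1 := moQ3 h hS hm (p := 4) (by norm_num)
  have h2 := h.mo3 S.c11 hfr (p := 8) (by norm_num)
  have h3 := En_mono S.c11 S.x0 (q := q) (eg_P3 ((eg_KV S q.s2).pow 4))
    ((eg_P3 (((eg_Q4 (S := S) (s := q.s2)).pow 4).const_mul 128)).add
      (eg_P3 (((hfr q.s2).pow 8).const_mul 128)))
    fun w => KV_four q.s2 (P3 q w)
  rw [En_add S.c11 S.x0 (eg_P3 (((eg_Q4 (S := S) (s := q.s2)).pow 4).const_mul 128))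
    (eg_P3 (((hfr q.s2).pow 8).const_mul 128)), En_const_mul, En_const_mul] at h3
  have h4 : 0 ≤ (A * R1C.NN n β ρ) ^ 8 := by positivity
  have e : (A * R1C.NN n β ρ) ^ (2 * 4) = (A * R1C.NN n β ρ) ^ 8 := by norm_num
  rw [e] at h1
  norm_num at h1
  unfold cK
  linarith

end fo

end Vale.Agent.P146.U.R1S
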