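import Vale.Agent.P146.H706.LamSum
import Vale.Agent.P146.U.H706_LawS
import Vale.Agent.P146.U.H816_SkT
import Vale.Agent.P146.U.NS

/-! P146, R1 (8c): the law change for all pairs, in numbers. -/

set_option linter.all false

open MeasureTheory ProbabilityTheory Finset

namespace Vale.Agent.P146.U.R1C

open Vale.Agent.P146.R1C hiding A1 A2 Av_lf_P0 Av_lf_P1 Av_lf_P2 Av_lf_P23 Av_lf_P23_row Av_lf_P3
  Ca Cd ClSk Dg En En_eq En_sum Ew Ew_eq Ew_one_pos Gb H4 H8 LamSk Nb Nd Nd_ind P0 P0_lp P0_sw P1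
  P1_lp P1_sw P2 P2_lp P2_sw P3 P3_lp P3_sw Par PrSk Sa Sa_ind Sd Sd_ind a1 a1_eq a2 a2_eq cl_sk
  dens dens_eq eg_A1 eg_A2 eg_Gb eg_Nd eg_Sa eg_Sd eg_Yd eg_dens eg_frNd eg_psi' ind_Gb ind_Yd
  ind_frNd int_ph lamSk_num lam_gen_num lam_gen_sk lam_le lam_sk law_low law_low_sk law_up
  law_up_sk lf_psi lip_psi pd_psi ph psi psi' psi_four_le psi_four_sk psi_sq_le

open Vale.Agent.P157.Lv Vale.Agent.P146.H425 Vale.Agent.P146.H325 Vale.Agent.P146.H332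
  Vale.Agent.P146.H706 Vale.Agent.P146.H522
open Vale.Agent.P146.H712 hiding eg_P0 eg_P1 eg_P2 eg_P3 k0 k1 k2 k3 pd_P0 pd_P1 pd_P2 pd_P3
  sum_k0 sum_k1 sum_k2 sum_k3
open Vale.Agent.P146.R1 hiding Et Et4 Et4_123 Et4_124 Et4_add Et4_const Et4_const_mul Et4_cs
  Et4_mono Et4_nonneg Et4_sub Et_add Et_const Et_const_mul Et_cs Et_fst_eq Et_jensen Et_mono
  Et_nonneg Et_sub Et_weight Et_zero Eu Eu4 Eu4_123 Eu4_124 Eu4_add Eu4_cond Eu4_const_mul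
  Eu4_iter Eu4_mono Eu4_nonneg Eu4_one_eq Eu4_one_eq' Eu4_one_pos Eu4_weight Eu_add Eu_const_mul
  Eu_fst Eu_fst_eq Eu_iter Eu_mono Eu_nonneg Eu_one Eu_one_eq Eu_one_pos Eu_weight Eu_zero
  Eu_zero_one Lth Lth_zero Qt dn dn_pos e3_dn eg_Eu eg_Eu4
open Vale.Agent.P146.U.H712 Vale.Agent.P146.U.R1

variable {n : ℕ} {k : ℝ} {q : Par}

/-- second moments of the columns at the three positions which enter the log density -/
def H4 (k : ℝ) (q : Par) (n : ℕ) (m4 : ℝ) : Prop :=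
  ∀ b b' : Fin n, b' ≠ b → ∀ c, c = b ∨ c = b' →
    ∫ w, ph q (lz k SkS) b b' w * vn (H816.col (AA k q.x q.s2 (P3 q w)) c) ^ 2
      ∂(gI (K4 (Pair n))) ≤ Ew q (lz k (SkS (n := n))) (fun _ => 1) * m4 ∧
    ∫ w, ph q (lz k SkS) b b' w * vn (H816.col (AA k q.x q.t1 (P1 q w)) c) ^ 2
      ∂(gI (K4 (Pair n))) ≤ Ew q (lz k (SkS (n := n))) (fun _ => 1) * m4 ∧
    ∫ w, ph q (lz k SkS) b b' w * vn (H816.col (AA k q.x q.t0 (P0 q w)) c) ^ 2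
      ∂(gI (K4 (Pair n))) ≤ Ew q (lz k (SkS (n := n))) (fun _ => 1) * m4

/-- eighth moments of the columns -/
def H8 (k : ℝ) (q : Par) (n : ℕ) (m8 : ℝ) : Prop :=
  ∀ b b' : Fin n, b' ≠ b → ∀ c, c = b ∨ c = b' →
    ∫ w, ph q (lz k SkS) b b' w * vn (H816.col (A1 k q w) c) ^ 4
      ∂(gI (K4 (Pair n))) ≤ Ew q (lz k (SkS (n := n))) (fun _ => 1) * m8 ∧
    ∫ w, ph q (lz k SkS) b b' w * vn (H816.col (A2 k q w) c) ^ 4
      ∂(gI (K4 (Pair n))) ≤ Ew q (lz k (SkS (n := n))) (fun _ => 1) * m8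

/-- **the law change for all the pairs** -/
theorem lamSk_num (hq : q.Ok) (hk : 0 ≤ k) (hl : 288 * q.x ^ 2 * k ^ 2 * n ≤ 1) {m4 m8 : ℝ}
    (hm4 : 0 ≤ m4) (h4 : H4 k q n m4) (h8 : H8 k q n m8) :
    LamSk k q (lz k (SkS (n := n))) fun _ _ =>
      Ew q (lz k (SkS (n := n))) (fun _ => 1) * (6 * q.x * k * √(√m4) * √m8) := by
  intro b b' hb U V X Y hU hV hX hY
  have hZ : 0 < Ew q (lz k (SkS (n := n))) (fun _ => 1) := Ew_one_pos c11_sk hq.x0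
  have g1 : ∀ c : Fin n, ∀ i, EG fun w => H816.col (A1 k q w) c i := fun c i => eg_A1 i c
  have g2 : ∀ c : Fin n, ∀ i, EG fun w => H816.col (A2 k q w) c i := fun c i => eg_A2 i c
  have key : ∀ {W : (K4 (Pair n) → ℝ) → Fin n → ℝ} {c : Fin n}, (c = b ∨ c = b') →
      (W = (fun w => H816.col (A1 k q w) c) ∨ W = (fun w => H816.col (A2 k q w) c)) →
      (∀ i, EG fun w => W w i) ∧ ∫ w, Av (lf (row b ∪ row b')) (dens q (lz k SkS)) w *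
        vs (W w) ^ 4 ∂(gI (K4 (Pair n))) ≤ Ew q (lz k (SkS (n := n))) (fun _ => 1) * m8 := by
    intro W c hc hW
    rcases hW with rfl | rfl
    · exact ⟨g1 c, (h8 b b' hb c hc).1⟩
    · exact ⟨g2 c, (h8 b b' hb c hc).2⟩
  obtain ⟨eU, mU⟩ := key (Or.inl rfl) hU
  obtain ⟨eV, mV⟩ := key (Or.inr rfl) hV
  obtain ⟨eX, mX⟩ := key (Or.inl rfl) hX
  obtain ⟨eY, mY⟩ := key (Or.inr rfl) hY
  have h1 := lam_sk hq b b' hl eU eV eX eY mU mV mX mY (fun c hc => (h4 b b' hb c hc).1)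
    (fun c hc => (h4 b b' hb c hc).2.1) (fun c hc => (h4 b b' hb c hc).2.2)
  rw [sqrt_num hZ.le hq.x0.le hk hm4] at h1
  exact h1

/-- the law change of a general functional, in numbers -/
theorem lam_gen_num (hq : q.Ok) (hk : 0 ≤ k) (hl : 288 * q.x ^ 2 * k ^ 2 * n ≤ 1) {m4 m : ℝ}
    (hm4 : 0 ≤ m4) (h4 : H4 k q n m4) {b b' : Fin n} (hb : b' ≠ b)
    {f : (K4 (Pair n) → ℝ) → ℝ} (hf : EG f)
    (hM : ∫ w, ph q (lz k SkS) b b' w * f w ^ 2 ∂(gI (K4 (Pair n))) ≤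
      Ew q (lz k (SkS (n := n))) (fun _ => 1) * m) :
    |∫ w, dens q (lz k SkS) w * f w ∂(gI (K4 (Pair n))) -
      ∫ w, ph q (lz k SkS) b b' w * f w ∂(gI (K4 (Pair n)))| ≤
      Ew q (lz k (SkS (n := n))) (fun _ => 1) * (6 * q.x * k * √(√m4) * √m) := by
  have hZ : 0 < Ew q (lz k (SkS (n := n))) (fun _ => 1) := Ew_one_pos c11_sk hq.x0
  have h1 := lam_gen_sk hq b b' hl hf hM (fun c hc => (h4 b b' hb c hc).1)
    (fun c hc => (h4 b b' hb c hc).2.1) (fun c hc => (h4 b b' hb c hc).2.2)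
  rw [sqrt_num hZ.le hq.x0.le hk hm4] at h1
  exact h1

end Vale.Agent.P146.U.R1C
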