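import Vale.Agent.P146.H816.SkN0
import Vale.Agent.P146.U.H325_Fo
import Vale.Agent.P146.U.NS

/-!
Plan R1: the moments of the size of the matrices under the law with the two rows averaged, and the
numbers of the errors of the item (8).
-/

open MeasureTheory ProbabilityTheory

namespace Vale.Agent.P146.U.R1C

open Vale.Agent.P146.R1C hiding Ca Cd En En_add En_const En_const_mul En_eq En_mono En_nonneg
  En_pow_le Ew Ew1_pos Ew_add Ew_const_mul Ew_eq Ew_mono Ew_nonneg Fo Fo.k_y Fo.kk0 Fo.kk2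
  Fo.kk_le Fo.mom_ph Fo.y1 Gb Low Nd P0 P0_sw P1 P1_sw P2 P2_sw P3 P3_sw Par Sa Sd den_pos dens
  eg_den int_Av_dens int_Av_one kk_NN low_int

open Vale.Agent.P157.Lv Vale.Agent.P146.H425 Vale.Agent.P146.H325 Vale.Agent.P146.H712
  Vale.Agent.P146.H816 Matrix
open Vale.Agent.P146.H332 hiding NN
open Vale.Agent.P146.R1 hiding Et Et4 Et4_123 Et4_124 Et4_add Et4_const Et4_const_mul Et4_cs
  Et4_mono Et4_nonneg Et4_sub Et_add Et_const Et_const_mul Et_cs Et_fst_eq Et_jensen Et_mono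
  Et_nonneg Et_sub Et_weight Et_zero Eu Eu4 Eu4_123 Eu4_124 Eu4_add Eu4_cond Eu4_const_mul
  Eu4_iter Eu4_mono Eu4_nonneg Eu4_one_eq Eu4_one_eq' Eu4_one_pos Eu4_weight Eu_add Eu_const_mul
  Eu_fst Eu_fst_eq Eu_iter Eu_mono Eu_nonneg Eu_one Eu_one_eq Eu_one_pos Eu_weight Eu_zero
  Eu_zero_one Lth Lth_zero Qt dn dn_pos e3_dn eg_Eu eg_Eu4
open Vale.Agent.P146.U.R1

set_option linter.unusedSectionVars false

section gen

variable {κ : Type} [Fintype κ] [DecidableEq κ] {q : Par} {F : (κ → ℝ) → ℝ}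
  {D : κ → (κ → ℝ) → ℝ} {B L : ℝ}

/-- The law change of nonnegative bounded functions, normalized, with the error `ε`. -/
def Low (q : Par) (F : (κ → ℝ) → ℝ) (R : Finset (K4 κ)) (ε : ℝ) : Prop :=
  ∀ (f : (K4 κ → ℝ) → ℝ) (K : ℝ), EG f → (∀ w, 0 ≤ f w) → (∀ w, f w ≤ K) →
    En q F (Av R f) ≤ 2 * En q F f + K * ε

lemma int_Av_dens (h : C11 F D B L) (hx : 0 < q.x) {R : Finset (K4 κ)}
    {f : (K4 κ → ℝ) → ℝ} (hf : EG f) :
    ∫ w, Av R (dens q F) w * f w ∂(gI (K4 κ)) = Ew q F (fun _ => 1) * En q F (Av R f) := by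
  have h1 : ∫ w, Av R (dens q F) w * f w ∂(gI (K4 κ)) = Ew q F (Av R f) :=
    (H706.int_mul_Av (eg_den h hx) hf).symm
  rw [h1]
  unfold En
  have := (Ew1_pos (q := q) h hx).ne'
  field_simp

lemma low_int (h : C11 F D B L) (hx : 0 < q.x) {R : Finset (K4 κ)} {ε : ℝ}
    (hl : Low q F R ε) {f : (K4 κ → ℝ) → ℝ} {K : ℝ} (hf : EG f) (h0 : ∀ w, 0 ≤ f w)
    (hK : ∀ w, f w ≤ K) :
    ∫ w, Av R (dens q F) w * f w ∂(gI (K4 κ)) ≤
      Ew q F (fun _ => 1) * (2 * En q F f + K * ε) := by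
  rw [int_Av_dens h hx hf]
  exact mul_le_mul_of_nonneg_left (hl f K hf h0 hK) (Ew1_pos h hx).le

lemma int_Av_one (h : C11 F D B L) (hx : 0 < q.x) {R : Finset (K4 κ)} :
    ∫ w, Av R (dens q F) w ∂(gI (K4 κ)) = Ew q F (fun _ => 1) := by
  rw [integral_Av R (eg_den h hx)]
  unfold Ew
  simp only [mul_one]

end gen

section mom

variable {n : ℕ} {β A δ T ρ Λ ye : ℝ} {q : Par} {F : (Pair n → ℝ) → ℝ}
  {AM : ℝ → (Pair n → ℝ) → Matrix (Fin n) (Fin n) ℝ}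
  {DM : ℝ → Pair n → (Pair n → ℝ) → Matrix (Fin n) (Fin n) ℝ}

/-- `y = k² A N = 2 A ρ` -/
lemma Fo.yA (h : Fo n β A δ T ρ Λ ye q F AM DM) : 1 ≤ 2 * A * ρ := by
  have h1 := h.ρ1
  have h2 := h.A1
  nlinarith

lemma Fo.k_y (h : Fo n β A δ T ρ Λ ye q F AM DM) : kk n β ^ 2 * (A * NN n β ρ) = 2 * A * ρ := by
  have h1 := kk_NN h
  calc kk n β ^ 2 * (A * NN n β ρ) = A * (kk n β ^ 2 * NN n β ρ) := by ring
    _ = _ := by rw [h1]; ring

lemma Fo.kk0 (h : Fo n β A δ T ρ Λ ye q F AM DM) : 0 < kk n β := by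
  have h2 := h.n0
  have h3 := h.β0
  unfold kk
  positivity

lemma Fo.kk2 (h : Fo n β A δ T ρ Λ ye q F AM DM) : kk n β ^ 2 * n = β ^ 2 := by
  have h2 := h.n0
  unfold kk
  rw [div_pow, Real.sq_sqrt (by positivity)]
  field_simp

lemma Fo.kk_le (h : Fo n β A δ T ρ Λ ye q F AM DM) : kk n β ^ 2 ≤ 1 := by
  have h2 := h.n0
  have h3 := h.kk2
  have h4 := h.βn
  by_contra hc
  push Not at hc
  nlinarith

/-- **The moments of the size under the law of a pair**, from the moments under the law. -/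
theorem Fo.mom_ph (h : Fo n β A δ T ρ Λ ye q F AM DM) {D : Pair n → (Pair n → ℝ) → ℝ} {B L : ℝ}
    (hc : C11 F D B L) {R : Finset (K4 (Pair n))} {ε : ℝ} (hl : Low q F R ε) (hε0 : 0 ≤ ε)
    (hε : (n : ℝ) ^ 20 * ε ≤ 1) {f : (K4 (Pair n) → ℝ) → ℝ} (hf : EG f) (h0 : ∀ w, 0 ≤ f w)
    (hK : ∀ w, f w ≤ (n : ℝ) ^ 2) {s : ℝ} (hs0 : 0 ≤ s) (hs1 : s ≤ 1) (p : ℕ) (hp : p ≤ 10)
    (hmo : En q F (fun w => f w ^ p) ≤ 2 * (A * NN n β ρ) ^ p) :
    ∫ w, Av R (dens q F) w * (s * kk n β ^ 2 * f w) ^ p ∂(gI (K4 (Pair n))) ≤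
      Ew q F (fun _ => 1) * (5 * (2 * A * ρ) ^ p) := by
  have hk := h.kk_le
  have hk0 : 0 ≤ kk n β ^ 2 := sq_nonneg _
  have hn := h.n0
  have h1 := low_int hc h.ok.x0 hl (hf.pow p) (fun w => pow_nonneg (h0 w) p)
    (K := ((n : ℝ) ^ 2) ^ p) (fun w => pow_le_pow_left₀ (h0 w) (hK w) p)
  have e1 : ∀ w, Av R (dens q F) w * (s * kk n β ^ 2 * f w) ^ p =
      (s * kk n β ^ 2) ^ p * (Av R (dens q F) w * f w ^ p) := by
    intro w
    rw [mul_pow]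
    ring
  simp only [e1]
  rw [integral_const_mul]
  have hZ := Ew1_pos (q := q) hc h.ok.x0
  have h3 : (s * kk n β ^ 2) ^ p ≤ (kk n β ^ 2) ^ p :=
    pow_le_pow_left₀ (by positivity) (by nlinarith) p
  have h4 : 0 ≤ ∫ w, Av R (dens q F) w * f w ^ p ∂(gI (K4 (Pair n))) := by
    refine integral_nonneg fun w => mul_nonneg (integral_nonneg fun w => (den_pos _).le) ?_
    exact pow_nonneg (h0 w) p
  have h5 : ((n : ℝ) ^ 2) ^ p * ε ≤ 1 := by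
    refine le_trans (mul_le_mul_of_nonneg_right ?_ hε0) hε
    rw [← pow_mul]
    exact pow_le_pow_right₀ (by linarith) (by omega)
  have h6 : (kk n β ^ 2) ^ p * (2 * (2 * (A * NN n β ρ) ^ p) + 1) ≤ 5 * (2 * A * ρ) ^ p := by
    have h7 : (kk n β ^ 2) ^ p * (A * NN n β ρ) ^ p = (2 * A * ρ) ^ p := by
      rw [← mul_pow, h.k_y]
    have h8 : (kk n β ^ 2) ^ p ≤ 1 := pow_le_one₀ hk0 hk
    have h9 : 1 ≤ (2 * A * ρ) ^ p := one_le_pow₀ h.yA
    calc (kk n β ^ 2) ^ p * (2 * (2 * (A * NN n β ρ) ^ p) + 1)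
        = 4 * ((kk n β ^ 2) ^ p * (A * NN n β ρ) ^ p) + (kk n β ^ 2) ^ p := by ring
      _ ≤ 4 * (2 * A * ρ) ^ p + 1 := by rw [h7]; linarith
      _ ≤ _ := by linarith
  calc (s * kk n β ^ 2) ^ p * ∫ w, Av R (dens q F) w * f w ^ p ∂(gI (K4 (Pair n)))
      ≤ (kk n β ^ 2) ^ p * ∫ w, Av R (dens q F) w * f w ^ p ∂(gI (K4 (Pair n))) :=
        mul_le_mul_of_nonneg_right h3 h4
    _ ≤ (kk n β ^ 2) ^ p * (Ew q F (fun _ => 1) * (2 * (2 * (A * NN n β ρ) ^ p) + 1)) := by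
        refine mul_le_mul_of_nonneg_left (h1.trans ?_) (by positivity)
        refine mul_le_mul_of_nonneg_left ?_ hZ.le
        linarith [hmo]
    _ = Ew q F (fun _ => 1) * ((kk n β ^ 2) ^ p * (2 * (2 * (A * NN n β ρ) ^ p) + 1)) := by ring
    _ ≤ _ := mul_le_mul_of_nonneg_left h6 hZ.le

end mom

/-! ### the numbers -/

section num

end num

end Vale.Agent.P146.U.R1C
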