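import Vale.Agent.P146.H941.HessS
import Vale.Agent.P146.U.H645_CSys
import Vale.Agent.P146.U.NS

/-!
Plan R1: for a position system the derivatives of the gradient of the value function form a
symmetric positive semidefinite matrix; hence the derivatives `DA` are bounded by `k`.
-/

open MeasureTheory ProbabilityTheory

namespace Vale.Agent.P146.U.R1S

open Vale.Agent.P146.R1S hiding CS

open Vale.Agent.P157.Lv Vale.Agent.P146.H425 Vale.Agent.P146.H325 Vale.Agent.P146.H332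
  Vale.Agent.P146.H712 Vale.Agent.P146.H816 Matrix
open Vale.Agent.P146.R1 hiding Et Et4 Et4_123 Et4_124 Et4_add Et4_const Et4_const_mul Et4_cs
  Et4_mono Et4_nonneg Et4_sub Et_add Et_const Et_const_mul Et_cs Et_fst_eq Et_jensen Et_mono
  Et_nonneg Et_sub Et_weight Et_zero Eu Eu4 Eu4_123 Eu4_124 Eu4_add Eu4_cond Eu4_const_mul
  Eu4_iter Eu4_mono Eu4_nonneg Eu4_one_eq Eu4_one_eq' Eu4_one_pos Eu4_weight Eu_add Eu_const_mul
  Eu_fst Eu_fst_eq Eu_iter Eu_mono Eu_nonneg Eu_one Eu_one_eq Eu_one_pos Eu_weight Eu_zero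
  Eu_zero_one Lth Lth_zero Qt dn dn_pos e3_dn eg_Eu eg_Eu4
open Vale.Agent.P146.R1C hiding Ca Cd En En_eq Ew Ew_eq Gb Nd P0 P0_sw P1 P1_sw P2 P2_sw P3 P3_sw
  Par Sa Sd dens
open Vale.Agent.P146.U.R1 Vale.Agent.P146.U.R1C

set_option linter.unusedSectionVars false

section gen

variable {κ : Type} [Fintype κ] [DecidableEq κ] {G : (κ → ℝ) → ℝ} {D : κ → (κ → ℝ) → ℝ}
  {Q : κ → κ → (κ → ℝ) → ℝ}

end gen

variable {n : ℕ} {k x : ℝ} (S : CS n k x)

namespace CS

lemma fd_uu (s : ℝ) (z : Pair n → ℝ) :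
    HasFDerivAt (uu x s S.F) (H785.lf fun e => k * S.A s z e.1.1 e.1.2) z := by
  have h := H785.C11.hasFDerivAt (c11_uu S.c11 S.x0 s) z
  have e : (fun e => dd x s S.F S.D e z) = fun e : Pair n => k * S.A s z e.1.1 e.1.2 := by
    funext e
    exact S.dd_eq s e z
  rwa [e] at h

lemma cv_uu (s : ℝ) : Cv (uu x s S.F) := by
  intro a b ha hb hab y0 y1
  have e : ∀ y, uu x s S.F y = W x 1 (fun w => S.F (y + √(1 - s) • w)) 0 := fun y => by
    unfold uu W
    simp
  rw [e, e, e]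
  have h0 := S.c11.shift (a • y0 + b • y1) (√(1 - s))
  have h1 := S.c11.shift y0 (√(1 - s))
  have h2 := S.c11.shift y1 (√(1 - s))
  have hx := S.x0
  have h3 := layer (x0 := x) (x1 := x) h0 h1.lip h1.B0 h2.lip h2.B0 hx hx ha hb hab
    (fun w0 w1 => by
      have h4 := S.cv a b ha hb hab (y0 + √(1 - s) • w0) (y1 + √(1 - s) • w1)
      refine le_trans (le_of_eq ?_) h4
      congr 1
      funext e
      simp only [Pi.add_apply, Pi.smul_apply, smul_eq_mul]
      ring) 0 0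
  have h5 : a * x + b * x = x := by rw [← add_mul, hab, one_mul]
  rw [h5] at h3
  simpa using h3

lemma fd_kA (s : ℝ) (e : Pair n) (z : Pair n → ℝ) :
    HasFDerivAt (fun z => k * S.A s z e.1.1 e.1.2)
      (H785.lf fun f => k * S.DA s f z e.1.1 e.1.2) z := by
  refine ((S.fd_A s e.1.1 e.1.2 z).const_mul k).congr_fderiv ?_
  ext w
  simp only [_root_.smul_apply, H785.lf_apply, smul_eq_mul, Finset.mul_sum]
  exact Finset.sum_congr rfl fun f _ => by ring

/-- **The derivatives are symmetric.** -/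
theorem DA_symm (s : ℝ) (e f : Pair n) (z : Pair n → ℝ) :
    S.DA s f z e.1.1 e.1.2 = S.DA s e z f.1.1 f.1.2 := by
  have h := sym_gen (G := uu x s S.F) (D := fun e z => k * S.A s z e.1.1 e.1.2)
    (Q := fun e f z => k * S.DA s f z e.1.1 e.1.2) (fun y => S.fd_uu s y)
    (fun e y => S.fd_kA s e y) e f z
  exact mul_left_cancel₀ S.k0.ne' h

/-- **The derivatives are positive semidefinite.** -/
theorem DA_psd (s : ℝ) (z v : Pair n → ℝ) :
    0 ≤ ∑ e : Pair n, ∑ f : Pair n, S.DA s e z f.1.1 f.1.2 * v e * v f := by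
  have h := psd_gen (G := uu x s S.F) (D := fun e z => k * S.A s z e.1.1 e.1.2)
    (Q := fun e f z => k * S.DA s f z e.1.1 e.1.2) (S.cv_uu s) (fun y => S.fd_uu s y)
    (fun e y => S.fd_kA s e y) z v
  have e1 : ∑ e : Pair n, ∑ f : Pair n, k * S.DA s f z e.1.1 e.1.2 * v e * v f =
      k * ∑ e : Pair n, ∑ f : Pair n, S.DA s e z f.1.1 f.1.2 * v e * v f := by
    rw [Finset.mul_sum]
    refine Finset.sum_congr rfl fun e _ => ?_
    rw [Finset.mul_sum]
    exact Finset.sum_congr rfl fun f _ => by rw [S.DA_symm s e f z]; ring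
  rw [e1] at h
  exact nonneg_of_mul_nonneg_right h S.k0

lemma DA_diag_le {s : ℝ} (hs : 0 < s) (e : Pair n) (z : Pair n → ℝ) :
    S.DA s e z e.1.1 e.1.2 ≤ k := by
  have he : e ∈ row e.1.2 := mem_row.2 (Or.inr rfl)
  have h1 := S.DA_row hs he z e.1.1
  have h2 : oth e.1.2 e = e.1.1 := by
    unfold oth
    rw [if_neg (ne_of_lt e.2)]
  rw [h2] at h1
  rw [h1]
  have h3 := S.H_le hs e.1.2 z (Pi.single e.1.1 1)
  have h4 : ∀ M : Fin n → Fin n → ℝ, qf M (Pi.single e.1.1 1) = M e.1.1 e.1.1 := by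
    intro M
    unfold qf
    simp only [Pi.single_apply, ite_mul, one_mul, zero_mul, mul_ite, mul_one, mul_zero,
      Finset.sum_ite_eq', Finset.mem_univ, if_true]
  rw [h4, h4, S.A_self] at h3
  calc k * S.H s e.1.2 z e.1.1 e.1.1 ≤ k * 1 := mul_le_mul_of_nonneg_left h3 S.k0.le
    _ = k := mul_one k

/-- **The derivatives are bounded by `k`.** -/
theorem abs_DA {s : ℝ} (hs : 0 < s) (e : Pair n) (z : Pair n → ℝ) (i j : Fin n) :
    |S.DA s e z i j| ≤ k := by
  have key : ∀ e f : Pair n, |S.DA s e z f.1.1 f.1.2| ≤ k := fun e f =>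
    entry_gen (M := fun e f : Pair n => S.DA s e z f.1.1 f.1.2)
      (fun e f => S.DA_symm s f e z) (fun v => S.DA_psd s z v)
      (fun e => S.DA_diag_le hs e z) e f
  rcases lt_trichotomy i j with h | h | h
  · exact key e ⟨(i, j), h⟩
  · subst h
    rw [S.DA_self, abs_zero]
    exact S.k0.le
  · rw [S.DA_comm]
    exact key e ⟨(j, i), h⟩

lemma DA_sq_le {s : ℝ} (hs : 0 < s) (e : Pair n) (z : Pair n → ℝ) (i j : Fin n) :
    S.DA s e z i j ^ 2 ≤ k ^ 2 := by
  rw [← sq_abs]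
  exact pow_le_pow_left₀ (abs_nonneg _) (S.abs_DA hs e z i j) 2

end CS

end Vale.Agent.P146.U.R1S
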