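import Vale.Agent.P146.H941.McolS
import Vale.Agent.P146.U.H332_CDef
import Vale.Agent.P146.U.H712_Pos
import Vale.Agent.P146.U.H645_CSys
import Vale.Agent.P146.U.NS

/-!
Plan R1, block C: the columns of the matrices of a position system are odd functions of their row,
and their moments over the Gaussian row are bounded by the moments of `k² |C|²`.
-/

open MeasureTheory ProbabilityTheory

namespace Vale.Agent.P146.U.R1S

open Vale.Agent.P146.R1S hiding A_flip Av_Uc CS Uc Uc' cm1 cm2 cm3 cm4 cm_gen col2 col4 col6 col8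
  eg_Uc eg_Uc' eg_Y full_gen int_gen odd_col pd_Uc sum_Uc'_le vn_col_Uc

open Vale.Agent.P157.Lv Vale.Agent.P146.H325 Vale.Agent.P146.H332
open Vale.Agent.P146.H712 hiding eg_P0 eg_P1 eg_P2 eg_P3 k0 k1 k2 k3 pd_P0 pd_P1 pd_P2 pd_P3
  sum_k0 sum_k1 sum_k2 sum_k3
open Vale.Agent.P146.R1C hiding Ca Cd En En_eq Ew Ew_eq Gb Nd P0 P0_sw P1 P1_sw P2 P2_sw P3 P3_sw
  Par Sa Sd dens
open Vale.Agent.P146.R1 hiding Et Et4 Et4_123 Et4_124 Et4_add Et4_const Et4_const_mul Et4_cs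
  Et4_mono Et4_nonneg Et4_sub Et_add Et_const Et_const_mul Et_cs Et_fst_eq Et_jensen Et_mono
  Et_nonneg Et_sub Et_weight Et_zero Eu Eu4 Eu4_123 Eu4_124 Eu4_add Eu4_cond Eu4_const_mul
  Eu4_iter Eu4_mono Eu4_nonneg Eu4_one_eq Eu4_one_eq' Eu4_one_pos Eu4_weight Eu_add Eu_const_mul
  Eu_fst Eu_fst_eq Eu_iter Eu_mono Eu_nonneg Eu_one Eu_one_eq Eu_one_pos Eu_weight Eu_zero
  Eu_zero_one Lth Lth_zero Qt dn dn_pos e3_dn eg_Eu eg_Eu4
open Vale.Agent.P146.U.H712 Vale.Agent.P146.U.R1C Vale.Agent.P146.U.R1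

open Vale.Agent.P146.H326 (mom1 mom2 mom3 mom4)

set_option linter.unusedSectionVars false

variable {n : ℕ} {k x s : ℝ} {b : Fin n} (S : CS n k x)

lemma A_flip {i : Fin n} (hi : i ≠ b) (v : Pair n → ℝ) :
    S.A s (fun e => sg b e * v e) i b = -S.A s v i b := S.A_fl_row s hi v

variable (c : Fin 4 → ℝ)

/-- **The columns are odd in their row.** -/
lemma odd_col {i : Fin n} (hi : i ≠ b) (w : K4 (Pair n) → ℝ) :
    Av (lf (row b)) (fun w => S.A s (H712.lp c w) i b) w = 0 := by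
  have hm : Measurable fun v : K4 (Pair n) → ℝ => S.A s (H712.lp c (sw (lf (row b)) w v)) i b :=
    (eg_sw (R := lf (row b)) (eg_lp c (S.eg_A s i b)) w).meas
  have h1 := int_flip (ε := fun j : K4 (Pair n) => sg b (bs j)) (fun j => sg_sq b _) hm
  have h2 : ∀ v : K4 (Pair n) → ℝ, H712.lp c (sw (lf (row b)) w fun j => sg b (bs j) * v j) =
      fun e => if e ∈ row b then sg b e * H712.lp c (sw (lf (row b)) w v) e
        else H712.lp c (sw (lf (row b)) w v) e := by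
    intro v
    funext e
    by_cases he : e ∈ row b
    · rw [if_pos he]
      simp only [H712.lp, sw, mem_lf_bs, he, if_true, bs]
      ring
    · rw [if_neg he]
      simp only [H712.lp, sw, mem_lf_bs, he, if_false, bs]
  have h3 : ∀ v : K4 (Pair n) → ℝ, H712.lp c (sw (lf (row b)) w fun j => sg b (bs j) * v j) =
      fun e => sg b e * H712.lp c (sw (lf (row b)) w v) e := by
    intro v
    rw [h2]
    funext e
    by_cases he : e ∈ row b
    · rw [if_pos he]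
    · rw [if_neg he]
      unfold sg
      rw [if_neg he, one_mul]
  simp only [h3, A_flip S hi, integral_neg] at h1
  show ∫ v, S.A s (H712.lp c (sw (lf (row b)) w v)) i b ∂(gI (K4 (Pair n))) = 0
  linarith

/-- the column without its diagonal entry -/
noncomputable def Uc (s : ℝ) (c : Fin 4 → ℝ) (b i : Fin n) (w : K4 (Pair n) → ℝ) : ℝ :=
  if i = b then 0 else S.A s (H712.lp c w) i b

/-- its derivatives -/
noncomputable def Uc' (s : ℝ) (c : Fin 4 → ℝ) (b i : Fin n) (j : K4 (Pair n))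
    (w : K4 (Pair n) → ℝ) : ℝ :=
  if i = b then 0 else c (bl j) * S.DA s (bs j) (H712.lp c w) i b

lemma eg_Uc (i : Fin n) : EG (Uc S s c b i) := by
  unfold Uc
  by_cases hi : i = b
  · simp only [hi, if_true]; exact EG.const 0
  · simp only [hi, if_false]; exact eg_lp c (S.eg_A s i b)

lemma eg_Uc' (i : Fin n) (j : K4 (Pair n)) : EG (Uc' S s c b i j) := by
  unfold Uc'
  by_cases hi : i = b
  · simp only [hi, if_true]; exact EG.const 0
  · simp only [hi, if_false]; exact (eg_lp c (S.eg_DA s (bs j) i b)).const_mul _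

lemma pd_Uc (i : Fin n) (j : K4 (Pair n)) : PD j (Uc S s c b i) (Uc' S s c b i j) := by
  unfold Uc Uc'
  by_cases hi : i = b
  · simp only [hi, if_true]; exact PD.const 0
  · simp only [hi, if_false]; exact pd_lp c (S.pd_A s (bs j) i b)

lemma Av_Uc (i : Fin n) (w : K4 (Pair n) → ℝ) : Av (lf (row b)) (Uc S s c b i) w = 0 := by
  unfold Uc
  by_cases hi : i = b
  · simp only [hi, if_true]; exact Av_const 0 w
  · simp only [hi, if_false]; exact odd_col S c hi w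

lemma vn_col_Uc (b : Fin n) (w : K4 (Pair n) → ℝ) :
    vn (H816.col (S.A s (H712.lp c w)) b) = 1 + ∑ i, Uc S s c b i w ^ 2 := by
  have h1 : ∀ i, S.A s (H712.lp c w) i b ^ 2 =
      (if i = b then 1 else 0) + Uc S s c b i w ^ 2 := by
    intro i
    unfold Uc
    by_cases hi : i = b
    · rw [if_pos hi, if_pos hi, hi, S.A_self]; ring
    · rw [if_neg hi, if_neg hi]; ring
  unfold vn H816.col
  simp only [h1, Finset.sum_add_distrib, Finset.sum_ite_eq', Finset.mem_univ, if_true]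

variable (hcs : c 0 ^ 2 + c 1 ^ 2 + c 2 ^ 2 + c 3 ^ 2 = s) (hs : 0 < s)
include hcs hs

lemma sum_Uc'_le (w : K4 (Pair n) → ℝ) :
    ∑ i, ∑ j ∈ lf (row b), Uc' S s c b i j w ^ 2 ≤
      s * (k ^ 2 * fr (S.A s (H712.lp c w))) := by
  have h1 : ∀ i, ∑ j ∈ lf (row b), Uc' S s c b i j w ^ 2 ≤
      s * ∑ e ∈ row b, S.DA s e (H712.lp c w) i b ^ 2 := by
    intro i
    have h2 := sum_lp_sq c (row b) fun e => S.DA s e (H712.lp c w) i b
    rw [hcs] at h2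
    rw [← h2]
    refine Finset.sum_le_sum fun j _ => ?_
    unfold Uc'
    split_ifs
    · rw [zero_pow two_ne_zero]; exact sq_nonneg _
    · exact le_rfl
  refine (Finset.sum_le_sum fun i _ => h1 i).trans ?_
  rw [← Finset.mul_sum, Finset.sum_comm]
  exact mul_le_mul_of_nonneg_left (S.row_grad hs b _) hs.le

omit hcs hs in
lemma eg_Y : EG fun w : K4 (Pair n) → ℝ => s * (k ^ 2 * fr (S.A s (H712.lp c w))) := by
  unfold fr
  exact ((EG.sum _ fun i _ => EG.sum _ fun j _ => (eg_lp c (S.eg_A s i j)).pow 2).const_mul _).const_mul _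

lemma cm_gen {p : ℕ} {C : ℝ} (hC : 0 ≤ C) (z : K4 (Pair n) → ℝ)
    (h : Av (lf (row b)) (fun w => (∑ i, Uc S s c b i w ^ 2) ^ p) z ≤
      C * Av (lf (row b)) (fun w => (∑ i, ∑ j ∈ lf (row b), Uc' S s c b i j w ^ 2) ^ p) z) :
    Av (lf (row b)) (fun w => (∑ i, Uc S s c b i w ^ 2) ^ p) z ≤
      C * Av (lf (row b)) (fun w => (s * (k ^ 2 * fr (S.A s (H712.lp c w)))) ^ p) z := by
  refine h.trans (mul_le_mul_of_nonneg_left ?_ hC)
  refine Av_mono ((EG.sum _ fun i _ => EG.sum _ fun j _ => (eg_Uc' S c i j).pow 2).pow p)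
    ((eg_Y S c).pow p) (fun w => ?_) z
  exact pow_le_pow_left₀ (Finset.sum_nonneg fun i _ => Finset.sum_nonneg fun j _ => sq_nonneg _)
    (sum_Uc'_le S c hcs hs w) p

lemma cm1 (z : K4 (Pair n) → ℝ) : Av (lf (row b)) (fun w => (∑ i, Uc S s c b i w ^ 2) ^ 1) z ≤
    1 * Av (lf (row b)) (fun w => (s * (k ^ 2 * fr (S.A s (H712.lp c w)))) ^ 1) z := by
  refine cm_gen S c hcs hs zero_le_one z ?_
  simp only [pow_one, one_mul]
  exact mom1 (eg_Uc S c) (fun i j _ => pd_Uc S c i j) (eg_Uc' S c) z fun i => Av_Uc S c i z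

lemma cm2 (z : K4 (Pair n) → ℝ) : Av (lf (row b)) (fun w => (∑ i, Uc S s c b i w ^ 2) ^ 2) z ≤
    18 * Av (lf (row b)) (fun w => (s * (k ^ 2 * fr (S.A s (H712.lp c w)))) ^ 2) z :=
  cm_gen S c hcs hs (by norm_num) z
    (mom2 (eg_Uc S c) (fun i j _ => pd_Uc S c i j) (eg_Uc' S c) z fun i => Av_Uc S c i z)

lemma cm3 (z : K4 (Pair n) → ℝ) : Av (lf (row b)) (fun w => (∑ i, Uc S s c b i w ^ 2) ^ 3) z ≤
    1222 * Av (lf (row b)) (fun w => (s * (k ^ 2 * fr (S.A s (H712.lp c w)))) ^ 3) z :=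
  cm_gen S c hcs hs (by norm_num) z
    (mom3 (eg_Uc S c) (fun i j _ => pd_Uc S c i j) (eg_Uc' S c) z fun i => Av_Uc S c i z)

lemma cm4 (z : K4 (Pair n) → ℝ) : Av (lf (row b)) (fun w => (∑ i, Uc S s c b i w ^ 2) ^ 4) z ≤
    111240 * Av (lf (row b)) (fun w => (s * (k ^ 2 * fr (S.A s (H712.lp c w)))) ^ 4) z :=
  cm_gen S c hcs hs (by norm_num) z
    (mom4 (eg_Uc S c) (fun i j _ => pd_Uc S c i j) (eg_Uc' S c) z fun i => Av_Uc S c i z)

omit hcs hs in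
lemma int_gen {φ : (K4 (Pair n) → ℝ) → ℝ} (hφ : EG φ) (h0 : ∀ w, 0 ≤ φ w)
    (hi : Ind (lf (row b)) φ) {p : ℕ} {C : ℝ}
    (h : ∀ z, Av (lf (row b)) (fun w => (∑ i, Uc S s c b i w ^ 2) ^ p) z ≤
      C * Av (lf (row b)) (fun w => (s * (k ^ 2 * fr (S.A s (H712.lp c w)))) ^ p) z) :
    ∫ w, φ w * (∑ i, Uc S s c b i w ^ 2) ^ p ∂(gI (K4 (Pair n))) ≤
      C * ∫ w, φ w * (s * (k ^ 2 * fr (S.A s (H712.lp c w)))) ^ p ∂(gI (K4 (Pair n))) := by
  have e1 : EG fun w => (∑ i, Uc S s c b i w ^ 2) ^ p :=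
    (EG.sum _ fun i _ => (eg_Uc S c i).pow 2).pow p
  have e2 : EG fun w : K4 (Pair n) → ℝ => (s * (k ^ 2 * fr (S.A s (H712.lp c w)))) ^ p :=
    (eg_Y S c).pow p
  rw [integral_weight hφ hi e1, integral_weight hφ hi e2, ← integral_const_mul]
  refine integral_mono (hφ.mul (eg_Av _ e1)).integrable
    ((hφ.mul (eg_Av _ e2)).integrable.const_mul C) fun w => ?_
  have := mul_le_mul_of_nonneg_left (h w) (h0 w)
  calc _ ≤ _ := this
    _ = _ := by ring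

/-- **Second moments of a column.** -/
theorem col2 {φ : (K4 (Pair n) → ℝ) → ℝ} (hφ : EG φ) (h0 : ∀ w, 0 ≤ φ w)
    (hi : Ind (lf (row b)) φ) :
    ∫ w, φ w * (∑ i, Uc S s c b i w ^ 2) ^ 1 ∂(gI (K4 (Pair n))) ≤
      1 * ∫ w, φ w * (s * (k ^ 2 * fr (S.A s (H712.lp c w)))) ^ 1 ∂(gI (K4 (Pair n))) :=
  int_gen S c hφ h0 hi (cm1 S c hcs hs)

/-- **Fourth moments of a column.** -/
theorem col4 {φ : (K4 (Pair n) → ℝ) → ℝ} (hφ : EG φ) (h0 : ∀ w, 0 ≤ φ w)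
    (hi : Ind (lf (row b)) φ) :
    ∫ w, φ w * (∑ i, Uc S s c b i w ^ 2) ^ 2 ∂(gI (K4 (Pair n))) ≤
      18 * ∫ w, φ w * (s * (k ^ 2 * fr (S.A s (H712.lp c w)))) ^ 2 ∂(gI (K4 (Pair n))) :=
  int_gen S c hφ h0 hi (cm2 S c hcs hs)

omit hcs hs in
lemma full_gen {φ : (K4 (Pair n) → ℝ) → ℝ} (hφ : EG φ) (h0 : ∀ w, 0 ≤ φ w) {p : ℕ} {C a : ℝ}
    (ha : ∀ u : ℝ, 0 ≤ u → (1 + u) ^ p ≤ a * (1 + u ^ p)) (ha0 : 0 ≤ a)
    (h : ∫ w, φ w * (∑ i, Uc S s c b i w ^ 2) ^ p ∂(gI (K4 (Pair n))) ≤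
      C * ∫ w, φ w * (s * (k ^ 2 * fr (S.A s (H712.lp c w)))) ^ p ∂(gI (K4 (Pair n)))) :
    ∫ w, φ w * vn (H816.col (S.A s (H712.lp c w)) b) ^ p ∂(gI (K4 (Pair n))) ≤
      a * ((∫ w, φ w ∂(gI (K4 (Pair n)))) +
        C * ∫ w, φ w * (s * (k ^ 2 * fr (S.A s (H712.lp c w)))) ^ p ∂(gI (K4 (Pair n)))) := by
  have e1 : EG fun w => ∑ i, Uc S s c b i w ^ 2 := EG.sum _ fun i _ => (eg_Uc S c i).pow 2
  have h1 : ∫ w, φ w * vn (H816.col (S.A s (H712.lp c w)) b) ^ p ∂(gI (K4 (Pair n))) ≤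
      ∫ w, a * (φ w + φ w * (∑ i, Uc S s c b i w ^ 2) ^ p) ∂(gI (K4 (Pair n))) := by
    simp only [vn_col_Uc S c]
    refine integral_mono (hφ.mul (((EG.const 1).add e1).pow p)).integrable
      ((hφ.add (hφ.mul (e1.pow p))).const_mul a).integrable fun w => ?_
    have h2 := ha _ (Finset.sum_nonneg fun i (_ : i ∈ Finset.univ) => sq_nonneg (Uc S s c b i w))
    have h3 := mul_le_mul_of_nonneg_left h2 (h0 w)
    calc _ ≤ _ := h3
      _ = _ := by ring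
  rw [integral_const_mul, integral_add hφ.integrable (hφ.mul (e1.pow p)).integrable] at h1
  exact h1.trans (mul_le_mul_of_nonneg_left (add_le_add le_rfl h) ha0)

/-- **Sixth moments of a column.** -/
theorem col6 {φ : (K4 (Pair n) → ℝ) → ℝ} (hφ : EG φ) (h0 : ∀ w, 0 ≤ φ w)
    (hi : Ind (lf (row b)) φ) :
    ∫ w, φ w * vn (H816.col (S.A s (H712.lp c w)) b) ^ 3 ∂(gI (K4 (Pair n))) ≤
      4 * ((∫ w, φ w ∂(gI (K4 (Pair n)))) +
        1222 * ∫ w, φ w * (s * (k ^ 2 * fr (S.A s (H712.lp c w)))) ^ 3 ∂(gI (K4 (Pair n)))) := by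
  refine full_gen S c hφ h0 (fun u hu => ?_) (by norm_num)
    (int_gen S c hφ h0 hi (cm3 S c hcs hs))
  nlinarith [mul_nonneg hu (sq_nonneg (u - 1)), sq_nonneg (u - 1)]

/-- **Eighth moments of a column.** -/
theorem col8 {φ : (K4 (Pair n) → ℝ) → ℝ} (hφ : EG φ) (h0 : ∀ w, 0 ≤ φ w)
    (hi : Ind (lf (row b)) φ) :
    ∫ w, φ w * vn (H816.col (S.A s (H712.lp c w)) b) ^ 4 ∂(gI (K4 (Pair n))) ≤
      8 * ((∫ w, φ w ∂(gI (K4 (Pair n)))) +
        111240 * ∫ w, φ w * (s * (k ^ 2 * fr (S.A s (H712.lp c w)))) ^ 4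
          ∂(gI (K4 (Pair n)))) := by
  refine full_gen S c hφ h0 (fun u hu => ?_) (by norm_num)
    (int_gen S c hφ h0 hi (cm4 S c hcs hs))
  nlinarith [sq_nonneg (u ^ 2 - 1), sq_nonneg (u - 1), mul_nonneg hu (sq_nonneg (u - 1)),
    mul_nonneg (sq_nonneg u) (sq_nonneg (u - 1))]

end Vale.Agent.P146.U.R1S
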