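import Vale.Agent.P146.H941.TouS
import Vale.Agent.P146.U.H941_McolS
import Vale.Agent.P146.U.H941_HessS
import Vale.Agent.P146.U.H332_CDef
import Vale.Agent.P146.U.H712_Pos
import Vale.Agent.P146.U.NS

/-!
Plan R1, block C, for a position system: the touches. The effect of averaging the row of `b'` on
the column of `b`, and its sum over the pairs of sites.
-/

open MeasureTheory ProbabilityTheory

namespace Vale.Agent.P146.U.R1S

open Vale.Agent.P146.R1S hiding A_flip Av_Uc CS Uc Uc' cm1 cm2 cm3 cm4 cm_gen col2 col4 col6 col8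
  eg_Uc eg_Uc' eg_Y eg_rat eg_tch full_gen int_gen odd_col pd_Uc rat sum_Uc'_le sum_tch tch tch_le
  tch_nonneg touch vn_col_Uc

open Vale.Agent.P157.Lv Vale.Agent.P146.H325 Vale.Agent.P146.H332
open Vale.Agent.P146.H712 hiding eg_P0 eg_P1 eg_P2 eg_P3 k0 k1 k2 k3 pd_P0 pd_P1 pd_P2 pd_P3
  sum_k0 sum_k1 sum_k2 sum_k3
open Vale.Agent.P146.R1C hiding Ca Cd En En_eq Ew Ew_eq Gb Nd P0 P0_sw P1 P1_sw P2 P2_sw P3 P3_sw
  Par Sa Sd dens
open Vale.Agent.P146.R1 hiding Et Et4 Et4_123 Et4_124 Et4_add Et4_const Et4_const_mul Et4_cs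
  Et4_mono Et4_nonneg Et4_sub Et_add Et_const Et_const_mul Et_cs Et_fst_eq Et_jensen Et_mono
  Et_nonneg Et_sub Et_weight Et_zero Eu Eu4 Eu4_123 Eu4_124 Eu4_add Eu4_cond Eu4_const_mul
  Eu4_iter Eu4_mono Eu4_nonneg Eu4_one_eq Eu4_one_eq' Eu4_one_pos Eu4_weight Eu_add Eu_const_mul
  Eu_fst Eu_fst_eq Eu_iter Eu_mono Eu_nonneg Eu_one Eu_one_eq Eu_one_pos Eu_weight Eu_zero
  Eu_zero_one Lth Lth_zero Qt dn dn_pos e3_dn eg_Eu eg_Eu4
open Vale.Agent.P146.U.H712 Vale.Agent.P146.U.R1C Vale.Agent.P146.U.R1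

open Vale.Agent.P146.H326 (sum_lp card_row_le)

set_option linter.unusedSectionVars false

variable {n : ℕ} {k x s : ℝ} (S : CS n k x)

/-- the rate of the row of `b'` on the column of `b` -/
noncomputable def tch (s : ℝ) (c : Fin 4 → ℝ) (b b' : Fin n) (w : K4 (Pair n) → ℝ) : ℝ :=
  ∑ e ∈ row b', ∑ i, S.DA s e (H712.lp c w) i b ^ 2

/-- the total rate -/
noncomputable def rat (s : ℝ) (c : Fin 4 → ℝ) (w : K4 (Pair n) → ℝ) : ℝ :=
  ∑ e : Pair n, fr (S.DA s e (H712.lp c w))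

lemma tch_nonneg (c : Fin 4 → ℝ) (b b' : Fin n) (w : K4 (Pair n) → ℝ) :
    0 ≤ tch S s c b b' w :=
  Finset.sum_nonneg fun _ _ => Finset.sum_nonneg fun _ _ => sq_nonneg _

lemma eg_tch (c : Fin 4 → ℝ) (b b' : Fin n) : EG (tch S s c b b') :=
  EG.sum _ fun e _ => EG.sum _ fun i _ => (eg_lp c (S.eg_DA s e i b)).pow 2

lemma eg_rat (c : Fin 4 → ℝ) : EG (rat S s c) := by
  unfold rat fr
  exact EG.sum _ fun e _ => EG.sum _ fun i _ => EG.sum _ fun j _ =>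
    (eg_lp c (S.eg_DA s e i j)).pow 2

/-- the rates of the pairs of sites -/
lemma sum_tch (c : Fin 4 → ℝ) (w : K4 (Pair n) → ℝ) :
    ∑ b : Fin n, ∑ b' ∈ Finset.univ.erase b, tch S s c b b' w ≤ 2 * rat S s c w := by
  have h1 := S.rate_pairs s (H712.lp c w)
  unfold rat
  rw [← h1]
  refine Finset.sum_le_sum fun b _ => ?_
  exact Finset.sum_le_sum_of_subset_of_nonneg (Finset.erase_subset _ _)
    fun b' _ _ => tch_nonneg S c b b' w

/-- **Touches**: averaging the row of `b'`. -/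
theorem touch {c : Fin 4 → ℝ}
    (hcs : c 0 ^ 2 + c 1 ^ 2 + c 2 ^ 2 + c 3 ^ 2 = s) {b b' : Fin n}
    {φ : (K4 (Pair n) → ℝ) → ℝ} (hφ : EG φ) (h0 : ∀ w, 0 ≤ φ w) (hi : Ind (lf (row b')) φ) :
    ∫ w, φ w * ∑ i, (S.A s (H712.lp c w) i b -
        Av (lf (row b')) (fun w => S.A s (H712.lp c w) i b) w) ^ 2 ∂(gI (K4 (Pair n))) ≤
      s * ∫ w, φ w * tch S s c b b' w ∂(gI (K4 (Pair n))) := by
  have eA : ∀ i, EG fun w => S.A s (H712.lp c w) i b := fun i => eg_lp c (S.eg_A s i b)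
  have eD : ∀ i (j : K4 (Pair n)), EG fun w => c (bl j) * S.DA s (bs j) (H712.lp c w) i b :=
    fun i j => (eg_lp c (S.eg_DA s (bs j) i b)).const_mul _
  have h1 : ∀ i, ∫ w, φ w * (S.A s (H712.lp c w) i b -
        Av (lf (row b')) (fun w => S.A s (H712.lp c w) i b) w) ^ 2 ∂(gI (K4 (Pair n))) ≤
      ∫ w, φ w * ∑ j ∈ lf (row b'), (c (bl j) * S.DA s (bs j) (H712.lp c w) i b) ^ 2
        ∂(gI (K4 (Pair n))) := fun i =>
    weighted_poincare hφ hi h0 (eA i) (fun j _ => pd_lp c (S.pd_A s (bs j) i b)) fun j _ => eD i j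
  have e1 : ∀ w, φ w * ∑ i, (S.A s (H712.lp c w) i b -
        Av (lf (row b')) (fun w => S.A s (H712.lp c w) i b) w) ^ 2 =
      ∑ i, φ w * (S.A s (H712.lp c w) i b -
        Av (lf (row b')) (fun w => S.A s (H712.lp c w) i b) w) ^ 2 := fun w =>
    Finset.mul_sum _ _ _
  simp only [e1]
  rw [integral_finsetSum _ fun i _ =>
    (hφ.mul (((eA i).sub (eg_Av _ (eA i))).pow 2)).integrable]
  refine (Finset.sum_le_sum fun i _ => h1 i).trans (le_of_eq ?_)
  rw [← integral_const_mul, ← integral_finsetSum _ fun i _ =>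
    (hφ.mul (EG.sum _ fun j _ => (eD i j).pow 2)).integrable]
  refine integral_congr_ae (Filter.Eventually.of_forall fun w => ?_)
  simp only
  have e2 : ∀ i, ∑ j ∈ lf (row b'), (c (bl j) * S.DA s (bs j) (H712.lp c w) i b) ^ 2 =
      s * ∑ e ∈ row b', S.DA s e (H712.lp c w) i b ^ 2 := fun i =>
    sum_lp c (row b') (fun e => S.DA s e (H712.lp c w) i b) hcs
  simp only [e2]
  rw [← Finset.mul_sum, ← Finset.mul_sum, Finset.sum_comm]
  unfold tch
  ring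

/-! ### bounds -/

lemma tch_le (hs : 0 < s) (c : Fin 4 → ℝ) (b b' : Fin n)
    (w : K4 (Pair n) → ℝ) : tch S s c b b' w ≤ 9 * k ^ 2 * n ^ 2 := by
  have h1 : ∀ e ∈ row b', ∑ i, S.DA s e (H712.lp c w) i b ^ 2 ≤ n * (9 * k ^ 2) := by
    intro e _
    refine (Finset.sum_le_sum fun i _ => S.DA_sq_le hs e _ i b).trans ?_
    rw [Finset.sum_const, Finset.card_univ, Fintype.card_fin, nsmul_eq_mul]
    refine mul_le_mul_of_nonneg_left ?_ (Nat.cast_nonneg n)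
    nlinarith [sq_nonneg k]
  refine (Finset.sum_le_sum h1).trans ?_
  rw [Finset.sum_const, nsmul_eq_mul]
  have h2 := card_row_le b'
  have h3 : (0 : ℝ) ≤ n * (9 * k ^ 2) := by positivity
  have h4 := mul_le_mul_of_nonneg_right h2 h3
  linarith

end Vale.Agent.P146.U.R1S
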