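import Vale.Agent.P146.H640.LamCS
import Vale.Agent.P146.U.H640_LamSk
import Vale.Agent.P146.U.H640_MoQ
import Vale.Agent.P146.U.H816_SkNS
import Vale.Agent.P146.U.H522_PoCS
import Vale.Agent.P146.U.NS

/-!
Plan R1, the row (LAM) for a general position system: the upper bound of `T` (`lam_cs_out`).
-/

open MeasureTheory ProbabilityTheory

namespace Vale.Agent.P146.U.R1S

open Vale.Agent.P146.R1S hiding A1 A2 A_flip Av_Uc CS Ca Cd ClS D_row D_rows Dg Ew1_pos_S Fo_s1 Gb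
  Gb_eq H4 H8 LamS MM MM_row MS M_le NN_one Nd Nd_eq Nd_ind Nd_row NumS PrS Q4 Q4_En Q4_le
  Q4_le_pow Q4_nonneg RareS Sa Sa_eq Sa_ind Sa_row Sd Sd_eq Sd_ind Sd_row Uc Uc' Xb_eq Y1
  Y1_nonneg Y2 Y2_nonneg Y_le Yb_eq Zs a1 a1_eq a2 a2_eq abs_cl blk_a blk_d cl cl0 cl_act cl_cs
  cl_odd cl_other cl_self clz_S cm1 cm2 cm3 cm4 cm_gen col2 col4 col6 col8 d2 d2_parts dS dS_sq
  d_le dlS ee ee_eer ee_le ee_nonneg ee_row eg_A1 eg_A2 eg_Ca eg_Cd eg_Gb eg_Nd eg_Q4 eg_Sa eg_Sd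
  eg_Uc eg_Uc' eg_Y eg_Y1 eg_Y2 eg_Yd eg_cl eg_cl0 eg_ee eg_frNd eg_nlb eg_ph_S eg_rat eg_tch
  eg_vH eg_vn_col_S full_gen grF_rows grF_rows_le ind_Ca ind_Cd ind_Gb ind_Yd ind_cl ind_cl2
  ind_cl3 ind_frNd int_gen lam_S lam_cs_hL lam_cs_out lam_fix lam_gen_S lam_out_S law_low_S
  law_up_S lf_psi_S lf_psi_gr lw_abs lw_comm lw_eg lw_gr_row lw_oth lw_self lw_vn_le m6S nl_En
  nl_one nl_sum nlb nlb_fix numS_of odd_col pd_Uc ph_nonneg_S pr_cs psi_four_S rat rowIn_S six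
  six_cl skCS skCS_A skCS_D skCS_DA skCS_F skCS_H skCS_T4 sm_skCS sum_Uc'_le sum_tch tA_T tA_abs
  tA_comm tA_cont tA_eg tA_self tch tch_le tch_nonneg touch two_cs two_t vH vH_hvr vH_le vH_nonneg
  vn_col_Uc vn_le_nS

open Vale.Agent.P157.Lv Vale.Agent.P146.H425 Vale.Agent.P146.H325 Matrix
open Vale.Agent.P146.H712 hiding eg_P0 eg_P1 eg_P2 eg_P3 k0 k1 k2 k3 pd_P0 pd_P1 pd_P2 pd_P3
  sum_k0 sum_k1 sum_k2 sum_k3
open Vale.Agent.P146.R1 hiding Et Et4 Et4_123 Et4_124 Et4_add Et4_const Et4_const_mul Et4_cs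
  Et4_mono Et4_nonneg Et4_sub Et_add Et_const Et_const_mul Et_cs Et_fst_eq Et_jensen Et_mono
  Et_nonneg Et_sub Et_weight Et_zero Eu Eu4 Eu4_123 Eu4_124 Eu4_add Eu4_cond Eu4_const_mul
  Eu4_iter Eu4_mono Eu4_nonneg Eu4_one_eq Eu4_one_eq' Eu4_one_pos Eu4_weight Eu_add Eu_const_mul
  Eu_fst Eu_fst_eq Eu_iter Eu_mono Eu_nonneg Eu_one Eu_one_eq Eu_one_pos Eu_weight Eu_zero
  Eu_zero_one Lth Lth_zero Qt dn dn_pos e3_dn eg_Eu eg_Eu4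
open Vale.Agent.P146.R1C hiding A1 A2 Av_aa Av_ad Av_dd Av_lf_P0 Av_lf_P1 Av_lf_P2 Av_lf_P23
  Av_lf_P23_row Av_lf_P3 Ca Cd ClSk Dg En En_add En_const En_const_mul En_eq En_mono En_nonneg
  En_pow_le En_rare En_sum Ew Ew1_pos Ew_add Ew_const_mul Ew_eq Ew_mono Ew_nonneg Ew_one_pos Fo
  FoSk Gb H4 H8 LamSk Law2 Low Nb Nd Nd_ind Nd_row NumH P0 P0_lp P0_sw P1 P1_lp P1_sw P2 P2_lp
  P2_sw P3 P3_lp P3_sw Par PrSk Rare Sa Sa_ind Sa_row Sd Sd_ind Sd_row Zk a1 a1_eq a2 a2_eq cl_sk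
  den_pos dens dens_eq eC eg_A1 eg_A2 eg_Gb eg_Nd eg_Sa eg_Sd eg_Yd eg_den eg_dens eg_frNd eg_psi'
  ind_Gb ind_Yd ind_frNd int_Av_dens int_Av_one int_ph k0_sum k1_sum kk_NN lamSk_num lam_fix
  lam_gen_num lam_gen_sk lam_hL lam_le lam_sk lam_sk_out law2_of law_low law_low_sk law_up
  law_up_sk lf_psi lip_psi low_int lsk numH_of pd_psi ph psi psi' psi_four_le psi_four_sk
  psi_sq_le
open Vale.Agent.P146.U.H712 Vale.Agent.P146.U.R1 Vale.Agent.P146.U.R1C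

open Vale.Agent.P146.H332 hiding Gf NN Nf fr_nonneg

set_option linter.unusedSectionVars false

lemma D_row {n : ℕ} {k : ℝ} {q : Par} (S : CS n k q.x) (b : Fin n) (z : Pair n → ℝ) :
    ∑ e ∈ row b, S.D e z ^ 2 ≤ k ^ 2 * n := by
  have h1 := S.sum_row_A 1 b z
  have h2 := lw_vn_le S 1 b z
  have h3 : ∑ e ∈ row b, S.D e z ^ 2 = ∑ e ∈ row b, (k * S.A 1 z e.1.1 e.1.2) ^ 2 :=
    Finset.sum_congr rfl fun e _ => by rw [S.D_eq]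
  rw [h3, h1]
  refine mul_le_mul_of_nonneg_left ?_ (sq_nonneg k)
  linarith

lemma D_rows {n : ℕ} {k : ℝ} {q : Par} (S : CS n k q.x) (b b' : Fin n) (z : Pair n → ℝ) :
    ∑ e ∈ row b ∪ row b', S.D e z ^ 2 ≤ 2 * (k ^ 2 * n) := by
  have h1 : ∑ e ∈ row b ∪ row b', S.D e z ^ 2 ≤
      ∑ e ∈ row b, S.D e z ^ 2 + ∑ e ∈ row b', S.D e z ^ 2 := by
    rw [← Finset.sum_union_inter]
    exact le_add_of_nonneg_right (Finset.sum_nonneg fun _ _ => sq_nonneg _)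
  have h2 := D_row S b z
  have h3 := D_row S b' z
  linarith

/-- the hypotheses of the numbers hold for all large `n`, uniformly in `β ≤ β₁` -/
theorem numS_ofU {β₁ : ℝ} (hβ₁ : 0 < β₁) : ∃ n₀ : ℕ, 2 ≤ n₀ ∧ ∀ n : ℕ, n₀ ≤ n →
    ∀ β : ℝ, β ≤ β₁ → ∀ (q : Par) (S : CS n (kk n β) q.x) (A δ T ρ Λ : ℝ),
      Fo n β A δ T ρ Λ S.y q S.F S.A S.DA → NumS S A δ T ρ Λ ((n : ℝ) ^ 200)⁻¹ := by
  obtain ⟨n₁, h1, hn₁⟩ := law2_of hβ₁
  obtain ⟨n₂, h2, hn₂⟩ := law_constU hβ₁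
  refine ⟨max n₁ n₂, h1.trans (le_max_left _ _), fun n hn β hβ q S A δ T ρ Λ hf => ?_⟩
  have hn2 : (2 : ℝ) ≤ n := hf.n0
  have hnn : 0 < n := by have := hf.n2; omega
  have hββ : β ^ 2 ≤ β₁ ^ 2 := pow_le_pow_left₀ hf.β0.le hβ 2
  refine ⟨hf, ?_, by positivity, ?_, ?_⟩
  · refine hn₁ n ((le_max_left _ _).trans hn) q S.F _ _ _ S.c11 hf.ok hf.x22 fun b b' z => ?_
    have h3 := D_rows S b b' z
    rw [kk_sq hnn β] at h3
    linarith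
  · rw [← div_eq_mul_inv, div_le_one (by positivity)]
    exact pow_le_pow_right₀ (by linarith) (by norm_num)
  · have h3 := (hn₂ n ((le_max_right _ _).trans hn) q.x hf.ok.x0 hf.x22).1
    have e1 : 288 * q.x ^ 2 * kk n β₁ ^ 2 * n = 288 * q.x ^ 2 * β₁ ^ 2 := by
      rw [← kk_sq hnn β₁]; ring
    have e2 : 288 * q.x ^ 2 * kk n β ^ 2 * n = 288 * q.x ^ 2 * β ^ 2 := by
      rw [← kk_sq hnn β]; ring
    rw [e1] at h3
    rw [e2]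
    exact (mul_le_mul_of_nonneg_left hββ (by positivity)).trans h3

/-- **(LAM) for a position system**, uniformly in `β ≤ β₁`. -/
theorem lam_cs_out {β₁ Γ : ℝ} (hβ₁ : 0 < β₁) (hΓ : 0 ≤ Γ) : ∃ C : ℝ, 1 ≤ C ∧ ∃ n₀ : ℕ, ∀ n : ℕ,
    n₀ ≤ n → ∀ β : ℝ, β ≤ β₁ → ∀ (q : Par) (S : CS n (kk n β) q.x) (A δ T ρ Λ B L M : ℝ)
      (HF TF : Pair n → Pair n → (Pair n → ℝ) → ℝ),
      2 ≤ A → Sm S.F S.D B L HF TF M →
      (∀ s : ℝ, Cum.Fn (kk n β) SkS (uu q.x s S.F) (S.mu s) Γ) → Mt q.x S.F S.mu →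
      Fo n β A δ T ρ Λ S.y q S.F S.A S.DA →
        T ≤ C * A ^ 12 * (√(1 / (n * T)) + q.x * (√(NN n β ρ) / n) + (√(NN n β ρ) / n) ^ 2 +
          1 / n) := by
  obtain ⟨n₀, -, hn₀⟩ := numS_ofU hβ₁
  set B0 : ℝ := 151920 * (β₁ ^ 6 + β₁ ^ 3) + 365 * β₁ ^ 4 + 31128 * (36 * Γ ^ 6) * β₁ ^ 8 + 1
    with hB0
  have hB1 : 1 ≤ B0 := by
    rw [hB0]
    have : 0 ≤ 151920 * (β₁ ^ 6 + β₁ ^ 3) + 365 * β₁ ^ 4 + 31128 * (36 * Γ ^ 6) * β₁ ^ 8 := by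
      positivity
    linarith
  refine ⟨64 * B0 ^ 3, ?_, n₀, fun n hn β hβ q S A δ T ρ Λ B L M HF TF hA2 hS hFn hm hf => ?_⟩
  · have := one_le_pow₀ hB1 (n := 3)
    linarith
  have hnum := hn₀ n hn β hβ q S A δ T ρ Λ hf
  have hβ0 : 0 < β := hf.β0
  have hA : 1 ≤ A := hf.A1
  have hN := hf.N0
  have hn2 : (2 : ℝ) ≤ n := hf.n0
  have hT := hf.Tp
  have hx := hf.ok.x0
  have hs1 : 0 < q.s1 := hnum.s1p
  have hE : 0 ≤ √(1 / (n * T)) := Real.sqrt_nonneg _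
  have b3 : β ^ 3 ≤ β₁ ^ 3 := pow_le_pow_left₀ hβ0.le hβ 3
  have b4 : β ^ 4 ≤ β₁ ^ 4 := pow_le_pow_left₀ hβ0.le hβ 4
  have b6 : β ^ 6 ≤ β₁ ^ 6 := pow_le_pow_left₀ hβ0.le hβ 6
  have b8 : β ^ 8 ≤ β₁ ^ 8 := pow_le_pow_left₀ hβ0.le hβ 8
  have e0 : √(1 / (n * T)) = 1 / √(n * T) := by
    rw [Real.sqrt_div zero_le_one, Real.sqrt_one]
  have heC : eC n β A T ρ q ≤ (β ^ 6 + β ^ 3) * A ^ 3 * NN n β ρ ^ 2 *
      (√(1 / (n * T)) + q.x * (√(NN n β ρ) / n)) := by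
    unfold eC
    have hA3 : A ^ 2 ≤ A ^ 3 := pow_le_pow_right₀ hA (by norm_num)
    have a1 : 0 ≤ β ^ 6 * A ^ 3 * NN n β ρ ^ 2 * √(1 / (n * T)) := by positivity
    have a2 : 0 ≤ β ^ 3 * A ^ 3 * NN n β ρ ^ 2 * (q.x * (√(NN n β ρ) / n)) := by positivity
    have a3 : β ^ 3 * A ^ 2 * (NN n β ρ ^ 2 / √(n * T)) ≤
        β ^ 3 * A ^ 3 * NN n β ρ ^ 2 * √(1 / (n * T)) := by
      rw [e0]
      have : β ^ 3 * A ^ 2 * (NN n β ρ ^ 2 / √(n * T)) =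
        β ^ 3 * A ^ 2 * NN n β ρ ^ 2 * (1 / √(n * T)) := by ring
      rw [this]
      refine mul_le_mul_of_nonneg_right ?_ (by positivity)
      exact mul_le_mul_of_nonneg_right (mul_le_mul_of_nonneg_left hA3 (by positivity))
        (by positivity)
    have a4 : (β ^ 6 + β ^ 3) * A ^ 3 * NN n β ρ ^ 2 *
      (√(1 / (n * T)) + q.x * (√(NN n β ρ) / n)) =
      β ^ 6 * A ^ 3 * NN n β ρ ^ 2 * √(1 / (n * T)) +
      β ^ 3 * A ^ 3 * NN n β ρ ^ 2 * (q.x * (√(NN n β ρ) / n)) +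
      β ^ 3 * A ^ 3 * NN n β ρ ^ 2 * √(1 / (n * T)) +
      β ^ 6 * A ^ 3 * (q.x * (√(NN n β ρ) / n) * NN n β ρ ^ 2) := by ring
    rw [a4]
    linarith
  have hA34 : A ^ 3 ≤ A ^ 4 := pow_le_pow_right₀ hA (by norm_num)
  have hA24 : A ^ 2 ≤ A ^ 4 := pow_le_pow_right₀ hA (by norm_num)
  have hA14 : A ≤ A ^ 4 := le_self_pow₀ hA (by norm_num)
  have hA4 : 1 ≤ A ^ 4 := one_le_pow₀ hA
  have hA0 : 0 ≤ A ^ 3 := by positivity
  have hBA : A ≤ B0 * A ^ 4 := by nlinarith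
  have hB : 1 ≤ B0 * A ^ 4 := by nlinarith
  have heC0 : 0 ≤ eC n β A T ρ q := by
    obtain ⟨h4, h5⟩ := hnum.eC_parts
    unfold eC
    linarith
  have hfr : ∀ s, EG fun z => fr (S.A s z) := fun s => eg_frC fun i j => S.eg_A s i j
  have key := lam_out_S (S := S) (cI := 36 * Γ ^ 6) (cQ := 3888) (B := B0 * A ^ 4)
    (e1 := 101280 * eC n β A T ρ q) (e3 := 50640 * eC n β A T ρ q) hf hnum.law (by positivity)
    (by norm_num) (hf.mo2 S.c11 hfr (by norm_num)) (hf.mo3 S.c11 hfr (by norm_num))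
    ((moQ2 hf hS hm (p := 2) (by norm_num)).trans (le_of_eq (by norm_num)))
    ((moQ3 hf hS hm (p := 2) (by norm_num)).trans (le_of_eq (by norm_num)))
    (fun s hs0 hs1' b b' hb z => vH_le (hFn s) hs0 b b' z)
    (fun b b' hb w => nlb_fix S hf.ok hs1 b b' hb w) hnum.n1 hnum.n3 hB hBA (by linarith)
    (by
      have a1 : 101280 * eC n β A T ρ q + 50640 * eC n β A T ρ q =
        151920 * eC n β A T ρ q := by ring
      rw [a1]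
      refine (mul_le_mul_of_nonneg_left heC (by norm_num)).trans ?_
      have a2 : 0 ≤ NN n β ρ ^ 2 * (√(1 / (n * T)) + q.x * (√(NN n β ρ) / n)) := by positivity
      have a3 : 151920 * ((β ^ 6 + β ^ 3) * A ^ 3) ≤ B0 * A ^ 4 := by
        have a4 : 151920 * (β ^ 6 + β ^ 3) ≤ B0 := by
          rw [hB0]
          have : 0 ≤ 365 * β₁ ^ 4 + 31128 * (36 * Γ ^ 6) * β₁ ^ 8 := by positivity
          linarith
        calc 151920 * ((β ^ 6 + β ^ 3) * A ^ 3) = 151920 * (β ^ 6 + β ^ 3) * A ^ 3 := by ring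
          _ ≤ B0 * A ^ 4 := mul_le_mul a4 hA34 hA0 (by linarith)
      calc 151920 * ((β ^ 6 + β ^ 3) * A ^ 3 * NN n β ρ ^ 2 *
            (√(1 / (n * T)) + q.x * (√(NN n β ρ) / n)))
          = 151920 * ((β ^ 6 + β ^ 3) * A ^ 3) * (NN n β ρ ^ 2 *
            (√(1 / (n * T)) + q.x * (√(NN n β ρ) / n))) := by ring
        _ ≤ B0 * A ^ 4 * (NN n β ρ ^ 2 *
            (√(1 / (n * T)) + q.x * (√(NN n β ρ) / n))) := mul_le_mul_of_nonneg_right a3 a2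
        _ = _ := by ring)
    (by
      refine hnum.dg.trans ?_
      have a4 : 365 * β ^ 4 ≤ B0 := by
        rw [hB0]
        have : 0 ≤ 151920 * (β₁ ^ 6 + β₁ ^ 3) + 31128 * (36 * Γ ^ 6) * β₁ ^ 8 := by positivity
        linarith
      have a5 : (0 : ℝ) ≤ NN n β ρ ^ 2 / n := by positivity
      calc 365 * (β ^ 4 * A ^ 2 * (NN n β ρ ^ 2 / n))
          = 365 * β ^ 4 * A ^ 2 * (NN n β ρ ^ 2 / n) := by ring
        _ ≤ B0 * A ^ 4 * (NN n β ρ ^ 2 / n) :=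
          mul_le_mul_of_nonneg_right (mul_le_mul a4 hA24 (by positivity) (by linarith)) a5)
    (H522.po1_cs S hS hf hA2)
    (by
      have a4 : 8 * (3 + 3888) * (36 * Γ ^ 6) * β ^ 8 ≤ B0 := by
        rw [hB0]
        have h1 : 0 ≤ 151920 * (β₁ ^ 6 + β₁ ^ 3) + 365 * β₁ ^ 4 := by positivity
        have h2 : 0 ≤ 36 * Γ ^ 6 := by positivity
        have h3 := mul_le_mul_of_nonneg_left b8 h2
        linarith
      exact mul_le_mul a4 hA34 hA0 (by linarith))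
  refine key.trans (le_of_eq ?_)
  ring

end Vale.Agent.P146.U.R1S
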