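import Vale.Agent.P146.H546.Fw
import Vale.Agent.P146.U.H826_LawP
import Vale.Agent.P146.U.H332_CRow
import Vale.Agent.P146.U.NS

/-!
P146, plan R1: (FB) at a fixed bulk, for the two-row form of block C. Model free: for a pair of
matrices of conditional expectations with the row derivatives (`RowIn`), at the times `s1`, `s2`.
-/

open Finset Matrix MeasureTheory ProbabilityTheory

set_option linter.unusedSectionVars false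

namespace Vale.Agent.P146.U.R1C

open Vale.Agent.P146.R1C hiding Av_aa Av_ad Av_dd Av_lf_P0 Av_lf_P1 Av_lf_P2 Av_lf_P23
  Av_lf_P23_row Av_lf_P3 Ca Cd En En_eq Ew Ew_eq Gb Nd Nd_row P0 P0_sw P1 P1_sw P2 P2_sw P3 P3_sw
  Par Sa Sa_row Sd Sd_row dens fb_row fb_sk

open Vale.Agent.P157.Lv Vale.Agent.P146.H425 Vale.Agent.P146.H325 Vale.Agent.P146.H332
  Vale.Agent.P146.H712 Vale.Agent.P146.H816
open Vale.Agent.P146.R1 hiding Et Et4 Et4_123 Et4_124 Et4_add Et4_const Et4_const_mul Et4_cs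
  Et4_mono Et4_nonneg Et4_sub Et_add Et_const Et_const_mul Et_cs Et_fst_eq Et_jensen Et_mono
  Et_nonneg Et_sub Et_weight Et_zero Eu Eu4 Eu4_123 Eu4_124 Eu4_add Eu4_cond Eu4_const_mul
  Eu4_iter Eu4_mono Eu4_nonneg Eu4_one_eq Eu4_one_eq' Eu4_one_pos Eu4_weight Eu_add Eu_const_mul
  Eu_fst Eu_fst_eq Eu_iter Eu_mono Eu_nonneg Eu_one Eu_one_eq Eu_one_pos Eu_weight Eu_zero
  Eu_zero_one Lth Lth_zero Qt dn dn_pos e3_dn eg_Eu eg_Eu4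
open Vale.Agent.P146.U.R1

variable {n : ℕ} {k s : ℝ} {A : (Pair n → ℝ) → Matrix (Fin n) (Fin n) ℝ}
  {DA : Pair n → (Pair n → ℝ) → Matrix (Fin n) (Fin n) ℝ}
  {H : Fin n → (Pair n → ℝ) → Matrix (Fin n) (Fin n) ℝ} {b b' : Fin n}

/-- **(FB) at a fixed bulk.** -/
theorem fb_row {A1 A2 : (Pair n → ℝ) → Matrix (Fin n) (Fin n) ℝ}
    {DA1 DA2 : Pair n → (Pair n → ℝ) → Matrix (Fin n) (Fin n) ℝ}
    {H1 H2 : Fin n → (Pair n → ℝ) → Matrix (Fin n) (Fin n) ℝ} {q : Par} (hq : q.Ok)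
    (h1 : RowIn k A1 DA1 H1) (h2 : RowIn k A2 DA2 H2) (hb : b ≠ b') (w : K4 (Pair n) → ℝ)
    {v : Fin n → ℝ} (hv : ∑ i, v i ^ 2 = 1) {c α0 α1 δ0 δ1 ε0 ε1 : ℝ} (hc : 0 ≤ c)
    (hα0 : 0 ≤ α0) (hα1 : 0 ≤ α1) (hδ0 : 0 ≤ δ0) (hδ1 : 0 ≤ δ1) (hε0 : 0 ≤ ε0) (hε1 : 0 ≤ ε1)
    (hca : 2 * c * Na0 A1 q.s1 b b' (P2 q w) ≤ Net k A1 H1 q.s1 b b' v (P2 q w))
    (ha0 : Na0 A1 q.s1 b b' (P2 q w) ≤ α0 ^ 2)
    (ha1 : Na1 k A1 H1 q.s1 b b' (P2 q w) ≤ α1 ^ 2)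
    (hd0 : Na0 A2 q.s2 b b' (P3 q w) ≤ δ0 ^ 2)
    (hd1 : Na1 k A2 H2 q.s2 b b' (P3 q w) ≤ δ1 ^ 2)
    (he0 : Ne0 k H1 q.s1 b b' v (P2 q w) ≤ ε0 ^ 2)
    (he1 : Ne1 k H1 q.s1 b b' v (P2 q w) ≤ ε1 ^ 2) {Sa Sd N : Matrix (Fin n) (Fin n) ℝ}
    (hSa : ∀ i j, Sa i j = Av (lf (row b ∪ row b'))
      (fun w => clz A1 q.s1 b b' (P2 q w) i * clz A1 q.s1 b b' (P2 q w) j) w)
    (hSd : ∀ i j, Sd i j = Av (lf (row b ∪ row b'))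
      (fun w => clz A2 q.s2 b b' (P3 q w) i * clz A2 q.s2 b b' (P3 q w) j) w)
    (hN : ∀ i j, N i j = Av (lf (row b ∪ row b'))
      (fun w => clz A1 q.s1 b b' (P2 q w) i * clz A2 q.s2 b b' (P3 q w) j) w) :
    c / 4 * fr (N - Nᵀ) ≤ (ip Sa Sd - fr N) + 2 * c * ((ε0 ^ 2 + ε1 ^ 2) * δ0 ^ 2) +
      6 * ((ε0 * δ1 + ε1 * δ0) * (α0 * δ1 + α1 * δ0)) := by
  have hs : √q.s1 ^ 2 + √(q.s2 - q.s1) ^ 2 = √q.s2 ^ 2 := by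
    have h0 : 0 ≤ q.s1 := hq.h0.trans (hq.h01.trans hq.h1)
    have h3 := hq.h12
    rw [Real.sq_sqrt h0, Real.sq_sqrt (by linarith), Real.sq_sqrt (by linarith)]
    ring
  have key := H546.fb_two (gf_gr h1 hb q.s1 (P2 q w)) (gf_gr h2 hb q.s2 (P3 q w)) hs hv hc hα0
    hα1 hδ0 hδ1 hε0 hε1 hca ha0 ha1 hd0 hd1 he0 he1
  have e1 : fr (N - Nᵀ) = ∑ i, ∑ j, ((∫ y, (∫ y', gr A1 q.s1 b b' (P2 q w) i (√q.s1 • y) *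
        gr A2 q.s2 b b' (P3 q w) j (√q.s1 • y + √(q.s2 - q.s1) • y')
          ∂(gI (Fin n))) ∂(gI (Fin n))) - ∫ y, (∫ y', gr A1 q.s1 b b' (P2 q w) j (√q.s1 • y) *
        gr A2 q.s2 b b' (P3 q w) i (√q.s1 • y + √(q.s2 - q.s1) • y')
          ∂(gI (Fin n))) ∂(gI (Fin n))) ^ 2 := by
    unfold fr
    refine sum_congr rfl fun i _ => sum_congr rfl fun j _ => ?_
    rw [Matrix.sub_apply, Matrix.transpose_apply, hN, hN, Av_ad hq h1.egA h2.egA,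
      Av_ad hq h1.egA h2.egA]
  have e2 : ip Sa Sd - fr N = ∑ i, ∑ j, ((∫ y, gr A1 q.s1 b b' (P2 q w) i (√q.s1 • y) *
        gr A1 q.s1 b b' (P2 q w) j (√q.s1 • y) ∂(gI (Fin n))) *
      (∫ y, (∫ y', gr A2 q.s2 b b' (P3 q w) i (√q.s1 • y + √(q.s2 - q.s1) • y') *
        gr A2 q.s2 b b' (P3 q w) j (√q.s1 • y + √(q.s2 - q.s1) • y')
          ∂(gI (Fin n))) ∂(gI (Fin n))) -
      (∫ y, (∫ y', gr A1 q.s1 b b' (P2 q w) i (√q.s1 • y) *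
        gr A2 q.s2 b b' (P3 q w) j (√q.s1 • y + √(q.s2 - q.s1) • y')
          ∂(gI (Fin n))) ∂(gI (Fin n))) ^ 2) := by
    unfold ip fr
    rw [← sum_sub_distrib]
    refine sum_congr rfl fun i _ => ?_
    rw [← sum_sub_distrib]
    refine sum_congr rfl fun j _ => ?_
    rw [hSa, hSd, hN, Av_ad hq h1.egA h2.egA, Av_aa hq h1.egA, Av_dd hq h2.egA]
  rw [e1, e2]
  exact key

/-! ### the numbers in terms of positions -/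

/-! ### the SK instance -/

/-- **(FB) for SK at a fixed bulk.** -/
theorem fb_sk {q : Par} (hq : q.Ok) (hs1 : 0 < q.s1) (hb : b ≠ b') (w : K4 (Pair n) → ℝ)
    {v : Fin n → ℝ} (hv : ∑ i, v i ^ 2 = 1) {c α0 α1 δ0 δ1 ε0 ε1 : ℝ} (hc : 0 ≤ c)
    (hα0 : 0 ≤ α0) (hα1 : 0 ≤ α1) (hδ0 : 0 ≤ δ0) (hδ1 : 0 ≤ δ1) (hε0 : 0 ≤ ε0) (hε1 : 0 ≤ ε1)
    (hca : 2 * c * ee k q.x q.s1 b b' (P2 q w) ≤
      Net k (AA k q.x q.s1) (HH k q.x q.s1) q.s1 b b' v (P2 q w))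
    (ha0 : ee k q.x q.s1 b b' (P2 q w) ≤ α0 ^ 2)
    (ha1 : Na1 k (AA k q.x q.s1) (HH k q.x q.s1) q.s1 b b' (P2 q w) ≤ α1 ^ 2)
    (hd0 : ee k q.x q.s2 b b' (P3 q w) ≤ δ0 ^ 2)
    (hd1 : Na1 k (AA k q.x q.s2) (HH k q.x q.s2) q.s2 b b' (P3 q w) ≤ δ1 ^ 2)
    (he0 : Ne0 k (HH k q.x q.s1) q.s1 b b' v (P2 q w) ≤ ε0 ^ 2)
    (he1 : Ne1 k (HH k q.x q.s1) q.s1 b b' v (P2 q w) ≤ ε1 ^ 2) :
    c / 4 * fr (Nd k q b b' w - (Nd k q b b' w)ᵀ) ≤ Gb k q b b' w +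
      2 * c * ((ε0 ^ 2 + ε1 ^ 2) * δ0 ^ 2) +
      6 * ((ε0 * δ1 + ε1 * δ0) * (α0 * δ1 + α1 * δ0)) := by
  have hs2 : 0 < q.s2 := hs1.trans_le hq.h12
  have r1 := rowIn_sk (n := n) (k := k) hs1 hq.x0.le hq.x1
  have r2 := rowIn_sk (n := n) (k := k) hs2 hq.x0.le hq.x1
  exact fb_row hq r1 r2 hb w hv hc hα0 hα1 hδ0 hδ1 hε0 hε1 (by rw [Na0_eq r1.egA]; exact hca)
    (by rw [Na0_eq r1.egA]; exact ha0) ha1 (by rw [Na0_eq r2.egA]; exact hd0) hd1 he0 he1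
    (fun i j => rfl) (fun i j => rfl) fun i j => rfl

end Vale.Agent.P146.U.R1C
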