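import Vale.Agent.P146.H546.FwS
import Vale.Agent.P146.U.H546_Fw
import Vale.Agent.P146.U.H332_CRowS
import Vale.Agent.P146.U.NS

/-!
P146, plan R1: (FB) at a fixed bulk for a position system `S : CS n k x`.
-/

open MeasureTheory ProbabilityTheory

set_option linter.unusedSectionVars false

namespace Vale.Agent.P146.U.R1S

open Vale.Agent.P146.R1S hiding CS Ca Cd Gb MM MM_row Nd Nd_row Sa Sa_row Sd Sd_row cl cl0 clz_S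
  ee ee_row fb_cs rowIn_S

open Vale.Agent.P157.Lv Vale.Agent.P146.H425 Vale.Agent.P146.H325 Vale.Agent.P146.H332
  Vale.Agent.P146.H712 Vale.Agent.P146.H816 Matrix
open Vale.Agent.P146.R1 hiding Et Et4 Et4_123 Et4_124 Et4_add Et4_const Et4_const_mul Et4_cs
  Et4_mono Et4_nonneg Et4_sub Et_add Et_const Et_const_mul Et_cs Et_fst_eq Et_jensen Et_mono
  Et_nonneg Et_sub Et_weight Et_zero Eu Eu4 Eu4_123 Eu4_124 Eu4_add Eu4_cond Eu4_const_mul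
  Eu4_iter Eu4_mono Eu4_nonneg Eu4_one_eq Eu4_one_eq' Eu4_one_pos Eu4_weight Eu_add Eu_const_mul
  Eu_fst Eu_fst_eq Eu_iter Eu_mono Eu_nonneg Eu_one Eu_one_eq Eu_one_pos Eu_weight Eu_zero
  Eu_zero_one Lth Lth_zero Qt dn dn_pos e3_dn eg_Eu eg_Eu4
open Vale.Agent.P146.R1C hiding Av_aa Av_ad Av_dd Av_lf_P0 Av_lf_P1 Av_lf_P2 Av_lf_P23
  Av_lf_P23_row Av_lf_P3 Ca Cd En En_eq Ew Ew_eq Gb Nd Nd_row P0 P0_sw P1 P1_sw P2 P2_sw P3 P3_sw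
  Par Sa Sa_row Sd Sd_row dens fb_row fb_sk
open Vale.Agent.P146.U.R1 Vale.Agent.P146.U.R1C

variable {n : ℕ} {k x : ℝ} (S : CS n k x) {b b' : Fin n}

/-- **(FB) at a fixed bulk.** -/
theorem fb_cs {q : Par} (hq : q.Ok) (hs1 : 0 < q.s1) (hb : b ≠ b') (w : K4 (Pair n) → ℝ)
    {v : Fin n → ℝ} (hv : ∑ i, v i ^ 2 = 1) {c α0 α1 δ0 δ1 ε0 ε1 : ℝ} (hc : 0 ≤ c)
    (hα0 : 0 ≤ α0) (hα1 : 0 ≤ α1) (hδ0 : 0 ≤ δ0) (hδ1 : 0 ≤ δ1) (hε0 : 0 ≤ ε0) (hε1 : 0 ≤ ε1)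
    (hca : 2 * c * ee S q.s1 b b' (P2 q w) ≤
      Net k (S.A q.s1) (S.H q.s1) q.s1 b b' v (P2 q w))
    (ha0 : ee S q.s1 b b' (P2 q w) ≤ α0 ^ 2)
    (ha1 : Na1 k (S.A q.s1) (S.H q.s1) q.s1 b b' (P2 q w) ≤ α1 ^ 2)
    (hd0 : ee S q.s2 b b' (P3 q w) ≤ δ0 ^ 2)
    (hd1 : Na1 k (S.A q.s2) (S.H q.s2) q.s2 b b' (P3 q w) ≤ δ1 ^ 2)
    (he0 : Ne0 k (S.H q.s1) q.s1 b b' v (P2 q w) ≤ ε0 ^ 2)
    (he1 : Ne1 k (S.H q.s1) q.s1 b b' v (P2 q w) ≤ ε1 ^ 2) :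
    c / 4 * fr (Nd S q b b' w - (Nd S q b b' w)ᵀ) ≤ Gb S q b b' w +
      2 * c * ((ε0 ^ 2 + ε1 ^ 2) * δ0 ^ 2) +
      6 * ((ε0 * δ1 + ε1 * δ0) * (α0 * δ1 + α1 * δ0)) := by
  have hs2 : 0 < q.s2 := hs1.trans_le hq.h12
  have r1 := rowIn_S S hs1
  have r2 := rowIn_S S hs2
  exact fb_row hq r1 r2 hb w hv hc hα0 hα1 hδ0 hδ1 hε0 hε1 (by rw [Na0_eq r1.egA]; exact hca)
    (by rw [Na0_eq r1.egA]; exact ha0) ha1 (by rw [Na0_eq r2.egA]; exact hd0) hd1 he0 he1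
    (fun i j => rfl) (fun i j => rfl) fun i j => rfl

end Vale.Agent.P146.U.R1S
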