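import Vale.Agent.P146.H191.KapC
import Vale.Agent.P146.U.H191_KapK
import Vale.Agent.P146.U.H712_BtS
import Vale.Agent.P146.U.NS

/-!
Plan R1, row (K): the weight `badK` of the bad bulks and its sum over the pairs of sites.
-/

open MeasureTheory ProbabilityTheory Matrix

namespace Vale.Agent.P146.U.H191

open Vale.Agent.P146.H191 hiding CB_comm CB_off CB_off' CB_one DlA_eq DlA_nonneg FA_DlA_le FA_eq
  FA_le KA_le KapG QA_le bad0 bad0_nonneg bad0_parts badK badK_le badK_le0 badK_lt badK_nonneg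
  badK_sum ee_nonneg eg_bad0 eg_badK eg_eeS eg_hds eg_lo f0_ee fr_CB hds kapG_sk kapG_t3
  kap_bulk_S lamq_sum lo lo_le lo_nonneg mh_bq mv_eq mv_nonneg ne0_le ne1_le vbar_le

open Vale.Agent.P157.Lv Vale.Agent.P146.H425 Vale.Agent.P146.H325 Vale.Agent.P146.H332
  Vale.Agent.P146.H522 Vale.Agent.P146.H633
open Vale.Agent.P146.H712 hiding En_sub En_sum Fo_A_le Fo_one_le KV KV_le KV_nonneg LLow LUp Th_le
  bt3 bt3_pos bt3_three bt3_two eg_KV eg_P0 eg_P1 eg_P2 eg_P3 eg_ThS int_dens k0 k1 k2 k3 llow lup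
  pd_P0 pd_P1 pd_P2 pd_P3 sum_k0 sum_k1 sum_k2 sum_k3 tT_abs tT_eg tfr_le tpd
open Vale.Agent.P146.R1 hiding Et Et4 Et4_123 Et4_124 Et4_add Et4_const Et4_const_mul Et4_cs
  Et4_mono Et4_nonneg Et4_sub Et_add Et_const Et_const_mul Et_cs Et_fst_eq Et_jensen Et_mono
  Et_nonneg Et_sub Et_weight Et_zero Eu Eu4 Eu4_123 Eu4_124 Eu4_add Eu4_cond Eu4_const_mul
  Eu4_iter Eu4_mono Eu4_nonneg Eu4_one_eq Eu4_one_eq' Eu4_one_pos Eu4_weight Eu_add Eu_const_mul
  Eu_fst Eu_fst_eq Eu_iter Eu_mono Eu_nonneg Eu_one Eu_one_eq Eu_one_pos Eu_weight Eu_zero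
  Eu_zero_one Lth Lth_zero Qt dn dn_pos e3_dn eg_Eu eg_Eu4
open Vale.Agent.P146.R1C hiding Av_aa Av_ad Av_dd Av_lf_P0 Av_lf_P1 Av_lf_P2 Av_lf_P23
  Av_lf_P23_row Av_lf_P3 Ca Cd En En_add En_const En_const_mul En_eq En_mono En_nonneg En_pow_le
  En_rare Ew Ew1_pos Ew_add Ew_const_mul Ew_eq Ew_mono Ew_nonneg Ew_one_pos Fo Gb Law2 Nd Nd_row
  P0 P0_lp P0_sw P1 P1_lp P1_sw P2 P2_lp P2_sw P3 P3_lp P3_sw Par Sa Sa_row Sd Sd_row den_pos dens
  dens_eq eg_den eg_dens eg_psi' fb_row fb_sk kk_NN lam_le law2_of law_low law_up lf_psi lip_psi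
  pd_psi psi psi' psi_four_le psi_sq_le
open Vale.Agent.P146.R1S hiding Bv CBq CS Ca Cd DlA FA FA_nonneg Gb Gb_eq KA KA_le_ThA KA_nonneg
  KV KV_le KV_nonneg MM MM_psd MM_row Nd Nd_eq Nd_row QA QA_nonneg Sa Sa_eq Sa_row Sd Sd_eq Sd_row
  T4_avg_le T4_rep_le ThA ThA_nonneg Xb_eq Yb_eq abs_cl bh bh1 blk_a blk_d bq4_T4 cl cl0 cl_act
  cl_odd cl_other cl_self clz_S ee ee_row eg_Ca eg_Cd eg_FA eg_KA eg_KV eg_QA eg_ThA eg_cl eg_cl0
  exists_Bv fb_cs fr_CBq_le fr_MM_le ind_Ca ind_Cd ind_cl ind_cl2 ind_cl3 lamq lamq_nonneg psd_CB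
  rowIn_S skCS skCS_A skCS_D skCS_DA skCS_F skCS_H skCS_T4 sm_skCS tA_T tA_abs tA_comm tA_cont
  tA_eg tA_self two_cs
open Vale.Agent.P146.Cum hiding H_ev eg_H eg_qP eg_qT fn_skCS i1 i1z i2 i2z m4_lg m4_pg qP
  qP_nonneg qP_one qP_pqm qT qT_eq qT_nonneg row_sq
open Vale.Agent.P146.U.H712 Vale.Agent.P146.U.R1 Vale.Agent.P146.U.R1C Vale.Agent.P146.U.R1S
  Vale.Agent.P146.U.Cum

set_option linter.unusedSectionVars false

section defs

variable {n : ℕ} {k x : ℝ} (S : CS n k x) (s τ M : ℝ)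

/-- the indicator of a small matrix -/
noncomputable def lo (z : Pair n → ℝ) : ℝ := if fr (S.A s z) < M then 1 else 0

/-- the defect of the row of `b` -/
noncomputable def hds (b b' : Fin n) (z : Pair n → ℝ) : ℝ :=
  1 + R1S.ee S s b b' z - FA S s b b' z / n

/-- the weight of a bad bulk, not truncated -/
noncomputable def bad0 (X : Fin n → Fin n → (Pair n → ℝ) → ℝ) (b b' : Fin n)
    (z : Pair n → ℝ) : ℝ :=
  ((1 / (τ * M) ^ 2) * ThA S s b b' z + (n / (τ * M)) ^ 2 * hds S s b b' z ^ 2) +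
    (2 * AvP s (row b ∪ row b') (lo S s (2 * M)) z + 1 / τ * X b b' z)

/-- **the weight of a bad bulk** -/
noncomputable def badK (X : Fin n → Fin n → (Pair n → ℝ) → ℝ) (b b' : Fin n)
    (z : Pair n → ℝ) : ℝ := min 1 (bad0 S s τ M X b b' z)

variable {S s τ M}

lemma lo_nonneg (z : Pair n → ℝ) : 0 ≤ lo S s M z := by
  unfold lo; split_ifs <;> norm_num

lemma lo_le (z : Pair n → ℝ) : lo S s M z ≤ 1 := by
  unfold lo; split_ifs <;> norm_num

lemma eg_lo : EG (lo S s M) := by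
  refine EG.of_bdd (C := 1) ?_ fun z => ?_
  · unfold lo
    exact Measurable.ite (measurableSet_lt (eg_frC fun i j => S.eg_A s i j).meas
      measurable_const) measurable_const measurable_const
  · rw [abs_of_nonneg (lo_nonneg z)]
    exact lo_le z

lemma eg_eeS (b b' : Fin n) : EG (R1S.ee S s b b') :=
  eg_AvP (f := fun z => ∑ i, R1S.cl0 S s b b' z i ^ 2)
    (EG.sum _ fun i _ => (R1S.eg_cl0 S s b b' i).pow 2) s _

lemma eg_hds (b b' : Fin n) : EG (hds S s b b') := by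
  have h : EG fun z => (1 + R1S.ee S s b b' z) - (n : ℝ)⁻¹ * FA S s b b' z :=
    ((EG.const 1).add (eg_eeS b b')).sub ((eg_FA S s b b').const_mul _)
  have e : hds S s b b' = fun z => (1 + R1S.ee S s b b' z) - (n : ℝ)⁻¹ * FA S s b b' z := by
    funext z
    unfold hds
    ring
  rw [e]
  exact h

variable {X : Fin n → Fin n → (Pair n → ℝ) → ℝ}

lemma eg_bad0 (hX : ∀ b b', EG (X b b')) (b b' : Fin n) : EG (bad0 S s τ M X b b') :=
  (((eg_ThA S s b b').const_mul _).add (((eg_hds b b').pow 2).const_mul _)).add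
    (((eg_AvP eg_lo s _).const_mul _).add ((hX b b').const_mul _))

lemma bad0_parts (hτ : 0 < τ) (hX : ∀ b b' z, 0 ≤ X b b' z) (b b' : Fin n) (z : Pair n → ℝ) :
    0 ≤ (1 / (τ * M) ^ 2) * ThA S s b b' z ∧ 0 ≤ (n / (τ * M)) ^ 2 * hds S s b b' z ^ 2 ∧
      0 ≤ 2 * AvP s (row b ∪ row b') (lo S s (2 * M)) z ∧ 0 ≤ 1 / τ * X b b' z :=
  ⟨mul_nonneg (by positivity) (ThA_nonneg S s b b' z), by positivity,
    mul_nonneg (by norm_num) (AvP_nonneg (fun z => lo_nonneg z) z),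
    mul_nonneg (by positivity) (hX b b' z)⟩

lemma bad0_nonneg (hτ : 0 < τ) (hX : ∀ b b' z, 0 ≤ X b b' z) (b b' : Fin n) (z : Pair n → ℝ) :
    0 ≤ bad0 S s τ M X b b' z := by
  obtain ⟨h1, h2, h3, h4⟩ := bad0_parts (S := S) (s := s) (M := M) hτ hX b b' z
  unfold bad0
  linarith

lemma badK_nonneg (hτ : 0 < τ) (hX : ∀ b b' z, 0 ≤ X b b' z) (b b' : Fin n)
    (z : Pair n → ℝ) : 0 ≤ badK S s τ M X b b' z :=
  le_min zero_le_one (bad0_nonneg hτ hX b b' z)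

lemma badK_le (b b' : Fin n) (z : Pair n → ℝ) : badK S s τ M X b b' z ≤ 1 := min_le_left _ _

lemma badK_le0 (b b' : Fin n) (z : Pair n → ℝ) :
    badK S s τ M X b b' z ≤ bad0 S s τ M X b b' z := min_le_right _ _

lemma eg_badK (hτ : 0 < τ) (hX0 : ∀ b b' z, 0 ≤ X b b' z) (hX : ∀ b b', EG (X b b'))
    (b b' : Fin n) : EG (badK S s τ M X b b') := by
  refine EG.of_bdd (C := 1) ?_ fun z => ?_
  · exact measurable_const.min (eg_bad0 (S := S) (s := s) (τ := τ) (M := M) hX b b').meas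
  · rw [abs_of_nonneg (badK_nonneg hτ hX0 b b' z)]
    exact badK_le b b' z

/-- **(K) off the bad bulks.** -/
theorem badK_lt {κ : ℝ} (hκ : 0 ≤ κ) (hτ : 0 < τ) (hM : 0 < M) (hn : 0 < n)
    (hnM : (n : ℝ) ≤ τ * M) (hX : ∀ b b' z, 0 ≤ X b b' z) (hG : KapG S s τ κ M X) {b b' : Fin n}
    (hb : b ≠ b') {z : Pair n → ℝ} {v : Fin n → ℝ} (hv : Bv S s b b' z v)
    (hbad : badK S s τ M X b b' z < 1) :
    κ * (M / (n : ℝ) ^ 2) * R1S.ee S s b b' z ≤ Net k (S.A s) (S.H s) s b b' v z := by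
  have hn0 : (0 : ℝ) < n := by exact_mod_cast hn
  have h0 : bad0 S s τ M X b b' z < 1 := by
    rcases min_lt_iff.1 hbad with h | h
    · exact absurd h (lt_irrefl _)
    · exact h
  obtain ⟨h1, h2, h3, h4⟩ := bad0_parts (S := S) (s := s) (M := M) hτ hX b b' z
  unfold bad0 at h0
  have hτM : 0 < τ * M := by positivity
  -- the size of the matrix
  have hF : M ≤ FA S s b b' z := by
    have h5 : AvP s (row b ∪ row b') (fun z => 2 * M - 2 * M * lo S s (2 * M) z) z ≤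
        FA S s b b' z := by
      refine AvP_mono ((EG.const _).sub (eg_lo.const_mul _)) (eg_frC fun i j => S.eg_A s i j)
        (fun z => ?_) z
      unfold lo
      split_ifs with h
      · have := frn (S.A s z)
        linarith
      · push Not at h
        linarith
    rw [AvP_sub (EG.const _) (eg_lo.const_mul _), AvP_const, AvP_const_mul] at h5
    have h6 : 2 * AvP s (row b ∪ row b') (lo S s (2 * M)) z ≤ 1 := by linarith
    have h7 : 2 * M * AvP s (row b ∪ row b') (lo S s (2 * M)) z ≤ M := by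
      calc 2 * M * AvP s (row b ∪ row b') (lo S s (2 * M)) z =
            M * (2 * AvP s (row b ∪ row b') (lo S s (2 * M)) z) := by ring
        _ ≤ M * 1 := mul_le_mul_of_nonneg_left h6 hM.le
        _ = M := mul_one M
    linarith
  have hτF : τ * M ≤ τ * FA S s b b' z := mul_le_mul_of_nonneg_left hF hτ.le
  have hΘ : ThA S s b b' z ≤ (τ * FA S s b b' z) ^ 2 := by
    have h5 : 1 / (τ * M) ^ 2 * ThA S s b b' z ≤ 1 := by linarith
    rw [one_div_mul_eq_div, div_le_one (by positivity)] at h5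
    exact h5.trans (pow_le_pow_left₀ hτM.le hτF 2)
  have hA : |1 + R1S.ee S s b b' z - FA S s b b' z / n| ≤ τ * (FA S s b b' z / n) := by
    have h5 : (n / (τ * M) * hds S s b b' z) ^ 2 ≤ 1 := by
      rw [mul_pow]
      linarith
    have h6 : |n / (τ * M) * hds S s b b' z| ≤ 1 := (sq_le_one_iff_abs_le_one _).1 h5
    rw [abs_mul, abs_of_pos (by positivity : 0 < (n : ℝ) / (τ * M)), div_mul_eq_mul_div,
      div_le_one hτM] at h6
    have h7 : |hds S s b b' z| ≤ τ * M / n := by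
      rw [le_div_iff₀ hn0]
      linarith
    refine h7.trans ?_
    rw [← mul_div_assoc]
    exact div_le_div_of_nonneg_right hτF hn0.le
  have hXτ : X b b' z ≤ τ := by
    have h5 : 1 / τ * X b b' z ≤ 1 := by linarith
    rwa [one_div_mul_eq_div, div_le_one hτ] at h5
  have h9 := hG b b' z v hb hv (hM.trans_le hF) hF hΘ hA (hnM.trans hτF) hXτ
  refine le_trans ?_ h9
  have h11 := ee_nonneg (S := S) (s := s) b b' z
  gcongr

end defs

/-! ### the sum over the pairs -/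

section sum

variable {n : ℕ} {β A δ T ρ Λ N : ℝ} {q : Par}

/-- the part of the row is truncated separately -/
lemma badK_le1 {k x : ℝ} {S : CS n k x} {s τ M : ℝ} {X : Fin n → Fin n → (Pair n → ℝ) → ℝ}
    (hτ : 0 < τ) (hM : 0 < M) (hX : ∀ b b' z, 0 ≤ X b b' z) (b b' : Fin n) (z : Pair n → ℝ) :
    badK S s τ M X b b' z ≤ ((1 / (τ * M) ^ 2) * ThA S s b b' z +
        min 1 (hds S s b b' z ^ 2 / (τ * M / n) ^ 2)) +
      (2 * AvP s (row b ∪ row b') (lo S s (2 * M)) z + 1 / τ * X b b' z) := by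
  obtain ⟨h1, h2, h3, h4⟩ := bad0_parts (S := S) (s := s) (M := M) hτ hX b b' z
  have e : (n / (τ * M)) ^ 2 * hds S s b b' z ^ 2 =
      hds S s b b' z ^ 2 / (τ * M / n) ^ 2 := by
    field_simp
  unfold badK bad0
  rw [e] at h2 ⊢
  rcases le_total 1 (hds S s b b' z ^ 2 / (τ * M / n) ^ 2) with h5 | h5
  · rw [min_eq_left h5]
    refine (min_le_left _ _).trans ?_
    linarith
  · rw [min_eq_right h5]
    exact min_le_right _ _

/-- the sum of the weights of the bad bulks, without the package `Fo` -/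
theorem badK_sum0 (S : CS n (kk n β) q.x) (hq : q.Ok) (hn : 2 ≤ n) (hA1 : 1 ≤ A) (hN : 0 < N)
    (hL : Law2 n ((n : ℝ) ^ 200)⁻¹ q S.F) (hδ : 0 ≤ δ)
    (hlo : En q S.F (fun w => if fr (S.A q.s1 (P2 q w)) < N / A then (1 : ℝ) else 0) ≤ δ)
    {τ V : ℝ} (hτ : 0 < τ)
    (hΘ : ∑ b : Fin n, ∑ b' ∈ Finset.univ.erase b,
      En q S.F (fun w => ThA S q.s1 b b' (P2 q w)) ≤ n ^ 2 * N ^ 2 * V)
    {X : Fin n → Fin n → (Pair n → ℝ) → ℝ} (hX0 : ∀ b b' z, 0 ≤ X b b' z)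
    (hX : ∀ b b', EG (X b b')) {H0 X0 : ℝ}
    (hh : ∑ b : Fin n, ∑ b' ∈ Finset.univ.erase b, En q S.F (fun w =>
      min 1 (hds S q.s1 b b' (P2 q w) ^ 2 / (τ * (N / (2 * A)) / n) ^ 2)) ≤ H0)
    (hXs : ∑ b : Fin n, ∑ b' ∈ Finset.univ.erase b,
      En q S.F (fun w => X b b' (P2 q w)) ≤ X0) :
    ∑ b : Fin n, ∑ b' ∈ Finset.univ.erase b,
      En q S.F (fun w => badK S q.s1 τ (N / (2 * A)) X b b' (P2 q w)) ≤
      4 * A ^ 2 / τ ^ 2 * V * (n : ℝ) ^ 2 + H0 + (4 * δ * (n : ℝ) ^ 2 + n) + X0 / τ := by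
  have hc := S.c11
  have hx := S.x0
  have hn2 : (2 : ℝ) ≤ n := by exact_mod_cast hn
  have hn0 : (0 : ℝ) < n := by linarith
  have hA0 : 0 < A := by linarith
  set M := N / (2 * A) with hM
  have hM0 : 0 < M := by positivity
  have h2M : 2 * M = N / A := by
    rw [hM]
    field_simp
  -- one pair
  have hone : ∀ b b' : Fin n, En q S.F (fun w => badK S q.s1 τ M X b b' (P2 q w)) ≤
      ((1 / (τ * M) ^ 2) * En q S.F (fun w => ThA S q.s1 b b' (P2 q w)) +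
        En q S.F (fun w => min 1 (hds S q.s1 b b' (P2 q w) ^ 2 / (τ * M / n) ^ 2))) +
      (2 * (2 * δ + ((n : ℝ) ^ 200)⁻¹) + 1 / τ * En q S.F (fun w => X b b' (P2 q w))) := by
    intro b b'
    have g1 : EG fun w => ThA S q.s1 b b' (P2 q w) := eg_P2 (eg_ThA S q.s1 b b')
    have g2 : EG fun w => min 1 (hds S q.s1 b b' (P2 q w) ^ 2 / (τ * M / n) ^ 2) := by
      refine EG.of_bdd (C := 1) ?_ fun w => ?_
      · exact measurable_const.min
          ((eg_P2 (f := fun z => hds S q.s1 b b' z ^ 2) ((eg_hds b b').pow 2)).meas.div_const _)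
      · rw [abs_of_nonneg (le_min zero_le_one (by positivity))]
        exact min_le_left _ _
    have g3 : EG fun w => AvP q.s1 (row b ∪ row b') (lo S q.s1 (2 * M)) (P2 q w) :=
      eg_P2 (eg_AvP eg_lo _ _)
    have g4 : EG fun w => X b b' (P2 q w) := eg_P2 (hX b b')
    have g0 : EG fun w => badK S q.s1 τ M X b b' (P2 q w) :=
      eg_P2 (eg_badK hτ hX0 hX b b')
    have h1 := En_mono hc hx g0 (((g1.const_mul (1 / (τ * M) ^ 2)).add g2).add
      ((g3.const_mul 2).add (g4.const_mul (1 / τ)))) fun w => badK_le1 hτ hM0 hX0 b b' (P2 q w)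
    rw [En_add hc hx ((g1.const_mul (1 / (τ * M) ^ 2)).add g2)
      ((g3.const_mul 2).add (g4.const_mul (1 / τ))),
      En_add hc hx (g1.const_mul (1 / (τ * M) ^ 2)) g2,
      En_add hc hx (g3.const_mul 2) (g4.const_mul (1 / τ)), En_const_mul, En_const_mul,
      En_const_mul] at h1
    have h2 : En q S.F (fun w => AvP q.s1 (row b ∪ row b') (lo S q.s1 (2 * M)) (P2 q w)) ≤
        2 * δ + ((n : ℝ) ^ 200)⁻¹ := by
      have e1 : (fun w => AvP q.s1 (row b ∪ row b') (lo S q.s1 (2 * M)) (P2 q w)) =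
          Av (lf (row b ∪ row b')) fun w => lo S q.s1 (2 * M) (P2 q w) := by
        funext w
        exact (Av_lf_P2 hq eg_lo _ w).symm
      rw [e1]
      have h3 := hL.nlow hc hx b b' (f := fun w => lo S q.s1 (2 * M) (P2 q w)) (K := 1)
        (eg_P2 eg_lo) (fun w => lo_nonneg _) fun w => lo_le _
      have h4 : En q S.F (fun w => lo S q.s1 (2 * M) (P2 q w)) ≤ δ := by
        rw [h2M]
        exact hlo
      linarith
    linarith
  have hsum := Finset.sum_le_sum fun b (_ : b ∈ Finset.univ) =>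
    Finset.sum_le_sum fun b' (_ : b' ∈ Finset.univ.erase b) => hone b b'
  refine hsum.trans ?_
  simp only [sum_pairs_add, sum_pairs_mul]
  have hcst := sum_pairs_const (n := n) (2 * (2 * δ + ((n : ℝ) ^ 200)⁻¹)) (by positivity)
  have e1 : (1 / (τ * M) ^ 2) * ∑ b : Fin n, ∑ b' ∈ Finset.univ.erase b,
      En q S.F (fun w => ThA S q.s1 b b' (P2 q w)) ≤
      4 * A ^ 2 / τ ^ 2 * V * (n : ℝ) ^ 2 := by
    have h1 : (1 / (τ * M) ^ 2) * ∑ b : Fin n, ∑ b' ∈ Finset.univ.erase b,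
        En q S.F (fun w => ThA S q.s1 b b' (P2 q w)) ≤ (1 / (τ * M) ^ 2) *
        (n ^ 2 * N ^ 2 * V) :=
      mul_le_mul_of_nonneg_left hΘ (by positivity)
    refine h1.trans (le_of_eq ?_)
    rw [hM]
    field_simp
    ring
  have e3 : ∑ _b : Fin n, ∑ _b' ∈ Finset.univ.erase _b, 2 * (2 * δ + ((n : ℝ) ^ 200)⁻¹) ≤
      4 * δ * (n : ℝ) ^ 2 + n := by
    refine hcst.trans ?_
    have h3 : ((n : ℝ) ^ 200)⁻¹ ≤ ((n : ℝ) ^ 4)⁻¹ :=
      inv_anti₀ (by positivity) (pow_le_pow_right₀ (by linarith) (by norm_num))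
    have h4 : (n : ℝ) ^ 2 * (2 * ((n : ℝ) ^ 4)⁻¹) ≤ n := by
      have h5 : (n : ℝ) ^ 2 * (2 * ((n : ℝ) ^ 4)⁻¹) = 2 / (n : ℝ) ^ 2 := by
        field_simp
      rw [h5, div_le_iff₀ (by positivity)]
      have : (8 : ℝ) ≤ n ^ 3 := by
        calc (8 : ℝ) = 2 ^ 3 := by norm_num
          _ ≤ _ := pow_le_pow_left₀ (by norm_num) hn2 3
      calc (2 : ℝ) ≤ n ^ 3 := by linarith
        _ = n * n ^ 2 := by ring
    have h5 : (n : ℝ) ^ 2 * (2 * (2 * δ + ((n : ℝ) ^ 200)⁻¹)) =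
        4 * δ * (n : ℝ) ^ 2 + (n : ℝ) ^ 2 * (2 * ((n : ℝ) ^ 200)⁻¹) := by ring
    rw [h5]
    have h6 : (n : ℝ) ^ 2 * (2 * ((n : ℝ) ^ 200)⁻¹) ≤ (n : ℝ) ^ 2 * (2 * ((n : ℝ) ^ 4)⁻¹) := by
      gcongr
    linarith
  have e4 : 1 / τ * ∑ b : Fin n, ∑ b' ∈ Finset.univ.erase b,
      En q S.F (fun w => X b b' (P2 q w)) ≤ X0 / τ := by
    rw [one_div_mul_eq_div]
    exact div_le_div_of_nonneg_right hXs hτ.le
  simp only [sum_pairs_add, sum_pairs_mul] at e3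
  linarith

/-- **The sum of the weights of the bad bulks.** -/
theorem badK_sum (S : CS n (kk n β) q.x) (h : Fo n β A δ T ρ Λ S.y q S.F S.A S.DA)
    (hL : Law2 n ((n : ℝ) ^ 200)⁻¹ q S.F) (hKR : ∀ s z, rt S.DA s z ≤ (n : ℝ) ^ 20) {τ : ℝ}
    (hτ : 0 < τ) {X : Fin n → Fin n → (Pair n → ℝ) → ℝ} (hX0 : ∀ b b' z, 0 ≤ X b b' z)
    (hX : ∀ b b', EG (X b b')) {H0 X0 : ℝ}
    (hh : ∑ b : Fin n, ∑ b' ∈ Finset.univ.erase b, En q S.F (fun w =>
      min 1 (hds S q.s1 b b' (P2 q w) ^ 2 / (τ * (R1C.NN n β ρ / (2 * A)) / n) ^ 2)) ≤ H0)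
    (hXs : ∑ b : Fin n, ∑ b' ∈ Finset.univ.erase b,
      En q S.F (fun w => X b b' (P2 q w)) ≤ X0) :
    ∑ b : Fin n, ∑ b' ∈ Finset.univ.erase b,
      En q S.F (fun w => badK S q.s1 τ (R1C.NN n β ρ / (2 * A)) X b b' (P2 q w)) ≤
      120 * A ^ 4 / τ ^ 2 * (1 / Λ + 1 / (n * T)) * (n : ℝ) ^ 2 + H0 +
        (4 * δ * (n : ℝ) ^ 2 + n) + X0 / τ := by
  have h1 := badK_sum0 S h.ok h.n2 h.A1 h.N0 hL h.δ0 h.lo2 hτ
    (V := 30 * A ^ 2 * (1 / Λ + 1 / (n * T))) (by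
      refine (bt3_two S h hL hKR).trans (le_of_eq ?_)
      ring) hX0 hX hh hXs
  refine h1.trans (le_of_eq ?_)
  ring

end sum

end Vale.Agent.P146.U.H191
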