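import Vale.Agent.P146.H816.CleanS

/-!
Moments of partial averages: Jensen, and the tail of a product of two nonnegative numbers by their
high moments. Nothing here sees the law.
-/

open MeasureTheory ProbabilityTheory

namespace Vale.Agent.P146.U

open Vale.Agent.P157.Lv Vale.Agent.P146.H712 Vale.Agent.P146.H332
  Vale.Agent.P146.H325 Vale.Agent.P146.H816

/-- the tangent of `x ^ p` at `a` -/
lemma tan_pow {p : ℕ} (hp : 1 ≤ p) {a x : ℝ} (ha : 0 ≤ a) (hx : 0 ≤ x) :
    a ^ p + p * a ^ (p - 1) * (x - a) ≤ x ^ p := by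
  rcases ha.eq_or_lt with h0 | h0
  · rw [← h0, zero_pow (by omega)]
    rcases eq_or_lt_of_le hp with h1 | h1
    · rw [← h1]
      simp
    · rw [zero_pow (by omega)]
      simp only [mul_zero, zero_mul, zero_add]
      positivity
  · have h1 := one_add_mul_le_pow (a := x / a - 1) (by
      have : 0 ≤ x / a := by positivity
      linarith) p
    have h2 : (1 + (x / a - 1)) ^ p * a ^ p = x ^ p := by
      rw [← mul_pow]
      congr 1
      field_simp
      ring
    have h3 := mul_le_mul_of_nonneg_right h1 (pow_nonneg ha p)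
    rw [h2] at h3
    refine le_trans (le_of_eq ?_) h3
    obtain ⟨m, rfl⟩ : ∃ m, p = m + 1 := ⟨p - 1, by omega⟩
    rw [Nat.add_sub_cancel, pow_succ a m]
    field_simp

/-- Jensen for the partial averages, all powers -/
lemma Av_pow_le {ι : Type} [Fintype ι] [DecidableEq ι] {R : Finset ι} {f : (ι → ℝ) → ℝ}
    (hf : EG f) (h0 : ∀ w, 0 ≤ f w) {p : ℕ} (hp : 1 ≤ p) (w : ι → ℝ) :
    Av R f w ^ p ≤ Av R (fun w => f w ^ p) w := by
  set m := Av R f w with hm
  have hm0 : 0 ≤ m := H816.Av_nonneg h0 w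
  have h1 : Av R (fun w => p * m ^ (p - 1) * f w + (m ^ p - p * m ^ (p - 1) * m)) w ≤
      Av R (fun w => f w ^ p) w := by
    refine H712.Av_mono ((hf.const_mul _).add (EG.const _)) (hf.pow p) (fun w => ?_) w
    have := tan_pow hp hm0 (h0 w)
    linarith
  rw [H816.Av_add (hf.const_mul _) (EG.const _), H816.Av_const_mul, H816.Av_const, ← hm] at h1
  linarith

/-- `y ≤ λ² + (a^p + b^p) / λ^(p-2)` for `y = a b` -/
lemma mul_le_tail {a b lam : ℝ} (ha : 0 ≤ a) (hb : 0 ≤ b) (hl : 0 < lam) {p : ℕ} (hp : 2 ≤ p) :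
    a * b ≤ lam ^ 2 + (a ^ p + b ^ p) / lam ^ (p - 2) := by
  have key : ∀ c : ℝ, 0 ≤ c → lam ≤ c → c ^ 2 ≤ c ^ p / lam ^ (p - 2) := by
    intro c hc hlc
    rw [le_div_iff₀ (by positivity)]
    have h1 : lam ^ (p - 2) ≤ c ^ (p - 2) := pow_le_pow_left₀ hl.le hlc _
    have h2 : c ^ p = c ^ 2 * c ^ (p - 2) := by
      rw [← pow_add]
      congr 1
      omega
    rw [h2]
    exact mul_le_mul_of_nonneg_left h1 (by positivity)
  have hap : 0 ≤ a ^ p / lam ^ (p - 2) := by positivity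
  have hbp : 0 ≤ b ^ p / lam ^ (p - 2) := by positivity
  rw [add_div]
  rcases le_total a lam with h1 | h1
  · rcases le_total b lam with h2 | h2
    · nlinarith
    · have h3 := key b hb h2
      nlinarith
  · rcases le_total b lam with h2 | h2
    · have h3 := key a ha h1
      nlinarith
    · have h3 := key a ha h1
      have h4 := key b hb h2
      nlinarith [sq_nonneg (a - b), sq_nonneg lam]

/-- with a weight `0 ≤ c ≤ 1` -/
lemma bad_mul_le_tail {a b c lam : ℝ} (ha : 0 ≤ a) (hb : 0 ≤ b) (hc : 0 ≤ c) (hc1 : c ≤ 1)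
    (hl : 0 < lam) {p : ℕ} (hp : 2 ≤ p) :
    c * (a * b) ≤ lam ^ 2 * c + (a ^ p + b ^ p) / lam ^ (p - 2) := by
  have h1 := mul_le_mul_of_nonneg_left (mul_le_tail ha hb hl hp) hc
  have h2 : c * ((a ^ p + b ^ p) / lam ^ (p - 2)) ≤ 1 * ((a ^ p + b ^ p) / lam ^ (p - 2)) :=
    mul_le_mul_of_nonneg_right hc1 (by positivity)
  linarith

end Vale.Agent.P146.U
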