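import Vale.Agent.P146.H325.Kap2
import Vale.Agent.P146.U.H325_Fo
import Vale.Agent.P146.U.NS
import Vale.Agent.P146.U.MomAv

/-!
Plan R1, row (KAP): the assembly under the normalized mean `En`.
-/

open MeasureTheory ProbabilityTheory

namespace Vale.Agent.P146.U.R1C

open Vale.Agent.P146.R1C hiding Ca Cd En En_add En_const En_const_mul En_eq En_mono En_nonneg
  En_pow_le Ew Ew1_pos Ew_add Ew_const_mul Ew_eq Ew_mono Ew_nonneg Fo Gb Nd P0 P0_sw P1 P1_sw P2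
  P2_sw P3 P3_sw Par Sa Sd bad_pair den_pos dens eg_den kap_en kk_NN

open Vale.Agent.P157.Lv Vale.Agent.P146.H425 Vale.Agent.P146.H712 Vale.Agent.P146.H332
  Vale.Agent.P146.H325 Vale.Agent.P146.H816
open Vale.Agent.P146.R1 hiding Et Et4 Et4_123 Et4_124 Et4_add Et4_const Et4_const_mul Et4_cs
  Et4_mono Et4_nonneg Et4_sub Et_add Et_const Et_const_mul Et_cs Et_fst_eq Et_jensen Et_mono
  Et_nonneg Et_sub Et_weight Et_zero Eu Eu4 Eu4_123 Eu4_124 Eu4_add Eu4_cond Eu4_const_mul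
  Eu4_iter Eu4_mono Eu4_nonneg Eu4_one_eq Eu4_one_eq' Eu4_one_pos Eu4_weight Eu_add Eu_const_mul
  Eu_fst Eu_fst_eq Eu_iter Eu_mono Eu_nonneg Eu_one Eu_one_eq Eu_one_pos Eu_weight Eu_zero
  Eu_zero_one Lth Lth_zero Qt dn dn_pos e3_dn eg_Eu eg_Eu4
open Vale.Agent.P146.U.R1

set_option linter.unusedSectionVars false

section en

variable {κ X : Type} [Fintype κ] [DecidableEq κ] [Fintype X] [DecidableEq X] {q : Par}
  {F : (κ → ℝ) → ℝ} {D : κ → (κ → ℝ) → ℝ} {B L : ℝ}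

/-- **The sum over the pairs, (KAP).** -/
theorem kap_en (hc : C11 F D B L) (hx : 0 < q.x) {G Y bad Er : X → X → (K4 κ → ℝ) → ℝ}
    (eG : ∀ b b', EG (G b b')) (eY : ∀ b b', EG (Y b b')) (eb : ∀ b b', EG (bad b b'))
    (eE : ∀ b b', EG (Er b b')) {g DD e1 e2 K : ℝ} (hg : 0 ≤ g)
    (hpt : ∀ b b', b' ≠ b → ∀ w, g * (1 - bad b b' w) * Y b b' w ≤ G b b' w + Er b b' w)
    (n1 : ∑ b, ∑ b' ∈ Finset.univ.erase b, En q F (G b b') ≤ DD + e1)
    (n2 : K ≤ (∑ b, ∑ b' ∈ Finset.univ.erase b, En q F (Y b b')) +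
      2 * (∑ b, ∑ b' ∈ Finset.univ.erase b, En q F (G b b')) + e2) :
    g * K ≤ (1 + 2 * g) * (DD + e1) + g * e2 +
      (∑ b, ∑ b' ∈ Finset.univ.erase b, En q F (Er b b')) +
      g * (∑ b, ∑ b' ∈ Finset.univ.erase b, En q F fun w => bad b b' w * Y b b' w) := by
  have h3 : g * (∑ b, ∑ b' ∈ Finset.univ.erase b, En q F (Y b b')) ≤
      (∑ b, ∑ b' ∈ Finset.univ.erase b, En q F (G b b')) +
      (∑ b, ∑ b' ∈ Finset.univ.erase b, En q F (Er b b')) +
      g * (∑ b, ∑ b' ∈ Finset.univ.erase b, En q F fun w => bad b b' w * Y b b' w) := by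
    rw [← sum_pairs_mul, ← sum_pairs_mul, ← sum_pairs_add, ← sum_pairs_add]
    refine Finset.sum_le_sum fun b _ => Finset.sum_le_sum fun b' hb' => ?_
    have hb := Finset.ne_of_mem_erase hb'
    rw [← En_const_mul, ← En_const_mul, ← En_add hc hx (eG b b') (eE b b'),
      ← En_add hc hx ((eG b b').add (eE b b')) (((eb b b').mul (eY b b')).const_mul g)]
    refine En_mono hc hx ((eY b b').const_mul g)
      (((eG b b').add (eE b b')).add (((eb b b').mul (eY b b')).const_mul g)) fun w => ?_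
    have h4 := hpt b b' hb w
    have h5 : g * (1 - bad b b' w) * Y b b' w =
      g * Y b b' w - g * (bad b b' w * Y b b' w) := by ring
    rw [h5] at h4
    linarith
  have h5 := mul_le_mul_of_nonneg_left n2 hg
  have h6 := mul_le_mul_of_nonneg_left n1 (by linarith : 0 ≤ 1 + 2 * g)
  nlinarith [h3, h5, h6]

/-- the second moment on a rare event -/
theorem mo_chi (hc : C11 F D B L) (hx : 0 < q.x) {f : (K4 κ → ℝ) → ℝ} (ef : EG f)
    {M s : ℝ} (hM : 0 < M) (hs : 0 < s)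
    (hm : En q F (fun w => f w ^ 4) ≤ 2 * M ^ 4)
    (hδ : En q F (fun w => if M < f w then (1 : ℝ) else 0) ≤ s ^ 2) :
    En q F (fun w => f w ^ 2 * (if M < f w then (1 : ℝ) else 0)) ≤ 3 / 2 * M ^ 2 * s := by
  have eχ : EG fun w => if M < f w then (1 : ℝ) else 0 := eg_chi ef M
  have h1 : En q F (fun w => f w ^ 2 * (if M < f w then (1 : ℝ) else 0)) ≤
      En q F (fun w => s / (2 * M ^ 2) * f w ^ 4 +
        M ^ 2 / (2 * s) * (if M < f w then (1 : ℝ) else 0)) := by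
    refine En_mono hc hx ((ef.pow 2).mul eχ) (((ef.pow 4).const_mul _).add (eχ.const_mul _))
      fun w => ?_
    have e : s / (2 * M ^ 2) * f w ^ 4 + M ^ 2 / (2 * s) * 1 - f w ^ 2 * 1 =
        (s * f w ^ 2 - M ^ 2) ^ 2 / (2 * M ^ 2 * s) := by
      field_simp
      ring
    split_ifs
    · have : 0 ≤ (s * f w ^ 2 - M ^ 2) ^ 2 / (2 * M ^ 2 * s) := by positivity
      linarith
    · rw [mul_zero, mul_zero, add_zero]
      positivity
  rw [En_add hc hx ((ef.pow 4).const_mul _) (eχ.const_mul _), En_const_mul, En_const_mul] at h1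
  have h2 := mul_le_mul_of_nonneg_left hm (by positivity : 0 ≤ s / (2 * M ^ 2))
  have h3 := mul_le_mul_of_nonneg_left hδ (by positivity : 0 ≤ M ^ 2 / (2 * s))
  have e2 : s / (2 * M ^ 2) * (2 * M ^ 4) = M ^ 2 * s := by field_simp
  have e3 : M ^ 2 / (2 * s) * s ^ 2 = 1 / 2 * M ^ 2 * s := by field_simp
  rw [e2] at h2
  rw [e3] at h3
  linarith

/-- averages of two functions which are rarely large, with a weight -/
lemma bad_mul_chi {f1 f2 : (K4 κ → ℝ) → ℝ} (e1 : EG f1) (e2 : EG f2) (h1 : ∀ w, 0 ≤ f1 w)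
    (h2 : ∀ w, 0 ≤ f2 w) {M c : ℝ} (hM : 0 < M) (hc : 0 ≤ c) (hc1 : c ≤ 1)
    (R : Finset (K4 κ)) (w : K4 κ → ℝ) :
    c * (Av R f1 w * Av R f2 w) ≤ M ^ 2 * c +
      3 / 2 * (Av R (fun w => f1 w ^ 2 * (if M < f1 w then (1 : ℝ) else 0)) w +
        Av R (fun w => f2 w ^ 2 * (if M < f2 w then (1 : ℝ) else 0)) w) := by
  have key : ∀ {f : (K4 κ → ℝ) → ℝ}, EG f → (∀ w, 0 ≤ f w) → ∃ g : ℝ, 0 ≤ g ∧
      Av R f w ≤ M + g ∧
      M * g ≤ Av R (fun w => f w ^ 2 * (if M < f w then (1 : ℝ) else 0)) w ∧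
      g ^ 2 ≤ Av R (fun w => f w ^ 2 * (if M < f w then (1 : ℝ) else 0)) w := by
    intro f ef hf
    have eχ : EG fun w => if M < f w then (1 : ℝ) else 0 := eg_chi ef M
    have hχ0 : ∀ w, 0 ≤ f w * (if M < f w then (1 : ℝ) else 0) := fun w =>
      mul_nonneg (hf w) (by split_ifs <;> norm_num)
    refine ⟨Av R (fun w => f w * (if M < f w then (1 : ℝ) else 0)) w,
      H816.Av_nonneg hχ0 w, ?_, ?_, ?_⟩
    · have h5 : Av R f w ≤ Av R (fun w => M + f w * (if M < f w then (1 : ℝ) else 0)) w := by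
        refine H712.Av_mono ef ((EG.const M).add (ef.mul eχ)) (fun w => ?_) w
        split_ifs with h
        · linarith
        · linarith [not_lt.1 h]
      rwa [H816.Av_add (EG.const _) (ef.mul eχ), H816.Av_const] at h5
    · rw [← H816.Av_const_mul]
      refine H712.Av_mono ((ef.mul eχ).const_mul _) ((ef.pow 2).mul eχ) (fun w => ?_) w
      split_ifs with h
      · have := hf w
        nlinarith
      · simp
    · refine (U.Av_pow_le (ef.mul eχ) hχ0 (p := 2) (by norm_num) w).trans (le_of_eq ?_)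
      congr 1
      funext w
      split_ifs <;> simp
  obtain ⟨g1, a1, a2, a3, a4⟩ := key e1 h1
  obtain ⟨g2, b1, b2, b3, b4⟩ := key e2 h2
  set G1 := Av R (fun w => f1 w ^ 2 * (if M < f1 w then (1 : ℝ) else 0)) w
  set G2 := Av R (fun w => f2 w ^ 2 * (if M < f2 w then (1 : ℝ) else 0)) w
  have c1 : 0 ≤ Av R f1 w := H816.Av_nonneg h1 w
  have c2 : 0 ≤ Av R f2 w := H816.Av_nonneg h2 w
  have h3 : Av R f1 w * Av R f2 w ≤ M ^ 2 + 3 / 2 * (G1 + G2) := by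
    calc Av R f1 w * Av R f2 w ≤ (M + g1) * (M + g2) :=
          mul_le_mul a2 b2 c2 (by positivity)
      _ = M ^ 2 + (M * g1 + M * g2) + g1 * g2 := by ring
      _ ≤ _ := by nlinarith [sq_nonneg (g1 - g2)]
  have hG1 : 0 ≤ G1 := (sq_nonneg g1).trans a4
  have hG2 : 0 ≤ G2 := (sq_nonneg g2).trans b4
  have h4 := mul_le_mul_of_nonneg_left h3 hc
  have h5 : c * (3 / 2 * (G1 + G2)) ≤ 1 * (3 / 2 * (G1 + G2)) :=
    mul_le_mul_of_nonneg_right hc1 (by positivity)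
  linarith

/-- **The bad part of one pair.** `f1`, `f2` = the two `fr C_i`; `hlow` = the law change. -/
theorem bad_pair (hc : C11 F D B L) (hx : 0 < q.x) {bad Y f1 f2 : (K4 κ → ℝ) → ℝ} (eb : EG bad)
    (eY : EG Y) (ef1 : EG f1) (ef2 : EG f2) {R : Finset (K4 κ)} {c M K s ε : ℝ}
    (hb0 : ∀ w, 0 ≤ bad w) (hb1 : ∀ w, bad w ≤ 1) (hc0 : 0 ≤ c) (hM : 0 < M) (hs : 0 < s)
    (hf1 : ∀ w, 0 ≤ f1 w) (hf1K : ∀ w, f1 w ≤ K) (hf2 : ∀ w, 0 ≤ f2 w) (hf2K : ∀ w, f2 w ≤ K)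
    (hY : ∀ w, Y w ≤ c * (Av R f1 w * Av R f2 w))
    (hm1 : En q F (fun w => f1 w ^ 4) ≤ 2 * M ^ 4) (hm2 : En q F (fun w => f2 w ^ 4) ≤ 2 * M ^ 4)
    (hδ1 : En q F (fun w => if M < f1 w then (1 : ℝ) else 0) ≤ s ^ 2)
    (hδ2 : En q F (fun w => if M < f2 w then (1 : ℝ) else 0) ≤ s ^ 2)
    (hlow : ∀ (f : (K4 κ → ℝ) → ℝ) (K : ℝ), EG f → (∀ w, 0 ≤ f w) → (∀ w, f w ≤ K) →
      En q F (Av R f) ≤ 2 * En q F f + ε * K) :
    En q F (fun w => bad w * Y w) ≤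
      c * (M ^ 2 * En q F bad + (9 * M ^ 2 * s + 3 * (ε * K ^ 2))) := by
  have k1 : ∀ {f : (K4 κ → ℝ) → ℝ}, EG f → (∀ w, 0 ≤ f w) → (∀ w, f w ≤ K) →
      En q F (fun w => f w ^ 4) ≤ 2 * M ^ 4 →
      En q F (fun w => if M < f w then (1 : ℝ) else 0) ≤ s ^ 2 →
      EG (Av R (fun w => f w ^ 2 * (if M < f w then (1 : ℝ) else 0))) ∧
      En q F (Av R (fun w => f w ^ 2 * (if M < f w then (1 : ℝ) else 0))) ≤
        3 * M ^ 2 * s + ε * K ^ 2 := by
    intro f ef hf hfK hm hδ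
    have eχ : EG fun w => if M < f w then (1 : ℝ) else 0 := eg_chi ef M
    have h1 := mo_chi hc hx ef hM hs hm hδ
    have h2 := hlow (fun w => f w ^ 2 * (if M < f w then (1 : ℝ) else 0)) (K ^ 2)
      ((ef.pow 2).mul eχ) (fun w => by
        have : (0 : ℝ) ≤ if M < f w then (1 : ℝ) else 0 := by split_ifs <;> norm_num
        positivity) (fun w => by
        have h3 := pow_le_pow_left₀ (hf w) (hfK w) 2
        split_ifs
        · linarith
        · rw [mul_zero]; positivity)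
    exact ⟨eg_Av R ((ef.pow 2).mul eχ), by linarith⟩
  obtain ⟨eA1, l1⟩ := k1 ef1 hf1 hf1K hm1 hδ1
  obtain ⟨eA2, l2⟩ := k1 ef2 hf2 hf2K hm2 hδ2
  set G1 := Av R (fun w => f1 w ^ 2 * (if M < f1 w then (1 : ℝ) else 0)) with hG1
  set G2 := Av R (fun w => f2 w ^ 2 * (if M < f2 w then (1 : ℝ) else 0)) with hG2
  have key : ∀ w, bad w * Y w ≤ c * M ^ 2 * bad w + c * (3 / 2) * (G1 w + G2 w) := by
    intro w
    have h1 := bad_mul_chi ef1 ef2 hf1 hf2 hM (hb0 w) (hb1 w) R w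
    calc bad w * Y w ≤ bad w * (c * (Av R f1 w * Av R f2 w)) :=
          mul_le_mul_of_nonneg_left (hY w) (hb0 w)
      _ = c * (bad w * (Av R f1 w * Av R f2 w)) := by ring
      _ ≤ c * (M ^ 2 * bad w + 3 / 2 * (G1 w + G2 w)) := mul_le_mul_of_nonneg_left h1 hc0
      _ = _ := by ring
  refine (En_mono hc hx (eb.mul eY) ((eb.const_mul _).add ((eA1.add eA2).const_mul _))
    key).trans ?_
  rw [En_add hc hx (eb.const_mul _) ((eA1.add eA2).const_mul _), En_const_mul,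
    En_const_mul, En_add hc hx eA1 eA2]
  have h5 : c * (3 / 2) * (En q F G1 + En q F G2) ≤
      c * (3 / 2) * ((3 * M ^ 2 * s + ε * K ^ 2) + (3 * M ^ 2 * s + ε * K ^ 2)) :=
    mul_le_mul_of_nonneg_left (by linarith) (by positivity)
  calc _ ≤ c * M ^ 2 * En q F bad +
        c * (3 / 2) * ((3 * M ^ 2 * s + ε * K ^ 2) + (3 * M ^ 2 * s + ε * K ^ 2)) := by linarith
    _ = _ := by ring

end en

end Vale.Agent.P146.U.R1C
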