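import Vale.Agent.P146.H325.KapF
import Vale.Agent.P146.U.H325_Kap2
import Vale.Agent.P146.U.NS

/-!
Plan R1, row (KAP): the numbers. From the outputs of the rows (no package `Fo` here), to
`N/n² ≤ C A^m (√(1/(nT)) + x √(N/n²) + ϑ N/n² + 1/n)`.
-/

open MeasureTheory ProbabilityTheory

namespace Vale.Agent.P146.U.R1C

open Vale.Agent.P146.R1C hiding Ca Cd En En_add En_const En_const_mul En_eq En_mono En_nonneg
  En_pow_le Ew Ew1_pos Ew_add Ew_const_mul Ew_eq Ew_mono Ew_nonneg Fo Gb Nd P0 P0_sw P1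
  P1_sw P2 P2_sw P3 P3_sw Par Sa Sd bad_num bad_pair bad_total den_pos dens eg_den kap_en kap_fin kk_NN
  kk_four

open Vale.Agent.P157.Lv Vale.Agent.P146.H425 Vale.Agent.P146.H712 Vale.Agent.P146.H325
  Vale.Agent.P146.H816
open Vale.Agent.P146.H332 hiding NN
open Vale.Agent.P146.R1 hiding Et Et4 Et4_123 Et4_124 Et4_add Et4_const Et4_const_mul Et4_cs
  Et4_mono Et4_nonneg Et4_sub Et_add Et_const Et_const_mul Et_cs Et_fst_eq Et_jensen Et_mono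
  Et_nonneg Et_sub Et_weight Et_zero Eu Eu4 Eu4_123 Eu4_124 Eu4_add Eu4_cond Eu4_const_mul
  Eu4_iter Eu4_mono Eu4_nonneg Eu4_one_eq Eu4_one_eq' Eu4_one_pos Eu4_weight Eu_add Eu_const_mul
  Eu_fst Eu_fst_eq Eu_iter Eu_mono Eu_nonneg Eu_one Eu_one_eq Eu_one_pos Eu_weight Eu_zero
  Eu_zero_one Lth Lth_zero Qt dn dn_pos e3_dn eg_Eu eg_Eu4
open Vale.Agent.P146.U.R1

set_option linter.unusedSectionVars false

section fin

variable {n : ℕ} {β A N : ℝ} {q : Par} {F : (Pair n → ℝ) → ℝ}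
  {D : Pair n → (Pair n → ℝ) → ℝ} {B L : ℝ}

lemma kk_four (hn : 0 < n) (β : ℝ) : kk n β ^ 4 = β ^ 4 / (n : ℝ) ^ 2 := by
  have e1 : kk n β ^ 4 = (kk n β ^ 2) ^ 2 := by ring
  have e2 : kk n β ^ 2 = β ^ 2 / n := by
    unfold kk
    rw [div_pow, Real.sq_sqrt (by positivity)]
  rw [e1, e2]
  have : (0 : ℝ) < n := by exact_mod_cast hn
  field_simp

/-- the sum of the bad parts, numbers -/
lemma bad_num {nn N A C β v ϑ y w S s : ℝ} {m : ℕ} (hn : 2 ≤ nn) (hN1 : 1 ≤ N) (hA : 1 ≤ A)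
    (hC : 1 ≤ C) (hv : v = 1 / nn) (hy0 : 0 ≤ y) (hw0 : 0 ≤ w) (hs : 0 < s) (hϑ : s ≤ ϑ)
    (hS : S ≤ C * A ^ m * (ϑ + y + w + v) * nn ^ 2) :
    4 * (β ^ 4 / nn ^ 2) * ((A * N) ^ 2 * S +
        nn ^ 2 * (9 * (A * N) ^ 2 * s + 3 * ((nn ^ 200)⁻¹ * (nn ^ 2) ^ 2))) ≤
      C * (1 + 52 * β ^ 4) * A ^ (m + 2) * (ϑ + y + w + v) * N ^ 2 := by
  have hv0 : 0 ≤ v := by rw [hv]; positivity
  have hA0 : 0 < A := by linarith
  have hN0 : 0 < N := by linarith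
  have hϑ0 : 0 < ϑ := hs.trans_le hϑ
  set Q := C * A ^ (m + 2) * (ϑ + y + w + v) * N ^ 2 with hQ
  have hQ0 : 0 ≤ Q := by positivity
  have hX : ∀ z : ℝ, z ≤ ϑ + y + w + v → A ^ 2 * N ^ 2 * z ≤ Q := by
    intro z hz
    have hA2 : A ^ 2 ≤ C * A ^ (m + 2) := by
      have h1 : A ^ 2 ≤ A ^ (m + 2) := pow_le_pow_right₀ hA (by omega)
      have h2 : 0 ≤ A ^ (m + 2) := by positivity
      nlinarith
    calc A ^ 2 * N ^ 2 * z ≤ A ^ 2 * N ^ 2 * (ϑ + y + w + v) :=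
          mul_le_mul_of_nonneg_left hz (by positivity)
      _ ≤ C * A ^ (m + 2) * N ^ 2 * (ϑ + y + w + v) := by gcongr
      _ = _ := by rw [hQ]; ring
  have h6 : (A * N) ^ 2 * s ≤ Q := by
    rw [mul_pow]
    exact hX s (by linarith)
  have h7 : (nn ^ 200)⁻¹ * (nn ^ 2) ^ 2 ≤ Q := by
    have c1 : (nn ^ 200)⁻¹ * (nn ^ 2) ^ 2 ≤ v := by
      rw [hv, ← pow_mul, inv_mul_le_iff₀ (by positivity), ← mul_div_assoc, mul_one,
        le_div_iff₀ (by positivity), ← pow_succ]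
      exact pow_le_pow_right₀ (by linarith) (by norm_num)
    have c2 : 1 ≤ A ^ 2 * N ^ 2 :=
      one_le_mul_of_one_le_of_one_le (one_le_pow₀ hA) (one_le_pow₀ hN1)
    calc (nn ^ 200)⁻¹ * (nn ^ 2) ^ 2 ≤ v := c1
      _ ≤ A ^ 2 * N ^ 2 * v := le_mul_of_one_le_left hv0 c2
      _ ≤ Q := hX v (by linarith)
  have hβ4 : 0 ≤ β ^ 4 := by positivity
  calc 4 * (β ^ 4 / nn ^ 2) * ((A * N) ^ 2 * S +
        nn ^ 2 * (9 * (A * N) ^ 2 * s + 3 * ((nn ^ 200)⁻¹ * (nn ^ 2) ^ 2))) ≤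
        4 * (β ^ 4 / nn ^ 2) * ((A * N) ^ 2 * (C * A ^ m * (ϑ + y + w + v) * nn ^ 2) +
          nn ^ 2 * (9 * ((A * N) ^ 2 * s) + 3 * ((nn ^ 200)⁻¹ * (nn ^ 2) ^ 2))) := by
        rw [mul_assoc (9 : ℝ)]
        gcongr
    _ ≤ 4 * (β ^ 4 / nn ^ 2) * ((A * N) ^ 2 * (C * A ^ m * (ϑ + y + w + v) * nn ^ 2) +
          nn ^ 2 * (9 * Q + 3 * Q)) := by gcongr
    _ = 4 * β ^ 4 * Q + 48 * β ^ 4 * Q := by
        rw [hQ]
        field_simp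
        ring
    _ ≤ (1 + 52 * β ^ 4) * Q := by linarith
    _ = _ := by rw [hQ]; ring

/-- the sum of the bad parts -/
theorem bad_total {C s : ℝ} {m : ℕ} (hC : 1 ≤ C) (hc : C11 F D B L) (hx : 0 < q.x)
    (hn : 2 ≤ n) (hA : 1 ≤ A) (hN : 1 ≤ N) (hs : 0 < s)
    {Y bad : Fin n → Fin n → (K4 (Pair n) → ℝ) → ℝ} {f1 f2 : (K4 (Pair n) → ℝ) → ℝ}
    (eY : ∀ b b', EG (Y b b')) (eb : ∀ b b', EG (bad b b')) (e2 : EG f1) (e3 : EG f2)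
    (h20 : ∀ w, 0 ≤ f1 w) (h30 : ∀ w, 0 ≤ f2 w)
    (hn2 : ∀ w, f1 w ≤ (n : ℝ) ^ 2) (hn3 : ∀ w, f2 w ≤ (n : ℝ) ^ 2)
    (m2 : En q F (fun w => f1 w ^ 4) ≤ 2 * (A * N) ^ 4)
    (m3 : En q F (fun w => f2 w ^ 4) ≤ 2 * (A * N) ^ 4)
    (u2 : En q F (fun w => if A * N < f1 w then (1 : ℝ) else 0) ≤ s ^ 2)
    (u3 : En q F (fun w => if A * N < f2 w then (1 : ℝ) else 0) ≤ s ^ 2)
    (hb0 : ∀ b b' w, 0 ≤ bad b b' w) (hb1 : ∀ b b' w, bad b b' w ≤ 1)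
    (hYf : ∀ b b', b' ≠ b → ∀ w, Y b b' w ≤ 4 * kk n β ^ 4 *
      (Av (lf (row b ∪ row b')) f1 w * Av (lf (row b ∪ row b')) f2 w))
    (hlow : ∀ (b b' : Fin n) (f : (K4 (Pair n) → ℝ) → ℝ) (K : ℝ), EG f → (∀ w, 0 ≤ f w) →
      (∀ w, f w ≤ K) → En q F (Av (lf (row b ∪ row b')) f) ≤ 2 * En q F f +
        ((n : ℝ) ^ 200)⁻¹ * K)
    {ϑ y w : ℝ} (hϑ : s ≤ ϑ) (hy : 0 ≤ y) (hw : 0 ≤ w)
    (hbad : ∑ b, ∑ b' ∈ Finset.univ.erase b, En q F (bad b b') ≤ C * A ^ m *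
      (ϑ + y + w + 1 / n) * (n : ℝ) ^ 2) :
    ∑ b, ∑ b' ∈ Finset.univ.erase b, (En q F fun w => bad b b' w * Y b b' w) ≤
      C * (1 + 52 * β ^ 4) * A ^ (m + 2) * (ϑ + y + w + 1 / n) * N ^ 2 := by
  have hA0 : 0 < A := by linarith
  have hN0 : 0 < N := by linarith
  have hn1 : (2 : ℝ) ≤ n := by exact_mod_cast hn
  set nn : ℝ := (n : ℝ) with hnn
  set G := 9 * (A * N) ^ 2 * s + 3 * ((nn ^ 200)⁻¹ * (nn ^ 2) ^ 2) with hG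
  have hG0 : 0 ≤ G := by positivity
  have h1 : ∑ b, ∑ b' ∈ Finset.univ.erase b, (En q F fun w => bad b b' w * Y b b' w) ≤
      ∑ b : Fin n, ∑ b' ∈ Finset.univ.erase b, (4 * kk n β ^ 4) *
        ((A * N) ^ 2 * En q F (bad b b') + G) := by
    refine Finset.sum_le_sum fun b _ => Finset.sum_le_sum fun b' hb' => ?_
    have hb := Finset.ne_of_mem_erase hb'
    exact bad_pair hc hx (eb b b') (eY b b') e2 e3 (hb0 b b') (hb1 b b')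
      (by positivity) (by positivity) hs h20 hn2 h30 hn3 (hYf b b' hb) m2 m3 u2 u3 (hlow b b')
  refine h1.trans ?_
  rw [sum_pairs_mul, sum_pairs_add, sum_pairs_mul]
  have h2 : ∑ b : Fin n, ∑ b' ∈ Finset.univ.erase b, G ≤ nn ^ 2 * G := by
    calc _ ≤ ∑ b : Fin n, ∑ b' : Fin n, G := by
          refine Finset.sum_le_sum fun b _ => ?_
          exact Finset.sum_le_sum_of_subset_of_nonneg (Finset.erase_subset _ _)
            fun _ _ _ => hG0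
      _ = _ := by
          simp only [Finset.sum_const, Finset.card_univ, Fintype.card_fin, nsmul_eq_mul]
          rw [← hnn]
          ring
  rw [kk_four (by omega) β]
  refine le_trans (mul_le_mul_of_nonneg_left (add_le_add le_rfl h2) (by positivity)) ?_
  exact bad_num hn1 hN hA hC rfl hy hw hs hϑ hbad

/-- **(KAP) from the outputs of the rows.** -/
theorem kap_fin {C κ T s : ℝ} {m : ℕ} (hC : 1 ≤ C) (hκ : 0 < κ) (hκ1 : κ ≤ 1)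
    (hc : C11 F D B L) (hx : 0 < q.x) (hn : 2 ≤ n) (hA : 1 ≤ A) (hN : 1 ≤ N) (hs : 0 < s)
    (hNn : N ≤ (n : ℝ) ^ 2)
    {G Y bad Er : Fin n → Fin n → (K4 (Pair n) → ℝ) → ℝ} {f1 f2 : (K4 (Pair n) → ℝ) → ℝ}
    (eG : ∀ b b', EG (G b b')) (eY : ∀ b b', EG (Y b b')) (eb : ∀ b b', EG (bad b b'))
    (eE : ∀ b b', EG (Er b b')) (e2 : EG f1) (e3 : EG f2)
    (h20 : ∀ w, 0 ≤ f1 w) (h30 : ∀ w, 0 ≤ f2 w)
    (hn2 : ∀ w, f1 w ≤ (n : ℝ) ^ 2) (hn3 : ∀ w, f2 w ≤ (n : ℝ) ^ 2)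
    (m2 : En q F (fun w => f1 w ^ 4) ≤ 2 * (A * N) ^ 4)
    (m3 : En q F (fun w => f2 w ^ 4) ≤ 2 * (A * N) ^ 4)
    (u2 : En q F (fun w => if A * N < f1 w then (1 : ℝ) else 0) ≤ s ^ 2)
    (u3 : En q F (fun w => if A * N < f2 w then (1 : ℝ) else 0) ≤ s ^ 2)
    (hb0 : ∀ b b' w, 0 ≤ bad b b' w) (hb1 : ∀ b b' w, bad b b' w ≤ 1)
    (hpt : ∀ b b', b' ≠ b → ∀ w, κ / (8 * A) * (N / (n : ℝ) ^ 2) * (1 - bad b b' w) *
      Y b b' w ≤ G b b' w + Er b b' w)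
    (hYf : ∀ b b', b' ≠ b → ∀ w, Y b b' w ≤ 4 * kk n β ^ 4 *
      (Av (lf (row b ∪ row b')) f1 w * Av (lf (row b ∪ row b')) f2 w))
    (hlow : ∀ (b b' : Fin n) (f : (K4 (Pair n) → ℝ) → ℝ) (K : ℝ), EG f → (∀ w, 0 ≤ f w) →
      (∀ w, f w ≤ K) → En q F (Av (lf (row b ∪ row b')) f) ≤ 2 * En q F f +
        ((n : ℝ) ^ 200)⁻¹ * K)
    {DD er1 er2 K ϑ : ℝ} (hϑ : s ≤ ϑ)
    (n1 : ∑ b, ∑ b' ∈ Finset.univ.erase b, En q F (G b b') ≤ DD + er1)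
    (n2 : K ≤ (∑ b, ∑ b' ∈ Finset.univ.erase b, En q F (Y b b')) +
      2 * (∑ b, ∑ b' ∈ Finset.univ.erase b, En q F (G b b')) + er2)
    (hK : N ^ 2 / (4 * A ^ 3) ≤ K)
    (hD : DD ≤ C * A ^ m * (1 / n) * N ^ 2)
    (he1 : er1 ≤ C * A ^ m * (q.x * √(N / (n : ℝ) ^ 2) + √(1 / (n * T))) * N ^ 2)
    (he2 : er2 ≤ C * A ^ m * (q.x * √(N / (n : ℝ) ^ 2) + √(1 / (n * T))) * N ^ 2)
    (hE : ∑ b, ∑ b' ∈ Finset.univ.erase b, En q F (Er b b') ≤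
      C * A ^ m * (N / (n : ℝ) ^ 2 * ϑ) * N ^ 2)
    (hbad : ∑ b, ∑ b' ∈ Finset.univ.erase b, En q F (bad b b') ≤ C * A ^ m *
      (ϑ + q.x * √(N / (n : ℝ) ^ 2) + √(1 / (n * T)) + 1 / n) * (n : ℝ) ^ 2) :
    N / (n : ℝ) ^ 2 ≤ 192 * (C * (1 + 52 * β ^ 4)) / κ * A ^ (m + 2 + 4) *
      (√(1 / (n * T)) + q.x * √(N / (n : ℝ) ^ 2) + ϑ * (N / (n : ℝ) ^ 2) +
        1 / n) := by
  have hA0 : 0 < A := by linarith
  have hN0 : 0 < N := by linarith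
  have hn0 : (2 : ℝ) ≤ n := by exact_mod_cast hn
  have hϑ0 : 0 ≤ ϑ := hs.le.trans hϑ
  have hr1 : N / (n : ℝ) ^ 2 ≤ 1 := by
    rw [div_le_one (by positivity)]
    exact hNn
  have hSB := bad_total (β := β) hC hc hx hn hA hN hs eY eb e2 e3 h20 h30 hn2 hn3 m2 m3 u2 u3 hb0 hb1
    hYf hlow hϑ (by positivity) (Real.sqrt_nonneg _) hbad
  have hcore := kap_en hc hx eG eY eb eE (g := κ / (8 * A) * (N / (n : ℝ) ^ 2))
    (by positivity) hpt n1 n2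
  have hCC : C ≤ C * (1 + 52 * β ^ 4) := by
    have hβ4 : 0 ≤ β ^ 4 := by positivity
    nlinarith
  have hup : ∀ z : ℝ, 0 ≤ z → C * A ^ m * z * N ^ 2 ≤
      C * (1 + 52 * β ^ 4) * A ^ (m + 2) * z * N ^ 2 := by
    intro z hz
    have c1 : A ^ m ≤ A ^ (m + 2) := pow_le_pow_right₀ hA (by omega)
    gcongr
  exact kap_fin_num (m := m + 2) hN0 hA (by positivity) hκ hκ1 (by positivity) hr1
    (by positivity) (Real.sqrt_nonneg _) (by positivity) hϑ0 hK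
    (hD.trans (hup _ (by positivity))) (he1.trans (hup _ (by positivity)))
    (he2.trans (hup _ (by positivity))) (hE.trans (hup _ (by positivity))) hSB hcore

end fin

end Vale.Agent.P146.U.R1C
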