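import Vale.Agent.P146.H329.Bk2
import Vale.Agent.P146.U.H329_Bk1
import Vale.Agent.P146.U.H332_CDef
import Vale.Agent.P146.U.H826_LawP
import Vale.Agent.P146.U.NS

/-!
P146, plan R1: the facts of one bulk at one time, in the letters of the fixed bulk inequality (left
hand sides) and of the bulk transfer (right hand sides).
-/

open Matrix MeasureTheory ProbabilityTheory

set_option linter.unusedSectionVars false

namespace Vale.Agent.P146.U.H329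

open Vale.Agent.P146.H329 hiding AvP_qT_le bk_a0 bk_a1 bk_e0 bk_e1 eg_KT eg_frA na1_le ne1_le
  qP_id qP_pq qT_le vP_le

open Vale.Agent.P157.Lv Vale.Agent.P146.H425 Vale.Agent.P146.H325 Vale.Agent.P146.H332
  Vale.Agent.P146.H522 Vale.Agent.P146.H633
open Vale.Agent.P146.H712 hiding En_sub En_sum LLow LUp bt3 eg_P0 eg_P1 eg_P2 eg_P3 int_dens k0 k1
  k2 k3 llow lup pd_P0 pd_P1 pd_P2 pd_P3 sum_k0 sum_k1 sum_k2 sum_k3
open Vale.Agent.P146.R1 hiding Et Et4 Et4_123 Et4_124 Et4_add Et4_const Et4_const_mul Et4_cs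
  Et4_mono Et4_nonneg Et4_sub Et_add Et_const Et_const_mul Et_cs Et_fst_eq Et_jensen Et_mono
  Et_nonneg Et_sub Et_weight Et_zero Eu Eu4 Eu4_123 Eu4_124 Eu4_add Eu4_cond Eu4_const_mul
  Eu4_iter Eu4_mono Eu4_nonneg Eu4_one_eq Eu4_one_eq' Eu4_one_pos Eu4_weight Eu_add Eu_const_mul
  Eu_fst Eu_fst_eq Eu_iter Eu_mono Eu_nonneg Eu_one Eu_one_eq Eu_one_pos Eu_weight Eu_zero
  Eu_zero_one Lth Lth_zero Qt dn dn_pos e3_dn eg_Eu eg_Eu4
open Vale.Agent.P146.R1C hiding Av_aa Av_ad Av_dd Av_lf_P0 Av_lf_P1 Av_lf_P2 Av_lf_P23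
  Av_lf_P23_row Av_lf_P3 Ca Cd En En_add En_const En_const_mul En_eq En_mono En_nonneg En_pow_le
  Ew Ew1_pos Ew_add Ew_const_mul Ew_eq Ew_mono Ew_nonneg Ew_one_pos Fo Gb Nd Nd_row P0 P0_lp P0_sw
  P1 P1_lp P1_sw P2 P2_lp P2_sw P3 P3_lp P3_sw Par Sa Sa_row Sd Sd_row den_pos dens dens_eq eg_den
  eg_dens eg_psi' fb_row fb_sk kk_NN lam_le law_low law_up lf_psi lip_psi pd_psi psi psi'
  psi_four_le psi_sq_le
open Vale.Agent.P146.Cum hiding H_ev eg_H eg_qP eg_qT fn_skCS i1 i1z i2 i2z m4_lg m4_pg qP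
  qP_nonneg qP_one qP_pqm qT qT_eq qT_nonneg row_sq
open Vale.Agent.P146.R1S hiding Bv CBq CS Ca Cd DlA FA FA_nonneg Gb KA KA_le_ThA KA_nonneg KV
  KV_le KV_nonneg MM MM_psd MM_row Nd Nd_row QA QA_nonneg Sa Sa_row Sd Sd_row T4_avg_le T4_rep_le
  ThA ThA_nonneg bh bh1 bq4_T4 cl cl0 clz_S ee ee_row eg_FA eg_KA eg_KV eg_QA eg_ThA exists_Bv
  fr_CBq_le fr_MM_le lamq lamq_nonneg psd_CB rowIn_S skCS skCS_A skCS_D skCS_DA skCS_F skCS_H
  skCS_T4 sm_skCS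
open Vale.Agent.P146.U.H712 Vale.Agent.P146.U.R1 Vale.Agent.P146.U.R1C Vale.Agent.P146.U.Cum
  Vale.Agent.P146.U.R1S

variable {n : ℕ} {k x s Γ η : ℝ} {b b' : Fin n} {S : CS n k x} {z : Pair n → ℝ} {v : Fin n → ℝ}

/-- `ε0²` -/
theorem bk_e0 (h : Bv S s b b' z v) (hs : 0 < s) (hs1 : s ≤ 1) :
    Ne0 k (S.H s) s b b' v z ≤ k ^ 2 * min (9 * √(ThA S s b b' z)) (FA S s b b' z) := by
  have r := rowIn_S S hs
  have e1 : ∀ i j, mh k (S.H s) s b b' z i j = bq b b' (MM S s b b' z) i j := by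
    intro i j
    rw [mh_eq r.egH]
    rfl
  have e2 : ∑ p, ∑ l, v p * bq b b' (MM S s b b' z) p l * v l =
      v ⬝ᵥ (bq b b' (MM S s b b' z) *ᵥ v) := by
    unfold dotProduct mulVec dotProduct
    refine Finset.sum_congr rfl fun i _ => ?_
    rw [Finset.mul_sum]
    exact Finset.sum_congr rfl fun j _ => by ring
  have e3 : Ne0 k (S.H s) s b b' v z = s * fr (bq b b' (MM S s b b' z) -
      (v ⬝ᵥ (bq b b' (MM S s b b' z) *ᵥ v)) • vecMulVec v v) := by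
    rw [Ne0_eq r.egH hs.le]
    simp only [e1, e2]
    congr 1
  rw [e3]
  have h1 := h.E0 hs
  have h2 : 0 ≤ fr (bq b b' (MM S s b b' z) -
      (v ⬝ᵥ (bq b b' (MM S s b b' z) *ᵥ v)) • vecMulVec v v) :=
    Finset.sum_nonneg fun _ _ => Finset.sum_nonneg fun _ _ => sq_nonneg _
  nlinarith

/-- `α1²`, `δ1²` -/
theorem bk_a1 (hFn : Fn k SkS (uu x s S.F) (S.mu s) Γ) (hs : 0 < s) (hs1 : s ≤ 1)
    (hb : b ≠ b') (z : Pair n → ℝ) : Na1 k (S.A s) (S.H s) s b b' z ≤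
      36 * Γ ^ 6 * k ^ 6 * (2 * QA S s b b' z + 2 * KA S s b b' z) :=
  na1_le S hFn hs hs1 hb z

/-- `ε1²` -/
theorem bk_e1 (h : Bv S s b b' z v) (hFn : Fn k SkS (uu x s S.F) (S.mu s) Γ) (hs : 0 < s)
    (hs1 : s ≤ 1) (hη : 0 < η) : Ne1 k (S.H s) s b b' v z ≤
      36 * Γ ^ 6 * k ^ 6 * ((η⁻¹) ^ 3 * (36 * ThA S s b b' z) +
        3 * η * (2 * QA S s b b' z + 2 * KA S s b b' z)) := by
  refine (ne1_le S hFn hs hs1 hη h.v1 h.vb h.vb' z).trans ?_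
  have h1 := h.E1t
  refine mul_le_mul_of_nonneg_left (add_le_add ?_ le_rfl) (by positivity)
  exact mul_le_mul_of_nonneg_left h1 (by positivity)

/-- `α0²`, `δ0²` -/
theorem bk_a0 (S : CS n k x) (hs : 0 < s) (hs1 : s ≤ 1) (b b' : Fin n) (z : Pair n → ℝ) :
    ee S s b b' z ≤ k ^ 2 * FA S s b b' z := by
  have h1 : ee S s b b' z ≤ s * k ^ 2 * FA S s b b' z :=
    ee_gen hs.le (A := fun z => S.A s z) (DA := fun e z => S.DA s e z) (fun i j => S.eg_A s i j)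
      (fun e i j => S.pd_A s e i j) (fun e i j => S.eg_DA s e i j)
      (fun hp z => S.A_fl_row s hp z) (fun b z => S.row_grad hs b z) b b' z
  have h2 : 0 ≤ k ^ 2 * FA S s b b' z := mul_nonneg (sq_nonneg k) (FA_nonneg S s b b' z)
  nlinarith

end Vale.Agent.P146.U.H329
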