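import Vale.Agent.P146.H332.ErR

/-!
Plan R1 with constants, block C: the products of the fixed bulk inequality (FB), in a form which is
homogeneous in the size `Y`: `m` bounds all the sizes divided by their powers of `Y`, `X` is the
indicator of the bad bulks.
-/

namespace Vale.Agent.P146.U.ErRc

open Vale.Agent.P146.H332

/-- The error of the fixed bulk inequality. -/
noncomputable def err (k g c t Y m Θ K X : ℝ) : ℝ :=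
  9 * g * k ^ 4 * (t⁻¹ * Y ^ 2 + t * Θ) + 18 * g * k ^ 4 * (Y ^ 2 * (m ^ 2 * X)) +
    660 * c * k ^ 8 * (t ^ 7 * (Y * Θ) + Y * K + t⁻¹ * Y ^ 3 + t ^ 7 * (Y ^ 3 * (m ^ 2 * X)))

lemma err_nonneg {k g c t Y m Θ K X : ℝ} (hg : 0 ≤ g) (hc : 0 ≤ c) (ht : 1 ≤ t) (hY : 0 ≤ Y)
    (hΘ : 0 ≤ Θ) (hK : 0 ≤ K) (hX : 0 ≤ X) : 0 ≤ err k g c t Y m Θ K X := by
  have : 0 ≤ t := by linarith
  unfold err
  positivity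

/-- the error functional at the size `1` -/
lemma Wn_scale {t Y m Θ K X : ℝ} (hY : 0 < Y) : Y ^ 3 * Er.Wn t 1 m (Θ / Y ^ 2) (K / Y ^ 2) X =
    t ^ 7 * (Y * Θ) + Y * K + t⁻¹ * Y ^ 3 + t ^ 7 * (Y ^ 3 * (m ^ 2 * X)) := by
  unfold Er.Wn
  field_simp

/-- **The error of the fixed bulk inequality.** -/
theorem fb_real {k g c t Y m Θ K1 K2 X F1 F2 Q1 Q2 ε0 ε1 α0 α1 δ0 δ1 : ℝ} (hk : 0 < k)
    (hg : 0 ≤ g) (hg1 : g ≤ 1) (ht : 1 ≤ t) (hc : 0 ≤ c) (hY : 0 < Y) (hm : 1 ≤ m) (hX : 0 ≤ X)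
    (hΘ0 : 0 ≤ Θ) (hΘM : Θ ≤ Y ^ 2 * m)
    (he0 : 0 ≤ ε0) (ha0 : 0 ≤ α0) (hd0 : 0 ≤ δ0)
    (hea : ε0 ^ 2 ≤ k ^ 2 * (9 * √Θ)) (heb : ε0 ^ 2 ≤ k ^ 2 * F1) (haF : α0 ^ 2 ≤ k ^ 2 * F1)
    (hdF : δ0 ^ 2 ≤ k ^ 2 * F2)
    (hF1 : F1 ≤ Y + Y * (m * X)) (hF1M : F1 ≤ Y * m) (hF2 : F2 ≤ Y + Y * (m * X))
    (hF2M : F2 ≤ Y * m)
    (hQ10 : 0 ≤ Q1) (hQ1 : Q1 ≤ Y ^ 2 + Y ^ 2 * (m * X)) (hQ1M : Q1 ≤ Y ^ 2 * m)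
    (hQ20 : 0 ≤ Q2) (hQ2 : Q2 ≤ Y ^ 2 + Y ^ 2 * (m * X)) (hQ2M : Q2 ≤ Y ^ 2 * m)
    (hK10 : 0 ≤ K1) (hK20 : 0 ≤ K2) (hKM : K1 + K2 ≤ Y ^ 2 * m)
    (he1 : ε1 ^ 2 ≤ k ^ 6 * (c * (36 * t ^ 6 * Θ + 6 * (t⁻¹) ^ 2 * (Q1 + K1))))
    (ha1 : α1 ^ 2 ≤ k ^ 6 * (c * (2 * (Q1 + K1))))
    (hd1 : δ1 ^ 2 ≤ k ^ 6 * (c * (2 * (Q2 + K2)))) :
    2 * g * ((ε0 ^ 2 + ε1 ^ 2) * δ0 ^ 2) + 6 * ((ε0 * δ1 + ε1 * δ0) * (α0 * δ1 + α1 * δ0)) ≤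
      err k g c t Y m Θ (K1 + K2) X := by
  have hk2 : 0 < k ^ 2 := by positivity
  have hk6 : 0 < k ^ 6 := by positivity
  have hY2 : 0 < Y ^ 2 := by positivity
  obtain ⟨r, hr0, hr2⟩ : ∃ r : ℝ, 0 < r ∧ r ^ 2 = Y := ⟨√Y, Real.sqrt_pos.2 hY, Real.sq_sqrt hY.le⟩
  have sΘ : √(Θ / Y ^ 2) = √Θ / Y := by
    rw [Real.sqrt_div hΘ0, Real.sqrt_sq hY.le]
  -- the scaled numbers
  have d2 : ∀ {u B : ℝ}, u ^ 2 ≤ k ^ 2 * B → (u / (k * r)) ^ 2 ≤ B / Y := by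
    intro u B h
    rw [div_pow, mul_pow, hr2, div_le_div_iff₀ (by positivity) hY]
    calc u ^ 2 * Y ≤ k ^ 2 * B * Y := mul_le_mul_of_nonneg_right h hY.le
      _ = _ := by ring
  have d6 : ∀ {u B : ℝ}, u ^ 2 ≤ k ^ 6 * B → (u / (k ^ 3 * Y)) ^ 2 ≤ B / Y ^ 2 := by
    intro u B h
    rw [div_pow, mul_pow, ← pow_mul, div_le_div_iff₀ (by positivity) hY2]
    calc u ^ 2 * Y ^ 2 ≤ k ^ 6 * B * Y ^ 2 := mul_le_mul_of_nonneg_right h hY2.le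
      _ = _ := by ring
  have s2 : ∀ {B : ℝ}, B ≤ Y + Y * (m * X) → B / Y ≤ 1 + m * X := by
    intro B h
    rw [div_le_iff₀ hY]
    linarith
  have s2' : ∀ {B : ℝ}, B ≤ Y * m → B / Y ≤ m := by
    intro B h
    rw [div_le_iff₀ hY]
    linarith
  have s4 : ∀ {B : ℝ}, B ≤ Y ^ 2 + Y ^ 2 * (m * X) → B / Y ^ 2 ≤ 1 ^ 2 + m * X := by
    intro B h
    rw [div_le_iff₀ hY2]
    linarith
  have s4' : ∀ {B : ℝ}, B ≤ Y ^ 2 * m → B / Y ^ 2 ≤ m := by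
    intro B h
    rw [div_le_iff₀ hY2]
    linarith
  have i2 : k ^ 2 * (9 * √Θ) = k ^ 2 * (9 * √(Θ / Y ^ 2) * Y) := by
    rw [sΘ]
    field_simp
  have hea' : (ε0 / (k * r)) ^ 2 ≤ 9 * √(Θ / Y ^ 2) := by
    rw [i2] at hea
    refine (d2 hea).trans (le_of_eq ?_)
    field_simp
  have he1' : (ε1 / (k ^ 3 * Y)) ^ 2 ≤ c * (36 * t ^ 6 * (Θ / Y ^ 2) +
      6 * (t⁻¹) ^ 2 * (Q1 / Y ^ 2 + K1 / Y ^ 2)) := by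
    refine (d6 he1).trans (le_of_eq ?_)
    field_simp
  have ha1' : (α1 / (k ^ 3 * Y)) ^ 2 ≤ c * (2 * (Q1 / Y ^ 2 + K1 / Y ^ 2)) := by
    refine (d6 ha1).trans (le_of_eq ?_)
    field_simp
  have hd1' : (δ1 / (k ^ 3 * Y)) ^ 2 ≤ c * (2 * (Q2 / Y ^ 2 + K2 / Y ^ 2)) := by
    refine (d6 hd1).trans (le_of_eq ?_)
    field_simp
  have hK' : K1 / Y ^ 2 + K2 / Y ^ 2 ≤ m := by
    rw [← add_div]
    exact s4' hKM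
  have hm0 : 0 < m := by linarith
  have hKa : K1 / Y ^ 2 ≤ m := s4' (by linarith)
  have hKb : K2 / Y ^ 2 ≤ m := s4' (by linarith)
  have hΘ' : 0 ≤ Θ / Y ^ 2 := by positivity
  have p := Er.prod_n (Y := 1) (M := m) (e0 := ε0 / (k * r)) (a0 := α0 / (k * r))
    (d0 := δ0 / (k * r)) (e1 := ε1 / (k ^ 3 * Y)) (a1 := α1 / (k ^ 3 * Y))
    (d1 := δ1 / (k ^ 3 * Y)) (Θ := Θ / Y ^ 2) (X := X) (K1 := K1 / Y ^ 2) (K2 := K2 / Y ^ 2)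
    (F1 := F1 / Y) (F2 := F2 / Y) (Q1 := Q1 / Y ^ 2) (Q2 := Q2 / Y ^ 2) ht hc one_pos
    (by linarith) hm hm hX hΘ' (s4' hΘM) (by positivity) (by positivity)
    (by positivity) hea' (d2 heb) (d2 haF) (d2 hdF) (s2 hF1) (s2' hF1M) (s2 hF2) (s2' hF2M)
    (by positivity) (s4 hQ1) (s4' hQ1M) (by positivity) (s4 hQ2) (s4' hQ2M) (by positivity)
    (by positivity) hK' he1' ha1' hd1'
  have f := Er.first_n (Y := 1) (M := m) (e0 := ε0 / (k * r)) (d0 := δ0 / (k * r))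
    (Θ := Θ / Y ^ 2) (X := X) (F2 := F2 / Y) ht one_pos hm hX hΘ' (s4' hΘM) hea' (d2 hdF)
    (s2 hF2)
  have hF20 : 0 ≤ F2 / Y := (sq_nonneg _).trans (d2 hdF)
  have e1 := Er.e1F (Y := 1) (M := m) (K := K1 / Y ^ 2 + K2 / Y ^ 2) (e1 := ε1 / (k ^ 3 * Y))
    (Θ := Θ / Y ^ 2) (X := X) (F := F2 / Y) (Q := Q1 / Y ^ 2) (K1 := K1 / Y ^ 2)
    ht hc hF20 (s2 hF2) hΘ' (s4' hΘM) (by positivity)
    (s4 hQ1) (s4' hQ1M) (by positivity) hKa (le_add_of_nonneg_right (by positivity)) hm0.le hX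
    zero_le_one hm he1'
  set W := Er.Wn t 1 m (Θ / Y ^ 2) (K1 / Y ^ 2 + K2 / Y ^ 2) X with hW
  have hWs : Y ^ 3 * W = t ^ 7 * (Y * Θ) + Y * (K1 + K2) + t⁻¹ * Y ^ 3 +
      t ^ 7 * (Y ^ 3 * (m ^ 2 * X)) := by
    rw [hW, ← add_div]
    exact Wn_scale hY
  have hk4 : 0 ≤ k ^ 4 * Y ^ 2 := by positivity
  have hk8 : 0 ≤ k ^ 8 * Y ^ 3 := by positivity
  have g1 : (ε1 / (k ^ 3 * Y)) ^ 2 * (δ0 / (k * r)) ^ 2 ≤ 54 * c * W := by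
    have h1 : (ε1 / (k ^ 3 * Y)) ^ 2 * (δ0 / (k * r)) ^ 2 ≤ (ε1 / (k ^ 3 * Y)) ^ 2 * (F2 / Y) :=
      mul_le_mul_of_nonneg_left (d2 hdF) (sq_nonneg _)
    have h2 : (ε1 / (k ^ 3 * Y)) ^ 2 * (F2 / Y) ≤ t * ((ε1 / (k ^ 3 * Y)) ^ 2 * (F2 / Y)) :=
      le_mul_of_one_le_left (by positivity) ht
    linarith
  have p8 := mul_le_mul_of_nonneg_left p hk8
  have g8 := mul_le_mul_of_nonneg_left g1 hk8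
  have f4 := mul_le_mul_of_nonneg_left f hk4
  have hY3 : Y ^ 3 = r ^ 6 := by rw [← hr2]; ring
  have hYr : Y = r ^ 2 := hr2.symm
  have i1 : k ^ 8 * Y ^ 3 * ((ε0 / (k * r) * (δ1 / (k ^ 3 * Y)) +
      ε1 / (k ^ 3 * Y) * (δ0 / (k * r))) *
      (α0 / (k * r) * (δ1 / (k ^ 3 * Y)) + α1 / (k ^ 3 * Y) * (δ0 / (k * r)))) =
      (ε0 * δ1 + ε1 * δ0) * (α0 * δ1 + α1 * δ0) := by
    rw [hYr]
    field_simp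
  have i3 : k ^ 8 * Y ^ 3 * ((ε1 / (k ^ 3 * Y)) ^ 2 * (δ0 / (k * r)) ^ 2) = ε1 ^ 2 * δ0 ^ 2 := by
    rw [hYr]
    field_simp
  have i4 : k ^ 4 * Y ^ 2 * ((ε0 / (k * r)) ^ 2 * (δ0 / (k * r)) ^ 2) = ε0 ^ 2 * δ0 ^ 2 := by
    rw [hYr]
    field_simp
  have i5 : k ^ 4 * Y ^ 2 * (9 / 2 * (t⁻¹ * 1 ^ 2 + t * (Θ / Y ^ 2)) + 9 * (m ^ 2 * X)) =
      k ^ 4 * (9 / 2 * (t⁻¹ * Y ^ 2 + t * Θ)) + k ^ 4 * (9 * (Y ^ 2 * (m ^ 2 * X))) := by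
    field_simp
  rw [i1] at p8
  rw [i3] at g8
  rw [i4, i5] at f4
  have hW0 : 0 ≤ k ^ 8 * Y ^ 3 * (54 * c * W) := by
    have := Er.Wn_nonneg (t := t) (Y := 1) (M := m) (Θ := Θ / Y ^ 2)
      (K := K1 / Y ^ 2 + K2 / Y ^ 2) (X := X) ht zero_le_one hΘ' (by positivity) hX
    positivity
  have j1 : 2 * g * ((ε0 ^ 2 + ε1 ^ 2) * δ0 ^ 2) ≤
      2 * g * (k ^ 4 * (9 / 2 * (t⁻¹ * Y ^ 2 + t * Θ))) +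
        2 * g * (k ^ 4 * (9 * (Y ^ 2 * (m ^ 2 * X)))) +
        2 * (k ^ 8 * Y ^ 3 * (54 * c * W)) := by
    have k1 := mul_le_mul_of_nonneg_left f4 hg
    have k2 := mul_le_mul_of_nonneg_left g8 hg
    have k4 := mul_le_mul_of_nonneg_right hg1 hW0
    linarith
  have e8 : k ^ 8 * Y ^ 3 * (54 * c * W) = 54 * c * k ^ 8 * (Y ^ 3 * W) := by ring
  have e9 : k ^ 8 * Y ^ 3 * (92 * c * W) = 92 * c * k ^ 8 * (Y ^ 3 * W) := by ring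
  rw [e8] at j1
  rw [e9] at p8
  have e10 : err k g c t Y m Θ (K1 + K2) X = 9 * g * k ^ 4 * (t⁻¹ * Y ^ 2 + t * Θ) +
      18 * g * k ^ 4 * (Y ^ 2 * (m ^ 2 * X)) + 660 * c * k ^ 8 * (Y ^ 3 * W) := by
    rw [hWs]
    rfl
  rw [e10]
  linarith

end Vale.Agent.P146.U.ErRc
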