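import Vale.Agent.P146.U.MKa

/-!
Plan R1 with constants: the sums of squares of conditional means are submartingales, powers, and
the bound (MK) of the four point functions at the time `s` by the two point functions at a later
time `a`, pointwise in the position.
-/

open MeasureTheory ProbabilityTheory Filter Topology

namespace Vale.Agent.P146.U

open Vale.Agent.P157.Lv Vale.Agent.P146.H425 Vale.Agent.P146.R1

set_option linter.unusedSectionVars false

/-- the tangent of a power -/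
lemma pow_tangent {a m : ℝ} (ha : 0 ≤ a) (hm : 0 ≤ m) (p : ℕ) :
    m ^ p + p * m ^ (p - 1) * (a - m) ≤ a ^ p := by
  induction p with
  | zero => simp
  | succ p ih =>
    have h1 := mul_le_mul_of_nonneg_right ih ha
    rcases Nat.eq_zero_or_pos p with h0 | h0
    · subst h0
      simp
    · have e1 : m ^ p = m ^ (p - 1) * m := by
        rw [← pow_succ, Nat.sub_add_cancel h0]
      have h2 : 0 ≤ (p : ℝ) * m ^ (p - 1) * (a - m) ^ 2 := by positivity
      have e2 : (m ^ p + p * m ^ (p - 1) * (a - m)) * a =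
          m ^ (p + 1) + ((p + 1 : ℕ) : ℝ) * m ^ (p + 1 - 1) * (a - m) +
            (p : ℝ) * m ^ (p - 1) * (a - m) ^ 2 := by
        rw [Nat.add_sub_cancel]
        push_cast
        rw [pow_succ m p, e1]
        ring
      rw [e2] at h1
      rw [pow_succ a p]
      linarith

section cw

variable {κ : Type} [Fintype κ] [DecidableEq κ] {F : (κ → ℝ) → ℝ} {D : κ → (κ → ℝ) → ℝ}
  {B L x s a r : ℝ} {φ ψ : (κ → ℝ) → ℝ}

lemma cw_sub (h : C11 F D B L) (hx : 0 < x) (hφ : EG φ) (hψ : EG ψ) (z : κ → ℝ) :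
    cw x s a F (fun y => φ y - ψ y) z = cw x s a F φ z - cw x s a F ψ z := by
  have h1 := cw_add (t := s) (t' := a) h hx hφ (hψ.const_mul (-1)) z
  rw [cw_const_mul] at h1
  have e : (fun y => φ y - ψ y) = fun y => φ y + -1 * ψ y := by funext y; ring
  rw [e, h1]
  ring

lemma cw_sum {K : Type*} (S : Finset K) (h : C11 F D B L) (hx : 0 < x) (hsa : s ≤ a) (ha : a ≤ 1)
    {f : K → (κ → ℝ) → ℝ} (hf : ∀ i ∈ S, EG (f i)) (z : κ → ℝ) :
    cw x s a F (fun y => ∑ i ∈ S, f i y) z = ∑ i ∈ S, cw x s a F (f i) z := by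
  classical
  induction S using Finset.induction_on with
  | empty => simpa using cw_const h hx hsa ha 0 z
  | insert b S hb ih =>
    simp only [Finset.sum_insert hb]
    rw [cw_add h hx (hf b (Finset.mem_insert_self b S))
      (EG.sum S fun i hi => hf i (Finset.mem_insert_of_mem hi)),
      ih fun i hi => hf i (Finset.mem_insert_of_mem hi)]

/-- Jensen for powers -/
lemma cw_pow_le (h : C11 F D B L) (hx : 0 < x) (hsa : s ≤ a) (ha : a ≤ 1) (hφ : EG φ)
    (h0 : ∀ y, 0 ≤ φ y) (z : κ → ℝ) (p : ℕ) :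
    cw x s a F φ z ^ p ≤ cw x s a F (fun y => φ y ^ p) z := by
  set m := cw x s a F φ z with hm
  have hm0 : 0 ≤ m := cw_nonneg h0 z
  have h1 : cw x s a F (fun y => (m ^ p - p * m ^ (p - 1) * m) + p * m ^ (p - 1) * φ y) z ≤
      cw x s a F (fun y => φ y ^ p) z := by
    refine cw_mono h hx ((EG.const _).add (hφ.const_mul _)) (hφ.pow p) (fun y => ?_) z
    have := pow_tangent (h0 y) hm0 p
    linarith
  rw [cw_add h hx (EG.const _) (hφ.const_mul _), cw_const h hx hsa ha, cw_const_mul, ← hm] at h1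
  linarith

/-- Jensen for the square -/
lemma cw_sq_le (h : C11 F D B L) (hx : 0 < x) (hsa : s ≤ a) (ha : a ≤ 1) (hφ : EG φ) (z : κ → ℝ) :
    cw x s a F φ z ^ 2 ≤ cw x s a F (fun y => φ y ^ 2) z := by
  set m := cw x s a F φ z with hm
  have h1 : cw x s a F (fun y => (-m ^ 2) + 2 * m * φ y) z ≤
      cw x s a F (fun y => φ y ^ 2) z := by
    refine cw_mono h hx ((EG.const _).add (hφ.const_mul _)) (hφ.pow 2) (fun y => ?_) z
    nlinarith [sq_nonneg (φ y - m)]
  rw [cw_add h hx (EG.const _) (hφ.const_mul _), cw_const h hx hsa ha, cw_const_mul, ← hm] at h1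
  nlinarith

/-- the tower property of `cw` -/
lemma cw_cw (h : C11 F D B L) (hx : 0 < x) (hφ : EG φ) (hsr : s ≤ r) (hra : r ≤ a)
    (z : κ → ℝ) : cw x s r F (cw x r a F φ) z = cw x s a F φ z := by
  have e1 : ∀ y, Real.exp (x * uu x r F y) * cw x r a F φ y =
      ∫ w, Real.exp (x * uu x a F (y + √(a - r) • w)) * φ (y + √(a - r) • w) ∂(gI κ) := by
    intro y
    unfold cw
    exact mul_div_cancel₀ _ (Real.exp_pos _).ne'
  have hE : EG fun y => Real.exp (x * uu x a F y) * φ y :=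
    ((((c11_uu h hx a).lip.lip h.B0).exp_eg x)).mul hφ
  unfold cw at e1 ⊢
  congr 1
  simp_rw [e1]
  refine gI_rot hE (a := √(r - s)) (b := √(a - r)) (c := √(a - s)) ?_ z
  rw [Real.sq_sqrt (by linarith), Real.sq_sqrt (by linarith), Real.sq_sqrt (by linarith)]
  ring

end cw

/-! ### systems of conditional means -/

section mean

variable {κ : Type} [Fintype κ] [DecidableEq κ] {F : (κ → ℝ) → ℝ} {D : κ → (κ → ℝ) → ℝ}
  {B L x s a r : ℝ} {X : Type} [Fintype X] {mu : ℝ → (κ → ℝ) → X → ℝ} {I : Type} [Fintype I]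

/-- The family of laws `mu s z` is a martingale. -/
def Mt (x : ℝ) (F : (κ → ℝ) → ℝ) (mu : ℝ → (κ → ℝ) → X → ℝ) : Prop :=
  ∀ (s : ℝ) (z : κ → ℝ) (σ : X), mu s z σ = ew x s F (fun u => mu 1 u σ) z

lemma Mt.tw (hm : Mt x F mu) (h : C11 F D B L) (hx : 0 < x) (hg : ∀ s σ, EG fun z => mu s z σ)
    (hsa : s ≤ a) (ha : a ≤ 1) (z : κ → ℝ) (σ : X) :
    cw x s a F (fun z => mu a z σ) z = mu s z σ := by
  have e : (fun z => mu a z σ) = ew x a F (fun u => mu 1 u σ) := funext fun z => hm a z σ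
  rw [e, cw_tower h hx (hg 1 σ) hsa ha, ← hm]

lemma eg_mean' (hg : ∀ s σ, EG fun z => mu s z σ) (s : ℝ) (f : X → ℝ) :
    EG fun z => ∑ σ, mu s z σ * f σ := by
  refine EG.sum _ fun σ _ => ?_
  have := (hg s σ).const_mul (f σ)
  have e : (fun z => mu s z σ * f σ) = fun z => f σ * mu s z σ := by funext z; ring
  rw [e]
  exact this

lemma Mt.mean (hm : Mt x F mu) (h : C11 F D B L) (hx : 0 < x) (hg : ∀ s σ, EG fun z => mu s z σ)
    (hsa : s ≤ a) (ha : a ≤ 1) (z : κ → ℝ) (f : X → ℝ) :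
    cw x s a F (fun z => ∑ σ, mu a z σ * f σ) z = ∑ σ, mu s z σ * f σ := by
  have e : ∀ σ, (fun z => mu a z σ * f σ) = fun z => f σ * mu a z σ := fun σ => by funext z; ring
  rw [cw_sum _ h hx hsa ha fun σ _ => by
    rw [e]
    exact (hg a σ).const_mul _]
  refine Finset.sum_congr rfl fun σ _ => ?_
  rw [e, cw_const_mul, hm.tw h hx hg hsa ha, mul_comm]

/-- The sum of the squares of the means of a family. -/
noncomputable def sqs (mu : ℝ → (κ → ℝ) → X → ℝ) (f : I → X → ℝ) (s : ℝ) (z : κ → ℝ) : ℝ :=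
  ∑ i, (∑ σ, mu s z σ * f i σ) ^ 2

lemma sqs_nonneg (f : I → X → ℝ) (z : κ → ℝ) : 0 ≤ sqs mu f s z :=
  Finset.sum_nonneg fun _ _ => sq_nonneg _

lemma eg_sqs (hg : ∀ s σ, EG fun z => mu s z σ) (f : I → X → ℝ) (s : ℝ) : EG (sqs mu f s) :=
  EG.sum _ fun i _ => (eg_mean' hg s (f i)).pow 2

/-- submartingale -/
lemma Mt.sqs_le (hm : Mt x F mu) (h : C11 F D B L) (hx : 0 < x)
    (hg : ∀ s σ, EG fun z => mu s z σ) (hsa : s ≤ a) (ha : a ≤ 1) (f : I → X → ℝ) (z : κ → ℝ) :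
    sqs mu f s z ≤ cw x s a F (sqs mu f a) z := by
  have e : sqs mu f a = fun z => ∑ i, (∑ σ, mu a z σ * f i σ) ^ 2 := rfl
  rw [e, cw_sum _ h hx hsa ha fun i _ => (eg_mean' hg a (f i)).pow 2]
  refine Finset.sum_le_sum fun i _ => ?_
  rw [← hm.mean h hx hg hsa ha z (f i)]
  exact cw_sq_le h hx hsa ha (eg_mean' hg a (f i)) z

lemma Mt.sqs_pow_le (hm : Mt x F mu) (h : C11 F D B L) (hx : 0 < x)
    (hg : ∀ s σ, EG fun z => mu s z σ) (hsa : s ≤ a) (ha : a ≤ 1) (f : I → X → ℝ) (z : κ → ℝ)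
    (p : ℕ) : sqs mu f s z ^ p ≤ cw x s a F (fun z => sqs mu f a z ^ p) z :=
  (pow_le_pow_left₀ (sqs_nonneg f z) (hm.sqs_le h hx hg hsa ha f z) p).trans
    (cw_pow_le h hx hsa ha (eg_sqs hg f a) (sqs_nonneg f) z p)

/-- the same between two intermediate times -/
lemma Mt.cw_sqs_pow_le (hm : Mt x F mu) (h : C11 F D B L) (hx : 0 < x)
    (hg : ∀ s σ, EG fun z => mu s z σ) (hsr : s ≤ r) (hra : r ≤ a) (ha : a ≤ 1) (f : I → X → ℝ)
    (hb : EG (cw x r a F (fun z => sqs mu f a z ^ 2))) (z : κ → ℝ) :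
    cw x s r F (fun z => sqs mu f r z ^ 2) z ≤ cw x s a F (fun z => sqs mu f a z ^ 2) z := by
  rw [← cw_cw h hx ((eg_sqs hg f a).pow 2) hsr hra z]
  exact cw_mono h hx ((eg_sqs hg f r).pow 2) hb
    (fun y => hm.sqs_pow_le h hx hg hra ha f y 2) z

lemma abs_cw_le (h : C11 F D B L) (hx : 0 < x) (hsa : s ≤ a) (ha : a ≤ 1) {φ : (κ → ℝ) → ℝ}
    (hφ : EG φ) {C : ℝ} (hC : ∀ y, |φ y| ≤ C) (z : κ → ℝ) : |cw x s a F φ z| ≤ C := by
  rw [abs_le]
  constructor
  · have := cw_mono (t := s) (t' := a) h hx (EG.const (-C)) hφ (fun y => (abs_le.1 (hC y)).1) z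
    rwa [cw_const h hx hsa ha] at this
  · have := cw_mono (t := s) (t' := a) h hx hφ (EG.const C) (fun y => (abs_le.1 (hC y)).2) z
    rwa [cw_const h hx hsa ha] at this

lemma eg_cw (h : C11 F D B L) (hx : 0 < x) (hsa : s ≤ a) (ha : a ≤ 1) {φ : (κ → ℝ) → ℝ}
    (hφ : EG φ) {C : ℝ} (hC : ∀ y, |φ y| ≤ C) : EG (cw x s a F φ) := by
  have hE : EG fun y => Real.exp (x * uu x a F y) * φ y :=
    ((((c11_uu h hx a).lip.lip h.B0).exp_eg x)).mul hφ
  have hE1 : EG fun y => Real.exp (x * uu x s F y) := ((c11_uu h hx s).lip.lip h.B0).exp_eg x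
  have m1 : StronglyMeasurable fun z : κ → ℝ => ∫ y, Real.exp (x * uu x a F (z + √(a - s) • y)) *
      φ (z + √(a - s) • y) ∂(gI κ) := by
    refine StronglyMeasurable.integral_prod_right' (ν := gI κ)
      (f := fun p : (κ → ℝ) × (κ → ℝ) => Real.exp (x * uu x a F (p.1 + √(a - s) • p.2)) *
        φ (p.1 + √(a - s) • p.2)) ?_
    refine Measurable.stronglyMeasurable ?_
    exact hE.meas.comp
      (by fun_prop : Measurable fun p : (κ → ℝ) × (κ → ℝ) => p.1 + √(a - s) • p.2)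
  exact EG.of_bdd (m1.measurable.div hE1.meas) fun z => abs_cw_le h hx hsa ha hφ hC z

variable {H T : κ → κ → (κ → ℝ) → ℝ} {M : ℝ}

/-- **(MK)** Let `Q` be the sum of the squares of the means of one family, `f` the same for a
second family; if at every time `Q` is at most `2 f²` plus a constant times the squared Hessian and
the squared gradient at the time `a` is at most a constant times `f`, then `Q` at the time `s` is
bounded by conditional means of `f` and `f²` at the later time `a`. -/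
theorem mk_point {J : Type} [Fintype J] (hS : Sm F D B L H T M) (hx : 0 < x) (hm : Mt x F mu)
    (hg : ∀ s σ, EG fun z => mu s z σ) (hsa : s < a) (ha : a ≤ 1) (g : I → X → ℝ) (f : J → X → ℝ)
    {c1 c2 C : ℝ} (hc1 : 0 ≤ c1) (hfC : ∀ r z, sqs mu f r z ≤ C)
    (hkov : ∀ r, s < r → r ≤ 1 → ∀ z, sqs mu g r z ≤ 2 * sqs mu f r z ^ 2 + c1 * hq x r F D H z)
    (hsq : ∀ z, sq x a F D z ≤ c2 * sqs mu f a z) (z : κ → ℝ) :
    sqs mu g s z ≤ 2 * cw x s a F (fun z => sqs mu f a z ^ 2) z +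
      c1 * c2 / (a - s) * cw x s a F (sqs mu f a) z := by
  have h := hS.c11
  obtain ⟨r, hr, he⟩ := cw_sq_mvt hS hx z hsa ha
  have hr1 : r ≤ 1 := hr.2.le.trans ha
  have has : 0 < a - s := by linarith
  have hfp : ∀ r, ∀ z : κ → ℝ, |sqs mu f r z ^ 2| ≤ C ^ 2 := by
    intro r z
    have h0 : 0 ≤ sqs mu f r z := sqs_nonneg f z
    rw [abs_of_nonneg (by positivity)]
    exact pow_le_pow_left₀ h0 (hfC r z) 2
  have h1 := hm.sqs_le h hx hg hr.1.le hr1 g z
  have h2 : cw x s r F (sqs mu g r) z ≤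
      cw x s r F (fun z => 2 * sqs mu f r z ^ 2 + c1 * hq x r F D H z) z :=
    cw_mono h hx (eg_sqs hg g r) ((((eg_sqs hg f r).pow 2).const_mul 2).add
      ((eg_hq hS x r).const_mul c1)) (fun y => hkov r hr.1 hr1 y) z
  rw [cw_add h hx (((eg_sqs hg f r).pow 2).const_mul 2) ((eg_hq hS x r).const_mul c1),
    cw_const_mul, cw_const_mul] at h2
  have h3 := hm.cw_sqs_pow_le h hx hg hr.1.le hr.2.le ha f
    (eg_cw h hx hr.2.le ha ((eg_sqs hg f a).pow 2) (hfp a)) z
  have h4 : cw x s a F (sq x a F D) z ≤ c2 * cw x s a F (sqs mu f a) z := by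
    have := cw_mono (t := s) (t' := a) h hx (eg_sq' h x a) ((eg_sqs hg f a).const_mul c2) hsq z
    rwa [cw_const_mul] at this
  have h5 : 0 ≤ sq x s F D z := Finset.sum_nonneg fun _ _ => sq_nonneg _
  have h6 : cw x s r F (hq x r F D H) z ≤ c2 * cw x s a F (sqs mu f a) z / (a - s) := by
    rw [le_div_iff₀ has, mul_comm, he]
    linarith
  have h7 := mul_le_mul_of_nonneg_left h6 hc1
  calc sqs mu g s z ≤ 2 * cw x s r F (fun z => sqs mu f r z ^ 2) z +
        c1 * cw x s r F (hq x r F D H) z := h1.trans h2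
    _ ≤ 2 * cw x s a F (fun z => sqs mu f a z ^ 2) z +
        c1 * (c2 * cw x s a F (sqs mu f a) z / (a - s)) := by linarith
    _ = _ := by ring

end mean

end Vale.Agent.P146.U
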