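import Vale.Agent.P146.H332.ErS
import Vale.Agent.P146.U.H712_BtS
import Vale.Agent.P146.U.ErRc
import Vale.Agent.P146.U.MKb
import Vale.Agent.P146.U.NS

/-!
Plan R1 with constants, block C: the error of the fixed bulk inequality (FB) for a pair of sites,
and its sum over the pairs. The bad bulks are treated with moments.
-/

open MeasureTheory ProbabilityTheory

namespace Vale.Agent.P146.U.R1S

open Vale.Agent.P146.R1S hiding Av_KV_le Av_fr_le Av_fr_le' Av_frsq_le Av_frsq_le' CS Ca Cd ErS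
  ErS_nonneg Gb Gb_eq MM Nd Nd_eq Sa Sa_eq Sd Sd_eq Xb_eq Yb_eq abs_cl blk_a blk_d cl cl0 cl_act
  cl_odd cl_other cl_self ee eg_Ca eg_Cd eg_ErS eg_cl eg_cl0 er_point er_sum ind_Ca ind_Cd ind_cl
  ind_cl2 ind_cl3 tA_T tA_abs tA_comm tA_cont tA_eg tA_self two_cs

open Vale.Agent.P157.Lv Vale.Agent.P146.H425 Vale.Agent.P146.H325 Vale.Agent.P146.H332
  Vale.Agent.P146.H633 Matrix
open Vale.Agent.P146.H712 hiding En_sub En_sum Fo_A_le Fo_one_le KV KV_le KV_nonneg LLow LUp Th_le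
  bt3 bt3_pos bt3_three bt3_two eg_KV eg_P0 eg_P1 eg_P2 eg_P3 eg_ThS int_dens k0 k1 k2 k3 llow lup
  pd_P0 pd_P1 pd_P2 pd_P3 sum_k0 sum_k1 sum_k2 sum_k3 tT_abs tT_eg tfr_le tpd
open Vale.Agent.P146.R1 hiding Et Et4 Et4_123 Et4_124 Et4_add Et4_const Et4_const_mul Et4_cs
  Et4_mono Et4_nonneg Et4_sub Et_add Et_const Et_const_mul Et_cs Et_fst_eq Et_jensen Et_mono
  Et_nonneg Et_sub Et_weight Et_zero Eu Eu4 Eu4_123 Eu4_124 Eu4_add Eu4_cond Eu4_const_mul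
  Eu4_iter Eu4_mono Eu4_nonneg Eu4_one_eq Eu4_one_eq' Eu4_one_pos Eu4_weight Eu_add Eu_const_mul
  Eu_fst Eu_fst_eq Eu_iter Eu_mono Eu_nonneg Eu_one Eu_one_eq Eu_one_pos Eu_weight Eu_zero
  Eu_zero_one Lth Lth_zero Qt dn dn_pos e3_dn eg_Eu eg_Eu4
open Vale.Agent.P146.R1C hiding Av_lf_P0 Av_lf_P1 Av_lf_P2 Av_lf_P23 Av_lf_P23_row Av_lf_P3 Ca Cd
  En En_add En_const En_const_mul En_eq En_mono En_nonneg En_pow_le En_rare Ew Ew1_pos Ew_add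
  Ew_const_mul Ew_eq Ew_mono Ew_nonneg Ew_one_pos Fo Gb Law2 Nd P0 P0_lp P0_sw P1 P1_lp P1_sw P2
  P2_lp P2_sw P3 P3_lp P3_sw Par Sa Sd den_pos dens dens_eq eg_den eg_dens eg_psi' kk_NN lam_le
  law2_of law_low law_up lf_psi lip_psi pd_psi psi psi' psi_four_le psi_sq_le
open Vale.Agent.P146.U.H712 Vale.Agent.P146.U.R1 Vale.Agent.P146.U.R1C
open Vale.Agent.P146.U (pow_tangent)

set_option linter.unusedSectionVars false

/-! ### general functions of a position -/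

section avp

variable {κ : Type} [Fintype κ] [DecidableEq κ] {s : ℝ} {R : Finset κ} {f : (κ → ℝ) → ℝ}

lemma AvP_pow_le (hf : EG f) (h0 : ∀ z, 0 ≤ f z) (z : κ → ℝ) (p : ℕ) :
    AvP s R f z ^ p ≤ AvP s R (fun z => f z ^ p) z := by
  set m := AvP s R f z with hm
  have hm0 : 0 ≤ m := AvP_nonneg h0 z
  have h1 := AvP_mono (s := s) (R := R) ((EG.const (m ^ p - p * m ^ (p - 1) * m)).add
    (hf.const_mul (p * m ^ (p - 1)))) (hf.pow p) (fun y => by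
      have := pow_tangent (h0 y) hm0 p
      linarith) z
  rw [AvP_add (EG.const _) (hf.const_mul _), AvP_const, AvP_const_mul, ← hm] at h1
  linarith

lemma AvP_mono_at {g : (κ → ℝ) → ℝ} (hf : EG f) (hg : EG g) (z : κ → ℝ)
    (h : ∀ w, f (sw R z w) ≤ g (sw R z w)) : AvP s R f z ≤ AvP s R g z :=
  integral_mono (eg_AvP_in hf s R z).integrable (eg_AvP_in hg s R z).integrable fun _ => h _

end avp

/-! ### the numbers of one pair -/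

/-- the sum of the scaled sizes -/
noncomputable def mB (Y Q1 Q2 K1 K2 : ℝ) : ℝ := 3 + 10 * ((Q1 + Q2 + K1 + K2) / Y ^ 2)

/-- the bad bulks -/
noncomputable def xB (Y Q1 Q2 : ℝ) : ℝ :=
  (if Y ^ 2 < Q1 then 1 else 0) + (if Y ^ 2 < Q2 then 1 else 0)

lemma xB_nonneg (Y Q1 Q2 : ℝ) : 0 ≤ xB Y Q1 Q2 := by
  unfold xB
  split_ifs <;> norm_num

lemma xB_le (Y Q1 Q2 : ℝ) : xB Y Q1 Q2 ≤ 2 := by
  unfold xB
  split_ifs <;> norm_num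

lemma mB_one {Y Q1 Q2 K1 K2 : ℝ} (h1 : 0 ≤ Q1) (h2 : 0 ≤ Q2) (h3 : 0 ≤ K1) (h4 : 0 ≤ K2) :
    3 ≤ mB Y Q1 Q2 K1 K2 := by
  unfold mB
  have : 0 ≤ (Q1 + Q2 + K1 + K2) / Y ^ 2 := by positivity
  linarith

/-- the comparison with the number of the bad bulks -/
lemma mB_le {Y Q1 Q2 K1 K2 B : ℝ} (hY : 0 < Y) (h : B ≤ 10 * (Q1 + Q2 + K1 + K2)) :
    B ≤ Y ^ 2 * mB Y Q1 Q2 K1 K2 := by
  have hY2 : 0 < Y ^ 2 := by positivity
  have e : Y ^ 2 * mB Y Q1 Q2 K1 K2 = 3 * Y ^ 2 + 10 * (Q1 + Q2 + K1 + K2) := by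
    unfold mB
    field_simp
  rw [e]
  linarith

lemma bad_le {Y Q1 Q2 K1 K2 B C : ℝ} (hY : 0 ≤ C) (hB : B ≤ C * mB Y Q1 Q2 K1 K2) (h1 : 0 ≤ Q1)
    (h2 : 0 ≤ Q2) (h3 : 0 ≤ K1) (h4 : 0 ≤ K2)
    (hgood : Q1 ≤ Y ^ 2 → Q2 ≤ Y ^ 2 → B ≤ C) :
    B ≤ C + C * (mB Y Q1 Q2 K1 K2 * xB Y Q1 Q2) := by
  have hm := mB_one (Y := Y) h1 h2 h3 h4
  by_cases hg : Q1 ≤ Y ^ 2 ∧ Q2 ≤ Y ^ 2
  · have := hgood hg.1 hg.2
    have h5 : 0 ≤ C * (mB Y Q1 Q2 K1 K2 * xB Y Q1 Q2) :=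
      mul_nonneg hY (mul_nonneg (by linarith) (xB_nonneg _ _ _))
    linarith
  · have hx : 1 ≤ xB Y Q1 Q2 := by
      rw [not_and_or, not_le, not_le] at hg
      unfold xB
      rcases hg with hg | hg
      · rw [if_pos hg]
        split_ifs <;> norm_num
      · rw [if_pos hg]
        split_ifs <;> norm_num
    have h6 : C * mB Y Q1 Q2 K1 K2 ≤ C * (mB Y Q1 Q2 K1 K2 * xB Y Q1 Q2) :=
      mul_le_mul_of_nonneg_left (le_mul_of_one_le_right (by linarith) hx) hY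
    linarith

/-- **The pointwise bound of one pair**, numbers only. -/
theorem er_pt {k g c t Y Θ F1 F2 Q1 Q2 K1 K2 ε0 ε1 α0 α1 δ0 δ1 : ℝ} (hk : 0 < k)
    (hg : 0 ≤ g) (hg1 : g ≤ 1) (ht : 1 ≤ t) (hc : 0 ≤ c) (hY : 0 < Y)
    (hF1 : 0 ≤ F1) (hF2 : 0 ≤ F2) (hFQ1 : F1 ^ 2 ≤ Q1) (hFQ2 : F2 ^ 2 ≤ Q2)
    (hK1 : 0 ≤ K1) (hK2 : 0 ≤ K2) (hΘ0 : 0 ≤ Θ) (hΘ : Θ ≤ K1 + 8 * Q1)
    (he0 : 0 ≤ ε0) (ha0 : 0 ≤ α0) (hd0 : 0 ≤ δ0)
    (hea : ε0 ^ 2 ≤ k ^ 2 * (9 * √Θ)) (heb : ε0 ^ 2 ≤ k ^ 2 * F1) (haF : α0 ^ 2 ≤ k ^ 2 * F1)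
    (hdF : δ0 ^ 2 ≤ k ^ 2 * F2)
    (he1 : ε1 ^ 2 ≤ k ^ 6 * (c * (36 * t ^ 6 * Θ + 6 * (t⁻¹) ^ 2 * (Q1 + K1))))
    (ha1 : α1 ^ 2 ≤ k ^ 6 * (c * (2 * (Q1 + K1))))
    (hd1 : δ1 ^ 2 ≤ k ^ 6 * (c * (2 * (Q2 + K2)))) :
    2 * g * ((ε0 ^ 2 + ε1 ^ 2) * δ0 ^ 2) + 6 * ((ε0 * δ1 + ε1 * δ0) * (α0 * δ1 + α1 * δ0)) ≤
      Vale.Agent.P146.U.ErRc.err k g c t Y (mB Y Q1 Q2 K1 K2) Θ (K1 + K2) (xB Y Q1 Q2) := by
  have hQ1 : 0 ≤ Q1 := (sq_nonneg _).trans hFQ1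
  have hQ2 : 0 ≤ Q2 := (sq_nonneg _).trans hFQ2
  have hY2 : 0 < Y ^ 2 := by positivity
  have hm := mB_one (Y := Y) hQ1 hQ2 hK1 hK2
  have q1 : Q1 ≤ Y ^ 2 * mB Y Q1 Q2 K1 K2 := mB_le hY (by linarith)
  have q2 : Q2 ≤ Y ^ 2 * mB Y Q1 Q2 K1 K2 := mB_le hY (by linarith)
  -- sizes: `F ≤ (Y + F² / Y) / 2`
  have fF : ∀ {F Q : ℝ}, 0 ≤ F → F ^ 2 ≤ Q → Q ≤ Y ^ 2 * mB Y Q1 Q2 K1 K2 →
      F ≤ Y * mB Y Q1 Q2 K1 K2 := by
    intro F Q hF hFQ hQ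
    set m := mB Y Q1 Q2 K1 K2 with hmd
    have h1 : F ^ 2 ≤ (Y * m) ^ 2 := by
      calc F ^ 2 ≤ Y ^ 2 * m := hFQ.trans hQ
        _ ≤ Y ^ 2 * (m * m) := mul_le_mul_of_nonneg_left
          (le_mul_of_one_le_left (by linarith) (by linarith)) hY2.le
        _ = _ := by ring
    exact (abs_le_of_sq_le_sq' h1 (mul_nonneg hY.le (by linarith))).2
  have gF : ∀ {F Q : ℝ}, F ^ 2 ≤ Q → Q ≤ Y ^ 2 → F ≤ Y := fun h1 h2 =>
    (abs_le_of_sq_le_sq' (h1.trans h2) hY.le).2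
  exact Vale.Agent.P146.U.ErRc.fb_real hk hg hg1 ht hc hY (by linarith) (xB_nonneg _ _ _) hΘ0
    (mB_le hY (by linarith)) he0 ha0 hd0 hea heb haF hdF
    (bad_le hY.le (fF hF1 hFQ1 q1) hQ1 hQ2 hK1 hK2 fun h _ => gF hFQ1 h)
    (fF hF1 hFQ1 q1)
    (bad_le hY.le (fF hF2 hFQ2 q2) hQ1 hQ2 hK1 hK2 fun _ h => gF hFQ2 h)
    (fF hF2 hFQ2 q2) hQ1
    (bad_le hY2.le q1 hQ1 hQ2 hK1 hK2 fun h _ => h) q1 hQ2
    (bad_le hY2.le q2 hQ1 hQ2 hK1 hK2 fun _ h => h) q2 hK1 hK2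
    (mB_le hY (by linarith)) he1 ha1 hd1

/-- **The numbers of the sum.** -/
lemma er_num {n k β g c t A N u v cB CX SΘ SK SX : ℝ} (hn : 0 < n) (hk4 : k ^ 4 * n ^ 2 = β ^ 4)
    (hk8 : k ^ 8 * n ^ 4 = β ^ 8) (hg : 0 ≤ g) (hgN : g ≤ N / n ^ 2) (hc : 0 ≤ c) (ht : 1 ≤ t)
    (hu : 0 ≤ u) (ht8 : t ^ 8 * u ≤ 1) (hv : 0 ≤ v) (htv : t ^ 8 * v ≤ 1) (hA : 1 ≤ A)
    (hN : 0 < N) (hcB : 0 ≤ cB) (hCX : 0 ≤ CX)
    (hΘ : SΘ ≤ cB * A ^ 2 * n ^ 2 * N ^ 2 * u) (hK : SK ≤ 2 * (cB * A ^ 2 * n ^ 2 * N ^ 2 * u))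
    (hX : SX ≤ CX * n ^ 2 * v) :
    n ^ 2 * (9 * g * k ^ 4 * (t⁻¹ * (2 * A * N) ^ 2) +
        660 * c * k ^ 8 * (t⁻¹ * (2 * A * N) ^ 3)) +
      ((9 * g * k ^ 4 * t + 660 * c * k ^ 8 * t ^ 7 * (2 * A * N)) * SΘ +
        (660 * c * k ^ 8 * (2 * A * N) * SK + (18 * g * k ^ 4 * (2 * A * N) ^ 2 +
          660 * c * k ^ 8 * t ^ 7 * (2 * A * N) ^ 3) * SX)) ≤
      ((36 + 9 * cB + 72 * CX) * β ^ 4 + (5280 + 3960 * cB + 5280 * CX) * c * β ^ 8) *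
        (A ^ 3 * (N / n ^ 2) * N ^ 2 * t⁻¹) := by
  have ht0 : 0 < t := by linarith
  have hA0 : 0 < A := by linarith
  have hi0 : 0 < t⁻¹ := inv_pos.2 ht0
  have hβ4 : 0 ≤ β ^ 4 := by positivity
  have hβ8 : 0 ≤ β ^ 8 := by positivity
  set Z := A ^ 3 * (N / n ^ 2) * N ^ 2 * t⁻¹ with hZ
  have hZ0 : 0 ≤ Z := by positivity
  have p7 : ∀ {a : ℝ}, 0 ≤ a → t ^ 8 * a ≤ 1 → t ^ 7 * a ≤ t⁻¹ := by
    intro a _ h8
    have h1 : t ^ 7 * a = t ^ 8 * a * t⁻¹ := by field_simp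
    rw [h1]
    calc t ^ 8 * a * t⁻¹ ≤ 1 * t⁻¹ := mul_le_mul_of_nonneg_right h8 hi0.le
      _ = t⁻¹ := one_mul _
  have p1 : ∀ {a : ℝ}, 0 ≤ a → t ^ 8 * a ≤ 1 → t * a ≤ t⁻¹ := fun h0 h8 =>
    (mul_le_mul_of_nonneg_right (le_self_pow₀ ht (by norm_num)) h0).trans (p7 h0 h8)
  have p0 : ∀ {a : ℝ}, 0 ≤ a → t ^ 8 * a ≤ 1 → a ≤ t⁻¹ := fun h0 h8 =>
    (le_mul_of_one_le_left h0 (one_le_pow₀ ht)).trans (p7 h0 h8)
  have gZ : g * (A ^ 2 * N ^ 2 * t⁻¹) ≤ Z := by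
    have h1 : g * (A ^ 2 * N ^ 2 * t⁻¹) ≤ N / n ^ 2 * (A ^ 2 * N ^ 2 * t⁻¹) :=
      mul_le_mul_of_nonneg_right hgN (by positivity)
    have h2 : A ^ 2 ≤ A ^ 3 := pow_le_pow_right₀ hA (by norm_num)
    have h3 := mul_le_mul_of_nonneg_right h2
      (by positivity : 0 ≤ N / n ^ 2 * N ^ 2 * t⁻¹)
    rw [hZ]
    calc g * (A ^ 2 * N ^ 2 * t⁻¹) ≤ N / n ^ 2 * (A ^ 2 * N ^ 2 * t⁻¹) := h1
      _ = A ^ 2 * (N / n ^ 2 * N ^ 2 * t⁻¹) := by ring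
      _ ≤ A ^ 3 * (N / n ^ 2 * N ^ 2 * t⁻¹) := h3
      _ = _ := by ring
  have k8 : k ^ 8 * n ^ 2 * (A ^ 3 * N ^ 3 * t⁻¹) = β ^ 8 * Z := by
    rw [← hk8, hZ]
    field_simp
  -- a term with the factor `g`
  have tg : ∀ {C a : ℝ}, 0 ≤ C → a ≤ t⁻¹ →
      C * (g * (k ^ 4 * n ^ 2) * (A ^ 2 * N ^ 2) * a) ≤ C * (β ^ 4 * Z) := by
    intro C a hC ha
    refine mul_le_mul_of_nonneg_left ?_ hC
    have h1 : g * (k ^ 4 * n ^ 2) * (A ^ 2 * N ^ 2) * a ≤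
        g * (k ^ 4 * n ^ 2) * (A ^ 2 * N ^ 2) * t⁻¹ :=
      mul_le_mul_of_nonneg_left ha (by positivity)
    refine h1.trans ?_
    rw [hk4]
    calc g * β ^ 4 * (A ^ 2 * N ^ 2) * t⁻¹ = β ^ 4 * (g * (A ^ 2 * N ^ 2 * t⁻¹)) := by ring
      _ ≤ _ := mul_le_mul_of_nonneg_left gZ hβ4
  have tc : ∀ {C a : ℝ}, 0 ≤ C → a ≤ t⁻¹ →
      C * (c * (k ^ 8 * n ^ 2 * (A ^ 3 * N ^ 3 * a))) ≤ C * (c * (β ^ 8 * Z)) := by
    intro C a hC ha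
    refine mul_le_mul_of_nonneg_left (mul_le_mul_of_nonneg_left ?_ hc) hC
    rw [← k8]
    gcongr
  have pa := tg (C := 36) (a := t⁻¹) (by norm_num) le_rfl
  have pb := tc (C := 5280) (a := t⁻¹) (by norm_num) le_rfl
  have pc := tg (C := 9 * cB) (a := t * u) (by positivity) (p1 hu ht8)
  have pd := tc (C := 1320 * cB) (a := t ^ 7 * u) (by positivity) (p7 hu ht8)
  have pe := tc (C := 2640 * cB) (a := u) (by positivity) (p0 hu ht8)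
  have pf := tg (C := 72 * CX) (a := v) (by positivity) (p0 hv htv)
  have pg := tc (C := 5280 * CX) (a := t ^ 7 * v) (by positivity) (p7 hv htv)
  have s1 := mul_le_mul_of_nonneg_left hΘ
    (by positivity : 0 ≤ 9 * g * k ^ 4 * t + 660 * c * k ^ 8 * t ^ 7 * (2 * A * N))
  have s2 := mul_le_mul_of_nonneg_left hK
    (by positivity : 0 ≤ 660 * c * k ^ 8 * (2 * A * N))
  have s3 := mul_le_mul_of_nonneg_left hX
    (by positivity : 0 ≤ 18 * g * k ^ 4 * (2 * A * N) ^ 2 +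
      660 * c * k ^ 8 * t ^ 7 * (2 * A * N) ^ 3)
  have e1 : n ^ 2 * (9 * g * k ^ 4 * (t⁻¹ * (2 * A * N) ^ 2) +
        660 * c * k ^ 8 * (t⁻¹ * (2 * A * N) ^ 3)) =
      36 * (g * (k ^ 4 * n ^ 2) * (A ^ 2 * N ^ 2) * t⁻¹) +
        5280 * (c * (k ^ 8 * n ^ 2 * (A ^ 3 * N ^ 3 * t⁻¹))) := by ring
  have e2 : (9 * g * k ^ 4 * t + 660 * c * k ^ 8 * t ^ 7 * (2 * A * N)) *
      (cB * A ^ 2 * n ^ 2 * N ^ 2 * u) =
      9 * cB * (g * (k ^ 4 * n ^ 2) * (A ^ 2 * N ^ 2) * (t * u)) +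
        1320 * cB * (c * (k ^ 8 * n ^ 2 * (A ^ 3 * N ^ 3 * (t ^ 7 * u)))) := by ring
  have e3 : 660 * c * k ^ 8 * (2 * A * N) * (2 * (cB * A ^ 2 * n ^ 2 * N ^ 2 * u)) =
      2640 * cB * (c * (k ^ 8 * n ^ 2 * (A ^ 3 * N ^ 3 * u))) := by ring
  have e4 : (18 * g * k ^ 4 * (2 * A * N) ^ 2 +
      660 * c * k ^ 8 * t ^ 7 * (2 * A * N) ^ 3) * (CX * n ^ 2 * v) =
      72 * CX * (g * (k ^ 4 * n ^ 2) * (A ^ 2 * N ^ 2) * v) +
        5280 * CX * (c * (k ^ 8 * n ^ 2 * (A ^ 3 * N ^ 3 * (t ^ 7 * v)))) := by ring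
  rw [e2] at s1
  rw [e3] at s2
  rw [e4] at s3
  rw [e1]
  have e5 : ((36 + 9 * cB + 72 * CX) * β ^ 4 + (5280 + 3960 * cB + 5280 * CX) * c * β ^ 8) * Z =
      36 * (β ^ 4 * Z) + 5280 * (c * (β ^ 8 * Z)) + 9 * cB * (β ^ 4 * Z) +
        1320 * cB * (c * (β ^ 8 * Z)) + 2640 * cB * (c * (β ^ 8 * Z)) +
        72 * CX * (β ^ 4 * Z) + 5280 * CX * (c * (β ^ 8 * Z)) := by ring
  rw [e5]
  linarith

/-! ### the sum over the pairs -/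

section gen

variable {n : ℕ} {k x : ℝ} (S : CS n k x)

/-- the second moment of the size in one bulk -/
noncomputable def Qb (s : ℝ) (R : Finset (Pair n)) (z : Pair n → ℝ) : ℝ :=
  AvP s R (fun z => fr (S.A s z) ^ 2) z

/-- the defect in one bulk -/
noncomputable def Kb' (s : ℝ) (R : Finset (Pair n)) (z : Pair n → ℝ) : ℝ := AvP s R (KV S s) z

/-- **The error of one pair.** `Y` = the size `2 * A * NN`. -/
noncomputable def ErS (q : Par) (g c t Y : ℝ) (b b' : Fin n) (w : K4 (Pair n) → ℝ) : ℝ :=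
  Vale.Agent.P146.U.ErRc.err k g c t Y
    (mB Y (Qb S q.s1 (row b ∪ row b') (P2 q w)) (Qb S q.s2 (row b ∪ row b') (P3 q w))
      (Kb' S q.s1 (row b ∪ row b') (P2 q w)) (Kb' S q.s2 (row b ∪ row b') (P3 q w)))
    (Th q.s1 (row b ∪ row b') (S.A q.s1) (KV S q.s1) (P2 q w))
    (Kb' S q.s1 (row b ∪ row b') (P2 q w) + Kb' S q.s2 (row b ∪ row b') (P3 q w))
    (xB Y (Qb S q.s1 (row b ∪ row b') (P2 q w)) (Qb S q.s2 (row b ∪ row b') (P3 q w)))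

lemma Qb_nonneg (s : ℝ) (R : Finset (Pair n)) (z : Pair n → ℝ) : 0 ≤ Qb S s R z :=
  AvP_nonneg (fun _ => sq_nonneg _) z

lemma Kb'_nonneg (s : ℝ) (R : Finset (Pair n)) (z : Pair n → ℝ) : 0 ≤ Kb' S s R z :=
  AvP_nonneg (fun z => KV_nonneg S s z) z

lemma eg_fr' (s : ℝ) : EG fun z => fr (S.A s z) := eg_frC fun i j => tA_eg S s i j

lemma eg_Qb (s : ℝ) (R : Finset (Pair n)) : EG (Qb S s R) := eg_AvP ((eg_fr' S s).pow 2) s R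

lemma eg_Kb' (s : ℝ) (R : Finset (Pair n)) : EG (Kb' S s R) := eg_AvP (eg_KV S s) s R

/-- `Th` against the averages -/
lemma Th_le_avg (s : ℝ) (R : Finset (Pair n)) (z : Pair n → ℝ) :
    Th s R (S.A s) (KV S s) z ≤ Kb' S s R z + 8 * Qb S s R z := by
  have hC : ∀ i j, EG fun z => S.A s z i j := fun i j => tA_eg S s i j
  have hf := eg_fr' S s
  have hD := eg_Dlt hC s R
  set F := AvP s R (fun z => fr (S.A s z)) z with hF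
  have hF0 : 0 ≤ F := AvP_nonneg (fun z => frn _) z
  have hFQ : F ^ 2 ≤ Qb S s R z := AvP_pow_le hf (fun z => frn _) z 2
  -- `Dlt` against the sizes, at the points of the bulk
  have hDl : ∀ w, Dlt s R (S.A s) (sw R z w) ≤ 2 * fr (S.A s (sw R z w)) + 2 * F := by
    intro w
    have h1 := fr_sub_le (S.A s (sw R z w)) (CB s R (S.A s) (sw R z w))
    have h2 := fr_CB_le (s := s) (R := R) hC (sw R z w)
    rw [AvP_sw] at h2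
    unfold Dlt
    linarith
  have a3 : AvP s R (Dlt s R (S.A s)) z ≤ 4 * F := by
    have h1 := AvP_mono_at (s := s) (R := R) hD ((hf.const_mul 2).add (EG.const (2 * F))) z hDl
    rw [AvP_add (hf.const_mul 2) (EG.const (2 * F)), AvP_const, AvP_const_mul] at h1
    linarith
  have a4 : AvP s R (fun z => Dlt s R (S.A s) z * fr (S.A s z)) z ≤ 4 * Qb S s R z := by
    have h1 := AvP_mono_at (s := s) (R := R) (hD.mul hf)
      (((hf.pow 2).const_mul 2).add (hf.const_mul (2 * F))) z fun w => by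
        have h3 := mul_le_mul_of_nonneg_right (hDl w) (frn (S.A s (sw R z w)))
        nlinarith
    rw [AvP_add ((hf.pow 2).const_mul 2) (hf.const_mul (2 * F)), AvP_const_mul,
      AvP_const_mul] at h1
    have e : AvP s R (fun z => fr (S.A s z) ^ 2) z = Qb S s R z := rfl
    rw [e, ← hF] at h1
    nlinarith
  have a5 : F * AvP s R (Dlt s R (S.A s)) z ≤ 4 * Qb S s R z := by
    have := mul_le_mul_of_nonneg_left a3 hF0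
    nlinarith
  unfold Th
  have e : AvP s R (KV S s) z = Kb' S s R z := rfl
  rw [e, ← hF]
  linarith

lemma Av_fr_sq_le (s : ℝ) (R : Finset (Pair n)) (z : Pair n → ℝ) :
    AvP s R (fun z => fr (S.A s z)) z ^ 2 ≤ Qb S s R z :=
  AvP_pow_le (eg_fr' S s) (fun _ => frn _) z 2

/-- **The pointwise bound of the errors** by `ErS`. -/
theorem er_point (hk : 0 < k) (q : Par) {g c t Y ε0 ε1 α0 α1 δ0 δ1 : ℝ}
    (hg : 0 ≤ g) (hg1 : g ≤ 1) (ht : 1 ≤ t) (hc : 0 ≤ c) (hY : 0 < Y)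
    (b b' : Fin n) (w : K4 (Pair n) → ℝ) (he0 : 0 ≤ ε0) (ha0 : 0 ≤ α0) (hd0 : 0 ≤ δ0)
    (hea : ε0 ^ 2 ≤ k ^ 2 * (9 * √(Th q.s1 (row b ∪ row b') (S.A q.s1) (KV S q.s1) (P2 q w))))
    (heb : ε0 ^ 2 ≤ k ^ 2 * AvP q.s1 (row b ∪ row b') (fun z => fr (S.A q.s1 z)) (P2 q w))
    (haF : α0 ^ 2 ≤ k ^ 2 * AvP q.s1 (row b ∪ row b') (fun z => fr (S.A q.s1 z)) (P2 q w))
    (hdF : δ0 ^ 2 ≤ k ^ 2 * AvP q.s2 (row b ∪ row b') (fun z => fr (S.A q.s2 z)) (P3 q w))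
    (he1 : ε1 ^ 2 ≤ k ^ 6 * (c * (36 * t ^ 6 *
      Th q.s1 (row b ∪ row b') (S.A q.s1) (KV S q.s1) (P2 q w) + 6 * (t⁻¹) ^ 2 *
        (AvP q.s1 (row b ∪ row b') (fun z => fr (S.A q.s1 z) ^ 2) (P2 q w) +
          AvP q.s1 (row b ∪ row b') (KV S q.s1) (P2 q w)))))
    (ha1 : α1 ^ 2 ≤ k ^ 6 * (c * (2 *
        (AvP q.s1 (row b ∪ row b') (fun z => fr (S.A q.s1 z) ^ 2) (P2 q w) +
          AvP q.s1 (row b ∪ row b') (KV S q.s1) (P2 q w)))))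
    (hd1 : δ1 ^ 2 ≤ k ^ 6 * (c * (2 *
        (AvP q.s2 (row b ∪ row b') (fun z => fr (S.A q.s2 z) ^ 2) (P3 q w) +
          AvP q.s2 (row b ∪ row b') (KV S q.s2) (P3 q w))))) :
    2 * g * ((ε0 ^ 2 + ε1 ^ 2) * δ0 ^ 2) + 6 * ((ε0 * δ1 + ε1 * δ0) * (α0 * δ1 + α1 * δ0)) ≤
      ErS S q g c t Y b b' w :=
  er_pt hk hg hg1 ht hc hY (AvP_nonneg (fun _ => frn _) _) (AvP_nonneg (fun _ => frn _) _)
    (Av_fr_sq_le S q.s1 _ _) (Av_fr_sq_le S q.s2 _ _) (Kb'_nonneg S _ _ _) (Kb'_nonneg S _ _ _)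
    (Th_nonneg (fun z => KV_nonneg S _ z) _) (Th_le_avg S q.s1 _ _) he0 ha0 hd0 hea heb haF hdF
    he1 ha1 hd1

end gen

/-! ### the mean of the bad part -/

section bad

variable {κ : Type} [Fintype κ] [DecidableEq κ] {q : Par} {F : (κ → ℝ) → ℝ}
  {D : κ → (κ → ℝ) → ℝ} {B L : ℝ} {Q1 Q2 K1 K2 : (K4 κ → ℝ) → ℝ}

lemma eg_ind (hQ : EG Q1) (a : ℝ) : EG fun w => if a < Q1 w then (1 : ℝ) else 0 := by
  refine EG.of_bdd (C := 1) ?_ fun w => ?_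
  · exact Measurable.ite (measurableSet_lt measurable_const hQ.meas) measurable_const
      measurable_const
  · split_ifs <;> simp

lemma eg_xB (h1 : EG Q1) (h2 : EG Q2) (Y : ℝ) : EG fun w => xB Y (Q1 w) (Q2 w) :=
  (eg_ind h1 (Y ^ 2)).add (eg_ind h2 (Y ^ 2))

lemma eg_mB (h1 : EG Q1) (h2 : EG Q2) (h3 : EG K1) (h4 : EG K2) (Y : ℝ) :
    EG fun w => mB Y (Q1 w) (Q2 w) (K1 w) (K2 w) := by
  have e : (fun w => mB Y (Q1 w) (Q2 w) (K1 w) (K2 w)) =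
      fun w => 3 + 10 / Y ^ 2 * (Q1 w + Q2 w + K1 w + K2 w) := by
    funext w
    unfold mB
    ring
  rw [e]
  exact (EG.const 3).add ((((h1.add h2).add h3).add h4).const_mul _)

lemma four4 (a b c d : ℝ) : (a + b + c + d) ^ 4 ≤ 64 * (a ^ 4 + b ^ 4 + c ^ 4 + d ^ 4) := by
  have h : ∀ u v : ℝ, (u + v) ^ 4 ≤ 8 * (u ^ 4 + v ^ 4) := by
    intro u v
    nlinarith [sq_nonneg (u - v), sq_nonneg (u ^ 2 - v ^ 2), sq_nonneg (u + v),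
      mul_nonneg (sq_nonneg (u - v)) (sq_nonneg (u + v)), sq_nonneg ((u - v) ^ 2)]
  have h1 := h (a + b) (c + d)
  have h2 := h a b
  have h3 := h c d
  have e : a + b + c + d = a + b + (c + d) := by ring
  rw [e]
  linarith

lemma mB_four {Y Q1 Q2 K1 K2 : ℝ} (hY : 0 < Y) : mB Y Q1 Q2 K1 K2 ^ 4 ≤
    648 + 5120000 / Y ^ 8 * (Q1 ^ 4 + Q2 ^ 4 + K1 ^ 4 + K2 ^ 4) := by
  have h : ∀ u v : ℝ, (u + v) ^ 4 ≤ 8 * (u ^ 4 + v ^ 4) := by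
    intro u v
    nlinarith [sq_nonneg (u - v), sq_nonneg (u ^ 2 - v ^ 2), sq_nonneg (u + v),
      mul_nonneg (sq_nonneg (u - v)) (sq_nonneg (u + v)), sq_nonneg ((u - v) ^ 2)]
  unfold mB
  refine (h _ _).trans ?_
  have h1 := mul_le_mul_of_nonneg_left (four4 Q1 Q2 K1 K2)
    (by positivity : (0 : ℝ) ≤ 80000 / Y ^ 8)
  have e1 : 8 * ((3 : ℝ) ^ 4 + (10 * ((Q1 + Q2 + K1 + K2) / Y ^ 2)) ^ 4) =
      648 + 80000 / Y ^ 8 * (Q1 + Q2 + K1 + K2) ^ 4 := by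
    field_simp
    ring
  have e2 : 80000 / Y ^ 8 * (64 * (Q1 ^ 4 + Q2 ^ 4 + K1 ^ 4 + K2 ^ 4)) =
      5120000 / Y ^ 8 * (Q1 ^ 4 + Q2 ^ 4 + K1 ^ 4 + K2 ^ 4) := by ring
  rw [e1]
  rw [e2] at h1
  linarith

/-- **The mean of the bad part.** -/
theorem en_bad (hc : C11 F D B L) (hx : 0 < q.x) (h1 : EG Q1) (h2 : EG Q2) (h3 : EG K1)
    (h4 : EG K2) {Y l M4 p : ℝ} (hY : 0 < Y) (hl : 0 < l)
    (hM : En q F (fun w => Q1 w ^ 4) + En q F (fun w => Q2 w ^ 4) + En q F (fun w => K1 w ^ 4) +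
      En q F (fun w => K2 w ^ 4) ≤ M4 * Y ^ 8)
    (hp : En q F (fun w => if Y ^ 2 < Q1 w then (1 : ℝ) else 0) +
      En q F (fun w => if Y ^ 2 < Q2 w then (1 : ℝ) else 0) ≤ p) :
    En q F (fun w => mB Y (Q1 w) (Q2 w) (K1 w) (K2 w) ^ 2 * xB Y (Q1 w) (Q2 w)) ≤
      l * (324 + 2560000 * M4) + p / l := by
  have em := eg_mB h1 h2 h3 h4 Y
  have ex := eg_xB h1 h2 Y
  have eS : EG fun w => Q1 w ^ 4 + Q2 w ^ 4 + K1 w ^ 4 + K2 w ^ 4 :=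
    (((h1.pow 4).add (h2.pow 4)).add (h3.pow 4)).add (h4.pow 4)
  have pt : ∀ w, mB Y (Q1 w) (Q2 w) (K1 w) (K2 w) ^ 2 * xB Y (Q1 w) (Q2 w) ≤
      (l * 324 + l * (2560000 / Y ^ 8) * (Q1 w ^ 4 + Q2 w ^ 4 + K1 w ^ 4 + K2 w ^ 4)) +
        l⁻¹ * xB Y (Q1 w) (Q2 w) := by
    intro w
    set m := mB Y (Q1 w) (Q2 w) (K1 w) (K2 w) with hm
    set X := xB Y (Q1 w) (Q2 w) with hX
    have a1 : m ^ 2 * X ≤ 1 / 2 * (l * m ^ 4 + l⁻¹ * X ^ 2) := by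
      have h0 : 0 ≤ l⁻¹ * (l * m ^ 2 - X) ^ 2 := by positivity
      have e : l⁻¹ * (l * m ^ 2 - X) ^ 2 = l * m ^ 4 - 2 * (m ^ 2 * X) + l⁻¹ * X ^ 2 := by
        field_simp
        ring
      rw [e] at h0
      linarith
    have a2 : X ^ 2 ≤ 2 * X := by
      have h0 := xB_nonneg Y (Q1 w) (Q2 w)
      have h5 := xB_le Y (Q1 w) (Q2 w)
      nlinarith
    have a3 := mB_four (Q1 := Q1 w) (Q2 := Q2 w) (K1 := K1 w) (K2 := K2 w) hY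
    rw [← hm] at a3
    have a4 := mul_le_mul_of_nonneg_left a3 hl.le
    have a5 := mul_le_mul_of_nonneg_left a2 (inv_pos.2 hl).le
    have e1 : l * (648 + 5120000 / Y ^ 8 * (Q1 w ^ 4 + Q2 w ^ 4 + K1 w ^ 4 + K2 w ^ 4)) =
        2 * (l * 324 + l * (2560000 / Y ^ 8) * (Q1 w ^ 4 + Q2 w ^ 4 + K1 w ^ 4 + K2 w ^ 4)) := by
      ring
    rw [e1] at a4
    linarith
  have key := En_mono hc hx ((em.pow 2).mul ex) (((EG.const (l * 324)).add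
    (eS.const_mul (l * (2560000 / Y ^ 8)))).add (ex.const_mul l⁻¹)) pt
  rw [En_add hc hx ((EG.const _).add (eS.const_mul _)) (ex.const_mul _),
    En_add hc hx (EG.const _) (eS.const_mul _), En_const hc hx, En_const_mul, En_const_mul,
    En_add hc hx (((h1.pow 4).add (h2.pow 4)).add (h3.pow 4)) (h4.pow 4),
    En_add hc hx ((h1.pow 4).add (h2.pow 4)) (h3.pow 4),
    En_add hc hx (h1.pow 4) (h2.pow 4)] at key
  have hX : En q F (fun w => xB Y (Q1 w) (Q2 w)) ≤ p := by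
    unfold xB
    rw [En_add hc hx (eg_ind h1 _) (eg_ind h2 _)]
    exact hp
  have k1 := mul_le_mul_of_nonneg_left hM (by positivity : 0 ≤ l * (2560000 / Y ^ 8))
  have k2 := mul_le_mul_of_nonneg_left hX (inv_pos.2 hl).le
  have e1 : l * (2560000 / Y ^ 8) * (M4 * Y ^ 8) = l * (2560000 * M4) := by
    field_simp
  have e2 : l⁻¹ * p = p / l := by ring
  rw [e1] at k1
  rw [e2] at k2
  linarith

end bad

section avg

variable {n : ℕ} {β A δ T ρ Λ : ℝ} {q : Par} {F : (Pair n → ℝ) → ℝ}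
  {D : Pair n → (Pair n → ℝ) → ℝ} {B L : ℝ} {P : (K4 (Pair n) → ℝ) → Pair n → ℝ} {s : ℝ}

/-- averages over two rows under the law -/
lemma en_avg (hc : C11 F D B L) (hx : 0 < q.x) {ε : ℝ} (hL : Law2 n ε q F)
    (hP : ∀ f : (Pair n → ℝ) → ℝ, EG f → EG fun w => f (P w))
    (hA : ∀ f : (Pair n → ℝ) → ℝ, EG f → ∀ (R : Finset (Pair n)) (w),
      Av (lf R) (fun w => f (P w)) w = AvP s R f (P w)) {f : (Pair n → ℝ) → ℝ} (hf : EG f)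
    {K : ℝ} (h0 : ∀ z, 0 ≤ f z) (hK : ∀ z, f z ≤ K) (b b' : Fin n) :
    En q F (fun w => AvP s (row b ∪ row b') f (P w)) ≤ 2 * En q F (fun w => f (P w)) + ε * K := by
  have e1 : (fun w => AvP s (row b ∪ row b') f (P w)) =
      Av (lf (row b ∪ row b')) fun w => f (P w) := funext fun w => (hA f hf _ w).symm
  rw [e1]
  exact hL.nlow hc hx b b' (hP f hf) (fun w => h0 _) (fun w => hK _)

/-- the fourth moment of an average over two rows -/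
lemma en_avg_pow (hc : C11 F D B L) (hx : 0 < q.x) {ε : ℝ} (hL : Law2 n ε q F)
    (hP : ∀ f : (Pair n → ℝ) → ℝ, EG f → EG fun w => f (P w))
    (hA : ∀ f : (Pair n → ℝ) → ℝ, EG f → ∀ (R : Finset (Pair n)) (w),
      Av (lf R) (fun w => f (P w)) w = AvP s R f (P w)) {f : (Pair n → ℝ) → ℝ} (hf : EG f)
    {K : ℝ} (h0 : ∀ z, 0 ≤ f z) (hK : ∀ z, f z ≤ K) (b b' : Fin n) (p : ℕ) :
    En q F (fun w => AvP s (row b ∪ row b') f (P w) ^ p) ≤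
      2 * En q F (fun w => f (P w) ^ p) + ε * K ^ p := by
  refine (En_mono hc hx ((hP _ (eg_AvP hf s _)).pow p) (hP _ (eg_AvP (hf.pow p) s _))
    fun w => AvP_pow_le hf h0 (P w) p).trans ?_
  exact en_avg hc hx hL hP hA (hf.pow p) (fun z => pow_nonneg (h0 z) p)
    (fun z => pow_le_pow_left₀ (h0 z) (hK z) p) b b'

variable {S : CS n (kk n β) q.x}

/-- the bad bulks are rare -/
lemma en_rare (h : Fo n β A δ T ρ Λ S.y q S.F S.A S.DA)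
    (hL : Law2 n ((n : ℝ) ^ 200)⁻¹ q S.F)
    (hP : ∀ f : (Pair n → ℝ) → ℝ, EG f → EG fun w => f (P w))
    (hA : ∀ f : (Pair n → ℝ) → ℝ, EG f → ∀ (R : Finset (Pair n)) (w),
      Av (lf R) (fun w => f (P w)) w = AvP s R f (P w))
    (hup : En q S.F (fun w => if A * R1C.NN n β ρ < fr (S.A s (P w)) then (1 : ℝ) else 0) ≤ δ)
    (hm4 : En q S.F (fun w => fr (S.A s (P w)) ^ 4) ≤ 2 * (A * R1C.NN n β ρ) ^ 4)
    (b b' : Fin n) :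
    En q S.F (fun w => if (2 * A * R1C.NN n β ρ) ^ 2 < Qb S s (row b ∪ row b') (P w) then (1 : ℝ)
      else 0) ≤ 2 * (Λ ^ 98)⁻¹ := by
  have hc := S.c11
  have hx := S.x0
  have hN0 := h.N0
  have hA1 := h.A1
  have hΛ1 := h.Λ1
  have hn0 := h.n0
  have hAN := h.AN1
  have e0 : 2 * A * R1C.NN n β ρ = 2 * (A * R1C.NN n β ρ) := by ring
  rw [e0]
  generalize A * R1C.NN n β ρ = a at *
  have ha : 0 < a := by linarith
  have hfr := eg_fr' S s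
  -- the square of the size on the bad set
  set χ : (Pair n → ℝ) → ℝ := fun z => if a < fr (S.A s z) then (1 : ℝ) else 0 with hχd
  have eχ : EG χ := by
    refine EG.of_bdd (C := 1) ?_ fun w => ?_
    · exact Measurable.ite (measurableSet_lt measurable_const hfr.meas) measurable_const
        measurable_const
    · simp only [hχd]
      split_ifs <;> simp
  have χ0 : ∀ z, 0 ≤ χ z := fun z => by simp only [hχd]; split_ifs <;> norm_num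
  have χ1 : ∀ z, χ z ≤ 1 := fun z => by simp only [hχd]; split_ifs <;> norm_num
  set f : (Pair n → ℝ) → ℝ := fun z => fr (S.A s z) ^ 2 * χ z with hf
  have ef : EG f := (hfr.pow 2).mul eχ
  have f0 : ∀ z, 0 ≤ f z := fun z => mul_nonneg (sq_nonneg _) (χ0 z)
  have fn : ∀ z, f z ≤ (n : ℝ) ^ 4 := by
    intro z
    have h1 : fr (S.A s z) ^ 2 ≤ ((n : ℝ) ^ 2) ^ 2 := pow_le_pow_left₀ (frn _) (tfr_le S s z) 2
    calc f z ≤ ((n : ℝ) ^ 2) ^ 2 * 1 := mul_le_mul h1 (χ1 z) (χ0 z) (by positivity)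
      _ = _ := by ring
  have Qle : ∀ z, Qb S s (row b ∪ row b') z ≤ a ^ 2 + AvP s (row b ∪ row b') f z := by
    intro z
    have h1 := AvP_mono (s := s) (R := row b ∪ row b') (hfr.pow 2) ((EG.const (a ^ 2)).add ef)
      (fun z => by
        by_cases hz : a < fr (S.A s z)
        · have : χ z = 1 := if_pos hz
          simp only [hf, this, mul_one]
          have := sq_nonneg a
          linarith
        · have h2 := pow_le_pow_left₀ (frn (S.A s z)) (not_lt.1 hz) 2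
          have := f0 z
          linarith) z
    rwa [AvP_add (EG.const _) ef, AvP_const] at h1
  have pt : ∀ w, (if (2 * a) ^ 2 < Qb S s (row b ∪ row b') (P w) then (1 : ℝ) else 0) ≤
      (3 * a ^ 2)⁻¹ * AvP s (row b ∪ row b') f (P w) := by
    intro w
    have h0 : 0 ≤ AvP s (row b ∪ row b') f (P w) := AvP_nonneg f0 _
    split_ifs with h1
    · have h2 := Qle (P w)
      rw [inv_mul_eq_div, le_div_iff₀ (by positivity)]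
      have e : (2 * a) ^ 2 = 4 * a ^ 2 := by ring
      rw [e] at h1
      linarith
    · positivity
  have k1 := En_mono hc hx (eg_ind (hP _ (eg_Qb S s _)) _)
    ((hP _ (eg_AvP ef s (row b ∪ row b'))).const_mul _) pt
  rw [En_const_mul] at k1
  have k2 := en_avg hc hx hL hP hA ef f0 fn b b'
  -- the mean of `f`
  have hl : 0 < (Λ ^ 500)⁻¹ := by positivity
  have k3 : En q S.F (fun w => f (P w)) ≤ 3 / 2 * ((Λ ^ 500)⁻¹ * a ^ 2) := by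
    have pt2 : ∀ w, f (P w) ≤ (Λ ^ 500)⁻¹ / a ^ 2 / 2 * fr (S.A s (P w)) ^ 4 +
        Λ ^ 500 * a ^ 2 / 2 * χ (P w) := by
      intro w
      have h1 : χ (P w) ^ 2 = χ (P w) := by
        simp only [hχd]
        split_ifs <;> norm_num
      set g := fr (S.A s (P w)) ^ 2 with hg
      have e4 : fr (S.A s (P w)) ^ 4 = g ^ 2 := by rw [hg]; ring
      have h2 : 0 ≤ ((Λ ^ 500)⁻¹ / a ^ 2) * (g - Λ ^ 500 * a ^ 2 * χ (P w)) ^ 2 := by positivity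
      have e5 : ((Λ ^ 500)⁻¹ / a ^ 2) * (g - Λ ^ 500 * a ^ 2 * χ (P w)) ^ 2 =
          (Λ ^ 500)⁻¹ / a ^ 2 * g ^ 2 - 2 * (g * χ (P w)) + Λ ^ 500 * a ^ 2 * χ (P w) ^ 2 := by
        field_simp
        ring
      rw [e5, h1] at h2
      rw [e4]
      show g * χ (P w) ≤ _
      linarith
    have h3 := En_mono hc hx (hP f ef) (((hP _ (hfr.pow 4)).const_mul _).add
      ((hP χ eχ).const_mul _)) pt2
    rw [En_add hc hx ((hP _ (hfr.pow 4)).const_mul _) ((hP χ eχ).const_mul _), En_const_mul,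
      En_const_mul] at h3
    have h4 := mul_le_mul_of_nonneg_left hm4 (by positivity : 0 ≤ (Λ ^ 500)⁻¹ / a ^ 2 / 2)
    have hδ : En q S.F (fun w => χ (P w)) ≤ (Λ ^ 1000)⁻¹ := le_trans hup h.δ_le
    have h5 := mul_le_mul_of_nonneg_left hδ (by positivity : 0 ≤ Λ ^ 500 * a ^ 2 / 2)
    have e6 : (Λ ^ 500)⁻¹ / a ^ 2 / 2 * (2 * a ^ 4) = (Λ ^ 500)⁻¹ * a ^ 2 := by
      field_simp
    have e7 : Λ ^ 500 * a ^ 2 / 2 * (Λ ^ 1000)⁻¹ = 1 / 2 * ((Λ ^ 500)⁻¹ * a ^ 2) := by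
      rw [show Λ ^ 1000 = Λ ^ 500 * Λ ^ 500 by rw [← pow_add]]
      field_simp
    rw [e6] at h4
    rw [e7] at h5
    linarith
  have k4 : ((n : ℝ) ^ 200)⁻¹ * (n : ℝ) ^ 4 = ((n : ℝ) ^ 196)⁻¹ := by
    have : (n : ℝ) ^ 200 = (n : ℝ) ^ 196 * (n : ℝ) ^ 4 := by rw [← pow_add]
    rw [this]
    field_simp
  rw [k4] at k2
  have k5 := h.nΛ (a := 196) (b := 98) (by norm_num)
  have k6 : (Λ ^ 500)⁻¹ ≤ (Λ ^ 98)⁻¹ :=
    inv_anti₀ (by positivity) (pow_le_pow_right₀ hΛ1 (by norm_num))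
  have k7 : En q S.F (fun w => AvP s (row b ∪ row b') f (P w)) ≤
      (3 * a ^ 2) * (2 * (Λ ^ 98)⁻¹) := by
    have h1 : (Λ ^ 500)⁻¹ * a ^ 2 ≤ (Λ ^ 98)⁻¹ * a ^ 2 :=
      mul_le_mul_of_nonneg_right k6 (by positivity)
    have h2 : 1 * (Λ ^ 98)⁻¹ ≤ a ^ 2 * (Λ ^ 98)⁻¹ :=
      mul_le_mul_of_nonneg_right (one_le_pow₀ hAN) (by positivity)
    linarith
  calc _ ≤ _ := k1
    _ ≤ (3 * a ^ 2)⁻¹ * ((3 * a ^ 2) * (2 * (Λ ^ 98)⁻¹)) :=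
        mul_le_mul_of_nonneg_left k7 (by positivity)
    _ = _ := by field_simp

/-- the constant of the bad bulks -/
noncomputable def cX (CK : ℝ) : ℝ := 328 + 2560000 * (CK + 1)

lemma kk_sqE (hn : 0 < n) (β : ℝ) : kk n β ^ 2 * n = β ^ 2 := kk_sq hn β

lemma eg_ErS (S : CS n (kk n β) q.x) (g c t Y : ℝ) (b b' : Fin n) : EG (ErS S q g c t Y b b') := by
  set R := row b ∪ row b'
  have q1 := eg_P2 (q := q) (eg_Qb S q.s1 R)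
  have q2 := eg_P3 (q := q) (eg_Qb S q.s2 R)
  have k1 := eg_P2 (q := q) (eg_Kb' S q.s1 R)
  have k2 := eg_P3 (q := q) (eg_Kb' S q.s2 R)
  have th := eg_P2 (q := q) (eg_ThS S q.s1 R)
  have em := eg_mB q1 q2 k1 k2 Y
  have ex := eg_xB q1 q2 Y
  have ey := (em.pow 2).mul ex
  refine ((((EG.const (t⁻¹ * Y ^ 2)).add (th.const_mul t)).const_mul (9 * g * kk n β ^ 4)).add
    ((ey.const_mul (Y ^ 2)).const_mul (18 * g * kk n β ^ 4))).add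
    ((((((th.const_mul Y).const_mul (t ^ 7)).add ((k1.add k2).const_mul Y)).add
      (EG.const (t⁻¹ * Y ^ 3))).add ((ey.const_mul (Y ^ 3)).const_mul (t ^ 7))).const_mul
        (660 * c * kk n β ^ 8))

lemma ErS_nonneg (S : CS n (kk n β) q.x) {g c t Y : ℝ} (hg : 0 ≤ g) (hc : 0 ≤ c) (ht : 1 ≤ t)
    (hY : 0 ≤ Y) (b b' : Fin n) (w : K4 (Pair n) → ℝ) : 0 ≤ ErS S q g c t Y b b' w :=
  Vale.Agent.P146.U.ErRc.err_nonneg hg hc ht hY (Th_nonneg (fun z => KV_nonneg S _ z) _)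
    (add_nonneg (Kb'_nonneg S _ _ _) (Kb'_nonneg S _ _ _)) (xB_nonneg _ _ _)

/-- powers of `n` against `1` -/
lemma inv_n_le (hn2 : 2 ≤ n) {K : ℝ} {a : ℕ} (hK : K ≤ 256 * (n : ℝ) ^ a) (ha : a ≤ 100) :
    ((n : ℝ) ^ 200)⁻¹ * K ≤ 1 := by
  have hn2' : (2 : ℝ) ≤ n := by exact_mod_cast hn2
  rw [inv_mul_le_iff₀ (by positivity), mul_one]
  refine hK.trans ?_
  calc 256 * (n : ℝ) ^ a ≤ (n : ℝ) ^ 8 * (n : ℝ) ^ 100 := by
        refine mul_le_mul ?_ (pow_le_pow_right₀ (by linarith) ha) (by positivity)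
          (by positivity)
        calc (256 : ℝ) = 2 ^ 8 := by norm_num
          _ ≤ _ := pow_le_pow_left₀ (by norm_num) hn2' 8
    _ = (n : ℝ) ^ 108 := by rw [← pow_add]
    _ ≤ _ := pow_le_pow_right₀ (by linarith) (by norm_num)

lemma fr2_le (S : CS n (kk n β) q.x) (s : ℝ) (z : Pair n → ℝ) :
    fr (S.A s z) ^ 2 ≤ (n : ℝ) ^ 4 := by
  have h1 : fr (S.A s z) ^ 2 ≤ ((n : ℝ) ^ 2) ^ 2 := pow_le_pow_left₀ (frn _) (tfr_le S s z) 2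
  exact h1.trans (le_of_eq (by ring))

/-- the fourth moment of `Qb` -/
lemma en_Qb4 (hn2 : 2 ≤ n) (hL : Law2 n ((n : ℝ) ^ 200)⁻¹ q S.F)
    (hP : ∀ f : (Pair n → ℝ) → ℝ, EG f → EG fun w => f (P w))
    (hA : ∀ f : (Pair n → ℝ) → ℝ, EG f → ∀ (R : Finset (Pair n)) (w),
      Av (lf R) (fun w => f (P w)) w = AvP s R f (P w)) {a : ℝ} (ha : 1 ≤ a)
    (hm8 : En q S.F (fun w => fr (S.A s (P w)) ^ 8) ≤ 2 * a ^ 8) (b b' : Fin n) :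
    En q S.F (fun w => Qb S s (row b ∪ row b') (P w) ^ 4) ≤ 5 * a ^ 8 := by
  have a8 : 1 ≤ a ^ 8 := one_le_pow₀ ha
  have n16 : ((n : ℝ) ^ 4) ^ 4 ≤ 256 * (n : ℝ) ^ 16 := by
    have : ((n : ℝ) ^ 4) ^ 4 = (n : ℝ) ^ 16 := by rw [← pow_mul]
    rw [this]
    have h0 : (0 : ℝ) ≤ (n : ℝ) ^ 16 := by positivity
    linarith
  have h1 := en_avg_pow S.c11 S.x0 hL hP hA ((eg_fr' S s).pow 2) (fun z => sq_nonneg _)
    (fr2_le S s) b b' 4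
  have e8 : (fun w => (fr (S.A s (P w)) ^ 2) ^ 4) = fun w => fr (S.A s (P w)) ^ 8 := by
    funext w
    rw [← pow_mul]
  rw [e8] at h1
  have h3 := inv_n_le hn2 n16 (by norm_num)
  unfold Qb
  linarith

/-- the fourth moment of `Kb'` -/
lemma en_Kb4 (hn2 : 2 ≤ n) (hL : Law2 n ((n : ℝ) ^ 200)⁻¹ q S.F)
    (hP : ∀ f : (Pair n → ℝ) → ℝ, EG f → EG fun w => f (P w))
    (hA : ∀ f : (Pair n → ℝ) → ℝ, EG f → ∀ (R : Finset (Pair n)) (w),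
      Av (lf R) (fun w => f (P w)) w = AvP s R f (P w)) {a CK : ℝ} (ha : 1 ≤ a)
    (hK : En q S.F (fun w => KV S s (P w) ^ 4) ≤ CK * a ^ 8) (b b' : Fin n) :
    En q S.F (fun w => Kb' S s (row b ∪ row b') (P w) ^ 4) ≤ (2 * CK + 1) * a ^ 8 := by
  have a8 : 1 ≤ a ^ 8 := one_le_pow₀ ha
  have n16' : (4 * (n : ℝ) ^ 4) ^ 4 ≤ 256 * (n : ℝ) ^ 16 := by
    rw [mul_pow, ← pow_mul]
    norm_num
  have h1 := en_avg_pow S.c11 S.x0 hL hP hA (eg_KV S s) (fun z => KV_nonneg S _ z)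
    (fun z => KV_le S _ z) b b' 4
  have h3 := inv_n_le hn2 n16' (by norm_num)
  unfold Kb'
  linarith

/-- **The bad part of one pair** has a small mean. -/
theorem en_bad_pair (h : Fo n β A δ T ρ Λ S.y q S.F S.A S.DA)
    (hL : Law2 n ((n : ℝ) ^ 200)⁻¹ q S.F) {CK : ℝ} (hCK : 0 ≤ CK)
    (hK2 : En q S.F (fun w => KV S q.s1 (P2 q w) ^ 4) ≤ CK * (A * R1C.NN n β ρ) ^ 8)
    (hK3 : En q S.F (fun w => KV S q.s2 (P3 q w) ^ 4) ≤ CK * (A * R1C.NN n β ρ) ^ 8)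
    (b b' : Fin n) :
    En q S.F (fun w => mB (2 * A * R1C.NN n β ρ) (Qb S q.s1 (row b ∪ row b') (P2 q w))
        (Qb S q.s2 (row b ∪ row b') (P3 q w)) (Kb' S q.s1 (row b ∪ row b') (P2 q w))
        (Kb' S q.s2 (row b ∪ row b') (P3 q w)) ^ 2 *
      xB (2 * A * R1C.NN n β ρ) (Qb S q.s1 (row b ∪ row b') (P2 q w))
        (Qb S q.s2 (row b ∪ row b') (P3 q w))) ≤ cX CK * (Λ ^ 40)⁻¹ := by
  have hcc := S.c11
  have hx := S.x0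
  have hfr : ∀ s, EG fun z => fr (S.A s z) := fun s => eg_fr' S s
  have m2 : ∀ p ≤ 100, En q S.F (fun w => fr (S.A q.s1 (P2 q w)) ^ p) ≤
      2 * (A * R1C.NN n β ρ) ^ p := fun p hp => h.mo2 hcc hfr hp
  have m3 : ∀ p ≤ 100, En q S.F (fun w => fr (S.A q.s2 (P3 q w)) ^ p) ≤
      2 * (A * R1C.NN n β ρ) ^ p := fun p hp => h.mo3 hcc hfr hp
  have hP2 : ∀ f : (Pair n → ℝ) → ℝ, EG f → EG fun w => f (P2 q w) := fun f hf => eg_P2 hf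
  have hP3 : ∀ f : (Pair n → ℝ) → ℝ, EG f → EG fun w => f (P3 q w) := fun f hf => eg_P3 hf
  have hA2 : ∀ f : (Pair n → ℝ) → ℝ, EG f → ∀ (R : Finset (Pair n)) (w),
    Av (lf R) (fun w => f (P2 q w)) w = AvP q.s1 R f (P2 q w) :=
    fun f hf R w => Av_lf_P2 h.ok hf R w
  have hA3 : ∀ f : (Pair n → ℝ) → ℝ, EG f → ∀ (R : Finset (Pair n)) (w),
    Av (lf R) (fun w => f (P3 q w)) w = AvP q.s2 R f (P3 q w) :=
    fun f hf R w => Av_lf_P3 h.ok hf R w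
  have z1 := en_rare h hL hP2 hA2 h.up2 (m2 4 (by norm_num)) b b'
  have z2 := en_rare h hL hP3 hA3 h.up3 (m3 4 (by norm_num)) b b'
  have hΛ1 := h.Λ1
  have hAN := h.AN1
  have y1 := en_Qb4 h.n2 hL hP2 hA2 hAN (m2 8 (by norm_num)) b b'
  have y2 := en_Qb4 h.n2 hL hP3 hA3 hAN (m3 8 (by norm_num)) b b'
  have y3 := en_Kb4 h.n2 hL hP2 hA2 hAN hK2 b b'
  have y4 := en_Kb4 h.n2 hL hP3 hA3 hAN hK3 b b'
  have e0 : 2 * A * R1C.NN n β ρ = 2 * (A * R1C.NN n β ρ) := by ring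
  rw [e0] at z1 z2 ⊢
  generalize A * R1C.NN n β ρ = a at *
  have a8 : 1 ≤ a ^ 8 := one_le_pow₀ hAN
  have hY0 : 0 < 2 * a := by linarith
  have hv0 : 0 < (Λ ^ 40)⁻¹ := by positivity
  have hM : En q S.F (fun w => Qb S q.s1 (row b ∪ row b') (P2 q w) ^ 4) +
      En q S.F (fun w => Qb S q.s2 (row b ∪ row b') (P3 q w) ^ 4) +
      En q S.F (fun w => Kb' S q.s1 (row b ∪ row b') (P2 q w) ^ 4) +
      En q S.F (fun w => Kb' S q.s2 (row b ∪ row b') (P3 q w) ^ 4) ≤ (CK + 1) * (2 * a) ^ 8 := by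
    have e : (CK + 1) * (2 * a) ^ 8 = 256 * (CK * a ^ 8) + 256 * a ^ 8 := by ring
    have h0 : 0 ≤ CK * a ^ 8 := by positivity
    rw [e]
    linarith
  have bad := en_bad (M4 := CK + 1) (p := 4 * (Λ ^ 98)⁻¹) (l := (Λ ^ 40)⁻¹) hcc hx
    (eg_P2 (eg_Qb S q.s1 (row b ∪ row b'))) (eg_P3 (eg_Qb S q.s2 (row b ∪ row b')))
    (eg_P2 (eg_Kb' S q.s1 (row b ∪ row b'))) (eg_P3 (eg_Kb' S q.s2 (row b ∪ row b')))
    hY0 hv0 hM (by linarith)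
  have v2 : 4 * (Λ ^ 98)⁻¹ / (Λ ^ 40)⁻¹ ≤ 4 * (Λ ^ 40)⁻¹ := by
    rw [div_le_iff₀ hv0]
    have h1 : (Λ ^ 98)⁻¹ ≤ (Λ ^ 80)⁻¹ :=
      inv_anti₀ (by positivity) (pow_le_pow_right₀ hΛ1 (by norm_num))
    have h2 : (Λ ^ 40)⁻¹ * (Λ ^ 40)⁻¹ = (Λ ^ 80)⁻¹ := by
      rw [← mul_inv, ← pow_add]
    calc 4 * (Λ ^ 98)⁻¹ ≤ 4 * ((Λ ^ 40)⁻¹ * (Λ ^ 40)⁻¹) := by rw [h2]; linarith
      _ = 4 * (Λ ^ 40)⁻¹ * (Λ ^ 40)⁻¹ := by ring
  refine bad.trans ?_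
  unfold cX
  linarith

/-- a mean in four parts -/
lemma en_four (hc : C11 F D B L) (hx : 0 < q.x) {t k1 k2 e : (K4 (Pair n) → ℝ) → ℝ}
    (ht : EG t) (h1 : EG k1) (h2 : EG k2) (he : EG e) (c0 c1 c2 c3 : ℝ) :
    En q F (fun w => c0 + (c1 * t w + (c2 * (k1 w + k2 w) + c3 * e w))) =
      c0 + (c1 * En q F t + (c2 * (En q F k1 + En q F k2) + c3 * En q F e)) := by
  rw [En_add hc hx (EG.const _) ((ht.const_mul _).add (((h1.add h2).const_mul _).add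
      (he.const_mul _))), En_add hc hx (ht.const_mul _)
      (((h1.add h2).const_mul _).add (he.const_mul _)),
      En_add hc hx ((h1.add h2).const_mul _) (he.const_mul _), En_const hc hx,
      En_const_mul, En_const_mul, En_const_mul, En_add hc hx h1 h2]

/-- the mean of the error, in terms of its four parts -/
lemma en_ErS {g c t Y : ℝ} (b b' : Fin n) :
    En q S.F (ErS S q g c t Y b b') =
      (9 * g * kk n β ^ 4 * (t⁻¹ * Y ^ 2) + 660 * c * kk n β ^ 8 * (t⁻¹ * Y ^ 3)) +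
      ((9 * g * kk n β ^ 4 * t + 660 * c * kk n β ^ 8 * t ^ 7 * Y) *
        En q S.F (fun w => Th q.s1 (row b ∪ row b') (S.A q.s1) (KV S q.s1) (P2 q w)) +
      (660 * c * kk n β ^ 8 * Y *
        (En q S.F (fun w => Kb' S q.s1 (row b ∪ row b') (P2 q w)) +
          En q S.F (fun w => Kb' S q.s2 (row b ∪ row b') (P3 q w))) +
      (18 * g * kk n β ^ 4 * Y ^ 2 + 660 * c * kk n β ^ 8 * t ^ 7 * Y ^ 3) *
        En q S.F (fun w => mB Y (Qb S q.s1 (row b ∪ row b') (P2 q w))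
            (Qb S q.s2 (row b ∪ row b') (P3 q w)) (Kb' S q.s1 (row b ∪ row b') (P2 q w))
            (Kb' S q.s2 (row b ∪ row b') (P3 q w)) ^ 2 *
          xB Y (Qb S q.s1 (row b ∪ row b') (P2 q w))
            (Qb S q.s2 (row b ∪ row b') (P3 q w))))) := by
  have q1 := eg_P2 (q := q) (eg_Qb S q.s1 (row b ∪ row b'))
  have q2 := eg_P3 (q := q) (eg_Qb S q.s2 (row b ∪ row b'))
  have k1 := eg_P2 (q := q) (eg_Kb' S q.s1 (row b ∪ row b'))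
  have k2 := eg_P3 (q := q) (eg_Kb' S q.s2 (row b ∪ row b'))
  have t1 := eg_P2 (q := q) (eg_ThS S q.s1 (row b ∪ row b'))
  have ey := ((eg_mB q1 q2 k1 k2 Y).pow 2).mul (eg_xB q1 q2 Y)
  rw [← en_four S.c11 S.x0 t1 k1 k2 ey]
  congr 1
  funext w
  unfold ErS Vale.Agent.P146.U.ErRc.err
  ring

/-- **One pair.** -/
theorem er_one (h : Fo n β A δ T ρ Λ S.y q S.F S.A S.DA)
    (hL : Law2 n ((n : ℝ) ^ 200)⁻¹ q S.F) {g c t CK : ℝ} (hCK : 0 ≤ CK)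
    (hK2 : En q S.F (fun w => KV S q.s1 (P2 q w) ^ 4) ≤ CK * (A * R1C.NN n β ρ) ^ 8)
    (hK3 : En q S.F (fun w => KV S q.s2 (P3 q w) ^ 4) ≤ CK * (A * R1C.NN n β ρ) ^ 8)
    (hg : 0 ≤ g) (hc : 0 ≤ c) (ht : 1 ≤ t) (b b' : Fin n) :
    En q S.F (ErS S q g c t (2 * A * R1C.NN n β ρ) b b') ≤
      (9 * g * kk n β ^ 4 * (t⁻¹ * (2 * A * R1C.NN n β ρ) ^ 2) +
        660 * c * kk n β ^ 8 * (t⁻¹ * (2 * A * R1C.NN n β ρ) ^ 3)) +
      ((9 * g * kk n β ^ 4 * t + 660 * c * kk n β ^ 8 * t ^ 7 * (2 * A * R1C.NN n β ρ)) *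
        En q S.F (fun w => Th q.s1 (row b ∪ row b') (S.A q.s1) (KV S q.s1) (P2 q w)) +
      (660 * c * kk n β ^ 8 * (2 * A * R1C.NN n β ρ) *
        (En q S.F (fun w => Th q.s1 (row b ∪ row b') (S.A q.s1) (KV S q.s1) (P2 q w)) +
          En q S.F (fun w => Th q.s2 (row b ∪ row b') (S.A q.s2) (KV S q.s2) (P3 q w))) +
      (18 * g * kk n β ^ 4 * (2 * A * R1C.NN n β ρ) ^ 2 +
        660 * c * kk n β ^ 8 * t ^ 7 * (2 * A * R1C.NN n β ρ) ^ 3) *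
          (cX CK * (Λ ^ 40)⁻¹))) := by
  have hcc := S.c11
  have hx := S.x0
  have x1 : En q S.F (fun w => Kb' S q.s1 (row b ∪ row b') (P2 q w)) ≤
      En q S.F (fun w => Th q.s1 (row b ∪ row b') (S.A q.s1) (KV S q.s1) (P2 q w)) :=
    En_mono hcc hx (eg_P2 (eg_Kb' S q.s1 _)) (eg_P2 (eg_ThS S q.s1 _)) fun w => avK_le_Th _
  have x2 : En q S.F (fun w => Kb' S q.s2 (row b ∪ row b') (P3 q w)) ≤
      En q S.F (fun w => Th q.s2 (row b ∪ row b') (S.A q.s2) (KV S q.s2) (P3 q w)) :=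
    En_mono hcc hx (eg_P3 (eg_Kb' S q.s2 _)) (eg_P3 (eg_ThS S q.s2 _)) fun w => avK_le_Th _
  have x3 := en_bad_pair h hL hCK hK2 hK3 b b'
  have hA1 := h.A1
  have hN0 := h.N0
  rw [en_ErS]
  have c2n : 0 ≤ 660 * c * kk n β ^ 8 * (2 * A * R1C.NN n β ρ) := by positivity
  have c3n : 0 ≤ 18 * g * kk n β ^ 4 * (2 * A * R1C.NN n β ρ) ^ 2 +
        660 * c * kk n β ^ 8 * t ^ 7 * (2 * A * R1C.NN n β ρ) ^ 3 := by positivity
  exact add_le_add le_rfl (add_le_add le_rfl (add_le_add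
    (mul_le_mul_of_nonneg_left (add_le_add x1 x2) c2n) (mul_le_mul_of_nonneg_left x3 c3n)))

/-- sums over the pairs of sites -/
lemma sum_pairs_lin (c0 c1 c2 c3 e : ℝ) (h0 : 0 ≤ c0) (h3 : 0 ≤ c3) (he : 0 ≤ e)
    (θ1 θ2 : Fin n → Fin n → ℝ) :
    ∑ b : Fin n, ∑ b' ∈ Finset.univ.erase b,
        (c0 + (c1 * θ1 b b' + (c2 * (θ1 b b' + θ2 b b') + c3 * e))) ≤
      (n : ℝ) ^ 2 * c0 + (c1 * (∑ b : Fin n, ∑ b' ∈ Finset.univ.erase b, θ1 b b') +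
        (c2 * ((∑ b : Fin n, ∑ b' ∈ Finset.univ.erase b, θ1 b b') +
          ∑ b : Fin n, ∑ b' ∈ Finset.univ.erase b, θ2 b b') + c3 * ((n : ℝ) ^ 2 * e))) := by
  have q0 : ∑ b : Fin n, ∑ _b' ∈ Finset.univ.erase b, c0 ≤ (n : ℝ) ^ 2 * c0 :=
    sum_pairs_const c0 h0
  have q3 : ∑ b : Fin n, ∑ _b' ∈ Finset.univ.erase b, (c3 * e) ≤ (n : ℝ) ^ 2 * (c3 * e) :=
    sum_pairs_const _ (mul_nonneg h3 he)
  have e1 : ∑ b : Fin n, ∑ b' ∈ Finset.univ.erase b, (c0 + (c1 * θ1 b b' +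
        (c2 * (θ1 b b' + θ2 b b') + c3 * e))) =
      (∑ b : Fin n, ∑ _b' ∈ Finset.univ.erase b, c0) +
      (c1 * (∑ b : Fin n, ∑ b' ∈ Finset.univ.erase b, θ1 b b') +
      (c2 * ((∑ b : Fin n, ∑ b' ∈ Finset.univ.erase b, θ1 b b') +
          ∑ b : Fin n, ∑ b' ∈ Finset.univ.erase b, θ2 b b') +
        (∑ b : Fin n, ∑ _b' ∈ Finset.univ.erase b, (c3 * e)))) := by
    simp only [Finset.sum_add_distrib, ← Finset.mul_sum]
  rw [e1]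
  have e2 : (n : ℝ) ^ 2 * (c3 * e) = c3 * ((n : ℝ) ^ 2 * e) := by ring
  rw [e2] at q3
  linarith

/-- **The sum of the errors of (FB).** -/
theorem er_sum (h : Fo n β A δ T ρ Λ S.y q S.F S.A S.DA)
    (hL : Law2 n ((n : ℝ) ^ 200)⁻¹ q S.F) {g c t CK cB : ℝ} (hCK : 0 ≤ CK) (hcB : 0 ≤ cB)
    (hK2 : En q S.F (fun w => KV S q.s1 (P2 q w) ^ 4) ≤ CK * (A * R1C.NN n β ρ) ^ 8)
    (hK3 : En q S.F (fun w => KV S q.s2 (P3 q w) ^ 4) ≤ CK * (A * R1C.NN n β ρ) ^ 8)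
    (hB2 : ∑ b : Fin n, ∑ b' ∈ Finset.univ.erase b,
      En q S.F (fun w => Th q.s1 (row b ∪ row b') (S.A q.s1) (KV S q.s1) (P2 q w)) ≤
        cB * A ^ 2 * (n : ℝ) ^ 2 * R1C.NN n β ρ ^ 2 * (1 / Λ + 1 / (n * T)))
    (hB3 : ∑ b : Fin n, ∑ b' ∈ Finset.univ.erase b,
      En q S.F (fun w => Th q.s2 (row b ∪ row b') (S.A q.s2) (KV S q.s2) (P3 q w)) ≤
        cB * A ^ 2 * (n : ℝ) ^ 2 * R1C.NN n β ρ ^ 2 * (1 / Λ + 1 / (n * T)))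
    (hg : 0 ≤ g) (hgN : g ≤ R1C.NN n β ρ / (n : ℝ) ^ 2) (hc : 0 ≤ c) (ht : 1 ≤ t)
    (ht8 : t ^ 8 * (1 / Λ + 1 / (n * T)) ≤ 1) :
    ∑ b : Fin n, ∑ b' ∈ Finset.univ.erase b,
        En q S.F (ErS S q g c t (2 * A * R1C.NN n β ρ) b b') ≤
      ((36 + 9 * cB + 72 * cX CK) * β ^ 4 + (5280 + 3960 * cB + 5280 * cX CK) * c * β ^ 8) *
        (A ^ 3 * (R1C.NN n β ρ / (n : ℝ) ^ 2) * R1C.NN n β ρ ^ 2 * t⁻¹) := by
  have hn2 : (2 : ℝ) ≤ n := h.n0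
  have hn0 : (0 : ℝ) < n := by linarith
  have hnn : 0 < n := by exact_mod_cast hn0
  have hA1 := h.A1
  have hT := h.Tp
  have hΛ1 := h.Λ1
  have hN0 := h.N0
  have hu0 : 0 ≤ 1 / Λ + 1 / (n * T) := by positivity
  have hv0 : 0 ≤ (Λ ^ 40)⁻¹ := by positivity
  have hX0 : 0 ≤ cX CK := by unfold cX; positivity
  have htΛ : t ^ 8 * (Λ ^ 40)⁻¹ ≤ 1 := by
    have h1 : t ^ 8 * (Λ ^ 40)⁻¹ ≤ t ^ 8 * (1 / Λ + 1 / (n * T)) := by
      refine mul_le_mul_of_nonneg_left ?_ (by positivity)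
      have h2 : (Λ ^ 40)⁻¹ ≤ Λ⁻¹ :=
        inv_anti₀ (by positivity) (le_self_pow₀ hΛ1 (by norm_num))
      have h3 : 0 ≤ 1 / (n * T) := by positivity
      rw [one_div Λ]
      linarith
    exact h1.trans ht8
  have hk2 : kk n β ^ 2 * n = β ^ 2 := kk_sqE hnn β
  have hk4 : kk n β ^ 4 * (n : ℝ) ^ 2 = β ^ 4 := by
    have : kk n β ^ 4 * (n : ℝ) ^ 2 = (kk n β ^ 2 * n) ^ 2 := by ring
    rw [this, hk2]; ring
  have hk8 : kk n β ^ 8 * (n : ℝ) ^ 4 = β ^ 8 := by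
    have : kk n β ^ 8 * (n : ℝ) ^ 4 = (kk n β ^ 2 * n) ^ 4 := by ring
    rw [this, hk2]; ring
  refine (Finset.sum_le_sum fun b _ => Finset.sum_le_sum fun b' _ =>
    er_one h hL hCK hK2 hK3 hg hc ht b b').trans ?_
  refine (sum_pairs_lin _ _ _ _ _ (by positivity) (by positivity) (by positivity)
    (fun b b' => En q S.F fun w => Th q.s1 (row b ∪ row b') (S.A q.s1) (KV S q.s1) (P2 q w))
    (fun b b' => En q S.F fun w => Th q.s2 (row b ∪ row b') (S.A q.s2) (KV S q.s2)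
      (P3 q w))).trans ?_
  exact er_num hn0 hk4 hk8 hg hgN hc ht hu0 ht8 hv0 htΛ hA1 hN0 hcB hX0 hB2
    (by linarith) (le_of_eq (by ring))

end avg

end Vale.Agent.P146.U.R1S
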