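import Vale.Agent.P146.H325.KapO
import Vale.Agent.P146.U.H329_Bk2
import Vale.Agent.P146.U.H332_ErS
import Vale.Agent.P146.U.H712_BtFn
import Vale.Agent.P146.U.H325_KapS
import Vale.Agent.P146.U.NS

/-!
Plan R1, row (KAP), for a position system: the bulk inequality with its errors summed. The only
input is the lower bound of the nonlinear part of the row field, on the good bulks.
-/

open MeasureTheory ProbabilityTheory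

namespace Vale.Agent.P146.U.R1S

open Vale.Agent.P146.R1S hiding A1 A2 AN_le A_flip Av_KV_le Av_Uc Av_fr_le Av_fr_le' Av_frsq_le
  Av_frsq_le' Bv CBq CS Ca Cd ClS Dg DlA ErS ErS_nonneg Ew1_pos_S FA FA_nonneg Gb Gb_eq H4 H8 KA
  KA_le_ThA KA_nonneg KV KV_le KV_nonneg LamS MM MM_psd MM_row MS M_le Nd Nd_eq Nd_ind Nd_row NumS
  PrS Q4 Q4_le Q4_le_pow Q4_nonneg QA QA_nonneg RareS Sa Sa_eq Sa_ind Sa_row Sd Sd_eq Sd_ind
  Sd_row T4_avg_le T4_rep_le ThA ThA_nonneg Uc Uc' Xb_eq Y1 Y1_nonneg Y2 Y2_nonneg Y_le Yb_eq Zs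
  a1 a1_eq a2 a2_eq abs_cl bh bh1 blk_a blk_d bq4_T4 cl cl0 cl_act cl_cs cl_odd cl_other cl_self
  clz_S cm1 cm2 cm3 cm4 cm_gen col2 col4 col6 col8 d2 d2_parts dS dS_sq d_le dlS eC_le ee ee_le
  ee_nonneg ee_row eg_A1 eg_A2 eg_Ca eg_Cd eg_ErS eg_FA eg_Gb eg_KA eg_KV eg_Nd eg_Q4 eg_QA eg_Sa
  eg_Sd eg_ThA eg_Uc eg_Uc' eg_Y eg_Y1 eg_Y2 eg_Yd eg_cl eg_cl0 eg_ee eg_frNd eg_ph_S eg_rat
  eg_tch eg_vH eg_vn_col_S er_point er_sum exists_Bv fb_cs fr_CBq_le fr_MM_le full_gen grF_rows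
  grF_rows_le ind_Ca ind_Cd ind_Gb ind_Yd ind_cl ind_cl2 ind_cl3 ind_frNd int_gen kap_S kap_bulk
  kap_joint lam_S lam_gen_S lamq lamq_nonneg law_low_S law_up_S lf_psi_S lf_psi_gr lw_abs lw_comm
  lw_eg lw_gr_row lw_oth lw_self lw_vn_le m6S nd_anti nl_En odd_col pd_Uc ph_nonneg_S pr_cs psd_CB
  psi_four_S rat rowIn_S six six_cl skCS skCS_A skCS_D skCS_DA skCS_F skCS_H skCS_T4 sm_skCS
  sum_Uc'_le sum_tch tA_T tA_abs tA_comm tA_cont tA_eg tA_self tch tch_le tch_nonneg touch two_cs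
  two_t vH vH_nonneg vn_col_Uc vn_le_nS

open Vale.Agent.P157.Lv Vale.Agent.P146.H425 Vale.Agent.P146.H325 Matrix Vale.Agent.P146.H633
open Vale.Agent.P146.H712 hiding En_sub En_sum Fo_A_le Fo_kk Fo_one_le KV KV_le KV_nonneg LLow LUp
  Th_le abs_DA_le bt3 bt3_pos bt3_three bt3_three' bt3_two bt3_two' eg_KV eg_P0 eg_P1 eg_P2 eg_P3
  eg_ThS hKR_fn hKR_sk int_dens k0 k1 k2 k3 llow lup pd_P0 pd_P1 pd_P2 pd_P3 rt_le_fn sum_k0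
  sum_k1 sum_k2 sum_k3 tT_abs tT_eg tfr_le tpd
open Vale.Agent.P146.R1 hiding Et Et4 Et4_123 Et4_124 Et4_add Et4_const Et4_const_mul Et4_cs
  Et4_mono Et4_nonneg Et4_sub Et_add Et_const Et_const_mul Et_cs Et_fst_eq Et_jensen Et_mono
  Et_nonneg Et_sub Et_weight Et_zero Eu Eu4 Eu4_123 Eu4_124 Eu4_add Eu4_cond Eu4_const_mul
  Eu4_iter Eu4_mono Eu4_nonneg Eu4_one_eq Eu4_one_eq' Eu4_one_pos Eu4_weight Eu_add Eu_const_mul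
  Eu_fst Eu_fst_eq Eu_iter Eu_mono Eu_nonneg Eu_one Eu_one_eq Eu_one_pos Eu_weight Eu_zero
  Eu_zero_one Lth Lth_zero Qt dn dn_pos e3_dn eg_Eu eg_Eu4
open Vale.Agent.P146.R1C hiding A1 A2 Av_aa Av_ad Av_dd Av_lf_P0 Av_lf_P1 Av_lf_P2 Av_lf_P23
  Av_lf_P23_row Av_lf_P3 Ca Cd ClSk Dg En En_add En_const En_const_mul En_eq En_mono En_nonneg
  En_pow_le En_rare En_sum Ew Ew1_pos Ew_add Ew_const_mul Ew_eq Ew_mono Ew_nonneg Ew_one_pos Fo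
  FoSk Gb H4 H8 LamSk Law2 Low Nb Nd Nd_ind Nd_row NumH P0 P0_lp P0_sw P1 P1_lp P1_sw P2 P2_lp
  P2_sw P3 P3_lp P3_sw Par PrSk Rare Sa Sa_ind Sa_row Sd Sd_ind Sd_row Zk a1 a1_eq a2 a2_eq
  bad_pair bad_total cl_sk den_pos dens dens_eq eC eg_A1 eg_A2 eg_Gb eg_Nd eg_Sa eg_Sd eg_Yd
  eg_den eg_dens eg_frNd eg_psi' fb_row fb_sk ind_Gb ind_Yd ind_frNd int_Av_dens int_Av_one int_ph
  k0_sum k1_sum kap_en kap_fin kk_NN kk_four lamSk_num lam_gen_num lam_gen_sk lam_le lam_sk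
  law2_of law_low law_low_sk law_up law_up_sk lf_psi lip_psi low_int lsk pd_psi ph psi psi'
  psi_four_le psi_four_sk psi_sq_le
open Vale.Agent.P146.H329 hiding AvP_qT_le bk_a0 bk_a1 bk_e0 bk_e1 eg_KT eg_frA na1_le ne1_le
  qP_id qP_pq qT_le vP_le
open Vale.Agent.P146.U.H712 Vale.Agent.P146.U.R1 Vale.Agent.P146.U.R1C Vale.Agent.P146.U.H329

open Vale.Agent.P146.H332 hiding Gf Nf

set_option linter.unusedSectionVars false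

variable {n : ℕ} {β A δ T ρ Λ ye : ℝ} {q : Par} {S : CS n (kk n β) q.x}

/-- **One bulk: the fixed bulk inequality with the errors `ErS`.** -/
theorem kap_joint {Γ κ t : ℝ} (h : NumS S A δ T ρ Λ ((n : ℝ) ^ 200)⁻¹) (hn3 : 3 ≤ n)
    (hFn : ∀ s, Cum.Fn (kk n β) SkS (uu q.x s S.F) (S.mu s) Γ) (hκ : 0 < κ) (hκ1 : κ ≤ 1)
    (ht : 1 ≤ t) {b b' : Fin n} (hb : b ≠ b') (w : K4 (Pair n) → ℝ) {bad : ℝ} (hb0 : 0 ≤ bad)
    (hK : bad < 1 → ∀ v, Bv S q.s1 b b' (P2 q w) v →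
      κ / A * (NN n β ρ / (n : ℝ) ^ 2) * ee S q.s1 b b' (P2 q w) ≤
        Net (kk n β) (S.A q.s1) (S.H q.s1) q.s1 b b' v (P2 q w)) :
    κ / (8 * A) * (NN n β ρ / (n : ℝ) ^ 2) * (1 - bad) *
      fr (Nd S q b b' w - (Nd S q b b' w)ᵀ) ≤ Gb S q b b' w +
        ErS S q (κ / A * (NN n β ρ / (n : ℝ) ^ 2)) (36 * Γ ^ 6) t (2 * A * NN n β ρ) b b' w := by
  have hq := h.fo.ok
  have hs1 := h.s1p
  have hs2 : 0 < q.s2 := hs1.trans_le hq.h12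
  have hs11 := h.s1le
  have hs21 := hq.h2
  have hA := h.fo.A1
  have hn := h.fo.n0
  have hβ := h.fo.β0
  have hN := h.fo.N0
  have hk := h.fo.kk0
  have ht0 : 0 < t := by linarith
  obtain ⟨v, hv⟩ := exists_Bv S q.s1 hn3 b b' (P2 q w)
  set κ' := κ / A * (NN n β ρ / (n : ℝ) ^ 2) with hκ'
  have hr1 : NN n β ρ / (n : ℝ) ^ 2 ≤ 1 := by
    rw [div_le_one (by positivity)]
    exact h.fo.NN_le
  have hκA : κ / A ≤ 1 := by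
    rw [div_le_one (by linarith)]
    linarith
  have hκ0 : 0 ≤ κ' := by positivity
  have hκ'1 : κ' ≤ 1 := by
    rw [hκ']
    exact mul_le_one₀ hκA (by positivity) hr1
  have hη : 0 < (t⁻¹) ^ 2 := by positivity
  -- the six numbers
  set Th1 := ThA S q.s1 b b' (P2 q w) with hTh1
  set F1 := FA S q.s1 b b' (P2 q w) with hF1
  set F2 := FA S q.s2 b b' (P3 q w) with hF2
  set Q1 := QA S q.s1 b b' (P2 q w) with hQ1
  set Q2 := QA S q.s2 b b' (P3 q w) with hQ2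
  set K1 := KA S q.s1 b b' (P2 q w) with hK1
  set K2 := KA S q.s2 b b' (P3 q w) with hK2
  have nTh1 : 0 ≤ Th1 := ThA_nonneg S q.s1 b b' _
  have nF1 : 0 ≤ F1 := FA_nonneg S q.s1 b b' _
  have nF2 : 0 ≤ F2 := FA_nonneg S q.s2 b b' _
  have nQ1 : 0 ≤ Q1 := QA_nonneg S q.s1 b b' _
  have nQ2 : 0 ≤ Q2 := QA_nonneg S q.s2 b b' _
  have nK1 : 0 ≤ K1 := KA_nonneg S q.s1 b b' _
  have nK2 : 0 ≤ K2 := KA_nonneg S q.s2 b b' _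
  have a0 := bk_a0 S hs1 hs11 b b' (P2 q w)
  have d0 := bk_a0 S hs2 hs21 b b' (P3 q w)
  have a1 := bk_a1 (hFn q.s1) hs1 hs11 hb (P2 q w)
  have d1 := bk_a1 (hFn q.s2) hs2 hs21 hb (P3 q w)
  have e0 := bk_e0 hv hs1 hs11
  have e1 := bk_e1 hv (hFn q.s1) hs1 hs11 hη
  rw [← hF1] at a0
  rw [← hF2] at d0
  rw [← hQ1, ← hK1] at a1
  rw [← hQ2, ← hK2] at d1
  rw [← hTh1, ← hF1] at e0
  rw [← hTh1, ← hQ1, ← hK1] at e1
  have eη : (((t⁻¹) ^ 2)⁻¹) ^ 3 = t ^ 6 := by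
    field_simp
  rw [eη] at e1
  have sq : ∀ {z : ℝ}, 0 ≤ z → √z ^ 2 = z := fun hz => Real.sq_sqrt hz
  have m0 : 0 ≤ min (9 * √Th1) F1 := le_min (by positivity) nF1
  have z0 : 0 ≤ kk n β ^ 2 * min (9 * √Th1) F1 := mul_nonneg (sq_nonneg (kk n β)) m0
  have z1 : 0 ≤ 36 * Γ ^ 6 * kk n β ^ 6 * (t ^ 6 * (36 * Th1) + 3 * (t⁻¹) ^ 2 * (2 * Q1 + 2 * K1)) := by
    positivity
  have z2 : 0 ≤ kk n β ^ 2 * F1 := by positivity
  have z3 : 0 ≤ kk n β ^ 2 * F2 := by positivity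
  have z4 : 0 ≤ 36 * Γ ^ 6 * kk n β ^ 6 * (2 * Q1 + 2 * K1) := by positivity
  have z5 : 0 ≤ 36 * Γ ^ 6 * kk n β ^ 6 * (2 * Q2 + 2 * K2) := by positivity
  have hY0 : 0 < 2 * A * NN n β ρ := by positivity
  have er := er_point S hk q (g := κ') (c := 36 * Γ ^ 6) (t := t)
    (Y := 2 * A * NN n β ρ) (ε0 := √(kk n β ^ 2 * min (9 * √Th1) F1))
    (ε1 := √(36 * Γ ^ 6 * kk n β ^ 6 * (t ^ 6 * (36 * Th1) + 3 * (t⁻¹) ^ 2 * (2 * Q1 + 2 * K1))))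
    (α0 := √(kk n β ^ 2 * F1)) (α1 := √(36 * Γ ^ 6 * kk n β ^ 6 * (2 * Q1 + 2 * K1)))
    (δ0 := √(kk n β ^ 2 * F2)) (δ1 := √(36 * Γ ^ 6 * kk n β ^ 6 * (2 * Q2 + 2 * K2)))
    hκ0 hκ'1 ht (by positivity) hY0 b b' w (Real.sqrt_nonneg _) (Real.sqrt_nonneg _)
    (Real.sqrt_nonneg _)
    (by
      rw [sq z0]
      exact mul_le_mul_of_nonneg_left (min_le_left _ _) (sq_nonneg (kk n β)))
    (by
      rw [sq z0]
      exact mul_le_mul_of_nonneg_left (min_le_right _ _) (sq_nonneg (kk n β)))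
    (by rw [sq z2]; exact le_rfl)
    (by rw [sq z3]; exact le_rfl)
    (by
      rw [sq z1]
      refine le_of_eq ?_
      show 36 * Γ ^ 6 * kk n β ^ 6 * (t ^ 6 * (36 * Th1) + 3 * (t⁻¹) ^ 2 * (2 * Q1 + 2 * K1)) =
        kk n β ^ 6 * (36 * Γ ^ 6 * (36 * t ^ 6 * Th1 + 6 * (t⁻¹) ^ 2 * (Q1 + K1)))
      ring)
    (by
      rw [sq z4]
      refine le_of_eq ?_
      show 36 * Γ ^ 6 * kk n β ^ 6 * (2 * Q1 + 2 * K1) = kk n β ^ 6 * (36 * Γ ^ 6 * (2 * (Q1 + K1)))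
      ring)
    (by
      rw [sq z5]
      refine le_of_eq ?_
      show 36 * Γ ^ 6 * kk n β ^ 6 * (2 * Q2 + 2 * K2) = kk n β ^ 6 * (36 * Γ ^ 6 * (2 * (Q2 + K2)))
      ring)
  have key := kap_bulk hq hs1 hb w hv.v1 (κ' := κ') (bad := bad)
    (ε0 := √(kk n β ^ 2 * min (9 * √Th1) F1))
    (ε1 := √(36 * Γ ^ 6 * kk n β ^ 6 * (t ^ 6 * (36 * Th1) + 3 * (t⁻¹) ^ 2 * (2 * Q1 + 2 * K1))))
    (α0 := √(kk n β ^ 2 * F1)) (α1 := √(36 * Γ ^ 6 * kk n β ^ 6 * (2 * Q1 + 2 * K1)))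
    (δ0 := √(kk n β ^ 2 * F2)) (δ1 := √(36 * Γ ^ 6 * kk n β ^ 6 * (2 * Q2 + 2 * K2)))
    (Er := ErS S q κ' (36 * Γ ^ 6) t (2 * A * NN n β ρ) b b' w)
    (Real.sqrt_nonneg _) (Real.sqrt_nonneg _) (Real.sqrt_nonneg _) (Real.sqrt_nonneg _)
    (Real.sqrt_nonneg _) (Real.sqrt_nonneg _)
    (by rw [sq z2]; exact a0) (by rw [sq z4]; exact a1) (by rw [sq z3]; exact d0)
    (by rw [sq z5]; exact d1) (by rw [sq z0]; exact e0) (by rw [sq z1]; exact e1)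
    hκ0 hκ'1 hb0 (integral_nonneg fun y => sq_nonneg _) (fun hbad => hK hbad v hv)
    (by
      refine le_trans ?_ er
      have : 0 ≤ κ' * ((√(kk n β ^ 2 * min (9 * √Th1) F1) ^ 2 +
        √(36 * Γ ^ 6 * kk n β ^ 6 * (t ^ 6 * (36 * Th1) + 3 * (t⁻¹) ^ 2 * (2 * Q1 + 2 * K1))) ^ 2) *
          √(kk n β ^ 2 * F2) ^ 2) := by positivity
      linarith)
  have eκ : κ / (8 * A) * (NN n β ρ / (n : ℝ) ^ 2) = κ' / 8 := by
    rw [hκ']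
    field_simp
  rw [eκ]
  exact key

end Vale.Agent.P146.U.R1S
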