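import Vale.Agent.P146.H325.KapP
import Vale.Agent.P146.U.H325_KapO
import Vale.Agent.P146.U.H640_MoQ
import Vale.Agent.P146.U.NS

/-!
Plan R1, row (KAP), for a position system: the conclusion, from the lower bound of the nonlinear
part of the row field on the good bulks and the measure of the bad bulks.
-/

open MeasureTheory ProbabilityTheory

namespace Vale.Agent.P146.U.R1S

open Vale.Agent.P146.R1S hiding A1 A2 AN_le A_flip Av_KV_le Av_Uc Av_fr_le Av_fr_le' Av_frsq_le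
  Av_frsq_le' Bv CBq CS Ca Cd ClS Dg DlA ErS ErS_nonneg Ew1_pos_S FA FA_nonneg Gb Gb_eq H4 H8 KA
  KA_le_ThA KA_nonneg KV KV_le KV_nonneg LamS MM MM_psd MM_row MS M_le Nd Nd_eq Nd_ind Nd_row NumS
  PrS Q4 Q4_le Q4_le_pow Q4_nonneg QA QA_nonneg RareS Sa Sa_eq Sa_ind Sa_row Sd Sd_eq Sd_ind
  Sd_row T4_avg_le T4_rep_le ThA ThA_nonneg Uc Uc' Xb_eq Y1 Y1_nonneg Y2 Y2_nonneg Y_le Yb_eq Zs
  a1 a1_eq a2 a2_eq abs_cl bh bh1 blk_a blk_d bq4_T4 cl cl0 cl_act cl_cs cl_odd cl_other cl_self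
  clz_S cm1 cm2 cm3 cm4 cm_gen col2 col4 col6 col8 d2 d2_parts dS dS_sq d_le dlS eC_le ee ee_le
  ee_nonneg ee_row eg_A1 eg_A2 eg_Ca eg_Cd eg_ErS eg_FA eg_Gb eg_KA eg_KV eg_Nd eg_Q4 eg_QA eg_Sa
  eg_Sd eg_ThA eg_Uc eg_Uc' eg_Y eg_Y1 eg_Y2 eg_Yd eg_cl eg_cl0 eg_ee eg_frNd eg_ph_S eg_rat
  eg_tch eg_vH eg_vn_col_S er_point er_sum exists_Bv fb_cs fr_CBq_le fr_MM_le full_gen grF_rows
  grF_rows_le ind_Ca ind_Cd ind_Gb ind_Yd ind_cl ind_cl2 ind_cl3 ind_frNd int_gen kap_S kap_bulk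
  kap_joint kap_out_S lam_S lam_gen_S lamq lamq_nonneg law_low_S law_up_S lf_psi_S lf_psi_gr
  lw_abs lw_comm lw_eg lw_gr_row lw_oth lw_self lw_vn_le m6S nd_anti nl_En odd_col pd_Uc
  ph_nonneg_S pr_cs psd_CB psi_four_S rat rowIn_S six six_cl skCS skCS_A skCS_D skCS_DA skCS_F
  skCS_H skCS_T4 sm_skCS sum_Uc'_le sum_tch tA_T tA_abs tA_comm tA_cont tA_eg tA_self tch tch_le
  tch_nonneg touch two_cs two_t vH vH_nonneg vn_col_Uc vn_le_nS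

open Vale.Agent.P157.Lv Vale.Agent.P146.H425 Vale.Agent.P146.H325 Matrix Vale.Agent.P146.H633
open Vale.Agent.P146.H712 hiding En_sub En_sum Fo_A_le Fo_kk Fo_one_le KV KV_le KV_nonneg LLow LUp
  Th_le abs_DA_le bt3 bt3_pos bt3_three bt3_three' bt3_two bt3_two' eg_KV eg_P0 eg_P1 eg_P2 eg_P3
  eg_ThS hKR_fn hKR_sk int_dens k0 k1 k2 k3 llow lup pd_P0 pd_P1 pd_P2 pd_P3 rt_le_fn sum_k0
  sum_k1 sum_k2 sum_k3 tT_abs tT_eg tfr_le tpd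
open Vale.Agent.P146.R1 hiding Et Et4 Et4_123 Et4_124 Et4_add Et4_const Et4_const_mul Et4_cs
  Et4_mono Et4_nonneg Et4_sub Et_add Et_const Et_const_mul Et_cs Et_fst_eq Et_jensen Et_mono
  Et_nonneg Et_sub Et_weight Et_zero Eu Eu4 Eu4_123 Eu4_124 Eu4_add Eu4_cond Eu4_const_mul
  Eu4_iter Eu4_mono Eu4_nonneg Eu4_one_eq Eu4_one_eq' Eu4_one_pos Eu4_weight Eu_add Eu_const_mul
  Eu_fst Eu_fst_eq Eu_iter Eu_mono Eu_nonneg Eu_one Eu_one_eq Eu_one_pos Eu_weight Eu_zero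
  Eu_zero_one Lth Lth_zero Qt dn dn_pos e3_dn eg_Eu eg_Eu4
open Vale.Agent.P146.R1C hiding A1 A2 Av_aa Av_ad Av_dd Av_lf_P0 Av_lf_P1 Av_lf_P2 Av_lf_P23
  Av_lf_P23_row Av_lf_P3 Ca Cd ClSk Dg En En_add En_const En_const_mul En_eq En_mono En_nonneg
  En_pow_le En_rare En_sum Ew Ew1_pos Ew_add Ew_const_mul Ew_eq Ew_mono Ew_nonneg Ew_one_pos Fo
  FoSk Gb H4 H8 LamSk Law2 Low Nb Nd Nd_ind Nd_row NumH P0 P0_lp P0_sw P1 P1_lp P1_sw P2 P2_lp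
  P2_sw P3 P3_lp P3_sw Par PrSk Rare Sa Sa_ind Sa_row Sd Sd_ind Sd_row Zk a1 a1_eq a2 a2_eq
  bad_pair bad_total cl_sk den_pos dens dens_eq eC eg_A1 eg_A2 eg_Gb eg_Nd eg_Sa eg_Sd eg_Yd
  eg_den eg_dens eg_frNd eg_psi' fb_row fb_sk ind_Gb ind_Yd ind_frNd int_Av_dens int_Av_one int_ph
  k0_sum k1_sum kap_en kap_fin kk_NN kk_four lamSk_num lam_gen_num lam_gen_sk lam_le lam_sk
  law2_of law_low law_low_sk law_up law_up_sk lf_psi lip_psi low_int lsk pd_psi ph psi psi'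
  psi_four_le psi_four_sk psi_sq_le
open Vale.Agent.P146.H329 hiding AvP_qT_le bk_a0 bk_a1 bk_e0 bk_e1 eg_KT eg_frA na1_le ne1_le
  qP_id qP_pq qT_le vP_le
open Vale.Agent.P146.U.H712 Vale.Agent.P146.U.R1 Vale.Agent.P146.U.R1C Vale.Agent.P146.U.H329

open Vale.Agent.P146.H332 hiding Gf Nf

set_option linter.unusedSectionVars false

variable {n : ℕ} {β A δ T ρ Λ ye : ℝ} {q : Par} {S : CS n (kk n β) q.x}

/-- the constant of the sum of the errors -/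
noncomputable def cEU (β Γ : ℝ) : ℝ := (36 + 9 * 30 + 72 * cX cK) * β ^ 4 +
  (5280 + 3960 * 30 + 5280 * cX cK) * (36 * Γ ^ 6) * β ^ 8

lemma cX_nonneg : 0 ≤ cX cK := by
  unfold cX cK
  norm_num

lemma cEU_nonneg (β Γ : ℝ) : 0 ≤ cEU β Γ := by
  have := cX_nonneg
  unfold cEU
  positivity

/-- `u^(1/8)`, `u = 1/Λ + 1/(nT)` -/
noncomputable def uu8 (n : ℕ) (T Λ : ℝ) : ℝ := (1 / Λ + 1 / (n * T)) ^ ((1 : ℝ) / 8)

/-- **(KAP) for a position system.** -/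
theorem kap_out_S {Γ κ C e0 B L M : ℝ} {m : ℕ} {HF TF : Pair n → Pair n → (Pair n → ℝ) → ℝ}
    (h : NumS S A δ T ρ Λ ((n : ℝ) ^ 200)⁻¹) (hn3 : 3 ≤ n) (hS : Sm S.F S.D B L HF TF M)
    (hm : Mt q.x S.F S.mu)
    (hFn : ∀ s, Cum.Fn (kk n β) SkS (uu q.x s S.F) (S.mu s) Γ)
    (hKR : ∀ s z, rt S.DA s z ≤ (n : ℝ) ^ 20) (hκ : 0 < κ) (hκ1 : κ ≤ 1) (hC : 0 ≤ C)
    (hP : NN n β ρ ^ 2 / (4 * A ^ 3) ≤
      En q S.F (fun w => fr (S.A q.s1 (P2 q w) * S.A q.s2 (P3 q w) -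
        S.A q.s2 (P3 q w) * S.A q.s1 (P2 q w))))
    (hu : 1 / Λ + 1 / (n * T) ≤ 1) (he0 : 0 ≤ e0)
    {bad : Fin n → Fin n → (K4 (Pair n) → ℝ) → ℝ} (eb : ∀ b b', EG (bad b b'))
    (hb0 : ∀ b b' w, 0 ≤ bad b b' w) (hb1 : ∀ b b' w, bad b b' w ≤ 1)
    (hK : ∀ b b', b' ≠ b → ∀ w, bad b b' w < 1 → ∀ v, Bv S q.s1 b b' (P2 q w) v →
      κ / A * (NN n β ρ / (n : ℝ) ^ 2) * ee S q.s1 b b' (P2 q w) ≤
        Net (kk n β) (S.A q.s1) (S.H q.s1) q.s1 b b' v (P2 q w))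
    (hbad : ∑ b, ∑ b' ∈ Finset.univ.erase b, En q S.F (bad b b') ≤ C * A ^ m *
      (uu8 n T Λ + e0 +
        q.x * √(NN n β ρ / (n : ℝ) ^ 2) + √(1 / (n * T)) + 1 / n) * (n : ℝ) ^ 2) :
    NN n β ρ / (n : ℝ) ^ 2 ≤
      192 * ((C + cEU β Γ + cO β) * (1 + 52 * β ^ 4)) / κ * A ^ (m + 12) *
      (√(1 / (n * T)) + q.x * √(NN n β ρ / (n : ℝ) ^ 2) +
        (uu8 n T Λ + e0) * (NN n β ρ / (n : ℝ) ^ 2) + 1 / n) := by
  have hq := h.fo.ok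
  have hA := h.fo.A1
  have hn := h.fo.n0
  have hβ := h.fo.β0
  have hN := h.fo.N0
  have hx := hq.x0
  have hT := h.fo.Tp
  have hρ := h.fo.ρ1
  have hρ0 : 0 < ρ := by linarith
  have hn0 : (0 : ℝ) < n := by linarith
  have hΛ1 := h.fo.Λ1
  have hΛ0 : 0 < Λ := by linarith
  have hu0 : 0 < 1 / Λ + 1 / (n * T) := by positivity
  obtain ⟨ϑ, hϑ0, hϑ1, hϑ, ht8, hϑΛ⟩ : ∃ ϑ : ℝ, 0 < ϑ ∧ ϑ ≤ 1 ∧ ϑ = uu8 n T Λ ∧
      ϑ⁻¹ ^ 8 * (1 / Λ + 1 / (n * T)) ≤ 1 ∧ (Λ ^ 500)⁻¹ ≤ ϑ := by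
    have hΛu : (Λ ^ 500)⁻¹ ≤ 1 / Λ + 1 / (n * T) := by
      have h1 : (Λ ^ 500)⁻¹ ≤ 1 / Λ := by
        rw [one_div]
        exact inv_anti₀ hΛ0 (le_self_pow₀ hΛ1 (by norm_num))
      have h2 : 0 ≤ 1 / ((n : ℝ) * T) := by positivity
      linarith
    unfold uu8
    generalize 1 / Λ + 1 / (n * T) = u at hu hu0 hΛu
    refine ⟨_, Real.rpow_pos_of_pos hu0 _, Real.rpow_le_one hu0.le hu (by norm_num), rfl, ?_,
      hΛu.trans (Real.self_le_rpow_of_le_one hu0.le hu (by norm_num))⟩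
    have h8 : (u ^ ((1 : ℝ) / 8)) ^ 8 = u := by
      rw [← Real.rpow_natCast, ← Real.rpow_mul hu0.le]
      norm_num
    rw [inv_pow, h8, inv_mul_cancel₀ hu0.ne']
  rw [← hϑ] at hbad ⊢
  have ht : 1 ≤ ϑ⁻¹ := (one_le_inv₀ hϑ0).2 hϑ1
  have hκA : κ / A ≤ 1 := by
    rw [div_le_one (by linarith)]
    linarith
  have hr0 : 0 ≤ NN n β ρ / (n : ℝ) ^ 2 := by positivity
  have hg0 : 0 ≤ κ / A * (NN n β ρ / (n : ℝ) ^ 2) := by positivity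
  have hgN : κ / A * (NN n β ρ / (n : ℝ) ^ 2) ≤ NN n β ρ / (n : ℝ) ^ 2 :=
    mul_le_of_le_one_left hr0 hκA
  have hΓ : 0 ≤ 36 * Γ ^ 6 := by positivity
  have hcE : 0 ≤ cEU β Γ := cEU_nonneg β Γ
  have hE := er_sum (S := S) h.fo h.law (cB := 30) (CK := cK) (by unfold cK; norm_num)
    (by norm_num) (moK2 h.fo hS hm) (moK3 h.fo hS hm) (bt3_two S h.fo h.law hKR)
    (bt3_three S h.fo h.law hKR) hg0 hgN hΓ ht ht8
  rw [inv_inv] at hE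
  have hpow : A ^ m ≤ A ^ (m + 3) := pow_le_pow_right₀ hA (by omega)
  have hpow3 : A ^ 3 ≤ A ^ (m + 3) := pow_le_pow_right₀ hA (by omega)
  have key := kap_S (C := C + cEU β Γ) (κ := κ) (m := m + 3) (ϑ := ϑ + e0) (bad := bad)
    (Er := fun b b' w => ErS S q (κ / A * (NN n β ρ / (n : ℝ) ^ 2)) (36 * Γ ^ 6) ϑ⁻¹
      (2 * A * NN n β ρ) b b' w) (by linarith) hκ hκ1 h eb (fun b b' => eg_ErS S _ _ _ _ b b')
    hb0 hb1 (fun b b' hb w => kap_joint h hn3 hFn hκ hκ1 ht hb.symm w (hb0 b b' w)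
      (fun h1 v hv => hK b b' hb w h1 v hv)) (by linarith) hP ?_ ?_
  · exact key
  · refine hE.trans ?_
    have h1 : cEU β Γ ≤ C + cEU β Γ := by linarith
    have h2 : ϑ ≤ ϑ + e0 := by linarith
    calc ((36 + 9 * 30 + 72 * cX cK) * β ^ 4 +
          (5280 + 3960 * 30 + 5280 * cX cK) * (36 * Γ ^ 6) * β ^ 8) *
          (A ^ 3 * (NN n β ρ / (n : ℝ) ^ 2) * NN n β ρ ^ 2 * ϑ) =
          cEU β Γ * A ^ 3 * (NN n β ρ / (n : ℝ) ^ 2 * ϑ) * NN n β ρ ^ 2 := by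
          unfold cEU
          ring
      _ ≤ _ := by gcongr
  · refine hbad.trans ?_
    have h1 : C ≤ C + cEU β Γ := by linarith
    gcongr

end Vale.Agent.P146.U.R1S
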