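import Vale.Agent.P146.H325.KapQ
import Vale.Agent.P146.U.H325_KapP
import Vale.Agent.P146.U.H640_LamCS
import Vale.Agent.P146.U.NS

/-!
Plan R1, row (KAP): the conclusion for a position system and for the SK model, in the letters of
the final assembly; the input `BadS` is the row (K) on the good bulks.
-/

open MeasureTheory ProbabilityTheory

namespace Vale.Agent.P146.U.R1S

open Vale.Agent.P146.R1S hiding A1 A2 AN_le A_flip Av_KV_le Av_Uc Av_fr_le Av_fr_le' Av_frsq_le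
  Av_frsq_le' BadS BadSk Bv CBq CS Ca Cd ClS D_row D_rows Dg DlA ErS ErS_nonneg Ew1_pos_S FA
  FA_nonneg Fo.u_le Fo_s1 Gb Gb_eq H4 H8 KA KA_le_ThA KA_nonneg KV KV_le KV_nonneg LamS MM MM_psd
  MM_row MS M_le NN_one Nd Nd_eq Nd_ind Nd_row NumS PrS Q4 Q4_En Q4_le Q4_le_pow Q4_nonneg QA
  QA_nonneg RareS Sa Sa_eq Sa_ind Sa_row Sd Sd_eq Sd_ind Sd_row T4_avg_le T4_rep_le ThA ThA_nonneg
  Uc Uc' Xb_eq Y1 Y1_nonneg Y2 Y2_nonneg Y_le Yb_eq Zs a1 a1_eq a2 a2_eq abs_cl bh bh1 blk_a blk_d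
  bq4_T4 cl cl0 cl_act cl_cs cl_odd cl_other cl_self clz_S cm1 cm2 cm3 cm4 cm_gen col2 col4 col6
  col8 d2 d2_parts dS dS_sq d_le dlS eC_le ee ee_eer ee_le ee_nonneg ee_row eg_A1 eg_A2 eg_Ca
  eg_Cd eg_ErS eg_FA eg_Gb eg_KA eg_KV eg_Nd eg_Q4 eg_QA eg_Sa eg_Sd eg_ThA eg_Uc eg_Uc' eg_Y
  eg_Y1 eg_Y2 eg_Yd eg_cl eg_cl0 eg_ee eg_frNd eg_nlb eg_ph_S eg_rat eg_tch eg_vH eg_vn_col_S
  er_point er_sum exists_Bv fb_cs fr_CBq_le fr_MM_le full_gen grF_rows grF_rows_le ind_Ca ind_Cd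
  ind_Gb ind_Yd ind_cl ind_cl2 ind_cl3 ind_frNd int_gen kap_S kap_bulk kap_cs_out kap_hK kap_joint
  kap_out_S lam_S lam_cs_hL lam_cs_out lam_fix lam_gen_S lam_out_S lamq lamq_nonneg law_low_S
  law_up_S lf_psi_S lf_psi_gr lw_abs lw_comm lw_eg lw_gr_row lw_oth lw_self lw_vn_le m6S nd_anti
  nl_En nl_one nl_sum nlb nlb_fix numS_of odd_col pd_Uc ph_nonneg_S pr_cs psd_CB psi_four_S rat
  rowIn_S six six_cl skCS skCS_A skCS_D skCS_DA skCS_F skCS_H skCS_T4 sm_skCS sum_Uc'_le sum_tch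
  tA_T tA_abs tA_comm tA_cont tA_eg tA_self tch tch_le tch_nonneg touch two_cs two_t vH vH_hvr
  vH_le vH_nonneg vn_col_Uc vn_le_nS

open Vale.Agent.P157.Lv Vale.Agent.P146.H425 Vale.Agent.P146.H325 Matrix Vale.Agent.P146.H633
open Vale.Agent.P146.H712 hiding En_sub En_sum Fo_A_le Fo_kk Fo_one_le KV KV_le KV_nonneg LLow LUp
  Th_le abs_DA_le bt3 bt3_pos bt3_three bt3_three' bt3_two bt3_two' eg_KV eg_P0 eg_P1 eg_P2 eg_P3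
  eg_ThS hKR_fn hKR_sk int_dens k0 k1 k2 k3 llow lup pd_P0 pd_P1 pd_P2 pd_P3 rt_le_fn sum_k0
  sum_k1 sum_k2 sum_k3 tT_abs tT_eg tfr_le tpd
open Vale.Agent.P146.R1 hiding Et Et4 Et4_123 Et4_124 Et4_add Et4_const Et4_const_mul Et4_cs
  Et4_mono Et4_nonneg Et4_sub Et_add Et_const Et_const_mul Et_cs Et_fst_eq Et_jensen Et_mono
  Et_nonneg Et_sub Et_weight Et_zero Eu Eu4 Eu4_123 Eu4_124 Eu4_add Eu4_cond Eu4_const_mul
  Eu4_iter Eu4_mono Eu4_nonneg Eu4_one_eq Eu4_one_eq' Eu4_one_pos Eu4_weight Eu_add Eu_const_mul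
  Eu_fst Eu_fst_eq Eu_iter Eu_mono Eu_nonneg Eu_one Eu_one_eq Eu_one_pos Eu_weight Eu_zero
  Eu_zero_one Lth Lth_zero Qt dn dn_pos e3_dn eg_Eu eg_Eu4
open Vale.Agent.P146.R1C hiding A1 A2 Av_aa Av_ad Av_dd Av_lf_P0 Av_lf_P1 Av_lf_P2 Av_lf_P23
  Av_lf_P23_row Av_lf_P3 Ca Cd ClSk Dg En En_add En_const En_const_mul En_eq En_mono En_nonneg
  En_pow_le En_rare En_sum Ew Ew1_pos Ew_add Ew_const_mul Ew_eq Ew_mono Ew_nonneg Ew_one_pos Fo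
  FoSk Gb H4 H8 LamSk Law2 Low Nb Nd Nd_ind Nd_row NumH P0 P0_lp P0_sw P1 P1_lp P1_sw P2 P2_lp
  P2_sw P3 P3_lp P3_sw Par PrSk Rare Sa Sa_ind Sa_row Sd Sd_ind Sd_row Zk a1 a1_eq a2 a2_eq
  bad_pair bad_total cl_sk den_pos dens dens_eq eC eg_A1 eg_A2 eg_Gb eg_Nd eg_Sa eg_Sd eg_Yd
  eg_den eg_dens eg_frNd eg_psi' fb_row fb_sk ind_Gb ind_Yd ind_frNd int_Av_dens int_Av_one int_ph
  k0_sum k1_sum kap_en kap_fin kk_NN kk_four lamSk_num lam_fix lam_gen_num lam_gen_sk lam_hL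
  lam_le lam_sk lam_sk_out law2_of law_low law_low_sk law_up law_up_sk lf_psi lip_psi low_int lsk
  numH_of pd_psi ph psi psi' psi_four_le psi_four_sk psi_sq_le
open Vale.Agent.P146.H329 hiding AvP_qT_le bk_a0 bk_a1 bk_e0 bk_e1 eg_KT eg_frA na1_le ne1_le
  qP_id qP_pq qT_le vP_le
open Vale.Agent.P146.U.H712 Vale.Agent.P146.U.R1 Vale.Agent.P146.U.R1C Vale.Agent.P146.U.H329

open Vale.Agent.P146.H332 hiding Gf NN Nf fr_nonneg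

set_option linter.unusedSectionVars false

/-- **The good and the bad bulks.** -/
def BadS {n : ℕ} {β : ℝ} {q : Par} (S : CS n (kk n β) q.x) (A T ρ Λ κ C e0 : ℝ) (m : ℕ) : Prop :=
  ∃ bad : Fin n → Fin n → (K4 (Pair n) → ℝ) → ℝ, (∀ b b', EG (bad b b')) ∧
    (∀ b b' w, 0 ≤ bad b b' w) ∧ (∀ b b' w, bad b b' w ≤ 1) ∧
    (∀ b b', b' ≠ b → ∀ w, bad b b' w < 1 → ∀ v, Bv S q.s1 b b' (P2 q w) v →
      κ / A * (NN n β ρ / (n : ℝ) ^ 2) * ee S q.s1 b b' (P2 q w) ≤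
        Net (kk n β) (S.A q.s1) (S.H q.s1) q.s1 b b' v (P2 q w)) ∧
    ∑ b, ∑ b' ∈ Finset.univ.erase b, En q S.F (bad b b') ≤ C * A ^ m *
      ((1 / Λ + 1 / (n * T)) ^ ((1 : ℝ) / 8) + e0 +
        q.x * √(NN n β ρ / (n : ℝ) ^ 2) + √(1 / (n * T)) + 1 / n) * (n : ℝ) ^ 2

/-- the smallness of the time scale -/
lemma Fo.u_le {n : ℕ} {β A δ T ρ Λ ye : ℝ} {q : Par} {F : (Pair n → ℝ) → ℝ}
    {AM : ℝ → (Pair n → ℝ) → Matrix (Fin n) (Fin n) ℝ}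
    {DM : ℝ → Pair n → (Pair n → ℝ) → Matrix (Fin n) (Fin n) ℝ}
    (h : Fo n β A δ T ρ Λ ye q F AM DM) (hA : 10 ≤ A) (hβA : β ^ 2 ≤ A) :
    1 / Λ + 1 / (n * T) ≤ 1 := by
  have hT := h.Tp
  have hρ := h.ρp
  have hn := h.n0
  have hA1 := h.A1
  have h2 := h.ρn
  have hy2 : ye ^ 2 ≤ 1 := pow_le_one₀ h.y0.le h.y1
  have hA2 : A ^ 2 ≤ Λ := (pow_le_pow_right₀ hA1 (by norm_num)).trans h.AΛ40
  have hnT : 0 < (n : ℝ) * T := by positivity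
  have g1 : 2 ≤ Λ := by nlinarith
  have g2 : Λ ≤ ρ * T := by
    calc Λ ≤ ye ^ 2 * ρ * T := h.yrT
      _ = ye ^ 2 * (ρ * T) := by ring
      _ ≤ 1 * (ρ * T) := mul_le_mul_of_nonneg_right hy2 (by positivity)
      _ = ρ * T := one_mul _
  have g3 : 2 * (ρ * T) ≤ β ^ 2 * (n * T) := by
    calc 2 * (ρ * T) = 2 * ρ * T := by ring
      _ ≤ β ^ 2 * n * T := mul_le_mul_of_nonneg_right h2 hT.le
      _ = _ := by ring
  have g4 : β ^ 2 * (n * T) ≤ A * (n * T) := mul_le_mul_of_nonneg_right hβA hnT.le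
  have g5 : A * (2 * A) ≤ A * (n * T) := by nlinarith
  have g6 : 2 * A ≤ n * T := le_of_mul_le_mul_left g5 (by linarith)
  have g7 : 2 ≤ (n : ℝ) * T := by linarith
  have a1 : 1 / Λ ≤ 1 / 2 := one_div_le_one_div_of_le (by norm_num) g1
  have a2 : 1 / (n * T) ≤ 1 / 2 := one_div_le_one_div_of_le (by norm_num) g7
  linarith

/-- **(KAP) for a position system, all large `n`.** -/
theorem kap_cs_out {β Γ κ C : ℝ} {m : ℕ} (hβ : 0 < β) (hκ : 0 < κ) (hκ1 : κ ≤ 1)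
    (hC : 0 ≤ C) : ∃ n₀ : ℕ, ∀ n : ℕ, n₀ ≤ n → ∀ (q : Par) (S : CS n (kk n β) q.x)
      (A δ T ρ Λ e0 B L M : ℝ) (HF TF : Pair n → Pair n → (Pair n → ℝ) → ℝ),
      10 ≤ A → β ^ 2 ≤ A → 0 ≤ e0 → Sm S.F S.D B L HF TF M →
      (∀ s : ℝ, Cum.Fn (kk n β) SkS (uu q.x s S.F) (S.mu s) Γ) → Mt q.x S.F S.mu →
      Fo n β A δ T ρ Λ S.y q S.F S.A S.DA → Gro n β A ρ q S.F S.A →
      BadS S A T ρ Λ κ C e0 m →
      NN n β ρ / (n : ℝ) ^ 2 ≤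
        192 * ((C + cEU β Γ + cO β) * (1 + 52 * β ^ 4)) / κ * A ^ (m + 12) *
        (√(1 / (n * T)) + q.x * √(NN n β ρ / (n : ℝ) ^ 2) +
          ((1 / Λ + 1 / (n * T)) ^ ((1 : ℝ) / 8) + e0) *
            (NN n β ρ / (n : ℝ) ^ 2) + 1 / n) := by
  obtain ⟨n₀, -, hn₀⟩ := numS_ofU hβ
  obtain ⟨N, hN⟩ := exists_nat_ge Γ
  refine ⟨max n₀ (max 3 N), fun n hn q S A δ T ρ Λ e0 B L M HF TF hA hβA he0 hS hFn hm hf hg
    hbad => ?_⟩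
  have hn1 : n₀ ≤ n := (le_max_left _ _).trans hn
  have hn3 : 3 ≤ n := ((le_max_left _ _).trans (le_max_right _ _)).trans hn
  have hnN : N ≤ n := ((le_max_right _ _).trans (le_max_right _ _)).trans hn
  have hnum := hn₀ n hn1 β le_rfl q S A δ T ρ Λ hf
  have hn2 := hf.n0
  have hΓn : Γ ≤ (n : ℝ) ^ 8 := by
    have h1 : (N : ℝ) ≤ n := by exact_mod_cast hnN
    have h2 : (n : ℝ) ≤ (n : ℝ) ^ 8 := le_self_pow₀ (by linarith) (by norm_num)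
    linarith
  obtain ⟨bad, eb, hb0, hb1, hK, hsum⟩ := hbad
  exact kap_out_S hnum hn3 hS hm hFn (hKR_fn S hf hFn hΓn) hκ hκ1 hC
    (U.H522.po2_cs S hS hf hA hg) (Fo.u_le hf hA hβA) he0 eb hb0 hb1 hK hsum

end Vale.Agent.P146.U.R1S
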