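import Vale.Agent.P146.H604.HNumG
import Vale.Agent.P146.U.H604_HRowSk
import Vale.Agent.P146.U.H706_LawS
import Vale.Agent.P146.U.H326_PrI
import Vale.Agent.P146.U.H712_BtSum
import Vale.Agent.P146.U.H816_SkN0
import Vale.Agent.P146.U.NS

/-!
R1, block C, the h-row: the inputs `HIn`, for a matrix of functions of a position, in terms of the
size of the matrix, its rate, the moments of its columns and the law change.
-/

open MeasureTheory ProbabilityTheory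

namespace Vale.Agent.P146.U.R1C

open Vale.Agent.P146.R1C hiding A1 A2 AvZ1 AvZ2 Av_lf_P0 Av_lf_P1 Av_lf_P2 Av_lf_P23 Av_lf_P23_row
  Av_lf_P3 Ca Cd ClSk Dg En En_add En_const En_const_mul En_eq En_mono En_nonneg En_pow_le
  En_prod_le En_sum Ew Ew1_pos Ew_add Ew_const_mul Ew_eq Ew_mono Ew_nonneg Ew_one_pos Fo Gb HIn
  HNb LamSk Low Nb Nd Nd_ind P0 P0_lp P0_sw P1 P1_lp P1_sw P2 P2_lp P2_sw P3 P3_lp P3_sw Par PrSk
  PrSk.mono Sa Sa_ind Sd Sd_ind Zn_mom Zn_touch a1 a1_eq a2 a2_eq cl_sk den_pos dens dens_eq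
  dens_nonneg eF1 eF2 eg_A1 eg_A2 eg_Gb eg_Nd eg_Sa eg_Sd eg_Yd eg_den eg_dens eg_frNd eg_psi' hd1
  hd2 hp1 hp2 hrow1 hrow1_n hrow2 hrow2_n ind_Gb ind_Yd ind_frNd int_Av_dens int_Av_one int_ph
  kk_NN lam_gen_sk lam_le lam_sk law_low law_low_sk law_up law_up_sk lf_psi lip_psi low_int pd_psi
  ph psi psi' psi_four_le psi_four_sk psi_sq_le

open Vale.Agent.P157.Lv Vale.Agent.P146.H425 Vale.Agent.P146.H325 Vale.Agent.P146.H604 Matrix
open Vale.Agent.P146.H332 hiding eg_fr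
open Vale.Agent.P146.H712 hiding En_sub En_sum LLow LUp bt3 eg_P0 eg_P1 eg_P2 eg_P3 int_dens k0 k1
  k2 k3 llow lup pd_P0 pd_P1 pd_P2 pd_P3 sum_k0 sum_k1 sum_k2 sum_k3
open Vale.Agent.P146.R1 hiding Et Et4 Et4_123 Et4_124 Et4_add Et4_const Et4_const_mul Et4_cs
  Et4_mono Et4_nonneg Et4_sub Et_add Et_const Et_const_mul Et_cs Et_fst_eq Et_jensen Et_mono
  Et_nonneg Et_sub Et_weight Et_zero Eu Eu4 Eu4_123 Eu4_124 Eu4_add Eu4_cond Eu4_const_mul
  Eu4_iter Eu4_mono Eu4_nonneg Eu4_one_eq Eu4_one_eq' Eu4_one_pos Eu4_weight Eu_add Eu_const_mul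
  Eu_fst Eu_fst_eq Eu_iter Eu_mono Eu_nonneg Eu_one Eu_one_eq Eu_one_pos Eu_weight Eu_zero
  Eu_zero_one Lth Lth_zero Qt dn dn_pos e3_dn eg_Eu eg_Eu4
open Vale.Agent.P146.H816 hiding Gb_eq Nd_eq P0_act P1_act P2_act P3_act Sa_eq Sd_eq Xb_eq Yb_eq
  blk_a blk_d eg_Ca eg_Cd ind_Ca ind_Cd ind_cl2 ind_cl3 two_sk
open Vale.Agent.P146.U.H712 Vale.Agent.P146.U.R1 Vale.Agent.P146.U.H816

set_option linter.unusedSectionVars false

section mono

variable {n : ℕ} {k : ℝ} {q : Par} {F : (Pair n → ℝ) → ℝ} {M M' δ : Fin n → Fin n → ℝ}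

/-- larger moments -/
lemma PrSk.mono (h : PrSk k q F M δ) (hM : ∀ b b', b' ≠ b → M b b' ≤ M' b b') :
    PrSk k q F M' δ := by
  intro b b' hb
  have p := h b b' hb
  have m := hM b b' hb
  exact
    { p with
      mA := p.mA.trans m
      mD := p.mD.trans m
      mA' := p.mA'.trans m
      mD' := p.mD'.trans m
      ma := p.ma.trans m
      md := p.md.trans m
      ma' := p.ma'.trans m
      md' := p.md'.trans m }

end mono

section gen

variable {n : ℕ} {q : Par} {F : (Pair n → ℝ) → ℝ} {D : Pair n → (Pair n → ℝ) → ℝ}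
  {B L ε : ℝ} {C : (Pair n → ℝ) → Matrix (Fin n) (Fin n) ℝ}
  {E : Pair n → (Pair n → ℝ) → Matrix (Fin n) (Fin n) ℝ} {c : Fin 4 → ℝ}

/-- bounded functions which are rarely large, times a bounded function -/
lemma En_prod_le (h : C11 F D B L) (hx : 0 < q.x) {f g : (K4 (Pair n) → ℝ) → ℝ} (hf : EG f)
    (hg : EG g) (h0 : ∀ w, 0 ≤ f w) (g0 : ∀ w, 0 ≤ g w) {K G W δ G1 : ℝ} (hK : ∀ w, f w ≤ K)
    (hG : ∀ w, g w ≤ G) (hW : 0 ≤ W)
    (hδ : En q F (fun w => if W < f w then (1 : ℝ) else 0) ≤ δ) (hg1 : En q F g ≤ G1) :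
    En q F (fun w => f w * g w) ≤ W * G1 + K * G * δ := by
  have hi : EG fun w => if W < f w then (1 : ℝ) else 0 := by
    refine EG.of_bdd (C := 1) ?_ fun w => ?_
    · exact Measurable.ite (measurableSet_lt measurable_const hf.meas) measurable_const
        measurable_const
    · split_ifs <;> simp
  have hK0 : 0 ≤ K := (h0 0).trans (hK 0)
  have hG0 : 0 ≤ G := (g0 0).trans (hG 0)
  refine (R1C.En_mono h hx (hf.mul hg) ((hg.const_mul W).add (hi.const_mul (K * G)))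
    fun w => ?_).trans ?_
  · split_ifs with h1
    · have a1 := mul_le_mul (hK w) (hG w) (g0 w) hK0
      have a2 := mul_nonneg hW (g0 w)
      linarith
    · rw [mul_zero, add_zero]
      exact mul_le_mul_of_nonneg_right (not_lt.1 h1) (g0 w)
  · rw [R1C.En_add h hx (hg.const_mul W) (hi.const_mul _), R1C.En_const_mul, R1C.En_const_mul]
    have := mul_le_mul_of_nonneg_left hδ (mul_nonneg hK0 hG0)
    have := mul_le_mul_of_nonneg_left hg1 hW
    linarith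

/-- the moments of `Zn` under the law of a pair -/
lemma Zn_mom (h : C11 F D B L) (hq : q.Ok) (hl : H326.LCh q F ε) (hε0 : 0 ≤ ε)
    (hεn : (n : ℝ) ^ 20 * ε ≤ 1) (n2 : (2 : ℝ) ≤ n) {Am : (K4 (Pair n) → ℝ) → Matrix (Fin n) (Fin n) ℝ}
    (hA : ∀ i j, EG fun w => Am w i j) (hb : ∀ w, fr (Am w) ≤ (n : ℝ) ^ 2) {W δ u : ℝ}
    (hW : 0 ≤ W) (hδ0 : 0 ≤ δ)
    (hδ : En q F (fun w => if W < fr (Am w) then (1 : ℝ) else 0) ≤ δ)
    (hδn : (n : ℝ) ^ 200 * δ ≤ 1) (hu : W / n ≤ u) (hu1 : 1 ≤ u) (b b' : Fin n) (p : ℕ)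
    (hp : p ≤ 10) :
    ∫ w, ph q F b b' w * Zn Am w ^ p ∂(gI (K4 (Pair n))) ≤
      Ew q F (fun _ => 1) * (5 * u ^ p) := by
  have hx := hq.x0
  have hE := Ew1_pos (q := q) h hx
  have hn0 : (0 : ℝ) < n := by linarith
  have hZ := eg_Zn hA
  have hZn : ∀ w, Zn Am w ≤ n := by
    intro w
    unfold Zn
    rw [div_le_iff₀ hn0]
    have := hb w
    nlinarith
  have h1 := H326.ph_le h hq hl b b' (f := fun w => Zn Am w ^ p) (K := (n : ℝ) ^ p) (hZ.pow p)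
    (fun w => pow_nonneg (Zn_nonneg w) p) (fun w => pow_le_pow_left₀ (Zn_nonneg w) (hZn w) p)
  refine h1.trans (mul_le_mul_of_nonneg_left ?_ hE.le)
  -- the mean of the power
  have h2 := En_pow_le h hx (eg_fr hA) (fun w => H332.fr_nonneg (Am w)) hb hW hδ p
  have e1 : En q F (fun w => Zn Am w ^ p) = ((n : ℝ)⁻¹) ^ p * En q F (fun w => fr (Am w) ^ p) := by
    rw [← R1C.En_const_mul]
    congr 1
    funext w
    unfold Zn
    rw [div_eq_inv_mul, mul_pow]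
  have h3 : ((n : ℝ)⁻¹) ^ p * ((n : ℝ) ^ 2) ^ p = (n : ℝ) ^ p := by
    rw [← mul_pow]
    congr 1
    field_simp
  have h4 : ((n : ℝ)⁻¹) ^ p * W ^ p ≤ u ^ p := by
    rw [← mul_pow]
    refine pow_le_pow_left₀ (by positivity) ?_ p
    rwa [← div_eq_inv_mul]
  have h5 : (n : ℝ) ^ p * δ ≤ 1 / 4 := by
    have a1 : (n : ℝ) ^ p * 4 ≤ (n : ℝ) ^ 200 := by
      calc (n : ℝ) ^ p * 4 ≤ (n : ℝ) ^ 198 * (n : ℝ) ^ 2 := by
            refine mul_le_mul (pow_le_pow_right₀ (by linarith) (by omega)) (by nlinarith)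
              (by norm_num) (by positivity)
        _ = _ := by rw [← pow_add]
    have a2 := mul_le_mul_of_nonneg_right a1 hδ0
    linarith
  have h6 : (n : ℝ) ^ p * ε ≤ 1 := by
    refine (mul_le_mul_of_nonneg_right (pow_le_pow_right₀ (by linarith) (by omega)) hε0).trans hεn
  have h7 : En q F (fun w => Zn Am w ^ p) ≤ u ^ p + 1 / 4 := by
    rw [e1]
    have a1 := mul_le_mul_of_nonneg_left h2 (by positivity : 0 ≤ ((n : ℝ)⁻¹) ^ p)
    have a2 : ((n : ℝ)⁻¹) ^ p * (W ^ p + ((n : ℝ) ^ 2) ^ p * δ) =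
        ((n : ℝ)⁻¹) ^ p * W ^ p + (((n : ℝ)⁻¹) ^ p * ((n : ℝ) ^ 2) ^ p) * δ := by ring
    rw [a2, h3] at a1
    linarith
  have h8 : 1 ≤ u ^ p := one_le_pow₀ hu1
  have h9 : ε * (n : ℝ) ^ p ≤ 1 := by rw [mul_comm]; exact h6
  linarith

/-- **the touches of `Zn`, summed over the pairs** -/
theorem Zn_touch (h : C11 F D B L) (hq : q.Ok) (hl : H326.LCh q F ε) (hε0 : 0 ≤ ε)
    (hεn : (n : ℝ) ^ 20 * ε ≤ 1) (n2 : (2 : ℝ) ≤ n) (hC : ∀ i j, EG fun z => C z i j)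
    (hE : ∀ e i j, EG fun z => E e z i j)
    (hd : ∀ e i j, PD e (fun z => C z i j) (fun z => E e z i j))
    (hc : c 0 ^ 2 + c 1 ^ 2 + c 2 ^ 2 + c 3 ^ 2 ≤ 1)
    (hb : ∀ z, fr (C z) ≤ (n : ℝ) ^ 2) (hr : ∀ z, ∑ e, fr (E e z) ≤ 9 * (n : ℝ) ^ 4)
    {W δ T : ℝ} (hW : 1 ≤ W) (hδ0 : 0 ≤ δ)
    (hδ : En q F (fun w => if W < fr (C (H712.lp c w)) then (1 : ℝ) else 0) ≤ δ)
    (hδn : (n : ℝ) ^ 200 * δ ≤ 1) (hT0 : 0 < T) (hT1 : T ≤ 1)
    (hrt : En q F (fun w => ∑ e, fr (E e (H712.lp c w))) ≤ W / T) :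
    ∑ b : Fin n, ∑ b' ∈ Finset.univ.erase b,
      ∫ w, ph q F b b' w * (Zn (fun w => C (H712.lp c w)) w -
        Av (lf (row b ∪ row b')) (Zn fun w => C (H712.lp c w)) w) ^ 2 ∂(gI (K4 (Pair n))) ≤
      Ew q F (fun _ => 1) * (68 * (W ^ 2 / (n * T))) := by
  have hx := hq.x0
  have hE0 := Ew1_pos (q := q) h hx
  have hn0 : (0 : ℝ) < n := by linarith
  obtain ⟨Z, hZ⟩ : ∃ Z, Z = Ew q F (fun _ : K4 (Pair n) → ℝ => (1 : ℝ)) := ⟨_, rfl⟩
  rw [← hZ] at hE0 ⊢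
  have eC : EG fun w : K4 (Pair n) → ℝ => fr (C (H712.lp c w)) :=
    eg_fr fun i j => eg_lp c (hC i j)
  have eE : ∀ e, EG fun w : K4 (Pair n) → ℝ => fr (E e (H712.lp c w)) := fun e =>
    eg_fr fun i j => eg_lp c (hE e i j)
  have eR : ∀ R : Finset (Pair n), EG fun w : K4 (Pair n) → ℝ => ∑ e ∈ R, fr (E e (H712.lp c w)) :=
    fun R => EG.sum R fun e _ => eE e
  have fC : ∀ w, 0 ≤ fr (C (H712.lp c w)) := fun w => H332.fr_nonneg _
  have fR : ∀ (R : Finset (Pair n)) w, 0 ≤ ∑ e ∈ R, fr (E e (H712.lp c w)) := fun R w =>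
    Finset.sum_nonneg fun e _ => H332.fr_nonneg _
  have uR : ∀ (R : Finset (Pair n)) w, ∑ e ∈ R, fr (E e (H712.lp c w)) ≤ 9 * (n : ℝ) ^ 4 :=
    fun R w => (Finset.sum_le_sum_of_subset_of_nonneg (Finset.subset_univ R)
      fun e _ _ => H332.fr_nonneg _).trans (hr _)
  -- one pair
  have one : ∀ b b' : Fin n, ∫ w, ph q F b b' w * (Zn (fun w => C (H712.lp c w)) w -
        Av (lf (row b ∪ row b')) (Zn fun w => C (H712.lp c w)) w) ^ 2 ∂(gI (K4 (Pair n))) ≤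
      4 / n ^ 2 * (Z * (2 * ∑ e ∈ row b ∪ row b', En q F (fun w => fr (C (H712.lp c w)) *
        fr (E e (H712.lp c w))) + ε * (9 * (n : ℝ) ^ 6))) := by
    intro b b'
    have t1 := touch_Zn (R := row b ∪ row b') c hC hE hd (H326.eg_ph h hq b b')
      (H326.ph_nonneg h hq b b') (by unfold ph; exact ind_Av _ _)
    have t2 := H326.ph_le h hq hl b b' (f := fun w => fr (C (H712.lp c w)) *
      ∑ e ∈ row b ∪ row b', fr (E e (H712.lp c w))) (K := 9 * (n : ℝ) ^ 6)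
      (eC.mul (eR _)) (fun w => mul_nonneg (fC w) (fR _ w)) (fun w => by
        have := mul_le_mul (hb (H712.lp c w)) (uR (row b ∪ row b') w) (fR _ w) (by positivity)
        calc _ ≤ _ := this
          _ = _ := by ring)
    rw [← hZ] at t2
    have e1 : En q F (fun w => fr (C (H712.lp c w)) *
        ∑ e ∈ row b ∪ row b', fr (E e (H712.lp c w))) =
        ∑ e ∈ row b ∪ row b', En q F (fun w => fr (C (H712.lp c w)) * fr (E e (H712.lp c w))) := by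
      rw [← H712.En_sum h hx _ fun e _ => eC.mul (eE e)]
      congr 1
      funext w
      rw [Finset.mul_sum]
    rw [e1] at t2
    refine t1.trans ?_
    have h3 : 4 * (c 0 ^ 2 + c 1 ^ 2 + c 2 ^ 2 + c 3 ^ 2) / (n : ℝ) ^ 2 ≤ 4 / n ^ 2 := by
      rw [div_le_div_iff_of_pos_right (by positivity)]
      linarith
    have h4 : 0 ≤ ∫ w, ph q F b b' w * (fr (C (H712.lp c w)) *
        ∑ e ∈ row b ∪ row b', fr (E e (H712.lp c w))) ∂(gI (K4 (Pair n))) :=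
      integral_nonneg fun w => mul_nonneg (H326.ph_nonneg h hq b b' w)
        (mul_nonneg (fC w) (fR _ w))
    refine (mul_le_mul_of_nonneg_right h3 h4).trans ?_
    exact mul_le_mul_of_nonneg_left t2 (by positivity)
  -- the product
  have hprod : En q F (fun w => fr (C (H712.lp c w)) * ∑ e, fr (E e (H712.lp c w))) ≤
      2 * (W ^ 2 / T) := by
    have a1 := En_prod_le h hx eC (eR Finset.univ) fC (fR Finset.univ)
      (fun w => hb (H712.lp c w)) (uR Finset.univ) (by linarith) hδ hrt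
    have a2 : (n : ℝ) ^ 2 * (9 * (n : ℝ) ^ 4) * δ ≤ 1 := by
      refine le_trans (mul_le_mul_of_nonneg_right ?_ hδ0) hδn
      have a3 : (9 : ℝ) ≤ (n : ℝ) ^ 4 := by
        have := pow_le_pow_left₀ (by norm_num) n2 4
        norm_num at this
        linarith
      calc (n : ℝ) ^ 2 * (9 * (n : ℝ) ^ 4) = 9 * (n : ℝ) ^ 6 := by ring
        _ ≤ (n : ℝ) ^ 4 * (n : ℝ) ^ 6 := mul_le_mul_of_nonneg_right a3 (by positivity)
        _ = (n : ℝ) ^ 10 := by rw [← pow_add]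
        _ ≤ _ := pow_le_pow_right₀ (by linarith) (by norm_num)
    have a4 : 1 ≤ W ^ 2 / T := by
      rw [le_div_iff₀ hT0]
      nlinarith
    have a5 : W * (W / T) = W ^ 2 / T := by ring
    rw [a5] at a1
    linarith
  have g0 : ∀ e, 0 ≤ En q F (fun w => fr (C (H712.lp c w)) * fr (E e (H712.lp c w))) := fun e =>
    R1C.En_nonneg fun w => mul_nonneg (fC w) (H332.fr_nonneg _)
  have hpairs := sum_pairs_rows g0
  have e2 : ∑ e, En q F (fun w => fr (C (H712.lp c w)) * fr (E e (H712.lp c w))) =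
      En q F (fun w => fr (C (H712.lp c w)) * ∑ e, fr (E e (H712.lp c w))) := by
    rw [← H712.En_sum h hx _ fun e _ => eC.mul (eE e)]
    congr 1
    funext w
    rw [Finset.mul_sum]
  rw [e2] at hpairs
  have hconst := H712.sum_pairs_const (n := n) (ε * (9 * (n : ℝ) ^ 6)) (by positivity)
  have hU : 1 ≤ W ^ 2 / T := by
    rw [le_div_iff₀ hT0]
    nlinarith
  have hεb : (n : ℝ) ^ 2 * (ε * (9 * (n : ℝ) ^ 6)) ≤ 1 := by
    have a3 : (9 : ℝ) ≤ (n : ℝ) ^ 4 := by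
      have := pow_le_pow_left₀ (by norm_num) n2 4
      norm_num at this
      linarith
    have a4 : 9 * (n : ℝ) ^ 8 ≤ (n : ℝ) ^ 20 := by
      calc 9 * (n : ℝ) ^ 8 ≤ (n : ℝ) ^ 4 * (n : ℝ) ^ 8 :=
            mul_le_mul_of_nonneg_right a3 (by positivity)
        _ = (n : ℝ) ^ 12 := by rw [← pow_add]
        _ ≤ _ := pow_le_pow_right₀ (by linarith) (by norm_num)
    have a5 := mul_le_mul_of_nonneg_right a4 hε0
    have a6 : (n : ℝ) ^ 2 * (ε * (9 * (n : ℝ) ^ 6)) = 9 * (n : ℝ) ^ 8 * ε := by ring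
    rw [a6]
    exact a5.trans hεn
  refine (Finset.sum_le_sum fun b _ => Finset.sum_le_sum fun b' _ => one b b').trans ?_
  have e3 : ∑ b : Fin n, ∑ b' ∈ Finset.univ.erase b, 4 / (n : ℝ) ^ 2 *
      (Z * (2 * ∑ e ∈ row b ∪ row b', En q F (fun w => fr (C (H712.lp c w)) *
        fr (E e (H712.lp c w))) + ε * (9 * (n : ℝ) ^ 6))) =
      4 / (n : ℝ) ^ 2 * (Z * (2 * (∑ b : Fin n, ∑ b' ∈ Finset.univ.erase b,
        ∑ e ∈ row b ∪ row b', En q F (fun w => fr (C (H712.lp c w)) *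
        fr (E e (H712.lp c w)))) + ∑ b : Fin n, ∑ _b' ∈ Finset.univ.erase b,
          ε * (9 * (n : ℝ) ^ 6))) := by
    simp only [← Finset.mul_sum, Finset.sum_add_distrib]
  rw [e3]
  have f1 : 2 * (∑ b : Fin n, ∑ b' ∈ Finset.univ.erase b,
        ∑ e ∈ row b ∪ row b', En q F (fun w => fr (C (H712.lp c w)) *
        fr (E e (H712.lp c w)))) + ∑ b : Fin n, ∑ _b' ∈ Finset.univ.erase b,
          ε * (9 * (n : ℝ) ^ 6) ≤ 17 * (n * (W ^ 2 / T)) := by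
    have b1 : 4 * (n : ℝ) * En q F (fun w => fr (C (H712.lp c w)) *
        ∑ e, fr (E e (H712.lp c w))) ≤ 4 * (n : ℝ) * (2 * (W ^ 2 / T)) :=
      mul_le_mul_of_nonneg_left hprod (by positivity)
    have b2 : (1 : ℝ) ≤ n * (W ^ 2 / T) := by nlinarith
    linarith
  have f2 := mul_le_mul_of_nonneg_left (mul_le_mul_of_nonneg_left f1 hE0.le)
    (by positivity : (0 : ℝ) ≤ 4 / n ^ 2)
  refine f2.trans (le_of_eq ?_)
  field_simp
  ring

end gen

end Vale.Agent.P146.U.R1C
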