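import Vale.Agent.P146.H941.HRowS
import Vale.Agent.P146.U.H604_HRowSk
import Vale.Agent.P146.U.H941_SkTS
import Vale.Agent.P146.U.NS

/-!
R1, block C, target (T4) (the h-row) for a position system, at both times: the S-form of
`H604.HRowSk`.
-/

open MeasureTheory ProbabilityTheory

namespace Vale.Agent.P146.U.R1S

open Vale.Agent.P146.R1S hiding A1 A2 AvZ1 AvZ2 CS Ca Cd ClS Dg Gb Gb_eq LamS MM Nd Nd_eq Nd_ind
  PrS Sa Sa_eq Sa_ind Sd Sd_eq Sd_ind Xb_eq Yb_eq a1 a1_eq a2 a2_eq abs_cl blk_a blk_d cl cl0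
  cl_act cl_cs cl_odd cl_other cl_self eF1 eF2 ee eg_A1 eg_A2 eg_Ca eg_Cd eg_Gb eg_Nd eg_Sa eg_Sd
  eg_Yd eg_cl eg_cl0 eg_frNd hd1 hd2 hp1 hp2 hrow1 hrow1_n hrow2 hrow2_n ind_Ca ind_Cd ind_Gb
  ind_Yd ind_cl ind_cl2 ind_cl3 ind_frNd tA_T tA_abs tA_comm tA_cont tA_eg tA_self two_cs

open Vale.Agent.P157.Lv Vale.Agent.P146.H425 Vale.Agent.P146.H325 Vale.Agent.P146.H604 Matrix
open Vale.Agent.P146.H712 hiding eg_P0 eg_P1 eg_P2 eg_P3 k0 k1 k2 k3 pd_P0 pd_P1 pd_P2 pd_P3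
  sum_k0 sum_k1 sum_k2 sum_k3
open Vale.Agent.P146.R1 hiding Et Et4 Et4_123 Et4_124 Et4_add Et4_const Et4_const_mul Et4_cs
  Et4_mono Et4_nonneg Et4_sub Et_add Et_const Et_const_mul Et_cs Et_fst_eq Et_jensen Et_mono
  Et_nonneg Et_sub Et_weight Et_zero Eu Eu4 Eu4_123 Eu4_124 Eu4_add Eu4_cond Eu4_const_mul
  Eu4_iter Eu4_mono Eu4_nonneg Eu4_one_eq Eu4_one_eq' Eu4_one_pos Eu4_weight Eu_add Eu_const_mul
  Eu_fst Eu_fst_eq Eu_iter Eu_mono Eu_nonneg Eu_one Eu_one_eq Eu_one_pos Eu_weight Eu_zero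
  Eu_zero_one Lth Lth_zero Qt dn dn_pos e3_dn eg_Eu eg_Eu4
open Vale.Agent.P146.R1C hiding A1 A2 AvZ1 AvZ2 Av_lf_P0 Av_lf_P1 Av_lf_P2 Av_lf_P23 Av_lf_P23_row
  Av_lf_P3 Ca Cd ClSk Dg En En_eq En_sum Ew Ew_eq Ew_one_pos Gb HIn HNb LamSk Nb Nd Nd_ind P0
  P0_lp P0_sw P1 P1_lp P1_sw P2 P2_lp P2_sw P3 P3_lp P3_sw Par PrSk Sa Sa_ind Sd Sd_ind a1 a1_eq
  a2 a2_eq cl_sk dens dens_eq dens_nonneg eF1 eF2 eg_A1 eg_A2 eg_Gb eg_Nd eg_Sa eg_Sd eg_Yd
  eg_dens eg_frNd eg_psi' hd1 hd2 hp1 hp2 hrow1 hrow1_n hrow2 hrow2_n ind_Gb ind_Yd ind_frNd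
  int_ph lam_le law_low law_up lf_psi lip_psi pd_psi ph psi psi' psi_four_le psi_sq_le
open Vale.Agent.P146.H816 hiding Gb_eq Nd_eq P0_act P1_act P2_act P3_act Sa_eq Sd_eq Xb_eq Yb_eq
  blk_a blk_d eg_Ca eg_Cd ind_Ca ind_Cd ind_cl2 ind_cl3 two_sk
open Vale.Agent.P146.U.H712 Vale.Agent.P146.U.R1 Vale.Agent.P146.U.R1C Vale.Agent.P146.U.H816

open Vale.Agent.P146.H332 hiding Gf Nf

set_option linter.unusedSectionVars false

variable {n : ℕ} {k x : ℝ} {S : CS n k x} {q : Par} {F : (Pair n → ℝ) → ℝ}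
  {D : Pair n → (Pair n → ℝ) → ℝ} {B L : ℝ} {M δ lam M2 ζ : Fin n → Fin n → ℝ}

/-- the data of a pair at the time `s1` -/
lemma hp1 (h : C11 F D B L) (hx : 0 < q.x) (hP : PrS S q F M δ)
    (hI : HIn q F (A1 S q) M M2 ζ lam) {b b' : Fin n} (hb : b' ≠ b) :
    Hp (dens q F) (lf (row b) ∪ lf (row b')) (fun w => H816.col (A1 S q w) b)
      (fun w => H816.col (A1 S q w) b') (a1 S q b b') (a1 S q b' b) (Zn (A1 S q)) (M b b')
      (M2 b b') (δ b b') (ζ b b') (lam b b') := by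
  have e : lf (row b) ∪ lf (row b') = lf (row b ∪ row b') := (lf_union _ _).symm
  rw [e]
  have p := hP b b' hb
  exact
    { ep := eg_dens h hx
      p0 := dens_nonneg
      eA := p.eA
      eA' := p.eA'
      ea := fun i => eg_P2 (eg_cl S _ b b' i)
      ea' := p.ea'
      eZ := eg_Zn hI.eA
      Z0 := Zn_nonneg
      mA := p.mA
      mA' := p.mA'
      ma := p.ma
      ma' := p.ma'
      mZ := hI.mZ b b' hb
      m2 := hI.m2 b b' hb
      hδ := p.hδ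
      hζ := hI.hζ b b' hb
      dA := p.dA
      dA' := p.dA'
      dZ := hI.dZ b b' hb
      l1 := hI.l1 b b' hb
      l2 := hI.l2 b b' hb
      l3 := hI.l3 b b' hb }

/-- the data of a pair at the time `s2` -/
lemma hp2 (h : C11 F D B L) (hx : 0 < q.x) (hP : PrS S q F M δ)
    (hI : HIn q F (A2 S q) M M2 ζ lam) {b b' : Fin n} (hb : b' ≠ b) :
    Hp (dens q F) (lf (row b) ∪ lf (row b')) (fun w => H816.col (A2 S q w) b)
      (fun w => H816.col (A2 S q w) b') (a2 S q b b') (a2 S q b' b) (Zn (A2 S q)) (M b b')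
      (M2 b b') (δ b b') (ζ b b') (lam b b') := by
  have e : lf (row b) ∪ lf (row b') = lf (row b ∪ row b') := (lf_union _ _).symm
  rw [e]
  have p := hP b b' hb
  exact
    { ep := eg_dens h hx
      p0 := dens_nonneg
      eA := p.eD
      eA' := p.eD'
      ea := fun i => eg_P3 (eg_cl S _ b b' i)
      ea' := p.ed'
      eZ := eg_Zn hI.eA
      Z0 := Zn_nonneg
      mA := p.mD
      mA' := p.mD'
      ma := p.md
      ma' := p.md'
      mZ := hI.mZ b b' hb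
      m2 := hI.m2 b b' hb
      hδ := p.hδ
      hζ := hI.hζ b b' hb
      dA := p.dD
      dA' := p.dD'
      dZ := hI.dZ b b' hb
      l1 := hI.l1 b b' hb
      l2 := hI.l2 b b' hb
      l3 := hI.l3 b b' hb }

/-- the mean square of the clean column in the objects of `CDef` -/
lemma eF1 (hq : q.Ok) (b b' : Fin n) (w : K4 (Pair n) → ℝ) :
    eF (lf (row b ∪ row b')) b b' (a1 S q b b') w = ee S q.s1 b b' (P2 q w) := by
  unfold eF ee
  have he : EG fun z => ∑ i, cl0 S q.s1 b b' z i ^ 2 := by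
    refine EG.sum _ fun i _ => ?_
    unfold cl0
    by_cases hi : i = b ∨ i = b'
    · simp only [hi, if_true]
      exact (EG.const 0).pow 2
    · simp only [hi, if_false]
      exact (eg_cl S _ b b' i).pow 2
  rw [← Av_lf_P2 hq he]
  rfl

lemma eF2 (hq : q.Ok) (b b' : Fin n) (w : K4 (Pair n) → ℝ) :
    eF (lf (row b ∪ row b')) b b' (a2 S q b b') w = ee S q.s2 b b' (P3 q w) := by
  unfold eF ee
  have he : EG fun z => ∑ i, cl0 S q.s2 b b' z i ^ 2 := by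
    refine EG.sum _ fun i _ => ?_
    unfold cl0
    by_cases hi : i = b ∨ i = b'
    · simp only [hi, if_true]
      exact (EG.const 0).pow 2
    · simp only [hi, if_false]
      exact (eg_cl S _ b b' i).pow 2
  rw [← Av_lf_P3 hq he]
  rfl

/-- the average of `Zn` in the objects of `CDef` -/
lemma AvZ1 (hq : q.Ok) (R : Finset (Pair n)) (w : K4 (Pair n) → ℝ) :
    Av (lf R) (Zn (A1 S q)) w = AvP q.s1 R (fun z => fr (S.A q.s1 z) / n) (P2 q w) := by
  have he : EG fun z : Pair n → ℝ => fr (S.A q.s1 z) / n := by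
    unfold fr
    simp only [div_eq_inv_mul]
    exact (EG.sum _ fun i _ => EG.sum _ fun j _ => (tA_eg S q.s1 i j).pow 2).const_mul _
  rw [← Av_lf_P2 hq he]
  rfl

lemma AvZ2 (hq : q.Ok) (R : Finset (Pair n)) (w : K4 (Pair n) → ℝ) :
    Av (lf R) (Zn (A2 S q)) w = AvP q.s2 R (fun z => fr (S.A q.s2 z) / n) (P3 q w) := by
  have he : EG fun z : Pair n → ℝ => fr (S.A q.s2 z) / n := by
    unfold fr
    simp only [div_eq_inv_mul]
    exact (EG.sum _ fun i _ => EG.sum _ fun j _ => (tA_eg S q.s2 i j).pow 2).const_mul _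
  rw [← Av_lf_P3 hq he]
  rfl

/-- the difference which the h-row controls, time `s1` -/
noncomputable def hd1 (S : CS n k x) (q : Par) (b b' : Fin n) (w : K4 (Pair n) → ℝ) : ℝ :=
  1 + ee S q.s1 b b' (P2 q w) -
    AvP q.s1 (row b ∪ row b') (fun z => fr (S.A q.s1 z) / n) (P2 q w)

/-- the difference which the h-row controls, time `s2` -/
noncomputable def hd2 (S : CS n k x) (q : Par) (b b' : Fin n) (w : K4 (Pair n) → ℝ) : ℝ :=
  1 + ee S q.s2 b b' (P3 q w) -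
    AvP q.s2 (row b ∪ row b') (fun z => fr (S.A q.s2 z) / n) (P3 q w)

/-- **(T4)**, time `s1` -/
theorem hrow1 (h : C11 F D B L) (hq : q.Ok) (hP : PrS S q F M δ)
    (hI : HIn q F (A1 S q) M M2 ζ lam) :
    ∑ b, ∑ b' ∈ Finset.univ.erase b, Ew q F (fun w => hd1 S q b b' w ^ 2) ≤
      ∑ b, ∑ b' ∈ Finset.univ.erase b,
        (4 * lam b b' + 8 * (δ b b' * √(M b b')) + 2 * (ζ b b' * √(M2 b b'))) := by
  have key := hrow_sum (p := dens q F) (Z := Zn (A1 S q)) (Rb := fun b => lf (row b))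
    (ρ := fun b b' => pk (Equiv.swap b b')) (A := fun b w => H816.col (A1 S q w) b)
    (a := a1 S q) (d := a2 S q) (M := M) (M2 := M2) (δ := δ) (ζ := ζ) (lam := lam)
    (eg_dens h hq.x0) (fun b i => hI.eA i b) (eg_Zn hI.eA)
    (fun b b' hb => two_cs S q hb.symm) (fun b b' hb w => cl_self S _ b b' _)
    (fun b b' hb => hp1 h hq.x0 hP hI hb.symm) (fun w => sum_vs_col _) dens_nonneg
  refine le_trans (le_of_eq ?_) key
  refine Finset.sum_congr rfl fun b _ => Finset.sum_congr rfl fun b' _ => ?_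
  unfold Ew
  refine integral_congr_ae (Filter.Eventually.of_forall fun w => ?_)
  simp only
  rw [← lf_union, eF1 hq, AvZ1 hq]
  rfl

/-- **(T4)**, time `s2` -/
theorem hrow2 (h : C11 F D B L) (hq : q.Ok) (hP : PrS S q F M δ)
    (hI : HIn q F (A2 S q) M M2 ζ lam) :
    ∑ b, ∑ b' ∈ Finset.univ.erase b, Ew q F (fun w => hd2 S q b b' w ^ 2) ≤
      ∑ b, ∑ b' ∈ Finset.univ.erase b,
        (4 * lam b b' + 8 * (δ b b' * √(M b b')) + 2 * (ζ b b' * √(M2 b b'))) := by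
  have key := hrow_sum (p := dens q F) (Z := Zn (A2 S q)) (Rb := fun b => lf (row b))
    (ρ := fun b b' => pk (Equiv.swap b b')) (A := fun b w => H816.col (A2 S q w) b)
    (a := a2 S q) (d := a1 S q) (M := M) (M2 := M2) (δ := δ) (ζ := ζ) (lam := lam)
    (eg_dens h hq.x0) (fun b i => hI.eA i b) (eg_Zn hI.eA)
    (fun b b' hb => Two_symm (two_cs S q hb.symm)) (fun b b' hb w => cl_self S _ b b' _)
    (fun b b' hb => hp2 h hq.x0 hP hI hb.symm) (fun w => sum_vs_col _) dens_nonneg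
  refine le_trans (le_of_eq ?_) key
  refine Finset.sum_congr rfl fun b _ => Finset.sum_congr rfl fun b' _ => ?_
  unfold Ew
  refine integral_congr_ae (Filter.Eventually.of_forall fun w => ?_)
  simp only
  rw [← lf_union, eF2 hq, AvZ2 hq]
  rfl

/-! ### normalized form -/

variable {m6 dl m4 zl ls : ℝ}

/-- **(T4)**, time `s1`, normalized -/
theorem hrow1_n (h : C11 F D B L) (hq : q.Ok) (hP : PrS S q F M δ)
    (hI : HIn q F (A1 S q) M M2 ζ lam) (hN : HNb q F M δ M2 ζ lam m6 dl m4 zl ls) :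
    ∑ b, ∑ b' ∈ Finset.univ.erase b, En q F (fun w => hd1 S q b b' w ^ 2) ≤
      4 * (n ^ 2 * ls) + 8 * (n * √(m6 * dl)) + 2 * (n * √(m4 * zl)) := by
  have hE := Ew_one_pos (q := q) h hq.x0
  rw [En_sum, div_le_iff₀ hE]
  exact (hrow1 h hq hP hI).trans (hN.err h hq.x0)

/-- **(T4)**, time `s2`, normalized -/
theorem hrow2_n (h : C11 F D B L) (hq : q.Ok) (hP : PrS S q F M δ)
    (hI : HIn q F (A2 S q) M M2 ζ lam) (hN : HNb q F M δ M2 ζ lam m6 dl m4 zl ls) :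
    ∑ b, ∑ b' ∈ Finset.univ.erase b, En q F (fun w => hd2 S q b b' w ^ 2) ≤
      4 * (n ^ 2 * ls) + 8 * (n * √(m6 * dl)) + 2 * (n * √(m4 * zl)) := by
  have hE := Ew_one_pos (q := q) h hq.x0
  rw [En_sum, div_le_iff₀ hE]
  exact (hrow2 h hq hP hI).trans (hN.err h hq.x0)

end Vale.Agent.P146.U.R1S
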