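import Vale.Agent.P146.H604.HNumS
import Vale.Agent.P146.U.H604_HNum
import Vale.Agent.P146.U.H816_SkNS
import Vale.Agent.P146.U.H941_HRowS
import Vale.Agent.P146.U.H94.HTouN
import Vale.Agent.P146.U.H94.HnumR
import Vale.Agent.P146.U.NS

/-!
R1, block C: the h-row for a position system which satisfies the output of the block F.
-/

open MeasureTheory ProbabilityTheory

namespace Vale.Agent.P146.U.R1S

open Vale.Agent.P146.R1S hiding A1 A2 A_flip AvZ1 AvZ2 Av_Uc CS Ca Cd ClS DA_sum_le Dg Ew1_pos_S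
  Gb Gb_eq H4 H8 LamS MM MS M_le Nd Nd_eq Nd_ind NumS NumS.hrow PrS PrS.mono RareS Sa Sa_eq Sa_ind
  Sd Sd_eq Sd_ind Uc Uc' Wn_S Xb_eq Y1 Y1_nonneg Y2 Y2_nonneg Y_le Yb_eq Zs a1 a1_eq a2 a2_eq
  abs_cl blk_a blk_d cl cl0 cl_act cl_cs cl_odd cl_other cl_self cm1 cm2 cm3 cm4 cm_gen col2 col4
  col6 col8 d2 d2_parts dS dS_sq d_le dlS eF1 eF2 ee eg_A1 eg_A2 eg_Ca eg_Cd eg_Gb eg_Nd eg_Sa
  eg_Sd eg_Uc eg_Uc' eg_Y eg_Y1 eg_Y2 eg_Yd eg_cl eg_cl0 eg_frNd eg_ph_S eg_rat eg_tch eg_vn_col_S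
  full_gen grF_rows grF_rows_le hd1 hd2 hin_S hp1 hp2 hrow1 hrow1_n hrow2 hrow2_n ind_Ca ind_Cd
  ind_Gb ind_Yd ind_cl ind_cl2 ind_cl3 ind_frNd int_gen lam_S lam_gen_S law_low_S law_up_S
  lf_psi_S lf_psi_gr lw_abs lw_comm lw_eg lw_gr_row lw_oth lw_self lw_vn_le m6S odd_col pd_Uc
  ph_nonneg_S pr_cs psi_four_S rat six six_cl sum_Uc'_le sum_tch tA_T tA_abs tA_comm tA_cont tA_eg
  tA_self tch tch_le tch_nonneg touch two_cs two_t vn_col_Uc vn_le_nS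

open Vale.Agent.P157.Lv Vale.Agent.P146.H425 Vale.Agent.P146.H325 Vale.Agent.P146.H604 Matrix
open Vale.Agent.P146.H712 hiding En_sub En_sum LLow LUp bt3 eg_P0 eg_P1 eg_P2 eg_P3 int_dens k0 k1
  k2 k3 llow lup pd_P0 pd_P1 pd_P2 pd_P3 sum_k0 sum_k1 sum_k2 sum_k3
open Vale.Agent.P146.H816 hiding Gb_eq Nd_eq P0_act P1_act P2_act P3_act Sa_eq Sd_eq Xb_eq Yb_eq
  blk_a blk_d eg_Ca eg_Cd ind_Ca ind_Cd ind_cl2 ind_cl3 two_sk
open Vale.Agent.P146.R1 hiding Et Et4 Et4_123 Et4_124 Et4_add Et4_const Et4_const_mul Et4_cs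
  Et4_mono Et4_nonneg Et4_sub Et_add Et_const Et_const_mul Et_cs Et_fst_eq Et_jensen Et_mono
  Et_nonneg Et_sub Et_weight Et_zero Eu Eu4 Eu4_123 Eu4_124 Eu4_add Eu4_cond Eu4_const_mul
  Eu4_iter Eu4_mono Eu4_nonneg Eu4_one_eq Eu4_one_eq' Eu4_one_pos Eu4_weight Eu_add Eu_const_mul
  Eu_fst Eu_fst_eq Eu_iter Eu_mono Eu_nonneg Eu_one Eu_one_eq Eu_one_pos Eu_weight Eu_zero
  Eu_zero_one Lth Lth_zero Qt dn dn_pos e3_dn eg_Eu eg_Eu4
open Vale.Agent.P146.R1C hiding A1 A2 AvZ1 AvZ2 Av_lf_P0 Av_lf_P1 Av_lf_P2 Av_lf_P23 Av_lf_P23_row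
  Av_lf_P3 Ca Cd ClSk Dg En En_add En_const En_const_mul En_eq En_mono En_nonneg En_pow_le
  En_prod_le En_rare En_sum Ew Ew1_pos Ew_add Ew_const_mul Ew_eq Ew_mono Ew_nonneg Ew_one_pos Fo
  FoSk Gb H4 H8 HIn HNb LamSk Law2 Low Nb Nd Nd_ind NumH P0 P0_lp P0_sw P1 P1_lp P1_sw P2 P2_lp
  P2_sw P3 P3_lp P3_sw Par PrSk Rare Sa Sa_ind Sd Sd_ind Zk Zn_mom Zn_touch a1 a1_eq a2 a2_eq
  cl_sk den_pos dens dens_eq dens_nonneg eC eF1 eF2 eg_A1 eg_A2 eg_Gb eg_Nd eg_Sa eg_Sd eg_Yd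
  eg_den eg_dens eg_frNd eg_psi' hd1 hd2 hin_gen hp1 hp2 hrow1 hrow1_n hrow2 hrow2_n ind_Gb ind_Yd
  ind_frNd int_Av_dens int_Av_one int_ph k0_sum k1_sum kk_NN lamSk_num lam_gen_num lam_gen_sk
  lam_le lam_sk law2_of law_low law_low_sk law_up law_up_sk lf_psi lip_psi low_int lsk pd_psi ph
  psi psi' psi_four_le psi_four_sk psi_sq_le
open Vale.Agent.P146.U.H712 Vale.Agent.P146.U.H816 Vale.Agent.P146.U.R1 Vale.Agent.P146.U.R1C

open Vale.Agent.P146.H332 hiding Gf Nf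

open Vale.Agent.P146.U.H94

set_option linter.unusedSectionVars false

section row

variable {n : ℕ} {k x : ℝ} {S : CS n k x} {q : Par} {F : (Pair n → ℝ) → ℝ}
  {D : Pair n → (Pair n → ℝ) → ℝ} {B L : ℝ} {M δ lam ζ : Fin n → Fin n → ℝ}

/-- The inputs of the h-row at one time (besides `PrS`): the third moment of `Zn A`, the touch `ζ`
of the norm `Nn A`, the law change of the three functionals. -/
structure HInN (q : Par) (F : (Pair n → ℝ) → ℝ) (A : (K4 (Pair n) → ℝ) → Matrix (Fin n) (Fin n) ℝ)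
    (M ζ lam : Fin n → Fin n → ℝ) : Prop where
  eA : ∀ i j, EG fun w => A w i j
  mZ : ∀ b b', b' ≠ b → ∫ w, ph q F b b' w * Zn A w ^ 3 ∂(gI (K4 (Pair n))) ≤ M b b'
  hζ : ∀ b b', b' ≠ b → 0 ≤ ζ b b'
  dN : ∀ b b', b' ≠ b → ∫ w, ph q F b b' w *
    (Nn A w - Av (lf (row b ∪ row b')) (Nn A) w) ^ 2 ∂(gI (K4 (Pair n))) ≤ ζ b b' ^ 2
  l1 : ∀ b b', b' ≠ b →
    ∫ w, ph q F b b' w * (H706.vs (H816.col (A w) b) * H706.vs (H816.col (A w) b'))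
      ∂(gI (K4 (Pair n))) ≤
    ∫ w, dens q F w * (H706.vs (H816.col (A w) b) * H706.vs (H816.col (A w) b'))
      ∂(gI (K4 (Pair n))) + lam b b'
  l2 : ∀ b b', b' ≠ b →
    ∫ w, dens q F w * (H706.vs (H816.col (A w) b) * Zn A w) ∂(gI (K4 (Pair n))) ≤
    ∫ w, ph q F b b' w * (H706.vs (H816.col (A w) b) * Zn A w) ∂(gI (K4 (Pair n))) + lam b b'
  l3 : ∀ b b', b' ≠ b →
    ∫ w, ph q F b b' w * Zn A w ^ 2 ∂(gI (K4 (Pair n))) ≤
    ∫ w, dens q F w * Zn A w ^ 2 ∂(gI (K4 (Pair n))) + lam b b'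

/-- the data of a pair at the time `s1` -/
lemma hp1N (h : C11 F D B L) (hx : 0 < q.x) (hP : PrS S q F M δ)
    (hI : HInN q F (A1 S q) M ζ lam) {b b' : Fin n} (hb : b' ≠ b) :
    HpN (dens q F) (lf (row b) ∪ lf (row b')) (fun w => H816.col (A1 S q w) b)
      (fun w => H816.col (A1 S q w) b') (a1 S q b b') (a1 S q b' b) (Zn (A1 S q)) (Nn (A1 S q))
      (M b b') (δ b b') (ζ b b') (lam b b') := by
  have e : lf (row b) ∪ lf (row b') = lf (row b ∪ row b') := (lf_union _ _).symm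
  rw [e]
  have p := hP b b' hb
  exact
    { ep := eg_dens h hx
      p0 := dens_nonneg
      eA := p.eA
      eA' := p.eA'
      ea := fun i => eg_P2 (eg_cl S _ b b' i)
      ea' := p.ea'
      eZ := eg_Zn hI.eA
      eN := eg_Nn hI.eA
      N0 := Nn_nonneg
      ZN := Nn_sq
      mA := p.mA
      mA' := p.mA'
      ma := p.ma
      ma' := p.ma'
      mZ := hI.mZ b b' hb
      hδ := p.hδ
      hζ := hI.hζ b b' hb
      dA := p.dA
      dA' := p.dA'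
      dN := hI.dN b b' hb
      l1 := hI.l1 b b' hb
      l2 := hI.l2 b b' hb
      l3 := hI.l3 b b' hb }

/-- **(T4)**, time `s1`, truncated -/
theorem hrow1T (h : C11 F D B L) (hq : q.Ok) (hP : PrS S q F M δ)
    (hI : HInN q F (A1 S q) M ζ lam) {l : ℝ} (hl : 0 < l) :
    ∑ b, ∑ b' ∈ Finset.univ.erase b, Ew q F (fun w => min 1 (hd1 S q b b' w ^ 2 / l ^ 2)) ≤
      2 / l ^ 2 * (∑ b, ∑ b' ∈ Finset.univ.erase b,
        (4 * lam b b' + 8 * (δ b b' * √(M b b')) + 4 * (ζ b b' * √(M b b')))) +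
      2 / l * ∑ b, ∑ b' ∈ Finset.univ.erase b, ζ b b' ^ 2 := by
  have key := hrow_sumT (p := dens q F) (Z := Zn (A1 S q)) (Nm := Nn (A1 S q))
    (Rb := fun b => lf (row b))
    (ρ := fun b b' => pk (Equiv.swap b b')) (A := fun b w => H816.col (A1 S q w) b)
    (a := a1 S q) (d := a2 S q) (M := M) (δ := δ) (ζ := ζ) (lam := lam)
    (eg_dens h hq.x0) (fun b i => hI.eA i b) (eg_Zn hI.eA)
    (fun b b' hb => two_cs S q hb.symm) (fun b b' hb w => cl_self S _ b b' _)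
    (fun b b' hb => hp1N h hq.x0 hP hI hb.symm) (fun w => sum_vs_col _) dens_nonneg hl
  refine le_trans (le_of_eq ?_) key
  refine Finset.sum_congr rfl fun b _ => Finset.sum_congr rfl fun b' _ => ?_
  unfold Ew
  refine integral_congr_ae (Filter.Eventually.of_forall fun w => ?_)
  simp only
  rw [← lf_union, eF1 hq, AvZ1 hq]
  rfl

/-! ### normalized form -/

/-- the numbers: `M ≤ E m6`, `∑ δ² ≤ E dl`, `∑ ζ² ≤ E zl`, `lam ≤ E ls` -/
structure HNbN (q : Par) (F : (Pair n → ℝ) → ℝ) (M δ ζ lam : Fin n → Fin n → ℝ)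
    (m6 dl zl ls : ℝ) : Prop where
  m60 : 0 ≤ m6
  l0 : 0 ≤ ls
  d0 : ∀ b b', b' ≠ b → 0 ≤ δ b b'
  z0 : ∀ b b', b' ≠ b → 0 ≤ ζ b b'
  hM : ∀ b b', b' ≠ b → M b b' ≤ Ew q F (fun _ => 1) * m6
  hδ : ∑ b, ∑ b' ∈ Finset.univ.erase b, δ b b' ^ 2 ≤ Ew q F (fun _ => 1) * dl
  hζ : ∑ b, ∑ b' ∈ Finset.univ.erase b, ζ b b' ^ 2 ≤ Ew q F (fun _ => 1) * zl
  hl : ∀ b b', b' ≠ b → lam b b' ≤ Ew q F (fun _ => 1) * ls

variable {m6 dl zl ls : ℝ}

lemma HNbN.err (hN : HNbN q F M δ ζ lam m6 dl zl ls) (h : C11 F D B L) (hx : 0 < q.x) :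
    ∑ b : Fin n, ∑ b' ∈ Finset.univ.erase b,
      (4 * lam b b' + 8 * (δ b b' * √(M b b')) + 4 * (ζ b b' * √(M b b'))) ≤
      (4 * (n ^ 2 * ls) + 8 * (n * √(m6 * dl)) + 4 * (n * √(m6 * zl))) *
        Ew q F (fun _ => 1) := by
  have hE := Ew_one_pos (q := q) h hx
  have h1 := sum_pairs_le (lam := lam) hN.hM hN.hδ hN.hl (mul_nonneg hE.le hN.l0)
    (c := 4) (c' := 8) (by norm_num) (by norm_num) (mul_nonneg hE.le hN.m60) hN.d0
  have h2 := sum_pairs_le (lam := fun _ _ => 0) (ls := 0) hN.hM hN.hζ (fun _ _ _ => le_rfl) le_rfl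
    (c := 0) (c' := 4) le_rfl (by norm_num) (mul_nonneg hE.le hN.m60) hN.z0
  rw [err_scale hE] at h1
  have e2 : (0 : ℝ) = Ew q F (fun _ => 1) * 0 := by ring
  rw [e2, err_scale hE] at h2
  simp only [Finset.sum_add_distrib] at h1 h2 ⊢
  simp only [mul_zero, Finset.sum_const_zero, zero_add] at h2
  linarith

/-- **(T4)**, time `s1`, truncated, normalized -/
theorem hrow1T_n (h : C11 F D B L) (hq : q.Ok) (hP : PrS S q F M δ)
    (hI : HInN q F (A1 S q) M ζ lam) (hN : HNbN q F M δ ζ lam m6 dl zl ls) {l : ℝ}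
    (hl : 0 < l) :
    ∑ b, ∑ b' ∈ Finset.univ.erase b, En q F (fun w => min 1 (hd1 S q b b' w ^ 2 / l ^ 2)) ≤
      2 / l ^ 2 * (4 * (n ^ 2 * ls) + 8 * (n * √(m6 * dl)) + 4 * (n * √(m6 * zl))) +
        2 / l * zl := by
  have hE := Ew_one_pos (q := q) h hq.x0
  rw [En_sum, div_le_iff₀ hE]
  refine (hrow1T h hq hP hI hl).trans ?_
  have h1 := mul_le_mul_of_nonneg_left (hN.err h hq.x0) (by positivity : 0 ≤ 2 / l ^ 2)
  have h2 := mul_le_mul_of_nonneg_left hN.hζ (by positivity : 0 ≤ 2 / l)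
  linarith

end row

section gen

variable {n : ℕ} {q : Par} {F : (Pair n → ℝ) → ℝ} {D : Pair n → (Pair n → ℝ) → ℝ}
  {B L ε : ℝ} {C : (Pair n → ℝ) → Matrix (Fin n) (Fin n) ℝ}
  {E : Pair n → (Pair n → ℝ) → Matrix (Fin n) (Fin n) ℝ} {c : Fin 4 → ℝ}

/-- the moments of `Zn` under the law of a pair, from the moments of the size -/
lemma Zn_momN (h : C11 F D B L) (hq : q.Ok) (hl : H326.LCh q F ε) (hε0 : 0 ≤ ε)
    (hεn : (n : ℝ) ^ 20 * ε ≤ 1) (n2 : (2 : ℝ) ≤ n)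
    {Am : (K4 (Pair n) → ℝ) → Matrix (Fin n) (Fin n) ℝ}
    (hA : ∀ i j, EG fun w => Am w i j) (hb : ∀ w, fr (Am w) ≤ (n : ℝ) ^ 2) {W u : ℝ}
    (hW : 0 ≤ W) (p : ℕ) (hp : p ≤ 10)
    (hmo : En q F (fun w => fr (Am w) ^ p) ≤ 2 * W ^ p) (hu : W / n ≤ u) (hu1 : 1 ≤ u)
    (b b' : Fin n) :
    ∫ w, ph q F b b' w * Zn Am w ^ p ∂(gI (K4 (Pair n))) ≤
      Ew q F (fun _ => 1) * (5 * u ^ p) := by
  have hx := hq.x0
  have hE := Ew1_pos (q := q) h hx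
  have hn0 : (0 : ℝ) < n := by linarith
  have hZ := eg_Zn hA
  have hZn : ∀ w, Zn Am w ≤ n := by
    intro w
    unfold Zn
    rw [div_le_iff₀ hn0]
    have := hb w
    nlinarith
  have h1 := H326.ph_le h hq hl b b' (f := fun w => Zn Am w ^ p) (K := (n : ℝ) ^ p) (hZ.pow p)
    (fun w => pow_nonneg (Zn_nonneg w) p) (fun w => pow_le_pow_left₀ (Zn_nonneg w) (hZn w) p)
  refine h1.trans (mul_le_mul_of_nonneg_left ?_ hE.le)
  have e1 : En q F (fun w => Zn Am w ^ p) = ((n : ℝ)⁻¹) ^ p * En q F (fun w => fr (Am w) ^ p) := by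
    rw [← R1C.En_const_mul]
    congr 1
    funext w
    unfold Zn
    rw [div_eq_inv_mul, mul_pow]
  have h4 : ((n : ℝ)⁻¹) ^ p * W ^ p ≤ u ^ p := by
    rw [← mul_pow]
    refine pow_le_pow_left₀ (by positivity) ?_ p
    rwa [← div_eq_inv_mul]
  have h6 : (n : ℝ) ^ p * ε ≤ 1 := by
    refine (mul_le_mul_of_nonneg_right (pow_le_pow_right₀ (by linarith) (by omega)) hε0).trans hεn
  have h7 : En q F (fun w => Zn Am w ^ p) ≤ 2 * u ^ p := by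
    rw [e1]
    have a1 := mul_le_mul_of_nonneg_left hmo (by positivity : 0 ≤ ((n : ℝ)⁻¹) ^ p)
    have a2 : ((n : ℝ)⁻¹) ^ p * (2 * W ^ p) = 2 * (((n : ℝ)⁻¹) ^ p * W ^ p) := by ring
    rw [a2] at a1
    linarith
  have h8 : 1 ≤ u ^ p := one_le_pow₀ hu1
  have h9 : ε * (n : ℝ) ^ p ≤ 1 := by rw [mul_comm]; exact h6
  linarith

/-- **the touches of the norm, summed over the pairs** -/
theorem Nn_touch (h : C11 F D B L) (hq : q.Ok) (hl : H326.LCh q F ε) (hε0 : 0 ≤ ε)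
    (hεn : (n : ℝ) ^ 20 * ε ≤ 1) (n2 : (2 : ℝ) ≤ n) (hC : ∀ i j, EG fun z => C z i j)
    (hE : ∀ e i j, EG fun z => E e z i j)
    (hd : ∀ e i j, PD e (fun z => C z i j) (fun z => E e z i j)) (hC1 : ∀ z i, C z i i = 1)
    (hc : c 0 ^ 2 + c 1 ^ 2 + c 2 ^ 2 + c 3 ^ 2 ≤ 1) (hr : ∀ z, ∑ e, fr (E e z) ≤ 9 * (n : ℝ) ^ 4)
    {W T : ℝ} (hW : 1 ≤ W) (hT0 : 0 < T) (hT1 : T ≤ 1)
    (hrt : En q F (fun w => ∑ e, fr (E e (H712.lp c w))) ≤ W / T) :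
    ∑ b : Fin n, ∑ b' ∈ Finset.univ.erase b,
      ∫ w, ph q F b b' w * (Nn (fun w => C (H712.lp c w)) w -
        Av (lf (row b ∪ row b')) (Nn fun w => C (H712.lp c w)) w) ^ 2 ∂(gI (K4 (Pair n))) ≤
      Ew q F (fun _ => 1) * (9 * (W / T)) := by
  have hx := hq.x0
  have hE0 := Ew1_pos (q := q) h hx
  have hn0 : (0 : ℝ) < n := by linarith
  have hn : 0 < n := by exact_mod_cast hn0
  obtain ⟨Z, hZ⟩ : ∃ Z, Z = Ew q F (fun _ : K4 (Pair n) → ℝ => (1 : ℝ)) := ⟨_, rfl⟩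
  rw [← hZ] at hE0 ⊢
  have eE : ∀ e, EG fun w : K4 (Pair n) → ℝ => fr (E e (H712.lp c w)) := fun e =>
    R1C.eg_fr fun i j => eg_lp c (hE e i j)
  have eR : ∀ R : Finset (Pair n), EG fun w : K4 (Pair n) → ℝ => ∑ e ∈ R, fr (E e (H712.lp c w)) :=
    fun R => EG.sum R fun e _ => eE e
  have fR : ∀ (R : Finset (Pair n)) w, 0 ≤ ∑ e ∈ R, fr (E e (H712.lp c w)) := fun R w =>
    Finset.sum_nonneg fun e _ => H332.fr_nonneg _
  have uR : ∀ (R : Finset (Pair n)) w, ∑ e ∈ R, fr (E e (H712.lp c w)) ≤ 9 * (n : ℝ) ^ 4 :=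
    fun R w => (Finset.sum_le_sum_of_subset_of_nonneg (Finset.subset_univ R)
      fun e _ _ => H332.fr_nonneg _).trans (hr _)
  -- one pair
  have one : ∀ b b' : Fin n, ∫ w, ph q F b b' w * (Nn (fun w => C (H712.lp c w)) w -
        Av (lf (row b ∪ row b')) (Nn fun w => C (H712.lp c w)) w) ^ 2 ∂(gI (K4 (Pair n))) ≤
      1 / n * (Z * (2 * ∑ e ∈ row b ∪ row b', En q F (fun w => fr (E e (H712.lp c w))) +
        ε * (9 * (n : ℝ) ^ 4))) := by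
    intro b b'
    have t1 := touch_Nn (R := row b ∪ row b') c hn hC hE hd hC1 (H326.eg_ph h hq b b')
      (H326.ph_nonneg h hq b b') (by unfold ph; exact ind_Av _ _)
    have t2 := H326.ph_le h hq hl b b' (f := fun w =>
      ∑ e ∈ row b ∪ row b', fr (E e (H712.lp c w))) (K := 9 * (n : ℝ) ^ 4)
      (eR _) (fun w => fR _ w) (fun w => uR _ w)
    rw [← hZ, ← H712.En_sum h hx _ fun e _ => eE e] at *
    refine t1.trans ?_
    have h3 : (c 0 ^ 2 + c 1 ^ 2 + c 2 ^ 2 + c 3 ^ 2) / (n : ℝ) ≤ 1 / n := by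
      rw [div_le_div_iff_of_pos_right hn0]
      exact hc
    have h4 : 0 ≤ ∫ w, ph q F b b' w * ∑ e ∈ row b ∪ row b', fr (E e (H712.lp c w))
        ∂(gI (K4 (Pair n))) :=
      integral_nonneg fun w => mul_nonneg (H326.ph_nonneg h hq b b' w) (fR _ w)
    refine (mul_le_mul_of_nonneg_right h3 h4).trans ?_
    exact mul_le_mul_of_nonneg_left t2 (by positivity)
  have g0 : ∀ e, 0 ≤ En q F (fun w => fr (E e (H712.lp c w))) := fun e =>
    R1C.En_nonneg fun w => H332.fr_nonneg _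
  have hpairs := sum_pairs_rows g0
  rw [← H712.En_sum h hx _ fun e _ => eE e] at hpairs
  have hconst := H712.sum_pairs_const (n := n) (ε * (9 * (n : ℝ) ^ 4)) (by positivity)
  have hU : 1 ≤ W / T := by
    rw [le_div_iff₀ hT0]
    linarith
  have hεb : (n : ℝ) ^ 2 * (ε * (9 * (n : ℝ) ^ 4)) ≤ 1 := by
    have a3 : (9 : ℝ) ≤ (n : ℝ) ^ 4 := by
      have := pow_le_pow_left₀ (by norm_num) n2 4
      norm_num at this
      linarith
    have a4 : 9 * (n : ℝ) ^ 6 ≤ (n : ℝ) ^ 20 := by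
      calc 9 * (n : ℝ) ^ 6 ≤ (n : ℝ) ^ 4 * (n : ℝ) ^ 6 :=
            mul_le_mul_of_nonneg_right a3 (by positivity)
        _ = (n : ℝ) ^ 10 := by rw [← pow_add]
        _ ≤ _ := pow_le_pow_right₀ (by linarith) (by norm_num)
    have a5 := mul_le_mul_of_nonneg_right a4 hε0
    have a6 : (n : ℝ) ^ 2 * (ε * (9 * (n : ℝ) ^ 4)) = 9 * (n : ℝ) ^ 6 * ε := by ring
    rw [a6]
    exact a5.trans hεn
  refine (Finset.sum_le_sum fun b _ => Finset.sum_le_sum fun b' _ => one b b').trans ?_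
  have e3 : ∑ b : Fin n, ∑ b' ∈ Finset.univ.erase b, 1 / (n : ℝ) *
      (Z * (2 * ∑ e ∈ row b ∪ row b', En q F (fun w => fr (E e (H712.lp c w))) +
        ε * (9 * (n : ℝ) ^ 4))) =
      1 / (n : ℝ) * (Z * (2 * (∑ b : Fin n, ∑ b' ∈ Finset.univ.erase b,
        ∑ e ∈ row b ∪ row b', En q F (fun w => fr (E e (H712.lp c w)))) +
          ∑ b : Fin n, ∑ _b' ∈ Finset.univ.erase b, ε * (9 * (n : ℝ) ^ 4))) := by
    simp only [← Finset.mul_sum, Finset.sum_add_distrib]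
  rw [e3]
  have f1 : 2 * (∑ b : Fin n, ∑ b' ∈ Finset.univ.erase b,
        ∑ e ∈ row b ∪ row b', En q F (fun w => fr (E e (H712.lp c w)))) +
        ∑ b : Fin n, ∑ _b' ∈ Finset.univ.erase b, ε * (9 * (n : ℝ) ^ 4) ≤ 9 * (n * (W / T)) := by
    have b1 : 4 * (n : ℝ) * En q F (fun w => ∑ e, fr (E e (H712.lp c w))) ≤
        4 * (n : ℝ) * (W / T) := mul_le_mul_of_nonneg_left hrt (by positivity)
    have b2 : (1 : ℝ) ≤ n * (W / T) := by nlinarith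
    linarith
  have f2 := mul_le_mul_of_nonneg_left (mul_le_mul_of_nonneg_left f1 hE0.le)
    (by positivity : (0 : ℝ) ≤ 1 / n)
  refine f2.trans (le_of_eq ?_)
  field_simp

/-- **The inputs of the h-row**, for the matrix `C` at a position. -/
theorem hin_genN (h : C11 F D B L) (hq : q.Ok) (hl : H326.LCh q F ε) (hε0 : 0 ≤ ε)
    (hεn : (n : ℝ) ^ 20 * ε ≤ 1) (n2 : (2 : ℝ) ≤ n) (hC : ∀ i j, EG fun z => C z i j)
    (hE : ∀ e i j, EG fun z => E e z i j)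
    (hd : ∀ e i j, PD e (fun z => C z i j) (fun z => E e z i j)) (hC1 : ∀ z i, C z i i = 1)
    (hc : c 0 ^ 2 + c 1 ^ 2 + c 2 ^ 2 + c 3 ^ 2 ≤ 1)
    (hb : ∀ z, fr (C z) ≤ (n : ℝ) ^ 2) (hr : ∀ z, ∑ e, fr (E e z) ≤ 9 * (n : ℝ) ^ 4)
    {W T u : ℝ} (hW : 1 ≤ W)
    (hmo : ∀ p : ℕ, p ≤ 10 → En q F (fun w => fr (C (H712.lp c w)) ^ p) ≤ 2 * W ^ p)
    (hT0 : 0 < T) (hT1 : T ≤ 1)
    (hrt : En q F (fun w => ∑ e, fr (E e (H712.lp c w))) ≤ W / T)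
    (hu : W / n ≤ u) (hu1 : 1 ≤ u) {m8 lm : ℝ} (hm8 : 5 * u ^ 4 ≤ m8)
    (h4 : ∀ b b' : Fin n, b' ≠ b → ∀ i, i = b ∨ i = b' → ∫ w, ph q F b b' w *
      H706.vs (H816.col (C (H712.lp c w)) i) ^ 4 ∂(gI (K4 (Pair n))) ≤ Ew q F (fun _ => 1) * m8)
    (hlam : ∀ b b' : Fin n, b' ≠ b → ∀ f : (K4 (Pair n) → ℝ) → ℝ, EG f →
      ∫ w, ph q F b b' w * f w ^ 2 ∂(gI (K4 (Pair n))) ≤ Ew q F (fun _ => 1) * m8 →
      |∫ w, dens q F w * f w ∂(gI (K4 (Pair n))) - ∫ w, ph q F b b' w * f w ∂(gI (K4 (Pair n)))| ≤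
        Ew q F (fun _ => 1) * lm)
    {M : Fin n → Fin n → ℝ} (hM : ∀ b b', b' ≠ b → Ew q F (fun _ => 1) * (5 * u ^ 3) ≤ M b b') :
    ∃ ζ : Fin n → Fin n → ℝ, HInN q F (fun w => C (H712.lp c w)) M ζ
        (fun _ _ => Ew q F (fun _ => 1) * lm) ∧
      (∀ b b', 0 ≤ ζ b b') ∧
      ∑ b : Fin n, ∑ b' ∈ Finset.univ.erase b, ζ b b' ^ 2 ≤
        Ew q F (fun _ => 1) * (9 * (W / T)) := by
  have hA : ∀ i j, EG fun w : K4 (Pair n) → ℝ => C (H712.lp c w) i j := fun i j => eg_lp c (hC i j)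
  obtain ⟨Am, hAm⟩ : ∃ Am : (K4 (Pair n) → ℝ) → Matrix (Fin n) (Fin n) ℝ,
      Am = fun w => C (H712.lp c w) := ⟨_, rfl⟩
  have hAe : ∀ i j, EG fun w => Am w i j := by rw [hAm]; exact hA
  have hbm : ∀ w, fr (Am w) ≤ (n : ℝ) ^ 2 := by rw [hAm]; exact fun w => hb _
  have hmm : ∀ p : ℕ, p ≤ 10 → En q F (fun w => fr (Am w) ^ p) ≤ 2 * W ^ p := by
    rw [hAm]; exact hmo
  have hZe := eg_Zn hAe
  have hcol : ∀ i j, EG fun w => H816.col (Am w) i j := fun i j => hAe j i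
  have hvs : ∀ i, EG fun w => H706.vs (H816.col (Am w) i) := fun i =>
    EG.sum _ fun j _ => (hcol i j).pow 2
  have hph : ∀ b b' : Fin n, EG (ph q F b b') := fun b b' => H326.eg_ph h hq b b'
  have hp0 : ∀ (b b' : Fin n) w, 0 ≤ ph q F b b' w := fun b b' => H326.ph_nonneg h hq b b'
  have mom : ∀ (b b' : Fin n) (p : ℕ), p ≤ 10 →
      ∫ w, ph q F b b' w * Zn Am w ^ p ∂(gI (K4 (Pair n))) ≤ Ew q F (fun _ => 1) * (5 * u ^ p) :=
    fun b b' p hp => Zn_momN h hq hl hε0 hεn n2 hAe hbm (by linarith) p hp (hmm p hp) hu hu1 b b'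
  have hZ4 : ∀ b b' : Fin n, ∫ w, ph q F b b' w * Zn Am w ^ 4 ∂(gI (K4 (Pair n))) ≤
      Ew q F (fun _ => 1) * m8 := fun b b' =>
    (mom b b' 4 (by norm_num)).trans
      (mul_le_mul_of_nonneg_left hm8 (Ew1_pos (q := q) h hq.x0).le)
  -- products of two functions with bounded fourth moments
  have half : ∀ b b' : Fin n, b' ≠ b → ∀ f g : (K4 (Pair n) → ℝ) → ℝ, EG f → EG g →
      ∫ w, ph q F b b' w * f w ^ 4 ∂(gI (K4 (Pair n))) ≤ Ew q F (fun _ => 1) * m8 →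
      ∫ w, ph q F b b' w * g w ^ 4 ∂(gI (K4 (Pair n))) ≤ Ew q F (fun _ => 1) * m8 →
      ∫ w, ph q F b b' w * (f w * g w) ^ 2 ∂(gI (K4 (Pair n))) ≤ Ew q F (fun _ => 1) * m8 := by
    intro b b' _ f g hf hg h5 h6
    have h7 : ∫ w, ph q F b b' w * (f w * g w) ^ 2 ∂(gI (K4 (Pair n))) ≤
        ∫ w, ph q F b b' w * ((1 / 2) * f w ^ 4 + (1 / 2) * g w ^ 4) ∂(gI (K4 (Pair n))) := by
      refine mono_dm (hph b b') (hp0 b b') ((hf.mul hg).pow 2)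
        (((hf.pow 4).const_mul _).add ((hg.pow 4).const_mul _)) fun w => ?_
      nlinarith [sq_nonneg (f w ^ 2 - g w ^ 2)]
    rw [add_dm (hph b b') ((hf.pow 4).const_mul _) ((hg.pow 4).const_mul _), cmul_dm,
      cmul_dm] at h7
    linarith
  have h4m : ∀ b b' : Fin n, b' ≠ b → ∀ i, i = b ∨ i = b' → ∫ w, ph q F b b' w *
      H706.vs (H816.col (Am w) i) ^ 4 ∂(gI (K4 (Pair n))) ≤ Ew q F (fun _ => 1) * m8 := by
    rw [hAm]; exact h4
  have htch := Nn_touch h hq hl hε0 hεn n2 hC hE hd hC1 hc hr hW hT0 hT1 hrt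
  rw [← hAm] at htch ⊢
  have hi0 : ∀ b b' : Fin n, 0 ≤ ∫ w, ph q F b b' w *
      (Nn Am w - Av (lf (row b ∪ row b')) (Nn Am) w) ^ 2 ∂(gI (K4 (Pair n))) := fun b b' =>
    integral_nonneg fun w => mul_nonneg (hp0 b b' w) (sq_nonneg _)
  refine ⟨fun b b' => √(∫ w, ph q F b b' w *
      (Nn Am w - Av (lf (row b ∪ row b')) (Nn Am) w) ^ 2 ∂(gI (K4 (Pair n)))),
    ⟨hAe, fun b b' hb' => (mom b b' 3 (by norm_num)).trans (hM b b' hb'),
      fun b b' _ => Real.sqrt_nonneg _, fun b b' _ => (Real.sq_sqrt (hi0 b b')).ge, ?_, ?_, ?_⟩,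
    fun b b' => Real.sqrt_nonneg _, ?_⟩
  · intro b b' hb'
    have a1 := half b b' hb' _ _ (hvs b) (hvs b') (h4m b b' hb' b (Or.inl rfl))
      (h4m b b' hb' b' (Or.inr rfl))
    have a2 := hlam b b' hb' (fun w => H706.vs (H816.col (Am w) b) * H706.vs (H816.col (Am w) b'))
      ((hvs b).mul (hvs b')) a1
    have := (abs_le.1 a2).1
    linarith
  · intro b b' hb'
    have a1 := half b b' hb' _ _ (hvs b) hZe (h4m b b' hb' b (Or.inl rfl)) (hZ4 b b')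
    have a2 := hlam b b' hb' (fun w => H706.vs (H816.col (Am w) b) * Zn Am w)
      ((hvs b).mul hZe) a1
    have := (abs_le.1 a2).2
    linarith
  · intro b b' hb'
    have a1 : ∫ w, ph q F b b' w * (Zn Am w ^ 2) ^ 2 ∂(gI (K4 (Pair n))) ≤
        Ew q F (fun _ => 1) * m8 := by
      have e1 : ∀ w, (Zn Am w ^ 2) ^ 2 = Zn Am w ^ 4 := fun w => by ring
      simp only [e1]
      exact hZ4 b b'
    have a2 := hlam b b' hb' (fun w => Zn Am w ^ 2) (hZe.pow 2) a1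
    have := (abs_le.1 a2).1
    linarith
  · refine le_trans (le_of_eq ?_) htch
    refine Finset.sum_congr rfl fun b _ => Finset.sum_congr rfl fun b' _ => ?_
    exact Real.sq_sqrt (hi0 b b')

end gen

section mono

variable {n : ℕ} {k x : ℝ} {S : CS n k x} {q : Par} {F : (Pair n → ℝ) → ℝ}
  {M M' δ : Fin n → Fin n → ℝ}

/-- larger moments -/
lemma PrS.mono (h : PrS S q F M δ) (hM : ∀ b b', b' ≠ b → M b b' ≤ M' b b') :
    PrS S q F M' δ := by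
  intro b b' hb
  have p := h b b' hb
  have m := hM b b' hb
  exact
    { p with
      mA := p.mA.trans m
      mD := p.mD.trans m
      mA' := p.mA'.trans m
      mD' := p.mD'.trans m
      ma := p.ma.trans m
      md := p.md.trans m
      ma' := p.ma'.trans m
      md' := p.md'.trans m }

end mono

variable {n : ℕ} {β A δ T ρ Λ ε s ye : ℝ} {q : Par} {S : CS n (kk n β) q.x}

lemma DA_sum_le (hk : kk n β ^ 2 ≤ 1) (hs : 0 < s) (z : Pair n → ℝ) :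
    ∑ e, fr (S.DA s e z) ≤ 9 * (n : ℝ) ^ 4 := by
  have h1 : ∀ e : Pair n, fr (S.DA s e z) ≤ (n : ℝ) ^ 2 := by
    intro e
    unfold fr
    refine (Finset.sum_le_sum fun i _ => Finset.sum_le_sum fun j _ =>
      (S.DA_sq_le hs e z i j).trans hk).trans ?_
    simp only [Finset.sum_const, Finset.card_univ, Fintype.card_fin, nsmul_eq_mul]
    exact le_of_eq (by ring)
  refine (Finset.sum_le_sum fun e _ => h1 e).trans ?_
  rw [Finset.sum_const, Finset.card_univ, nsmul_eq_mul]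
  have h2 : (Fintype.card (Pair n) : ℝ) ≤ (n : ℝ) ^ 2 := by
    have h3 := Fintype.card_subtype_le (fun p : Fin n × Fin n => p.1 < p.2)
    rw [Fintype.card_prod, Fintype.card_fin] at h3
    calc (Fintype.card (Pair n) : ℝ) ≤ ((n * n : ℕ) : ℝ) := by exact_mod_cast h3
      _ = (n : ℝ) ^ 2 := by push_cast; ring
  have h4 : (0 : ℝ) ≤ (n : ℝ) ^ 4 := by positivity
  calc (Fintype.card (Pair n) : ℝ) * (n : ℝ) ^ 2 ≤ (n : ℝ) ^ 2 * (n : ℝ) ^ 2 :=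
        mul_le_mul_of_nonneg_right h2 (by positivity)
    _ ≤ _ := by nlinarith

/-- the size of `A N / n` -/
lemma Wn_S (h : Fo n β A δ T ρ Λ S.y q S.F S.A S.DA) :
    A * NN n β ρ / n ≤ (1 + 1 / β ^ 2) * (2 * A * ρ) := by
  have hn := h.n0
  have hβ := h.β0
  have e : A * NN n β ρ / n = 1 / β ^ 2 * (2 * A * ρ) := by
    unfold R1C.NN
    field_simp
  rw [e]
  have := h.yA
  nlinarith

/-- the inputs of the h-row at one time -/
lemma hin_S (h : NumS S A δ T ρ Λ ε) {u : ℝ} (hu : 2 * A * ρ ≤ u) (huW : A * NN n β ρ / n ≤ u)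
    (c : Fin 4 → ℝ) (hcs : c 0 ^ 2 + c 1 ^ 2 + c 2 ^ 2 + c 3 ^ 2 = s) (hs : 0 < s) (hs1 : s ≤ 1)
    (hmo : MoS S A ρ s c)
    (hrt : En q S.F (fun w => ∑ e, fr (S.DA s e (H712.lp c w))) ≤ A * NN n β ρ / T) :
    ∃ ζ : Fin n → Fin n → ℝ, HInN q S.F
      (fun w => S.A s (H712.lp c w))
      (fun _ _ => Ew q S.F (fun _ => 1) * (48884 * u ^ 3)) ζ
      (fun _ _ => Ew q S.F (fun _ => 1) *
        (6 * q.x * kk n β * √(√(182 * (2 * A * ρ) ^ 2)) * √(4449608 * u ^ 4))) ∧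
      (∀ b b', 0 ≤ ζ b b') ∧
      ∑ b : Fin n, ∑ b' ∈ Finset.univ.erase b, ζ b b' ^ 2 ≤
        Ew q S.F (fun _ => 1) * (9 * (A * NN n β ρ / T)) := by
  have hq := h.fo.ok
  have hy := h.fo.yA
  have hE := h.Z0
  have hu1 : 1 ≤ u := hy.trans hu
  have hy4 : (2 * A * ρ) ^ 4 ≤ u ^ 4 := pow_le_pow_left₀ (by linarith) hu 4
  have one3 : 1 ≤ u ^ 3 := one_le_pow₀ hu1
  have one4 : 1 ≤ u ^ 4 := one_le_pow₀ hu1
  exact hin_genN S.c11 hq h.law.low h.ε0 h.εn h.fo.n0 (fun i j => S.eg_A s i j)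
    (fun e i j => S.eg_DA s e i j) (fun e i j => S.pd_A s e i j) (fun z i => tA_self S s z i)
    (by rw [hcs]; exact hs1)
    (fun z => S.fr_A_le s z) (fun z => DA_sum_le h.fo.kk_le hs z) h.fo.AN1 hmo
    h.fo.Tp h.fo.T1 hrt huW hu1 (by linarith)
    (fun b b' _ i hi => (h.c8 c hcs hs hs1 hmo hi).trans (mul_le_mul_of_nonneg_left
      (by linarith) hE.le))
    (fun b b' hb f hf hm => lam_gen_S S hq h.hl (by positivity) h.h4 hb hf hm)
    (fun b b' _ => mul_le_mul_of_nonneg_left (by linarith) hE.le)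

/-- **The h-row**, truncated, at the time `s1`. -/
theorem NumS.hrowT (h : NumS S A δ T ρ Λ ε) {l : ℝ} (hl : 0 < l) :
    ∑ b, ∑ b' ∈ Finset.univ.erase b,
      En q S.F (fun w => min 1 (hd1 S q b b' w ^ 2 / l ^ 2)) ≤
      2 / l ^ 2 * (Hn β * A ^ 3 *
        (q.x * (√(NN n β ρ) / n) * NN n β ρ ^ 2 + NN n β ρ ^ 2 / √(n * T))) +
      2 / l * (9 * (A * NN n β ρ / T)) := by
  have hc := S.c11
  have hq := h.fo.ok
  have hy := h.fo.yA
  have hn := h.fo.n0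
  have hE := h.Z0
  have hβ := h.fo.β0
  have hs1p := h.s1p
  obtain ⟨y, hyy⟩ : ∃ y, y = 2 * A * ρ := ⟨_, rfl⟩
  obtain ⟨g, hg⟩ : ∃ g, g = 1 + 1 / β ^ 2 := ⟨_, rfl⟩
  have hg1 : 1 ≤ g := by
    rw [hg]
    have : 0 ≤ 1 / β ^ 2 := by positivity
    linarith
  have hWn := Wn_S h.fo
  rw [← hyy, ← hg] at hWn
  rw [← hyy] at hy
  have hyg : y ≤ g * y := by nlinarith
  obtain ⟨Z, hZ⟩ : ∃ Z, Z = Ew q S.F (fun _ : K4 (Pair n) → ℝ => (1 : ℝ)) := ⟨_, rfl⟩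
  have hZ0 : 0 < Z := by rw [hZ]; exact hE
  have hm6 : m6S S q S.F ε ≤ 48884 * (g * y) ^ 3 := by
    refine h.m6.trans ?_
    rw [← hyy]
    have := pow_le_pow_left₀ (by linarith) hyg 3
    linarith
  have hP0 := pr_cs (S := S) hc hq hs1p
  have hP := hP0.mono (M' := fun _ _ => Z * (48884 * (g * y) ^ 3)) fun b b' _ => by
    refine (M_le hc hq h.law.low b b').trans ?_
    rw [← hZ]
    exact mul_le_mul_of_nonneg_left hm6 hZ0.le
  have hT := h.fo.Tp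
  have hN := h.fo.N0
  have hA := h.fo.A1
  have hk0 := h.fo.kk0
  have hx := hq.x0
  have hn0 : (0 : ℝ) < n := by linarith
  have hW0 : 0 ≤ A * NN n β ρ / T := by positivity
  have hD : ∑ b : Fin n, ∑ b' ∈ Finset.univ.erase b, dS S q S.F b b' ^ 2 ≤
      Z * (52 * (A * NN n β ρ / T)) := by
    refine (d_le hc hq h.law.low h.ε0 hs1p).trans ?_
    rw [← hZ]
    refine mul_le_mul_of_nonneg_left (h.dl.trans ?_) hZ0.le
    linarith
  have nn := hnumN (n := (n : ℝ)) (A := A) (N := NN n β ρ) (x := q.x) (T := T)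
    (m4 := 182 * y ^ 2) hn0 hβ hA hN hq.x0.le h.fo.kk2 h.fo.kk0.le hT (h.fo.k_y.trans hyy.symm)
    hg (by nlinarith [sq_nonneg y])
  have r1 : En q S.F (fun w => ∑ e, fr (S.DA q.s1 e (H712.lp (k2 q) w))) ≤ A * NN n β ρ / T := by
    have := h.fo.rt2
    simp only [R1C.P2_lp] at this
    exact this
  obtain ⟨ζ1, i1, a1, b1⟩ := hin_S h (hyy.symm.le.trans hyg) hWn (k2 q)
    (H326.k2_sum hq) hs1p h.s1le h.mo2 r1
  rw [← hZ, ← hyy] at i1
  rw [← hZ] at b1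
  have eA1 : (fun w : K4 (Pair n) → ℝ => S.A q.s1 (H712.lp (k2 q) w)) = A1 S q := by
    funext w
    unfold A1
    rw [H326.P2_k2]
  rw [eA1] at i1
  have hnb : HNbN q S.F (fun _ _ => Z * (48884 * (g * y) ^ 3)) (dS S q S.F) ζ1
      (fun _ _ => Z * (6 * q.x * kk n β * √(√(182 * y ^ 2)) * √(4449608 * (g * y) ^ 4)))
      (48884 * (g * y) ^ 3) (52 * (A * NN n β ρ / T)) (9 * (A * NN n β ρ / T))
      (6 * q.x * kk n β * √(√(182 * y ^ 2)) * √(4449608 * (g * y) ^ 4)) :=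
    { m60 := by positivity
      l0 := by positivity
      d0 := fun b b' _ => Real.sqrt_nonneg _
      z0 := fun b b' _ => a1 b b'
      hM := fun _ _ _ => by rw [hZ]
      hδ := by rw [← hZ]; exact hD
      hζ := by rw [← hZ]; exact b1
      hl := fun _ _ _ => by rw [hZ] }
  refine (hrow1T_n hc hq hP i1 hnb hl).trans ?_
  have k1 := mul_le_mul_of_nonneg_left nn (by positivity : 0 ≤ 2 / l ^ 2)
  linarith

end Vale.Agent.P146.U.R1S
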