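import Vale.Agent.P146.H325.KapR
import Vale.Agent.P146.U.H191_KapC
import Vale.Agent.P146.U.H604_HNumS
import Vale.Agent.P146.U.H325_KapQ
import Vale.Agent.P146.U.NS

/-!
Plan R1, row (KAP): the bad bulks of a position system with the property (K), and the conclusion
for the SK model, `β < 3/2`.
-/

open MeasureTheory ProbabilityTheory

namespace Vale.Agent.P146.U.R1S

open Vale.Agent.P146.R1S hiding A1 A2 AN_le A_flip AvZ1 AvZ2 Av_KV_le Av_Uc Av_fr_le Av_fr_le'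
  Av_frsq_le Av_frsq_le' BadS BadS.mono BadSk Bv CBq CS Ca Cd ClS DA_sum_le D_row D_rows Dg DlA
  ErS ErS_nonneg Ew1_pos_S FA FA_nonneg Fo.u_le Fo_s1 Gb Gb_eq H4 H8 KA KA_le_ThA KA_nonneg KV
  KV_le KV_nonneg LamS MM MM_psd MM_row MS M_le NN_one Nd Nd_eq Nd_ind Nd_row NumS PrS Q4 Q4_En
  Q4_le Q4_le_pow Q4_nonneg QA QA_nonneg RareS Sa Sa_eq Sa_ind Sa_row Sd Sd_eq Sd_ind Sd_row
  T4_avg_le T4_rep_le ThA ThA_nonneg Uc Uc' Wn_S Xb_eq Y1 Y1_nonneg Y2 Y2_nonneg Y_le Yb_eq Zs a1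
  a1_eq a2 a2_eq abs_cl badS_of badSk bh bh1 blk_a blk_d bq4_T4 cl cl0 cl_act cl_cs cl_odd
  cl_other cl_self clz_S cm1 cm2 cm3 cm4 cm_gen col2 col4 col6 col8 d2 d2_parts dS dS_sq d_le dlS
  eC_le eF1 eF2 ee ee_eer ee_le ee_nonneg ee_row eg_A1 eg_A2 eg_Ca eg_Cd eg_ErS eg_FA eg_Gb eg_KA
  eg_KV eg_Nd eg_Q4 eg_QA eg_Sa eg_Sd eg_ThA eg_Uc eg_Uc' eg_Y eg_Y1 eg_Y2 eg_Yd eg_cl eg_cl0
  eg_ee eg_frNd eg_nlb eg_ph_S eg_rat eg_tch eg_vH eg_vn_col_S er_point er_sum exists_Bv fb_cs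
  fr_CBq_le fr_MM_le full_gen grF_rows grF_rows_le hd1 hd2 hds_hd1 hin_S hp1 hp2 hrow1 hrow1_n
  hrow2 hrow2_n ind_Ca ind_Cd ind_Gb ind_Yd ind_cl ind_cl2 ind_cl3 ind_frNd int_gen kap_S kap_bulk
  kap_cs_out kap_hK kap_joint kap_out_S kap_sk_hK lam_S lam_cs_hL lam_cs_out lam_fix lam_gen_S
  lam_out_S lamq lamq_nonneg law_low_S law_up_S lf_psi_S lf_psi_gr lw_abs lw_comm lw_eg lw_gr_row
  lw_oth lw_self lw_vn_le m6S nd_anti nl_En nl_one nl_sum nlb nlb_fix numS_of odd_col pd_Uc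
  ph_nonneg_S pr_cs psd_CB psi_four_S rat rowIn_S six six_cl skCS skCS_A skCS_D skCS_DA skCS_F
  skCS_H skCS_T4 sm_skCS sum_Uc'_le sum_tch tA_T tA_abs tA_comm tA_cont tA_eg tA_self tch tch_le
  tch_nonneg touch two_cs two_t vH vH_hvr vH_le vH_nonneg vn_col_Uc vn_le_nS

open Vale.Agent.P157.Lv Vale.Agent.P146.H425 Vale.Agent.P146.H325 Matrix Vale.Agent.P146.H633
open Vale.Agent.P146.H712 hiding En_sub En_sum Fo_A_le Fo_kk Fo_one_le KV KV_le KV_nonneg LLow LUp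
  Th_le abs_DA_le bt3 bt3_pos bt3_three bt3_three' bt3_two bt3_two' eg_KV eg_P0 eg_P1 eg_P2 eg_P3
  eg_ThS hKR_fn hKR_sk int_dens k0 k1 k2 k3 llow lup pd_P0 pd_P1 pd_P2 pd_P3 rt_le_fn sum_k0
  sum_k1 sum_k2 sum_k3 tT_abs tT_eg tfr_le tpd
open Vale.Agent.P146.R1 hiding Et Et4 Et4_123 Et4_124 Et4_add Et4_const Et4_const_mul Et4_cs
  Et4_mono Et4_nonneg Et4_sub Et_add Et_const Et_const_mul Et_cs Et_fst_eq Et_jensen Et_mono
  Et_nonneg Et_sub Et_weight Et_zero Eu Eu4 Eu4_123 Eu4_124 Eu4_add Eu4_cond Eu4_const_mul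
  Eu4_iter Eu4_mono Eu4_nonneg Eu4_one_eq Eu4_one_eq' Eu4_one_pos Eu4_weight Eu_add Eu_const_mul
  Eu_fst Eu_fst_eq Eu_iter Eu_mono Eu_nonneg Eu_one Eu_one_eq Eu_one_pos Eu_weight Eu_zero
  Eu_zero_one Lth Lth_zero Qt dn dn_pos e3_dn eg_Eu eg_Eu4
open Vale.Agent.P146.R1C hiding A1 A2 AvZ1 AvZ2 Av_aa Av_ad Av_dd Av_lf_P0 Av_lf_P1 Av_lf_P2
  Av_lf_P23 Av_lf_P23_row Av_lf_P3 Ca Cd ClSk Dg En En_add En_const En_const_mul En_eq En_mono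
  En_nonneg En_pow_le En_prod_le En_rare En_sum Ew Ew1_pos Ew_add Ew_const_mul Ew_eq Ew_mono
  Ew_nonneg Ew_one_pos Fo FoSk Gb H4 H8 HIn HNb LamSk Law2 Low Nb Nd Nd_ind Nd_row NumH P0 P0_lp
  P0_sw P1 P1_lp P1_sw P2 P2_lp P2_sw P3 P3_lp P3_sw Par PrSk Rare Sa Sa_ind Sa_row Sd Sd_ind
  Sd_row Zk Zn_mom Zn_touch a1 a1_eq a2 a2_eq bad_pair bad_total cl_sk den_pos dens dens_eq
  dens_nonneg eC eF1 eF2 eg_A1 eg_A2 eg_Gb eg_Nd eg_Sa eg_Sd eg_Yd eg_den eg_dens eg_frNd eg_psi'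
  fb_row fb_sk hd1 hd2 hin_gen hp1 hp2 hrow1 hrow1_n hrow2 hrow2_n ind_Gb ind_Yd ind_frNd
  int_Av_dens int_Av_one int_ph k0_sum k1_sum kap_en kap_fin kk_NN kk_four lamSk_num lam_fix
  lam_gen_num lam_gen_sk lam_hL lam_le lam_sk lam_sk_out law2_of law_low law_low_sk law_up
  law_up_sk lf_psi lip_psi low_int lsk numH_of pd_psi ph psi psi' psi_four_le psi_four_sk
  psi_sq_le
open Vale.Agent.P146.H191 hiding CB_comm CB_off CB_off' CB_one DlA_eq DlA_nonneg FA_DlA_le FA_eq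
  FA_le KA_le KapG QA_le bad0 bad0_nonneg bad0_parts badK badK_le badK_le0 badK_lt badK_nonneg
  badK_sum ee_nonneg eg_bad0 eg_badK eg_eeS eg_hds eg_lo f0_ee fr_CB hds kapG_sk kapG_t3
  kap_bulk_S lamq_sum lo lo_le lo_nonneg mh_bq mv_eq mv_nonneg ne0_le ne1_le vbar_le
open Vale.Agent.P146.U.H712 Vale.Agent.P146.U.R1 Vale.Agent.P146.U.R1C Vale.Agent.P146.U.H191

open Vale.Agent.P146.H332 hiding Gf NN Nf fr_nonneg

set_option linter.unusedSectionVars false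

section gen

variable {n : ℕ} {β A δ T ρ Λ ye : ℝ} {q : Par} {S : CS n (kk n β) q.x}

lemma hds_hd1 (b b' : Fin n) (w : K4 (Pair n) → ℝ) :
    hds S q.s1 b b' (P2 q w) = hd1 S q b b' w := by
  unfold hds hd1
  have h : AvP q.s1 (row b ∪ row b') (fun z => fr (S.A q.s1 z) / n) (P2 q w) =
      FA S q.s1 b b' (P2 q w) / n := by
    have e : (fun z => fr (S.A q.s1 z) / n) = fun z => (n : ℝ)⁻¹ * fr (S.A q.s1 z) := by
      funext z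
      ring
    rw [e, AvP_const_mul]
    unfold FA
    ring
  rw [h]

/-- the constant of the sum of the bad bulks -/
noncomputable def cBU (β τ : ℝ) : ℝ :=
  (120 / τ ^ 2 + 4) + (8 * U.H94.Hn β / τ ^ 2 + 36 / τ) + 1 / τ + 1

lemma cBU_nonneg {β τ : ℝ} (hβ : 0 ≤ β) (hτ : 0 < τ) : 0 ≤ cBU β τ := by
  have := U.H94.Hn_nonneg hβ
  unfold cBU
  positivity

/-- **The bad bulks of a position system.** -/
theorem badS_of {κ τ e0 : ℝ} {X : Fin n → Fin n → (Pair n → ℝ) → ℝ}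
    (h : NumS S A δ T ρ Λ ((n : ℝ) ^ 200)⁻¹) (hKR : ∀ s z, rt S.DA s z ≤ (n : ℝ) ^ 20)
    (hκ : 0 ≤ κ) (hτ : 0 < τ) (hu : 1 / Λ + 1 / (n * T) ≤ 1) (he0 : 0 ≤ e0)
    (hnM : (n : ℝ) ≤ τ * (NN n β ρ / (2 * A))) (hX0 : ∀ b b' z, 0 ≤ X b b' z)
    (hX : ∀ b b', EG (X b b')) (hG : KapG S q.s1 τ κ (NN n β ρ / (2 * A)) X)
    (hXs : ∑ b : Fin n, ∑ b' ∈ Finset.univ.erase b,
      En q S.F (fun w => X b b' (P2 q w)) ≤ e0 * (n : ℝ) ^ 2) :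
    BadS S A T ρ Λ (κ / 2) (cBU β τ) e0 5 := by
  have hq := h.fo.ok
  have hA := h.fo.A1
  have hA0 : 0 < A := by linarith
  have hn := h.fo.n0
  have hβ := h.fo.β0
  have hN := h.fo.N0
  have hx := hq.x0
  have hT := h.fo.Tp
  have hΛ1 := h.fo.Λ1
  have hΛ0 : 0 < Λ := by linarith
  have hn0 : (0 : ℝ) < n := by linarith
  have hnn : 0 < n := by exact_mod_cast hn0
  have hM0 : 0 < NN n β ρ / (2 * A) := by positivity
  refine ⟨fun b b' w => badK S q.s1 τ (NN n β ρ / (2 * A)) X b b' (P2 q w),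
    fun b b' => eg_P2 (eg_badK hτ hX0 hX b b'), fun b b' w => badK_nonneg hτ hX0 b b' _,
    fun b b' w => badK_le b b' _, ?_, ?_⟩
  · intro b b' hb w hbad v hv
    have h1 := badK_lt hκ hτ hM0 hnn hnM hX0 hG hb.symm hv hbad
    refine le_trans (le_of_eq ?_) h1
    field_simp
  · have hl : 0 < τ * (NN n β ρ / (2 * A)) / n := by positivity
    have h1 := badK_sum S h.fo h.law hKR hτ hX0 hX
      (X0 := e0 * (n : ℝ) ^ 2) (by
        simp only [hds_hd1]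
        exact h.hrowT hl) hXs
    refine h1.trans ?_
    have hH : 0 ≤ U.H94.Hn β := U.H94.Hn_nonneg hβ.le
    have e1 : √(NN n β ρ) / n = √(NN n β ρ / (n : ℝ) ^ 2) := by
      rw [Real.sqrt_div hN.le, Real.sqrt_sq hn0.le]
    have e2 : NN n β ρ ^ 2 / √(n * T) = √(1 / (n * T)) * NN n β ρ ^ 2 := by
      rw [Real.sqrt_div zero_le_one, Real.sqrt_one]
      ring
    have hu0 : 0 < 1 / Λ + 1 / (n * T) := by positivity
    have hδu : δ ≤ 1 / Λ + 1 / (n * T) := by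
      have h2 : (Λ ^ 1000)⁻¹ ≤ 1 / Λ := by
        rw [one_div]
        exact inv_anti₀ hΛ0 (le_self_pow₀ hΛ1 (by norm_num))
      have h3 : 0 ≤ 1 / ((n : ℝ) * T) := by positivity
      linarith [h.fo.δ_le]
    have hvv : 1 / (n * T) ≤ √(1 / (n * T)) := by
      have h3 : 0 ≤ 1 / ((n : ℝ) * T) := by positivity
      have h4 : 1 / ((n : ℝ) * T) ≤ 1 := by
        have : 0 ≤ 1 / Λ := by positivity
        linarith
      have h5 : √(1 / (n * T)) ≤ 1 := Real.sqrt_le_one.2 h4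
      calc 1 / ((n : ℝ) * T) = √(1 / (n * T)) * √(1 / (n * T)) := (Real.mul_self_sqrt h3).symm
        _ ≤ √(1 / (n * T)) * 1 := mul_le_mul_of_nonneg_left h5 (Real.sqrt_nonneg _)
        _ = _ := mul_one _
    have hu8 : 1 / Λ + 1 / (n * T) ≤ (1 / Λ + 1 / (n * T)) ^ ((1 : ℝ) / 8) :=
      Real.self_le_rpow_of_le_one hu0.le hu (by norm_num)
    have e4 : 2 / (τ * (NN n β ρ / (2 * A)) / n) * (9 * (A * NN n β ρ / T)) =
        36 / τ * A ^ 2 * (1 / (n * T)) * (n : ℝ) ^ 2 := by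
      field_simp
      ring
    rw [e1, e2, e4]
    set y := q.x * √(NN n β ρ / (n : ℝ) ^ 2) with hy
    set v := √(1 / (n * T)) with hv
    set N := NN n β ρ with hNd
    have e3 : 2 / (τ * (N / (2 * A)) / n) ^ 2 *
        (U.H94.Hn β * A ^ 3 * (y * N ^ 2 + v * N ^ 2)) =
        8 * U.H94.Hn β / τ ^ 2 * A ^ 5 * (y + v) * (n : ℝ) ^ 2 := by
      field_simp
      ring
    rw [e3]
    have hA45 : A ^ 4 ≤ A ^ 5 := pow_le_pow_right₀ hA (by norm_num)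
    have hA25 : A ^ 2 ≤ A ^ 5 := pow_le_pow_right₀ hA (by norm_num)
    have hA5 : 1 ≤ A ^ 5 := one_le_pow₀ hA
    have hy0 : 0 ≤ y := by positivity
    have hv0 : 0 ≤ v := Real.sqrt_nonneg _
    have p5 : 36 / τ * A ^ 2 * (1 / (n * T)) * (n : ℝ) ^ 2 ≤
        36 / τ * A ^ 5 * v * (n : ℝ) ^ 2 := by gcongr
    generalize 1 / Λ + 1 / (n * T) = u at *
    set ϑ := u ^ ((1 : ℝ) / 8) with hϑ
    have hϑ0 : 0 ≤ ϑ := Real.rpow_nonneg hu0.le _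
    have p1 : 120 * A ^ 4 / τ ^ 2 * u * (n : ℝ) ^ 2 ≤
        120 / τ ^ 2 * A ^ 5 * ϑ * (n : ℝ) ^ 2 := by
      calc 120 * A ^ 4 / τ ^ 2 * u * (n : ℝ) ^ 2 =
            120 / τ ^ 2 * A ^ 4 * u * (n : ℝ) ^ 2 := by ring
        _ ≤ _ := by gcongr
    have p4 : 4 * δ * (n : ℝ) ^ 2 ≤ 4 * A ^ 5 * ϑ * (n : ℝ) ^ 2 := by
      have h2 : δ ≤ ϑ := hδu.trans hu8
      calc 4 * δ * (n : ℝ) ^ 2 ≤ 4 * ϑ * (n : ℝ) ^ 2 := by gcongr
        _ = 4 * 1 * ϑ * (n : ℝ) ^ 2 := by ring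
        _ ≤ _ := by gcongr
    have p2 : (n : ℝ) ≤ 1 * A ^ 5 * (1 / n) * (n : ℝ) ^ 2 := by
      have : 1 * A ^ 5 * (1 / (n : ℝ)) * (n : ℝ) ^ 2 = A ^ 5 * n := by
        field_simp
      rw [this]
      exact le_mul_of_one_le_left hn0.le hA5
    have p3 : e0 * (n : ℝ) ^ 2 / τ ≤ 1 / τ * A ^ 5 * e0 * (n : ℝ) ^ 2 := by
      calc e0 * (n : ℝ) ^ 2 / τ = 1 / τ * 1 * e0 * (n : ℝ) ^ 2 := by ring
        _ ≤ _ := by gcongr
    set a := 120 / τ ^ 2 with ha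
    set c := 8 * U.H94.Hn β / τ ^ 2 with hc
    set f := 36 / τ with hf
    set d := 1 / τ with hd
    have ha0 : 0 ≤ a := by positivity
    have hc0 : 0 ≤ c := by positivity
    have hf0 : 0 ≤ f := by positivity
    have hd0 : 0 ≤ d := by positivity
    have hcB : cBU β τ = (a + 4) + (c + f) + d + 1 := rfl
    rw [hcB]
    have m0 : 0 ≤ A ^ 5 * (n : ℝ) ^ 2 := by positivity
    have hin : 0 ≤ 1 / (n : ℝ) := by positivity
    have k1 : a * A ^ 5 * ϑ * (n : ℝ) ^ 2 + (c * A ^ 5 * (y + v) * (n : ℝ) ^ 2 +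
        f * A ^ 5 * v * (n : ℝ) ^ 2) + (4 * A ^ 5 * ϑ * (n : ℝ) ^ 2 +
        1 * A ^ 5 * (1 / n) * (n : ℝ) ^ 2) + d * A ^ 5 * e0 * (n : ℝ) ^ 2 =
        ((a + 4) * ϑ + (c * (y + v) + f * v) + 1 * (1 / n) + d * e0) *
          (A ^ 5 * (n : ℝ) ^ 2) := by
      ring
    have k2 : (a + 4) * ϑ + (c * (y + v) + f * v) + 1 * (1 / (n : ℝ)) + d * e0 ≤
        ((a + 4) + (c + f) + d + 1) * (ϑ + e0 + y + v + 1 / n) := by
      have z1 : 0 ≤ (a + 4) * (e0 + y + v + 1 / n) := by positivity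
      have z2 : 0 ≤ c * (ϑ + e0 + 1 / n) := by positivity
      have z5 : 0 ≤ f * (ϑ + e0 + y + 1 / n) := by positivity
      have z3 : 0 ≤ d * (ϑ + y + v + 1 / n) := by positivity
      have z4 : 0 ≤ ϑ + e0 + y + v := by positivity
      linarith
    have k3 := mul_le_mul_of_nonneg_right k2 m0
    have k4 : ((a + 4) + (c + f) + d + 1) * A ^ 5 * (ϑ + e0 + y + v + 1 / n) * (n : ℝ) ^ 2 =
        ((a + 4) + (c + f) + d + 1) * (ϑ + e0 + y + v + 1 / n) * (A ^ 5 * (n : ℝ) ^ 2) := by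
      ring
    rw [k4]
    linarith

end gen

lemma BadS.mono {n : ℕ} {β A δ T ρ Λ : ℝ} {q : Par} {S : CS n (kk n β) q.x} {κ κ' C e0 : ℝ}
    {m : ℕ} (h : BadS S A T ρ Λ κ C e0 m) (hf : Fo n β A δ T ρ Λ S.y q S.F S.A S.DA)
    (hκ : κ' ≤ κ) : BadS S A T ρ Λ κ' C e0 m := by
  have hA := hf.A1
  have hN := hf.N0
  obtain ⟨bad, eb, hb0, hb1, hK, hs⟩ := h
  refine ⟨bad, eb, hb0, hb1, fun b b' hb w hw v hv => le_trans ?_ (hK b b' hb w hw v hv), hs⟩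
  have h0 : 0 ≤ ee S q.s1 b b' (P2 q w) := R1S.ee_nonneg b b' _
  gcongr

/-- the matrices are large -/
lemma Fo.nM {n : ℕ} {β A δ T ρ Λ ye τ : ℝ} {q : Par} {F : (Pair n → ℝ) → ℝ}
    {AM : ℝ → (Pair n → ℝ) → Matrix (Fin n) (Fin n) ℝ}
    {DM : ℝ → Pair n → (Pair n → ℝ) → Matrix (Fin n) (Fin n) ℝ}
    (h : Fo n β A δ T ρ Λ ye q F AM DM) (hτ : 0 < τ) (hAτ : β ^ 2 ≤ A * τ) :
    (n : ℝ) ≤ τ * (NN n β ρ / (2 * A)) := by
  have hA := h.A1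
  have hA0 : 0 < A := by linarith
  have hβ := h.β0
  have hn := h.n0
  have hn0 : (0 : ℝ) < n := by linarith
  have h1 : A ^ 2 ≤ A ^ 40 := pow_le_pow_right₀ hA (by norm_num)
  have h3 : β ^ 2 * A ≤ τ * ρ := by
    calc β ^ 2 * A ≤ A * τ * A := mul_le_mul_of_nonneg_right hAτ hA0.le
      _ = τ * A ^ 2 := by ring
      _ ≤ τ * ρ := mul_le_mul_of_nonneg_left (h1.trans h.ρA) hτ.le
  have h4 : τ * (NN n β ρ / (2 * A)) = τ * ρ / (β ^ 2 * A) * n := by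
    unfold NN
    field_simp
  rw [h4]
  refine le_mul_of_one_le_left hn0.le ?_
  rw [le_div_iff₀ (by positivity), one_mul]
  exact h3

/-- **(KAP) for a position system with the property (K)** (`KapG`), all large `n`; no condition
on `T` except those of `Fo`; growth is the hypothesis `Gro`. -/
theorem kap_g_out {β Γ κ τ : ℝ} (hβ : 0 < β) (hκ : 0 < κ) (hτ : 0 < τ) :
    ∃ n₀ : ℕ, ∀ n : ℕ, n₀ ≤ n → ∀ (q : Par) (S : CS n (kk n β) q.x)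
      (A δ T ρ Λ e0 B L M : ℝ) (HF TF : Pair n → Pair n → (Pair n → ℝ) → ℝ)
      (X : Fin n → Fin n → (Pair n → ℝ) → ℝ),
      10 ≤ A → β ^ 2 ≤ A → β ^ 2 ≤ A * τ → 0 ≤ e0 → Sm S.F S.D B L HF TF M →
      (∀ s : ℝ, Cum.Fn (kk n β) SkS (uu q.x s S.F) (S.mu s) Γ) → Mt q.x S.F S.mu →
      Fo n β A δ T ρ Λ S.y q S.F S.A S.DA → Gro n β A ρ q S.F S.A →
      (∀ b b' z, 0 ≤ X b b' z) → (∀ b b', EG (X b b')) →
      KapG S q.s1 τ κ (NN n β ρ / (2 * A)) X →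
      ∑ b : Fin n, ∑ b' ∈ Finset.univ.erase b,
        En q S.F (fun w => X b b' (P2 q w)) ≤ e0 * (n : ℝ) ^ 2 →
      NN n β ρ / (n : ℝ) ^ 2 ≤
        192 * ((cBU β τ + cEU β Γ + cO β) * (1 + 52 * β ^ 4)) / (min (κ / 2) 1) * A ^ 17 *
        (√(1 / (n * T)) + q.x * √(NN n β ρ / (n : ℝ) ^ 2) +
          ((1 / Λ + 1 / (n * T)) ^ ((1 : ℝ) / 8) + e0) *
            (NN n β ρ / (n : ℝ) ^ 2) + 1 / n) := by
  obtain ⟨n₁, hn₁⟩ := kap_cs_out (β := β) (Γ := Γ) (κ := min (κ / 2) 1) (C := cBU β τ) (m := 5)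
    hβ (by positivity) (min_le_right _ _) (cBU_nonneg hβ.le hτ)
  obtain ⟨n₀, -, hn₀⟩ := numS_ofU hβ
  obtain ⟨N, hN⟩ := exists_nat_ge Γ
  refine ⟨max n₁ (max n₀ N), fun n hn q S A δ T ρ Λ e0 B L M HF TF X hA hβA hβτ he0 hS hFn hm hf
    hg hX0 hX hG hXs => ?_⟩
  have hn1 : n₁ ≤ n := (le_max_left _ _).trans hn
  have hn0 : n₀ ≤ n := ((le_max_left _ _).trans (le_max_right _ _)).trans hn
  have hnN : N ≤ n := ((le_max_right _ _).trans (le_max_right _ _)).trans hn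
  have hnum := hn₀ n hn0 β le_rfl q S A δ T ρ Λ hf
  have hn2 := hf.n0
  have hΓn : Γ ≤ (n : ℝ) ^ 8 := by
    have h1 : (N : ℝ) ≤ n := by exact_mod_cast hnN
    have h2 : (n : ℝ) ≤ (n : ℝ) ^ 8 := le_self_pow₀ (by linarith) (by norm_num)
    linarith
  exact hn₁ n hn1 q S A δ T ρ Λ e0 B L M HF TF hA hβA he0 hS hFn hm hf hg
    (BadS.mono (badS_of hnum (hKR_fn S hf hFn hΓn) hκ.le hτ (Fo.u_le hf hA hβA) he0
      (Fo.nM hf hτ hβτ) hX0 hX hG hXs) hf (min_le_left _ _))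

end Vale.Agent.P146.U.R1S
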