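import Vale.Agent.P146.U.Spec

/-!
# P146, upper half without logarithms: `LRho β → LStar β`

The regular window of `LRho` is found on the grid `T / 2^i`, `i < k`, `2^k ≥ L`: one of the windows
`[1 - τ - T / 2^i, 1 - τ - T / 2^(i+1)]` carries the share `Δ / (2 k)` of the increment.
-/

open MeasureTheory ProbabilityTheory

namespace Vale.Agent.P146.U

open Vale.Agent.P157.Lv Vale.Agent.P146.H425 Vale.Agent.P146.R1 Vale.Agent.P146.H332
  Vale.Agent.P146.H325

section gen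

variable {κ : Type} [Fintype κ] {F : (κ → ℝ) → ℝ} {D : κ → (κ → ℝ) → ℝ} {B L x a b s t c d : ℝ}

/-- one layer is nondecreasing in the exponent -/
lemma W_exp_mono (h : C11 F D B L) (hc : Cv F) (hx : 0 < x) (hxb : x ≤ b) (y : κ → ℝ) :
    W x s F y ≤ W b s F y := by
  have h1 := W_tangent (s := s) h hc hx (hx.trans_le hxb) y
  have h2 := Kc_nonneg (s := s) h hx y
  have h3 : 0 ≤ (b - x) * (Kc x s F y / x ^ 2) :=
    mul_nonneg (by linarith) (div_nonneg h2 (sq_nonneg _))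
  linarith

/-- moving the switching time outwards increases the functional -/
lemma PP_mono_sw (h : C11 F D B L) (hc : Cv F) (hx : 0 < x) (hxb : x ≤ b) {c c' r s s' : ℝ}
    (hcc : c' ^ 2 + r ^ 2 = c ^ 2) (hss : r ^ 2 + s ^ 2 = s' ^ 2) :
    PP x b c s F ≤ PP x b c' s' F := by
  have hb : 0 < b := hx.trans_le hxb
  have hX := h.W' hb s
  have hXc : Cv (W b s F) := Cv.W h hc hb s
  have hXl : Lip (W b s F) := hX.lip.lip h.B0
  have hWW : W b r (W b s F) = W b s' F := by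
    funext y
    exact W_W h.lip h.B0 hb hss y
  have e1 : PP x b c s F = W x c' (W x r (W b s F)) 0 := by
    unfold PP
    exact (W_W hX.lip h.B0 hx hcc 0).symm
  rw [e1]
  unfold PP
  rw [← hWW]
  exact W_mono (Lip.W hXl hx r) (Lip.W hXl hb r) hx
    (fun w => W_exp_mono hX hXc hx hxb w) c' 0

/-- the share of the first slice of the window is at least the increment -/
lemma SS_slice (h : C11 F D B L) (hc : Cv F) (hx : 0 < x) (hxa : x < a) {c c' r s s' : ℝ}
    (hcc : c' ^ 2 + r ^ 2 = c ^ 2) (hss : r ^ 2 + s ^ 2 = s' ^ 2) :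
    PP x a c' s' F - PP x a c s F ≤ (a - x) / 2 * SS x a c' r (W a s F) := by
  have ha : 0 < a := hx.trans hxa
  have hX := h.W' ha s
  have hXc : Cv (W a s F) := Cv.W h hc ha s
  have h1 := PP_tangent (c := c') (s := r) hX hXc hx ha hx
  have e1 : PP x a c' r (W a s F) = PP x a c' s' F := by
    unfold PP
    congr 1
    funext y
    exact W_W h.lip h.B0 ha hss y
  have e2 : PP x x c' r (W a s F) = PP x a c s F := by
    rw [PP_self hX hx hcc]
    rfl
  rw [e1, e2] at h1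
  linarith

end gen

section sk

variable {n : ℕ} {β y τ x a b T T' : ℝ}

lemma c11_Fsk (n : ℕ) (β : ℝ) : ∃ (D : Pair n → (Pair n → ℝ) → ℝ) (B L : ℝ),
    C11 (Fsk n β) D B L := ⟨_, _, _, c11_lz (β / √n) SkS⟩

lemma c11_G (n : ℕ) (β τ : ℝ) (hy : 0 < y) : ∃ (D : Pair n → (Pair n → ℝ) → ℝ) (B L : ℝ),
    C11 (W y √τ (Fsk n β)) D B L ∧ Cv (W y √τ (Fsk n β)) := by
  obtain ⟨D, B, L, h⟩ := c11_Fsk n β
  exact ⟨_, _, _, h.W' hy √τ, Cv.W h (cv_lz (β / √n) SkS) hy √τ⟩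

/-- `P3` at `b = x` does not depend on the window -/
lemma P3_self (hy : 0 < y) (hx : 0 < x) (hT : 0 ≤ T) (hTτ : T ≤ 1 - τ) :
    P3 n β y τ x T x = W x √(1 - τ) (W y √τ (Fsk n β)) 0 := by
  obtain ⟨D, B, L, h, -⟩ := c11_G n β τ hy
  unfold P3
  refine PP_self h hx ?_
  rw [Real.sq_sqrt (by linarith), Real.sq_sqrt hT, Real.sq_sqrt (by linarith)]
  ring

lemma P3_self' (hy : 0 < y) (hx : 0 < x) (hT : 0 ≤ T) (hTτ : T ≤ 1 - τ) (hT' : 0 ≤ T')
    (hTτ' : T' ≤ 1 - τ) : P3 n β y τ x T x = P3 n β y τ x T' x := by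
  rw [P3_self hy hx hT hTτ, P3_self hy hx hT' hTτ']

/-- `P3` is nondecreasing in the length of the window -/
lemma P3_mono_T (hy : 0 < y) (hx : 0 < x) (hxb : x ≤ b) (hT' : 0 ≤ T') (hTT : T' ≤ T)
    (hTτ : T ≤ 1 - τ) : P3 n β y τ x T' b ≤ P3 n β y τ x T b := by
  obtain ⟨D, B, L, h, hc⟩ := c11_G n β τ hy
  unfold P3
  refine PP_mono_sw (r := √(T - T')) h hc hx hxb ?_ ?_
  · rw [Real.sq_sqrt (by linarith), Real.sq_sqrt (by linarith), Real.sq_sqrt (by linarith)]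
    ring
  · rw [Real.sq_sqrt (by linarith), Real.sq_sqrt hT', Real.sq_sqrt (by linarith)]
    ring

/-- `P3` is nondecreasing in the exponent of the window -/
lemma P3_mono_b (hy : 0 < y) (hx : 0 < x) {b b' : ℝ} (hb : 0 < b) (hbb : b ≤ b') :
    P3 n β y τ x T b ≤ P3 n β y τ x T b' := by
  obtain ⟨D, B, L, h, hc⟩ := c11_G n β τ hy
  exact PP_mono h hc hx hb hbb

/-- the field `lo` of `RegW` from the increment over the first half of the window -/
lemma lo_of (hy : 0 < y) (hx : 0 < x) (hxa : x < a) (hT : 0 ≤ T) (hTτ : T ≤ 1 - τ) :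
    P3 n β y τ x T a - P3 n β y τ x (T / 2) a ≤ (a - x) / 2 *
      SS x a √(1 - τ - T) √(T / 2) (W a √(T / 2) (W y √τ (Fsk n β))) := by
  obtain ⟨D, B, L, h, hc⟩ := c11_G n β τ hy
  unfold P3
  refine SS_slice h hc hx hxa ?_ ?_
  · rw [Real.sq_sqrt (by linarith), Real.sq_sqrt (by linarith), Real.sq_sqrt (by linarith)]
    ring
  · rw [Real.sq_sqrt (by linarith), Real.sq_sqrt (by linarith)]
    ring

end sk

/-- pigeonhole on the dyadic grid -/
lemma grid_pigeon {f : ℕ → ℝ} {k : ℕ} (hk : 0 < k) {Δ : ℝ} (h : Δ ≤ f 0 - f k) :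
    ∃ i < k, Δ / k ≤ f i - f (i + 1) := by
  by_contra hc
  push Not at hc
  have h1 : ∑ i ∈ Finset.range k, (f i - f (i + 1)) < ∑ i ∈ Finset.range k, Δ / k :=
    Finset.sum_lt_sum_of_nonempty (Finset.nonempty_range_iff.2 hk.ne')
      fun i hi => hc i (Finset.mem_range.1 hi)
  rw [Finset.sum_range_sub', Finset.sum_const, Finset.card_range, nsmul_eq_mul,
    mul_div_cancel₀ _ (by positivity : (k : ℝ) ≠ 0)] at h1
  linarith

/-- **A regular window on the dyadic grid.** -/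
theorem grid_reg {n : ℕ} {β y τ x a T Δ C1 L : ℝ} {k : ℕ} (hk : 0 < k) (hL : L ≤ 2 ^ k)
    (hL1 : 1 ≤ L) (hy : 0 < y) (hx : 0 < x) (hxa : x ≤ a) (hτ1 : τ ≤ 1 / 2)
    (hT : 0 < T) (hT1 : T ≤ 1 / 4) (hΔ0 : 0 < Δ)
    (hΔ : Δ = P3 n β y τ x T a - P3 n β y τ x T x)
    (h4 : P3 n β y τ x T (4 * a) - P3 n β y τ x T x ≤ C1 * Δ)
    (hT2 : P3 n β y τ x (T / L) a - P3 n β y τ x T x ≤ 1 / 2 * Δ) :
    ∃ i < k, RegW n β y τ x a (T / 2 ^ i) (2 * Δ / (k * a * (T / 2 ^ i))) (C1 * k) := by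
  have ha : 0 < a := hx.trans_le hxa
  have hk' : (0 : ℝ) < k := Nat.cast_pos.2 hk
  have hxa' : x < a := by
    rcases hxa.eq_or_lt with h | h
    · rw [← h] at hΔ
      linarith
    · exact h
  have hL0 : 0 < L := by linarith
  -- the grid
  have hTk : P3 n β y τ x (T / 2 ^ k) a ≤ P3 n β y τ x (T / L) a := by
    refine P3_mono_T hy hx hxa (by positivity) ?_ ?_
    · exact div_le_div_of_nonneg_left hT.le hL0 hL
    · have : T / L ≤ T := div_le_self hT.le hL1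
      linarith
  obtain ⟨i, hi, h1⟩ := grid_pigeon (f := fun i => P3 n β y τ x (T / 2 ^ i) a) (Δ := Δ / 2) hk
    (by simp only [pow_zero, div_one]; linarith)
  refine ⟨i, hi, ?_⟩
  have h2i : (1 : ℝ) ≤ 2 ^ i := one_le_pow₀ (by norm_num)
  have h2i0 : (0 : ℝ) < 2 ^ i := by positivity
  obtain ⟨S, hS⟩ : ∃ S : ℝ, S = T / 2 ^ i := ⟨_, rfl⟩
  have hS0 : 0 < S := by rw [hS]; positivity
  have hST : S ≤ T := by rw [hS]; exact div_le_self hT.le h2i
  have hS2 : T / 2 ^ (i + 1) = S / 2 := by rw [hS, pow_succ]; field_simp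
  simp only [hS2] at h1
  rw [← hS] at h1 ⊢
  have hSτ : S ≤ 1 - τ := by linarith
  constructor
  · -- lower bound of the share
    have h3 := lo_of (n := n) (β := β) (y := y) (τ := τ) hy hx hxa' hS0.le hSτ
    have h4' := SS_nonneg (x := x) (c := √(1 - τ - S)) (s := √(S / 2))
      ((c11_G n β τ hy).choose_spec.choose_spec.choose_spec.1.W' ha √(S / 2)) ha
    have e1 : 2 * Δ / (k * a * S) * S / 2 = Δ / (k * a) := by
      field_simp
    rw [e1, div_le_iff₀ (by positivity)]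
    have h5 : Δ / 2 / k ≤ a / 2 *
        SS x a √(1 - τ - S) √(S / 2) (W a √(S / 2) (W y √τ (Fsk n β))) := by
      refine (h1.trans h3).trans ?_
      exact mul_le_mul_of_nonneg_right (by linarith) h4'
    rw [div_le_iff₀ hk'] at h5
    nlinarith
  · -- doubling the exponent
    have h3 : P3 n β y τ x S (2 * a) ≤ P3 n β y τ x T (4 * a) :=
      (P3_mono_T hy hx (by linarith) hS0.le hST (by linarith)).trans
        (P3_mono_b hy hx (by linarith) (by linarith))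
    have h5 : P3 n β y τ x T x ≤ P3 n β y τ x S a := by
      rw [P3_self' (T' := S) hy hx hT.le (by linarith) hS0.le hSτ]
      exact P3_mono_b hy hx hx hxa
    have e1 : a / 2 * (C1 * k * (2 * Δ / (k * a * S)) * S) = C1 * Δ := by
      field_simp
    rw [e1]
    linarith

/-- the numbers of `lstar_of_lrho` -/
lemma lstar_num {n a k K S T Δ ρ C : ℝ} (hn : 0 < n) (ha : 0 < a) (hk1 : 1 ≤ k) (hK : 1 ≤ K)
    (hS0 : 0 < S) (hT : 0 < T) (hΔ0 : 0 < Δ) (hC : 0 ≤ C) (hTS' : T ≤ K * S)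
    (hρ : ρ = 2 * Δ / (k * a * S))
    (hmain : S ≤ C * (1 / √(n * S) + a * √(ρ / n) + ρ / n + 1 / n)) :
    T ≤ K * C * (2 * K) * (1 / √(n * T) + a * √(Δ / (a * n * T)) + Δ / (a * n * T) + 1 / n) := by
  have hnS0 : 0 < n * S := by positivity
  have hnT0 : 0 < n * T := by positivity
  have hK0 : 0 < K := by linarith
  have hk0 : 0 < k := by linarith
  have f1 : 1 / √(n * S) ≤ 2 * K * (1 / √(n * T)) := by
    have s1 : √(n * T) ≤ K * √(n * S) := by
      rw [Real.sqrt_le_left (by positivity), mul_pow, Real.sq_sqrt hnS0.le]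
      have s2 : n * T ≤ K * (n * S) := by
        have := mul_le_mul_of_nonneg_left hTS' hn.le
        linarith
      have s3 : K * (n * S) ≤ K ^ 2 * (n * S) := by
        refine mul_le_mul_of_nonneg_right ?_ hnS0.le
        exact le_self_pow₀ hK (by norm_num)
      linarith
    rw [mul_one_div, div_le_div_iff₀ (by positivity) (by positivity)]
    have : 0 ≤ K * √(n * S) := by positivity
    linarith
  have s1 : a * n * T ≤ K * (k * a * S * n) := by
    have s2 : a * n * T ≤ a * n * (K * S) := mul_le_mul_of_nonneg_left hTS' (by positivity)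
    have s3 : a * n * (K * S) * 1 ≤ a * n * (K * S) * k :=
      mul_le_mul_of_nonneg_left hk1 (by positivity)
    linarith
  have f2 : ρ / n ≤ 2 * K * (Δ / (a * n * T)) := by
    rw [hρ, div_div, mul_div_assoc', div_le_div_iff₀ (by positivity) (by positivity)]
    have s4 := mul_le_mul_of_nonneg_left s1 (show 0 ≤ 2 * Δ by positivity)
    linarith
  have f3 : √(ρ / n) ≤ 2 * K * √(Δ / (a * n * T)) := by
    have s0 : 0 ≤ Δ / (a * n * T) := by positivity
    rw [Real.sqrt_le_left (by positivity), mul_pow, Real.sq_sqrt s0]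
    refine f2.trans (mul_le_mul_of_nonneg_right ?_ s0)
    exact le_self_pow₀ (by linarith) (by norm_num)
  have f4 : 1 / n ≤ 2 * K * (1 / n) := by
    refine le_mul_of_one_le_left (by positivity) ?_
    linarith
  have f5 : 1 / √(n * S) + a * √(ρ / n) + ρ / n + 1 / n ≤
      2 * K * (1 / √(n * T) + a * √(Δ / (a * n * T)) + Δ / (a * n * T) + 1 / n) := by
    have := mul_le_mul_of_nonneg_left f3 ha.le
    linarith
  calc T ≤ K * S := hTS'
    _ ≤ K * (C * (1 / √(n * S) + a * √(ρ / n) + ρ / n + 1 / n)) :=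
        mul_le_mul_of_nonneg_left hmain hK0.le
    _ ≤ K * (C * (2 * K *
        (1 / √(n * T) + a * √(Δ / (a * n * T)) + Δ / (a * n * T) + 1 / n))) := by gcongr
    _ = _ := by ring

/-- **`LStar` from `LRho`.** -/
theorem lstar_of_lrho {β : ℝ} (h : LRho β) : LStar β := by
  obtain ⟨C, m, n0, hC, hm, H⟩ := h
  intro C1 L hC1 hL
  obtain ⟨k, hk, hLk⟩ : ∃ k : ℕ, 0 < k ∧ L ≤ 2 ^ k := by
    obtain ⟨k, hk⟩ := exists_nat_gt L
    refine ⟨k, ?_, hk.le.trans ?_⟩
    · by_contra hc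
      have : k = 0 := by omega
      rw [this] at hk
      norm_num at hk
      linarith
    · exact_mod_cast (Nat.lt_two_pow_self (n := k)).le
  have hk' : (0 : ℝ) < k := Nat.cast_pos.2 hk
  have hk1 : (1 : ℝ) ≤ k := by exact_mod_cast hk
  have hCk : 1 ≤ C1 * k := one_le_mul_of_one_le_of_one_le hC1 hk1
  obtain ⟨Q, hQ⟩ : ∃ Q : ℝ, Q = (C1 * k) ^ m := ⟨_, rfl⟩
  have hQ0 : 0 < Q := by rw [hQ]; positivity
  obtain ⟨n1, hn1⟩ := Filter.eventually_atTop.1 ((tendsto_rpow_neg_atTop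
    (show (0 : ℝ) < 1 / 10 by norm_num)).eventually_le_const
      (show (0 : ℝ) < 1 / 2 ^ k by positivity))
  refine ⟨2 ^ k * (C * Q) * (2 * 2 ^ k), (C + 1) * Q * k, max (max n0 ⌈n1⌉₊) 1, by positivity,
    by positivity, fun n hn x a y τ T Δ hxn hxa hy hya han hτ0 hτ1 hTn hT1 hΔ h4 hT2 hM1 hM2 => ?_⟩
  have hn0' : n0 ≤ n := ((le_max_left _ _).trans (le_max_left _ _)).trans hn
  have hnn1 : n1 ≤ n := by
    have : ⌈n1⌉₊ ≤ n := ((le_max_right _ _).trans (le_max_left _ _)).trans hn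
    exact (Nat.le_ceil n1).trans (by exact_mod_cast this)
  have hn1' : (1 : ℝ) ≤ n := by exact_mod_cast (le_max_right _ _).trans hn
  have hnp : (0 : ℝ) < n := by linarith
  have hx : 0 < x := lt_of_lt_of_le (by positivity) hxn
  have ha : 0 < a := hx.trans_le hxa
  have hT : 0 < T := lt_of_lt_of_le (by positivity) hTn
  have hΔ0 : 0 < Δ := by
    have h1 : 0 < (C + 1) * Q * k := by positivity
    have h2 : 0 < x * Δ := lt_of_lt_of_le h1 hM1
    exact (mul_pos_iff_of_pos_left hx).1 h2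
  obtain ⟨i, hi, hreg⟩ := grid_reg hk hLk hL hy hx hxa hτ1 hT hT1 hΔ0 hΔ h4 hT2
  obtain ⟨S, hS⟩ : ∃ S : ℝ, S = T / 2 ^ i := ⟨_, rfl⟩
  rw [← hS] at hreg
  have h2i : (1 : ℝ) ≤ 2 ^ i := one_le_pow₀ (by norm_num)
  have h2i0 : (0 : ℝ) < 2 ^ i := by positivity
  have h2ik : (2 : ℝ) ^ i ≤ 2 ^ k := pow_le_pow_right₀ (by norm_num) hi.le
  have hS0 : 0 < S := by rw [hS]; positivity
  have hST : S ≤ T := by rw [hS]; exact div_le_self hT.le h2i
  have hTS : T = 2 ^ i * S := by rw [hS]; field_simp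
  have hTS' : T ≤ 2 ^ k * S := by rw [hTS]; exact mul_le_mul_of_nonneg_right h2ik hS0.le
  obtain ⟨ρ, hρ⟩ : ∃ ρ : ℝ, ρ = 2 * Δ / (k * a * S) := ⟨_, rfl⟩
  have hρ0 : 0 < ρ := by rw [hρ]; positivity
  rw [← hρ] at hreg
  -- the range of `S`
  have hSn : (n : ℝ) ^ (-(9 / 10) : ℝ) ≤ S := by
    have g1 := hn1 n hnn1
    have e1 : (n : ℝ) ^ (-(9 / 10) : ℝ) = (n : ℝ) ^ (-(4 / 5) : ℝ) * (n : ℝ) ^ (-(1 / 10) : ℝ) := by
      rw [← Real.rpow_add hnp]; norm_num
    rw [e1, hS]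
    calc (n : ℝ) ^ (-(4 / 5) : ℝ) * (n : ℝ) ^ (-(1 / 10) : ℝ) ≤ T * (1 / 2 ^ k) :=
          mul_le_mul hTn g1 (by positivity) hT.le
      _ ≤ T * (1 / 2 ^ i) := by
          refine mul_le_mul_of_nonneg_left ?_ hT.le
          exact one_div_le_one_div_of_le h2i0 h2ik
      _ = T / 2 ^ i := by ring
  -- the actions
  have e2 : x * a * ρ * S = 2 * (x * Δ) / k := by rw [hρ]; field_simp
  have e3 : y ^ 2 * ρ * S = 2 * (y ^ 2 * Δ) / (k * a) := by rw [hρ]; field_simp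
  have g2 : (C + 1) * Q ≤ x * a * ρ * S := by
    rw [e2, le_div_iff₀ hk']
    have : 0 < (C + 1) * Q * k := by positivity
    linarith
  have g3 : (C + 1) * Q ≤ y ^ 2 * ρ * S := by
    rw [e3, le_div_iff₀ (by positivity)]
    have : 0 < (C + 1) * Q * k * a := by positivity
    nlinarith
  have hCQ : 0 < C * Q := by positivity
  have hmain := H n hn0' x a y τ S ρ (C1 * k) hx hxa hy hya han hτ0 hτ1 hSn (hST.trans hT1) hρ0 hCk
    hreg (by rw [← hQ]; linarith) (by rw [← hQ]; linarith)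
  rw [← hQ] at hmain
  exact lstar_num hnp ha hk1 (h2i.trans h2ik) hS0 hT hΔ0 hCQ.le hTS' hρ hmain

end Vale.Agent.P146.U
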