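import Vale.Agent.P146.U.Ex0

/-!
The two-level functional `PP x b c s F = W x c (W b s F) 0`: exponent `x` on a first Gaussian
block of standard deviation `c`, exponent `b` on a second block of standard deviation `s`.
Tangent inequality in `b`, convexity, share of the second block.
-/

open MeasureTheory ProbabilityTheory

namespace Vale.Agent.P146.U

open Vale.Agent.P157.Lv Vale.Agent.P146.H425 Vale.Agent.P146.R1

set_option linter.unusedSectionVars false

variable {κ : Type} [Fintype κ] {U U' F : (κ → ℝ) → ℝ} {D : κ → (κ → ℝ) → ℝ}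
  {B L x s a b b' c : ℝ} {φ ψ : (κ → ℝ) → ℝ}

/-- The entropy of the second block, at the position `y`. -/
noncomputable def Kc (b s : ℝ) (F : (κ → ℝ) → ℝ) (y : κ → ℝ) : ℝ :=
  KL (fun z => F (y + s • z)) b

/-- The two-level functional. -/
noncomputable def PP (x b c s : ℝ) (F : (κ → ℝ) → ℝ) : ℝ := W x c (W b s F) 0

/-- The mean at the switching position. -/
noncomputable def EE (x b c s : ℝ) (F ψ : (κ → ℝ) → ℝ) : ℝ := Mn x c (W b s F) ψ 0

/-- Twice the derivative of `PP` in `b`: the share of the second block. -/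
noncomputable def SS (x b c s : ℝ) (F : (κ → ℝ) → ℝ) : ℝ :=
  2 / b ^ 2 * EE x b c s F (Kc b s F)

/-- The mean squared gradient at the switching position. -/
noncomputable def Ps (x b c s : ℝ) (F : (κ → ℝ) → ℝ) (D : κ → (κ → ℝ) → ℝ) : ℝ :=
  EE x b c s F (G2 b s F D)

/-! ### convexity -/

/-- One layer of arbitrary standard deviation. -/
theorem layer_s {G0 G1 : (κ → ℝ) → ℝ} {B0 B1 x0 x1 a b : ℝ} (h : C11 F D B L)
    (h0 : LipB G0 B0) (hB0 : 0 ≤ B0) (h1 : LipB G1 B1) (hB1 : 0 ≤ B1)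
    (hx0 : 0 < x0) (hx1 : 0 < x1) (ha : 0 ≤ a) (hb : 0 ≤ b) (hab : a + b = 1)
    (hG : ∀ w0 w1, F (a • w0 + b • w1) ≤ a * G0 w0 + b * G1 w1) (s : ℝ) (y0 y1 : κ → ℝ) :
    W (a * x0 + b * x1) s F (a • y0 + b • y1) ≤ a * W x0 s G0 y0 + b * W x1 s G1 y1 := by
  have hl : ∀ {G : (κ → ℝ) → ℝ} {B : ℝ}, LipB G B → 0 ≤ B → ∀ y : κ → ℝ,
      LipB (fun z => G (y + s • z)) (|s| * B) := by
    intro G B hG hB y z w
    have := hG (y + s • z) (s • w)
    rw [norm_smul, Real.norm_eq_abs] at this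
    simp only
    rw [smul_add, ← add_assoc]
    exact this.trans (le_of_eq (by ring))
  have h2 := layer (h.shift (a • y0 + b • y1) s) (hl h0 hB0 y0) (by positivity)
    (hl h1 hB1 y1) (by positivity) hx0 hx1 ha hb hab (fun w0 w1 => ?_) 0 0
  · rw [smul_zero, smul_zero, add_zero, W_shift, W_shift, W_shift] at h2
    exact h2
  · have h3 := hG (y0 + s • w0) (y1 + s • w1)
    refine le_trans (le_of_eq ?_) h3
    congr 1
    rw [smul_add, smul_add, smul_add, smul_comm a s, smul_comm b s]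
    abel

/-- A layer preserves convexity. -/
lemma Cv.W (h : C11 F D B L) (hc : Cv F) (hx : 0 < x) (s : ℝ) : Cv (H425.W x s F) := by
  intro a b ha hb hab w0 w1
  have := layer_s h h.lip h.B0 h.lip h.B0 hx hx ha hb hab (hc a b ha hb hab) s w0 w1
  rwa [← add_mul, hab, one_mul] at this

/-! ### the entropy -/

lemma Kc_eq (b s : ℝ) (F : (κ → ℝ) → ℝ) (y : κ → ℝ) :
    Kc b s F y = b * Mn b s F F y - Real.log (∫ z, Real.exp (b * F (y + s • z)) ∂(gI κ)) := rfl

lemma meas_Kc (h : Lip F) (hb : 0 < b) : Measurable (Kc b s F) := by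
  have e : Kc b s F = fun y => b * Mn b s F F y - b * W b s F y := by
    funext y
    rw [Kc_eq]
    congr 1
    unfold W
    rw [← mul_assoc, mul_one_div_cancel hb.ne', one_mul]
  rw [e]
  exact ((meas_Mn h h.measurable b s).const_mul b).sub
    ((Lip.W h hb s).measurable.const_mul b)

lemma Kc_ge (h : C11 F D B L) (hb : 0 < b) (y : κ → ℝ) :
    b ^ 2 / 2 * (s ^ 2 * G2 b s F D y) ≤ Kc b s F y := KL_shift_ge h hb y

lemma Kc_nonneg (h : C11 F D B L) (hb : 0 < b) (y : κ → ℝ) : 0 ≤ Kc b s F y :=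
  le_trans (by
    have := (G2_bd (h.W' hb s) y).1
    have h2 : 0 ≤ G2 b s F D y := this
    positivity) (Kc_ge h hb y)

lemma Kc_le (h : C11 F D B L) (hb : 0 < b) (y : κ → ℝ) :
    Kc b s F y ≤ b ^ 2 / 2 * (s ^ 2 * Mn b s F (fun w => ∑ e, D e w ^ 2) y) := by
  have h1 := KL_le_grad (h.shift y s) hb
  refine h1.trans (le_of_eq ?_)
  congr 1
  unfold Mn
  rw [← mul_div_assoc]
  congr 1
  rw [← integral_const_mul]
  refine integral_congr_ae (Filter.Eventually.of_forall fun z => ?_)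
  simp only
  have e : ∑ e, (s * D e (y + s • z)) ^ 2 = s ^ 2 * ∑ e, D e (y + s • z) ^ 2 := by
    rw [Finset.mul_sum]
    exact Finset.sum_congr rfl fun e _ => by ring
  rw [e]
  ring

lemma Kc_le' (h : C11 F D B L) (hb : 0 < b) {M : ℝ} (hM : ∀ w, ∑ e, D e w ^ 2 ≤ M)
    (y : κ → ℝ) : Kc b s F y ≤ b ^ 2 / 2 * (s ^ 2 * M) := by
  refine (Kc_le h hb y).trans ?_
  have h1 := Mn_le (h.lip.lip h.B0) h.eg_G2 hM b s y
  gcongr

lemma eg_Kc (h : C11 F D B L) (hb : 0 < b) : EG (Kc b s F) :=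
  EG.of_bdd (meas_Kc (h.lip.lip h.B0) hb) fun y => by
    rw [abs_of_nonneg (Kc_nonneg h hb y)]
    exact Kc_le' h hb (fun w => (G2_bd h w).2) y

lemma eg_G2' (h : C11 F D B L) (hb : 0 < b) (s : ℝ) : EG (G2 b s F D) := (h.W' hb s).eg_G2

/-! ### the tangent inequality in the second exponent -/

/-- Conditionally on the first block. -/
lemma W_tangent (h : C11 F D B L) (hc : Cv F) (hb : 0 < b) (hb' : 0 < b') (y : κ → ℝ) :
    W b s F y + (b' - b) * (Kc b s F y / b ^ 2) ≤ W b' s F y := by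
  have := tangent (h.shift y s) (hc.shift y s) hb hb'
  rwa [W_shift, W_shift] at this

lemma lipW (h : C11 F D B L) (hb : 0 < b) (s : ℝ) : Lip (W b s F) :=
  (h.W' hb s).lip.lip h.B0

lemma EE_const_mul (r : ℝ) : EE x b c s F (fun w => r * ψ w) = r * EE x b c s F ψ :=
  Mn_const_mul r x c 0

lemma EE_mono (h : C11 F D B L) (hb : 0 < b) (hφ : EG φ) (hψ : EG ψ) (hle : ∀ w, φ w ≤ ψ w) :
    EE x b c s F φ ≤ EE x b c s F ψ := Mn_mono (lipW h hb s) hφ hψ hle x c 0

lemma EE_nonneg (h : C11 F D B L) (hb : 0 < b) (hψ : ∀ w, 0 ≤ ψ w) :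
    0 ≤ EE x b c s F ψ := Mn_nonneg (lipW h hb s) hψ x c 0

/-- **Tangent inequality in the second exponent.** -/
theorem PP_tangent (h : C11 F D B L) (hc : Cv F) (hx : 0 < x) (hb : 0 < b) (hb' : 0 < b') :
    PP x b c s F + (b' - b) / 2 * SS x b c s F ≤ PP x b' c s F := by
  have h1 := W_tan_ge (U := W b s F) (U' := W b' s F) (lipW h hb s) (lipW h hb' s) hx
    (ψ := fun y => (b' - b) / b ^ 2 * Kc b s F y) ((eg_Kc h hb).const_mul _)
    (fun y => by
      have := W_tangent (s := s) h hc hb hb' y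
      refine le_trans (le_of_eq ?_) this
      ring) c 0
  refine le_trans (le_of_eq ?_) h1
  unfold PP SS EE
  rw [Mn_const_mul]
  ring

lemma SS_nonneg (h : C11 F D B L) (hb : 0 < b) : 0 ≤ SS x b c s F :=
  mul_nonneg (by positivity) (EE_nonneg h hb (Kc_nonneg h hb))

lemma PP_mono (h : C11 F D B L) (hc : Cv F) (hx : 0 < x) (hb : 0 < b) (hbb : b ≤ b') :
    PP x b c s F ≤ PP x b' c s F := by
  have h1 := PP_tangent (c := c) (s := s) h hc hx hb (hb.trans_le hbb)
  have h2 := SS_nonneg (x := x) (c := c) (s := s) h hb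
  nlinarith [mul_nonneg (sub_nonneg.2 hbb) h2]

/-- The share is at least the squared gradient at the switching time. -/
theorem SS_ge (h : C11 F D B L) (hb : 0 < b) :
    s ^ 2 * Ps x b c s F D ≤ SS x b c s F := by
  have h1 : b ^ 2 / 2 * s ^ 2 * Ps x b c s F D ≤ EE x b c s F (Kc b s F) := by
    unfold Ps
    rw [← EE_const_mul]
    exact EE_mono h hb ((eg_G2' h hb s).const_mul _) (eg_Kc h hb) fun y => by
      have := Kc_ge (s := s) h hb y
      linarith
  unfold SS
  have h2 := mul_le_mul_of_nonneg_left h1 (show 0 ≤ 2 / b ^ 2 by positivity)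
  refine le_trans (le_of_eq ?_) h2
  field_simp

/-- The share is at most the variance of the second block times the bound of the gradient. -/
theorem SS_le (h : C11 F D B L) (hb : 0 < b) {M : ℝ} (hM : ∀ w, ∑ e, D e w ^ 2 ≤ M) :
    SS x b c s F ≤ s ^ 2 * M := by
  have h1 : EE x b c s F (Kc b s F) ≤ b ^ 2 / 2 * (s ^ 2 * M) :=
    Mn_le (lipW h hb s) (eg_Kc h hb) (Kc_le' h hb hM) x c 0
  unfold SS
  have h2 := mul_le_mul_of_nonneg_left h1 (show 0 ≤ 2 / b ^ 2 by positivity)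
  refine h2.trans (le_of_eq ?_)
  field_simp

lemma Ps_nonneg (h : C11 F D B L) (hb : 0 < b) : 0 ≤ Ps x b c s F D :=
  EE_nonneg h hb fun y => (G2_bd (h.W' hb s) y).1

lemma G2_le (h : C11 F D B L) (hb : 0 < b) {M : ℝ} (hM : ∀ w, ∑ e, D e w ^ 2 ≤ M)
    (y : κ → ℝ) : G2 b s F D y ≤ M := by
  have hl := h.lip.lip h.B0
  have e1 := Lip.egx hl y s b
  have h1 : G2 b s F D y ≤ Mn b s F (fun w => ∑ e, D e w ^ 2) y := by
    have e3 : Mn b s F (fun w => ∑ e, D e w ^ 2) y = ∑ e, Mn b s F (fun w => D e w ^ 2) y := by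
      unfold Mn
      rw [← Finset.sum_div, ← integral_finsetSum _ fun e _ =>
        (eg_num hl ((h.eg_D e).pow 2) b s y).integrable]
      congr 1
      refine integral_congr_ae (Filter.Eventually.of_forall fun z => ?_)
      simp only
      rw [Finset.mul_sum]
    rw [e3]
    refine Finset.sum_le_sum fun e _ => ?_
    have h2 := cs_int e1 (fun z => (Real.exp_pos _).le) (den_pos hl b s y)
      (EG.add_smul (h.eg_D e) y s)
    unfold Mn DW
    rw [le_div_iff₀ (den_pos hl b s y), mul_comm]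
    exact h2
  exact h1.trans (Mn_le hl h.eg_G2 hM b s y)

lemma Ps_le (h : C11 F D B L) (hb : 0 < b) {M : ℝ} (hM : ∀ w, ∑ e, D e w ^ 2 ≤ M) :
    Ps x b c s F D ≤ M :=
  Mn_le (lipW h hb s) (eg_G2' h hb s) (G2_le h hb hM) x c 0

/-- **Convexity in the second exponent.** -/
theorem PP_convex (h : C11 F D B L) (hc : Cv F) (hx : 0 < x) {p q b0 b1 : ℝ} (hp : 0 ≤ p)
    (hq : 0 ≤ q) (hpq : p + q = 1) (hb0 : 0 < b0) (hb1 : 0 < b1) :
    PP x (p * b0 + q * b1) c s F ≤ p * PP x b0 c s F + q * PP x b1 c s F := by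
  have hb : 0 < p * b0 + q * b1 := by
    rcases hp.eq_or_lt with h2 | h2
    · have : q = 1 := by linarith
      rw [← h2, this]; linarith
    · have := mul_pos h2 hb0
      have := mul_nonneg hq hb1.le
      linarith
  have h1 := layer_s (h.W' hb s) (h.W' hb0 s).lip h.B0 (h.W' hb1 s).lip h.B0 hx hx hp hq hpq
    (fun w0 w1 => layer_s h h.lip h.B0 h.lip h.B0 hb0 hb1 hp hq hpq
      (hc p q hp hq hpq) s w0 w1) c 0 0
  rw [← add_mul, hpq, one_mul, smul_zero, smul_zero, add_zero] at h1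
  exact h1

lemma PP_self (h : C11 F D B L) (hx : 0 < x) (hcs : c ^ 2 + s ^ 2 = a ^ 2) :
    PP x x c s F = W x a F 0 := W_W h.lip h.B0 hx hcs 0

lemma PP_zero (hb : 0 < b) : PP x b c 0 F = W x c F 0 := by
  unfold PP
  congr 1
  funext y
  exact W_zero hb y

end Vale.Agent.P146.U
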