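import Mathlib

set_option linter.all false

/-!
# P146, upper half without logarithms: the final balance, real numbers only

`coreK`: at an exponent `a` above `(x n T)^(-1/3)`, `x = n^(-1/6)`, `T ≤ n^(-1/3)`, the kappa
inequality with a constant `A` gives `R ≤ C' a²`.
`coreL1`: at `T = n^(-1/3) s`, `s` large, with `a² ≤ T s^(-κ)` and `R ≤ T s^(-κ)`, the Lambda
inequality with losses `A^m`, `A ≤ A₀ s^η`, is impossible.
`coreLK`: at `T = n^(-1/3) s` the kappa inequality with losses `A^m`, `A ≤ A₀ s^η`, gives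
`R ≤ T s^(-κ')`.
`coreLc`: the corner, `R ≤ n^(-b)` at `T ≥ n^(-c₀)`.
`coreL`: the three together.
-/

namespace Vale.Agent.P146.U

/-- `2 p q ≤ 2 p² + q² / 2` -/
lemma two_mul_le' (p q : ℝ) : 2 * (p * q) ≤ 2 * p ^ 2 + q ^ 2 / 2 := by
  nlinarith [sq_nonneg (2 * p - q)]

/-- a small number whose power is small -/
lemma exists_small {K k : ℝ} (hK : 0 ≤ K) (hk : 0 < k) :
    ∃ e : ℝ, 0 < e ∧ e ≤ 1 ∧ K * (2 * e) ^ k ≤ 1 / 4 ∧ K * e ^ k ≤ 1 / 4 := by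
  have hK1 : 0 < 4 * (K + 1) := by positivity
  refine ⟨(1 / (4 * (K + 1))) ^ (1 / k) / 2, by positivity, ?_, ?_, ?_⟩
  · have h1 : (1 / (4 * (K + 1))) ^ (1 / k) ≤ 1 := by
      refine Real.rpow_le_one (by positivity) ?_ (by positivity)
      rw [div_le_one hK1]; linarith
    linarith
  · have e1 : 2 * ((1 / (4 * (K + 1))) ^ (1 / k) / 2) = (1 / (4 * (K + 1))) ^ (1 / k) := by ring
    rw [e1, ← Real.rpow_mul (by positivity), one_div_mul_cancel hk.ne', Real.rpow_one,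
      mul_one_div, div_le_iff₀ hK1]
    linarith
  · have h1 : ((1 / (4 * (K + 1))) ^ (1 / k) / 2) ^ k ≤ ((1 / (4 * (K + 1))) ^ (1 / k)) ^ k := by
      refine Real.rpow_le_rpow (by positivity) ?_ hk.le
      have : 0 ≤ (1 / (4 * (K + 1))) ^ (1 / k) := by positivity
      linarith
    rw [← Real.rpow_mul (by positivity), one_div_mul_cancel hk.ne', Real.rpow_one] at h1
    refine (mul_le_mul_of_nonneg_left h1 hK).trans ?_
    rw [mul_one_div, div_le_iff₀ hK1]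
    linarith

/-- absorbing the small term and the mixed term -/
lemma absorb {K v a r e R : ℝ} (hK : 0 ≤ K) (hr : 0 ≤ r) (hR : R = r ^ 2) (he : K * e ≤ 1 / 2)
    (h : R ≤ K * (v + a * r + e * R)) : R ≤ 4 * K * v + 4 * K ^ 2 * a ^ 2 := by
  have h1 : K * (v + a * r + e * R) = K * v + K * a * r + K * e * R := by ring
  have h2 : K * e * R ≤ 1 / 2 * R := mul_le_mul_of_nonneg_right he (by rw [hR]; positivity)
  have h3 : 2 * ((K * a) * r) ≤ 2 * (K * a) ^ 2 + r ^ 2 / 2 := two_mul_le' _ _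
  rw [← hR] at h3
  nlinarith

/-- the kappa inequality, solved: `D` bounds the losses, `W` the small terms -/
lemma kap_solve {K v a sm R W : ℝ} (hK : 0 ≤ K) (ha : 0 ≤ a) (hR : 0 ≤ R) (hv : v ≤ 2 * W)
    (haW : a ^ 2 ≤ W) (hsm : K * sm ≤ 1 / 2)
    (h : K * a ≤ √R → R ≤ K * (v + a * √R + sm * R)) : R ≤ (8 * K + 4 * K ^ 2) * W := by
  have hW : 0 ≤ W := (sq_nonneg a).trans haW
  rcases le_total (K * a) (√R) with h0 | h0
  · have h1 := absorb (v := v) (a := a) (r := √R) (R := R) (e := sm) hK (Real.sqrt_nonneg _)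
      (Real.sq_sqrt hR).symm hsm (h h0)
    have h2 : 4 * K * v ≤ 4 * K * (2 * W) := mul_le_mul_of_nonneg_left hv (by positivity)
    have h3 : 4 * K ^ 2 * a ^ 2 ≤ 4 * K ^ 2 * W := mul_le_mul_of_nonneg_left haW (by positivity)
    linarith
  · have h1 : √R ^ 2 ≤ (K * a) ^ 2 := pow_le_pow_left₀ (Real.sqrt_nonneg _) h0 2
    rw [Real.sq_sqrt hR, mul_pow] at h1
    have h2 : K ^ 2 * a ^ 2 ≤ K ^ 2 * W := mul_le_mul_of_nonneg_left haW (by positivity)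
    have h3 : 0 ≤ K * W := by positivity
    have h4 : 0 ≤ K ^ 2 * W := by positivity
    linarith

/-- the numbers of the K-side -/
lemma K_facts {n T a : ℝ} (hn1 : 1 ≤ n) (hT : 0 < T) (hT3 : T ≤ n ^ (-(1 / 3) : ℝ)) (ha : 0 < a)
    (haT : (n ^ (-(1 / 6) : ℝ) * n * T) ^ (-(1 / 3) : ℝ) ≤ a) (ha1 : a ≤ 1) :
    1 / (n * T) ≤ n ^ (-(1 / 6) : ℝ) ∧ √(1 / (n * T)) ≤ a ^ 2 ∧ 1 / n ≤ a ^ 2 := by
  have hn0 : 0 < n := by linarith
  obtain ⟨z, hz⟩ : ∃ z : ℝ, z = n ^ (-(1 / 6) : ℝ) * n * T := ⟨_, rfl⟩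
  have hz0 : 0 < z := by rw [hz]; positivity
  rw [← hz] at haT
  have hz56 : z = n ^ (5 / 6 : ℝ) * T := by
    rw [hz]
    congr 1
    nth_rewrite 2 [← Real.rpow_one n]
    rw [← Real.rpow_add hn0]
    norm_num
  have hz1 : 1 ≤ z := by
    by_contra hc
    push Not at hc
    have h1 : 1 < z ^ (-(1 / 3) : ℝ) := Real.one_lt_rpow_of_pos_of_lt_one_of_neg hz0 hc (by norm_num)
    linarith
  have e1 : n * T = n ^ (1 / 6 : ℝ) * z := by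
    rw [hz56, ← mul_assoc, ← Real.rpow_add hn0]
    norm_num
  have hnT : n ^ (1 / 6 : ℝ) ≤ n * T := by
    rw [e1]
    exact le_mul_of_one_le_right (by positivity) hz1
  have ha2 : z ^ (-(2 / 3) : ℝ) ≤ a ^ 2 := by
    have j1 : (z ^ (-(1 / 3) : ℝ)) ^ 2 ≤ a ^ 2 := pow_le_pow_left₀ (by positivity) haT 2
    refine le_trans (le_of_eq ?_) j1
    rw [← Real.rpow_natCast, ← Real.rpow_mul hz0.le]
    norm_num
  have hzT : z ≤ n ^ (1 / 2 : ℝ) := by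
    rw [hz56]
    calc n ^ (5 / 6 : ℝ) * T ≤ n ^ (5 / 6 : ℝ) * n ^ (-(1 / 3) : ℝ) := by gcongr
      _ = n ^ (1 / 2 : ℝ) := by rw [← Real.rpow_add hn0]; norm_num
  refine ⟨?_, ?_, ?_⟩
  · rw [Real.rpow_neg hn0.le, one_div]
    exact inv_anti₀ (by positivity) hnT
  · refine le_trans ?_ ha2
    have j1 : z ^ (4 / 3 : ℝ) ≤ n * T := by
      have e2 : z ^ (4 / 3 : ℝ) = z ^ (1 / 3 : ℝ) * z := by
        nth_rewrite 3 [← Real.rpow_one z]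
        rw [← Real.rpow_add hz0]
        norm_num
      rw [e1, e2]
      refine mul_le_mul_of_nonneg_right ?_ hz0.le
      calc z ^ (1 / 3 : ℝ) ≤ (n ^ (1 / 2 : ℝ)) ^ (1 / 3 : ℝ) :=
            Real.rpow_le_rpow hz0.le hzT (by norm_num)
        _ = n ^ (1 / 6 : ℝ) := by rw [← Real.rpow_mul hn0.le]; norm_num
    have e3 : z ^ (-(2 / 3) : ℝ) = √((z ^ (4 / 3 : ℝ))⁻¹) := by
      rw [Real.sqrt_eq_rpow, ← Real.rpow_neg hz0.le, ← Real.rpow_mul hz0.le]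
      norm_num
    rw [e3]
    refine Real.sqrt_le_sqrt ?_
    rw [one_div]
    exact inv_anti₀ (by positivity) j1
  · refine le_trans ?_ ha2
    have j1 : z ^ (2 / 3 : ℝ) ≤ n := by
      calc z ^ (2 / 3 : ℝ) ≤ (n ^ (1 / 2 : ℝ)) ^ (2 / 3 : ℝ) :=
            Real.rpow_le_rpow hz0.le hzT (by norm_num)
        _ = n ^ (1 / 3 : ℝ) := by rw [← Real.rpow_mul hn0.le]; norm_num
        _ ≤ n ^ (1 : ℝ) := Real.rpow_le_rpow_of_exponent_le hn1 (by norm_num)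
        _ = n := Real.rpow_one n
    rw [Real.rpow_neg hz0.le, one_div]
    exact inv_anti₀ (by positivity) j1

/-- **The K-side.** `Y` is the action (`Lam`), `sn ≤ n^(-c₁)` the loss of the laws. -/
theorem coreK {C A k c₁ : ℝ} {m : ℕ} (hC : 0 ≤ C) (hA : 0 ≤ A) (hk : 0 < k) (hc₁ : 0 < c₁) :
    ∃ C' M n₀ : ℝ, 0 < C' ∧ 1 ≤ M ∧ 1 ≤ n₀ ∧ ∀ n : ℝ, n₀ ≤ n → ∀ T a R Y sn : ℝ, 0 < T →
      T ≤ n ^ (-(1 / 3) : ℝ) → 0 < a → (n ^ (-(1 / 6) : ℝ) * n * T) ^ (-(1 / 3) : ℝ) ≤ a →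
      a ≤ 1 → 0 ≤ R → M ≤ Y → sn ≤ n ^ (-c₁) →
      (C * A ^ m * a ≤ √R →
        R ≤ C * A ^ m * (√(1 / (n * T)) + a * √R + ((1 / Y + 1 / (n * T)) ^ k + sn) * R + 1 / n)) →
      R ≤ C' * a ^ 2 := by
  obtain ⟨K, hKd⟩ : ∃ K : ℝ, K = C * A ^ m := ⟨_, rfl⟩
  have hK : 0 ≤ K := by rw [hKd]; positivity
  obtain ⟨e, he0, he1, heK, -⟩ := exists_small hK hk
  obtain ⟨n₁, hn₁⟩ := Filter.eventually_atTop.1 ((tendsto_rpow_neg_atTop
    (show (0 : ℝ) < 1 / 6 by norm_num)).eventually_le_const he0)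
  obtain ⟨n₂, hn₂⟩ := Filter.eventually_atTop.1 ((tendsto_rpow_neg_atTop
    hc₁).eventually_le_const (show (0 : ℝ) < 1 / (4 * (K + 1)) by positivity))
  refine ⟨8 * K + 4 * K ^ 2 + 1, 1 / e, max 1 (max n₁ n₂), by positivity, ?_, le_max_left _ _,
    fun n hn T a R Y sn hT hT3 ha haT ha1 hR hY hsn h => ?_⟩
  · rw [le_div_iff₀ he0]; linarith
  have hn1 : 1 ≤ n := (le_max_left _ _).trans hn
  have g1 := hn₁ n (((le_max_left _ _).trans (le_max_right _ _)).trans hn)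
  have g2 := hn₂ n (((le_max_right _ _).trans (le_max_right _ _)).trans hn)
  have hn0 : 0 < n := by linarith
  rw [← hKd] at h
  obtain ⟨i1, hs1, hs2⟩ := K_facts hn1 hT hT3 ha haT ha1
  have hY0 : 0 < Y := lt_of_lt_of_le (by positivity) hY
  have i2 : 1 / Y ≤ e := by
    rw [div_le_iff₀ hY0]
    rw [div_le_iff₀ he0] at hY
    linarith
  have hsm : K * ((1 / Y + 1 / (n * T)) ^ k + sn) ≤ 1 / 2 := by
    have j1 : (1 / Y + 1 / (n * T)) ^ k ≤ (2 * e) ^ k :=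
      Real.rpow_le_rpow (by positivity) (by linarith) hk.le
    have j3 := mul_le_mul_of_nonneg_left j1 hK
    have j4 := mul_le_mul_of_nonneg_left (hsn.trans g2) hK
    have j5 : K * (1 / (4 * (K + 1))) ≤ 1 / 4 := by
      rw [mul_one_div, div_le_iff₀ (by positivity)]
      linarith
    linarith
  have h1 := kap_solve (v := √(1 / (n * T)) + 1 / n) (W := a ^ 2) hK ha.le hR (by linarith)
    le_rfl hsm (fun h0 => (h h0).trans (le_of_eq (by ring)))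
  nlinarith [sq_nonneg a]

/-- the numbers of the L-side -/
lemma L_facts {n s T δ : ℝ} (hn0 : 0 < n) (hs1 : 1 ≤ s) (hT : T = n ^ (-(1 / 3) : ℝ) * s)
    (hT1 : T ≤ 1) (hδ : δ ≤ 3 / 2) :
    s ^ (3 : ℝ) ≤ n ∧ 1 / (n * T) ≤ s ^ (-1 : ℝ) ∧ √(1 / (n * T)) ≤ T * s ^ (-δ) ∧
      1 / n ≤ T * s ^ (-δ) := by
  have hs0 : 0 < s := by linarith
  have hT0 : 0 < T := by rw [hT]; positivity
  have hsn : s ≤ n ^ (1 / 3 : ℝ) := by
    have h1 : n ^ (1 / 3 : ℝ) * (n ^ (-(1 / 3) : ℝ) * s) ≤ n ^ (1 / 3 : ℝ) * 1 :=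
      mul_le_mul_of_nonneg_left (hT ▸ hT1) (by positivity)
    rw [← mul_assoc, ← Real.rpow_add hn0] at h1
    norm_num at h1
    simpa using h1
  have hn3 : s ^ (3 : ℝ) ≤ n := by
    calc s ^ (3 : ℝ) ≤ (n ^ (1 / 3 : ℝ)) ^ (3 : ℝ) := Real.rpow_le_rpow hs0.le hsn (by norm_num)
      _ = n := by rw [← Real.rpow_mul hn0.le]; norm_num
  have hnT3 : n * T ^ 3 = s ^ 3 := by
    rw [hT, mul_pow, ← Real.rpow_natCast (n ^ (-(1 / 3) : ℝ)), ← Real.rpow_mul hn0.le, ← mul_assoc]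
    have : n * n ^ (-(1 / 3) * ((3 : ℕ) : ℝ)) = 1 := by
      nth_rewrite 1 [← Real.rpow_one n]
      rw [← Real.rpow_add hn0]
      norm_num
    rw [this, one_mul]
  have hnT0 : 0 < n * T := by positivity
  have hs3 : 0 < s ^ 3 := by positivity
  have e1 : 1 / (n * T) = T ^ 2 / s ^ 3 := by
    rw [← hnT3]
    field_simp
  have hT21 : T ^ 2 ≤ 1 := pow_le_one₀ hT0.le hT1
  refine ⟨hn3, ?_, ?_, ?_⟩
  · rw [e1]
    calc T ^ 2 / s ^ 3 ≤ 1 / s ^ 3 := by gcongr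
      _ = s ^ (-3 : ℝ) := by
        rw [Real.rpow_neg hs0.le, one_div]
        norm_cast
      _ ≤ s ^ (-1 : ℝ) := Real.rpow_le_rpow_of_exponent_le hs1 (by norm_num)
  · rw [e1, Real.sqrt_div (sq_nonneg T), Real.sqrt_sq hT0.le, div_eq_mul_inv]
    refine mul_le_mul_of_nonneg_left ?_ hT0.le
    rw [Real.sqrt_eq_rpow, ← Real.rpow_natCast, ← Real.rpow_mul hs0.le, ← Real.rpow_neg hs0.le]
    refine Real.rpow_le_rpow_of_exponent_le hs1 ?_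
    push_cast
    linarith
  · have h1 : 1 / n = T ^ 3 / s ^ 3 := by
      rw [← hnT3]
      field_simp
    have h2 : T ^ 3 ≤ T := pow_le_of_le_one hT0.le hT1 (by norm_num)
    rw [h1]
    calc T ^ 3 / s ^ 3 ≤ T / s ^ 3 := by gcongr
      _ = T * s ^ (-3 : ℝ) := by
        rw [Real.rpow_neg hs0.le, div_eq_mul_inv]
        norm_cast
      _ ≤ T * s ^ (-δ) := mul_le_mul_of_nonneg_left
        (Real.rpow_le_rpow_of_exponent_le hs1 (by linarith)) hT0.le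

/-- the losses: `C A^m ≤ D s^ε` -/
lemma L_loss {C A₀ A s η ε : ℝ} {m : ℕ} (hC : 0 ≤ C) (hs1 : 1 ≤ s) (hε : 0 < ε)
    (hη : η ≤ ε / (m + 1)) (hA : 0 ≤ A) (hA1 : A ≤ A₀ * s ^ η) :
    C * A ^ m ≤ C * |A₀| ^ m * s ^ ε := by
  have hs0 : 0 < s := by linarith
  have hm0 : (0 : ℝ) ≤ m := Nat.cast_nonneg m
  calc C * A ^ m ≤ C * (|A₀| * s ^ η) ^ m := by
        refine mul_le_mul_of_nonneg_left (pow_le_pow_left₀ hA (hA1.trans ?_) m) hC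
        exact mul_le_mul_of_nonneg_right (le_abs_self _) (by positivity)
    _ = C * |A₀| ^ m * s ^ (η * m) := by
        rw [mul_pow, Real.rpow_mul hs0.le, Real.rpow_natCast]
        ring
    _ ≤ C * |A₀| ^ m * s ^ ε := by
        refine mul_le_mul_of_nonneg_left (Real.rpow_le_rpow_of_exponent_le hs1 ?_) (by positivity)
        calc η * m ≤ ε / (m + 1) * m := mul_le_mul_of_nonneg_right hη hm0
          _ ≤ ε := by
            rw [div_mul_eq_mul_div, div_le_iff₀ (by positivity)]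
            nlinarith

/-- large `s` -/
lemma L_large {E ε : ℝ} (hE : 0 ≤ E) (hε : 0 < ε) :
    ∃ s₀ : ℝ, 1 ≤ s₀ ∧ ∀ s, s₀ ≤ s → E * s ^ (-ε) ≤ 1 / 2 := by
  obtain ⟨s₁, hs₁⟩ := Filter.eventually_atTop.1 ((tendsto_rpow_neg_atTop hε).eventually_le_const
    (show (0 : ℝ) < 1 / (2 * (E + 1)) by positivity))
  refine ⟨max 1 s₁, le_max_left _ _, fun s hs => ?_⟩
  refine (mul_le_mul_of_nonneg_left (hs₁ s ((le_max_right _ _).trans hs)) hE).trans ?_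
  rw [mul_one_div, div_le_iff₀ (by positivity)]
  linarith

/-- **The L-side, the Lambda inequality.** -/
theorem coreL1 {C κ : ℝ} (m : ℕ) (hC : 0 ≤ C) (hκ : 0 < κ) :
    ∃ η₀ : ℝ, 0 < η₀ ∧ ∀ η : ℝ, η ≤ η₀ → ∀ A₀ : ℝ, ∃ s₀ : ℝ, 1 ≤ s₀ ∧
      ∀ n s T a R A : ℝ, 0 < n → s₀ ≤ s → T = n ^ (-(1 / 3) : ℝ) * s → T ≤ 1 → 0 ≤ a →
      a ^ 2 ≤ T * s ^ (-κ) → 0 ≤ R → R ≤ T * s ^ (-κ) → 0 ≤ A → A ≤ A₀ * s ^ η →
      T ≤ C * A ^ m * (√(1 / (n * T)) + a * √R + R + 1 / n) → False := by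
  obtain ⟨δ, hδ⟩ : ∃ δ : ℝ, δ = min κ (3 / 2) := ⟨_, rfl⟩
  have hδ0 : 0 < δ := by rw [hδ]; exact lt_min hκ (by norm_num)
  have hδκ : δ ≤ κ := by rw [hδ]; exact min_le_left _ _
  have hδ3 : δ ≤ 3 / 2 := by rw [hδ]; exact min_le_right _ _
  refine ⟨δ / 2 / (m + 1), by positivity, fun η hη A₀ => ?_⟩
  obtain ⟨D, hD⟩ : ∃ D : ℝ, D = C * |A₀| ^ m := ⟨_, rfl⟩
  have hD0 : 0 ≤ D := by rw [hD]; positivity
  obtain ⟨s₀, hs₀, hs₀'⟩ := L_large (E := 4 * D) (ε := δ / 2) (by positivity) (by positivity)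
  refine ⟨s₀, hs₀, fun n s T a R A hn0 hs hT hT1 ha ha2 hR hR1 hA hA1 hL => ?_⟩
  have hs1 : 1 ≤ s := hs₀.trans hs
  have hs0 : 0 < s := by linarith
  have hT0 : 0 < T := by rw [hT]; positivity
  obtain ⟨-, -, e2, e3⟩ := L_facts hn0 hs1 hT hT1 hδ3
  have hK := L_loss (m := m) hC hs1 (show 0 < δ / 2 by positivity) hη hA hA1
  rw [← hD] at hK
  have hm : T * s ^ (-κ) ≤ T * s ^ (-δ) := mul_le_mul_of_nonneg_left
    (Real.rpow_le_rpow_of_exponent_le hs1 (by linarith)) hT0.le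
  have haR : a * √R ≤ (a ^ 2 + R) / 2 := by
    have := Real.sq_sqrt hR
    nlinarith [sq_nonneg (a - √R)]
  have hK0 : 0 ≤ C * A ^ m := by positivity
  have h1 : T ≤ D * s ^ (δ / 2) * (4 * (T * s ^ (-δ))) := by
    refine hL.trans (mul_le_mul hK (by linarith) (by positivity) (by positivity))
  have h2 : s ^ (δ / 2) * s ^ (-δ) = s ^ (-(δ / 2)) := by
    rw [← Real.rpow_add hs0]; ring_nf
  have h3 : D * s ^ (δ / 2) * (4 * (T * s ^ (-δ))) = 4 * D * s ^ (-(δ / 2)) * T := by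
    rw [← h2]; ring
  have h4 := mul_le_mul_of_nonneg_right (hs₀' s hs) hT0.le
  linarith

/-- the small factor is at most one half -/
lemma LK1 {D E K ν p u : ℝ} (hK0 : 0 ≤ K) (hν1 : 1 ≤ ν) (hKD : K ≤ D * ν) (hE0 : 0 ≤ E)
    (hp : 0 ≤ p) (hE : D * (p + 1) ≤ E) (hEν : E ≤ 1 / 2 * ν) (hu : u ≤ (p + 1) * (1 / ν ^ 4)) :
    K * u ≤ 1 / 2 := by
  have hν0 : 0 < ν := by linarith
  have k1 : K * u ≤ K * ((p + 1) * (1 / ν ^ 4)) := mul_le_mul_of_nonneg_left hu hK0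
  have k2 : K * ((p + 1) * (1 / ν ^ 4)) ≤ D * ν * ((p + 1) * (1 / ν ^ 4)) :=
    mul_le_mul_of_nonneg_right hKD (by positivity)
  refine k1.trans (k2.trans ?_)
  have k3 : D * ν * ((p + 1) * (1 / ν ^ 4)) = D * (p + 1) / ν ^ 3 := by
    field_simp
  rw [k3, div_le_iff₀ (by positivity)]
  have k5 : ν ≤ ν ^ 3 := le_self_pow₀ hν1 (by norm_num)
  linarith

/-- the final bound -/
lemma LK2 {D E K ν T : ℝ} (hK0 : 0 ≤ K) (hν1 : 1 ≤ ν) (hKD : K ≤ D * ν) (hD0 : 0 ≤ D)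
    (hE : 8 * D + 4 * D ^ 2 ≤ E) (hEν : E ≤ 1 / 2 * ν) (hT : 0 ≤ T) :
    (8 * K + 4 * K ^ 2) * (T * (1 / ν ^ 4)) ≤ T * (1 / ν) := by
  have hν0 : 0 < ν := by linarith
  have h2 : 8 * K + 4 * K ^ 2 ≤ (8 * D + 4 * D ^ 2) * ν ^ 2 := by
    have k1 : K ^ 2 ≤ (D * ν) ^ 2 := pow_le_pow_left₀ hK0 hKD 2
    have k2 : D * ν ≤ D * ν ^ 2 := mul_le_mul_of_nonneg_left (le_self_pow₀ hν1 (by norm_num)) hD0
    have k3 : (D * ν) ^ 2 = D ^ 2 * ν ^ 2 := by ring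
    linarith
  have k6 : (8 * D + 4 * D ^ 2) * ν ≤ ν ^ 2 := by
    have i1 := mul_le_mul_of_nonneg_right (hE.trans hEν) hν0.le
    have i2 : 1 / 2 * ν * ν = 1 / 2 * ν ^ 2 := by ring
    have i3 : 0 ≤ ν ^ 2 := by positivity
    linarith
  calc (8 * K + 4 * K ^ 2) * (T * (1 / ν ^ 4))
        ≤ ((8 * D + 4 * D ^ 2) * ν ^ 2) * (T * (1 / ν ^ 4)) :=
        mul_le_mul_of_nonneg_right h2 (by positivity)
    _ = T * ((8 * D + 4 * D ^ 2) / ν ^ 2) := by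
        field_simp
    _ ≤ T * (1 / ν) := by
        refine mul_le_mul_of_nonneg_left ?_ hT
        rw [div_le_div_iff₀ (by positivity) hν0]
        linarith

/-- **The L-side, the kappa inequality.** -/
theorem coreLK {C k κ c c₁ : ℝ} (m : ℕ) (hC : 0 ≤ C) (hk : 0 < k) (hκ : 0 < κ) (hc : 0 < c)
    (hc₁ : 0 < c₁) :
    ∃ κ' η₀ : ℝ, 0 < κ' ∧ 0 < η₀ ∧ ∀ η : ℝ, η ≤ η₀ → ∀ A₀ : ℝ, ∃ s₀ : ℝ, 1 ≤ s₀ ∧
      ∀ n s T a R Y sn A : ℝ, 0 < n → s₀ ≤ s → T = n ^ (-(1 / 3) : ℝ) * s → T ≤ 1 → 0 ≤ a →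
      a ^ 2 ≤ T * s ^ (-κ) → s ^ c ≤ Y → sn ≤ n ^ (-c₁) → 0 ≤ R → 0 ≤ A → A ≤ A₀ * s ^ η →
      (C * A ^ m * a ≤ √R →
        R ≤ C * A ^ m * (√(1 / (n * T)) + a * √R + ((1 / Y + 1 / (n * T)) ^ k + sn) * R +
          1 / n)) →
      R ≤ T * s ^ (-κ') := by
  obtain ⟨δ, hδ⟩ : ∃ δ : ℝ, δ = min κ (3 / 2) := ⟨_, rfl⟩
  obtain ⟨c', hc'⟩ : ∃ c' : ℝ, c' = min c 1 := ⟨_, rfl⟩
  obtain ⟨ε, hε⟩ : ∃ ε : ℝ, ε = min (min δ (c' * k)) (3 * c₁) := ⟨_, rfl⟩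
  have hδ0 : 0 < δ := by rw [hδ]; exact lt_min hκ (by norm_num)
  have hc'0 : 0 < c' := by rw [hc']; exact lt_min hc one_pos
  have hε0 : 0 < ε := by
    rw [hε]
    exact lt_min (lt_min hδ0 (by positivity)) (by linarith)
  have hεδ : ε ≤ δ := by rw [hε]; exact (min_le_left _ _).trans (min_le_left _ _)
  have hεc : ε ≤ c' * k := by rw [hε]; exact (min_le_left _ _).trans (min_le_right _ _)
  have hεb : ε ≤ 3 * c₁ := by rw [hε]; exact min_le_right _ _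
  have hδκ : δ ≤ κ := by rw [hδ]; exact min_le_left _ _
  have hδ3 : δ ≤ 3 / 2 := by rw [hδ]; exact min_le_right _ _
  have hc'c : c' ≤ c := by rw [hc']; exact min_le_left _ _
  have hc'1 : c' ≤ 1 := by rw [hc']; exact min_le_right _ _
  refine ⟨ε / 4, ε / 4 / (m + 1), by positivity, by positivity, fun η hη A₀ => ?_⟩
  obtain ⟨D, hD⟩ : ∃ D : ℝ, D = C * |A₀| ^ m := ⟨_, rfl⟩
  have hD0 : 0 ≤ D := by rw [hD]; positivity
  obtain ⟨E, hE⟩ : ∃ E : ℝ, E = D * (2 ^ k + 1) + 8 * D + 4 * D ^ 2 := ⟨_, rfl⟩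
  have hE0 : 0 ≤ E := by rw [hE]; positivity
  obtain ⟨s₀, hs₀, hs₀'⟩ := L_large (E := E) (ε := ε / 4) hE0 (by positivity)
  refine ⟨s₀, hs₀, fun n s T a R Y sn A hn0 hs hT hT1 ha ha2 hY hsn hR hA hA1 hKp => ?_⟩
  have hs1 : 1 ≤ s := hs₀.trans hs
  have hs0 : 0 < s := by linarith
  have hT0 : 0 < T := by rw [hT]; positivity
  obtain ⟨hn3, e1, e2, e3⟩ := L_facts hn0 hs1 hT hT1 hδ3
  obtain ⟨K, hKd⟩ : ∃ K : ℝ, K = C * A ^ m := ⟨_, rfl⟩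
  have hK0 : 0 ≤ K := by rw [hKd]; positivity
  obtain ⟨ν, hν⟩ : ∃ ν : ℝ, ν = s ^ (ε / 4) := ⟨_, rfl⟩
  have hν1 : 1 ≤ ν := by rw [hν]; exact Real.one_le_rpow hs1 (by positivity)
  have hν0 : 0 < ν := by linarith
  have hKD : K ≤ D * ν := by
    rw [hKd, hD, hν]
    exact L_loss hC hs1 (show 0 < ε / 4 by positivity) hη hA hA1
  have hEs : E * s ^ (-(ε / 4)) ≤ 1 / 2 := hs₀' s hs
  -- everything in powers of `ν`
  have hν4 : s ^ (-ε) = 1 / ν ^ 4 := by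
    rw [hν, ← Real.rpow_natCast, ← Real.rpow_mul hs0.le, Real.rpow_neg hs0.le, one_div]
    congr 2
    push_cast
    ring
  have hν1' : s ^ (-(ε / 4)) = 1 / ν := by
    rw [hν, Real.rpow_neg hs0.le, one_div]
  rw [hν1'] at hEs ⊢
  rw [mul_one_div, div_le_iff₀ hν0] at hEs
  have hW : T * s ^ (-δ) ≤ T * s ^ (-ε) := mul_le_mul_of_nonneg_left
    (Real.rpow_le_rpow_of_exponent_le hs1 (by linarith)) hT0.le
  have hW' : T * s ^ (-κ) ≤ T * s ^ (-δ) := mul_le_mul_of_nonneg_left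
    (Real.rpow_le_rpow_of_exponent_le hs1 (by linarith)) hT0.le
  have hY0 : 0 < Y := lt_of_lt_of_le (by positivity) hY
  have i2 : 1 / Y ≤ s ^ (-c') := by
    calc 1 / Y ≤ 1 / s ^ c := one_div_le_one_div_of_le (by positivity) hY
      _ = s ^ (-c) := by rw [Real.rpow_neg hs0.le, one_div]
      _ ≤ s ^ (-c') := Real.rpow_le_rpow_of_exponent_le hs1 (by linarith)
  have i1 : 1 / (n * T) ≤ s ^ (-c') := e1.trans (Real.rpow_le_rpow_of_exponent_le hs1 (by linarith))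
  have hnT0 : 0 < n * T := by positivity
  have j1 : (1 / Y + 1 / (n * T)) ^ k ≤ 2 ^ k * s ^ (-ε) := by
    calc (1 / Y + 1 / (n * T)) ^ k ≤ (2 * s ^ (-c')) ^ k :=
          Real.rpow_le_rpow (by positivity) (by linarith) hk.le
      _ = 2 ^ k * s ^ (-c' * k) := by
          rw [Real.mul_rpow (by norm_num) (by positivity), ← Real.rpow_mul hs0.le]
      _ ≤ 2 ^ k * s ^ (-ε) := mul_le_mul_of_nonneg_left
          (Real.rpow_le_rpow_of_exponent_le hs1 (by linarith)) (by positivity)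
  have j2 : sn ≤ s ^ (-ε) := by
    refine hsn.trans ?_
    rw [Real.rpow_neg hn0.le, Real.rpow_neg hs0.le]
    refine inv_anti₀ (by positivity) ?_
    calc s ^ ε ≤ s ^ (3 * c₁) := Real.rpow_le_rpow_of_exponent_le hs1 hεb
      _ = (s ^ (3 : ℝ)) ^ c₁ := by rw [Real.rpow_mul hs0.le]
      _ ≤ n ^ c₁ := Real.rpow_le_rpow (by positivity) hn3 hc₁.le
  have hsm : K * ((1 / Y + 1 / (n * T)) ^ k + sn) ≤ 1 / 2 := by
    refine LK1 hK0 hν1 hKD hE0 (show (0 : ℝ) ≤ 2 ^ k by positivity) ?_ hEs ?_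
    · rw [hE]
      have : 0 ≤ D ^ 2 := sq_nonneg D
      linarith
    · rw [← hν4]
      linarith
  have h1 := kap_solve (v := √(1 / (n * T)) + 1 / n) (W := T * s ^ (-ε)) (a := a) (R := R)
    (sm := (1 / Y + 1 / (n * T)) ^ k + sn) hK0 ha hR (by linarith)
    (by linarith) hsm (fun h0 => by
      rw [hKd] at h0 ⊢
      exact (hKp h0).trans (le_of_eq (by ring)))
  refine h1.trans ?_
  rw [hν4]
  refine LK2 hK0 hν1 hKD hD0 ?_ hEs hT0.le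
  rw [hE]
  have : 0 ≤ D * (2 ^ k + 1) := by positivity
  linarith

/-- **The corner.** -/
theorem coreLc {c₀ b : ℝ} (hb : c₀ < b) :
    ∀ n s T R : ℝ, 0 < n → 1 ≤ s → T = n ^ (-(1 / 3) : ℝ) * s → T ≤ 1 → n ^ (-c₀) ≤ T →
      R ≤ n ^ (-b) → R ≤ T * s ^ (-(3 * (b - c₀))) := by
  intro n s T R hn0 hs1 hT hT1 h0 hR
  have hs0 : 0 < s := by linarith
  have hT0 : 0 < T := by rw [hT]; positivity
  obtain ⟨hn3, -, -, -⟩ := L_facts (δ := 1) hn0 hs1 hT hT1 (by norm_num)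
  refine hR.trans ?_
  calc n ^ (-b) = n ^ (-c₀) * n ^ (-(b - c₀)) := by
        rw [← Real.rpow_add hn0]; ring_nf
    _ ≤ T * s ^ (-(3 * (b - c₀))) := by
        refine mul_le_mul h0 ?_ (by positivity) hT0.le
        rw [Real.rpow_neg hn0.le, Real.rpow_neg hs0.le]
        refine inv_anti₀ (by positivity) ?_
        calc s ^ (3 * (b - c₀)) = (s ^ (3 : ℝ)) ^ (b - c₀) := by rw [Real.rpow_mul hs0.le]
          _ ≤ n ^ (b - c₀) := Real.rpow_le_rpow (by positivity) hn3 (by linarith)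

/-- **The L-side**, Lambda and kappa inequalities together. -/
theorem coreL {C k κ c c₀ c₁ b : ℝ} (m : ℕ) (hC : 0 ≤ C) (hk : 0 < k) (hκ : 0 < κ) (hc : 0 < c)
    (hc₁ : 0 < c₁) (hb : c₀ < b) :
    ∃ η₀ : ℝ, 0 < η₀ ∧ ∀ η : ℝ, η ≤ η₀ → ∀ A₀ : ℝ, ∃ s₀ : ℝ, 1 ≤ s₀ ∧
      ∀ n s T a R Y sn A : ℝ, 0 < n → s₀ ≤ s → T = n ^ (-(1 / 3) : ℝ) * s → T ≤ 1 → 0 ≤ a →
      a ^ 2 ≤ T * s ^ (-κ) → s ^ c ≤ Y → sn ≤ n ^ (-c₁) → 0 ≤ R → 0 ≤ A → A ≤ A₀ * s ^ η →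
      T ≤ C * A ^ m * (√(1 / (n * T)) + a * √R + R + 1 / n) →
      (T ≤ n ^ (-c₀) → C * A ^ m * a ≤ √R →
        R ≤ C * A ^ m * (√(1 / (n * T)) + a * √R + ((1 / Y + 1 / (n * T)) ^ k + sn) * R +
          1 / n)) →
      (n ^ (-c₀) ≤ T → R ≤ n ^ (-b)) → False := by
  obtain ⟨κ', η₁, hκ', hη₁, H1⟩ := coreLK (C := C) m hC hk hκ hc hc₁
  obtain ⟨κ₂, hκ₂⟩ : ∃ κ₂ : ℝ, κ₂ = min κ (min κ' (3 * (b - c₀))) := ⟨_, rfl⟩
  have g0 : 0 < κ₂ := by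
    rw [hκ₂]
    exact lt_min hκ (lt_min hκ' (by linarith))
  have g1 : κ₂ ≤ κ := by rw [hκ₂]; exact min_le_left _ _
  have g2 : κ₂ ≤ κ' := by rw [hκ₂]; exact (min_le_right _ _).trans (min_le_left _ _)
  have g3 : κ₂ ≤ 3 * (b - c₀) := by rw [hκ₂]; exact (min_le_right _ _).trans (min_le_right _ _)
  obtain ⟨η₂, hη₂, H2⟩ := coreL1 (C := C) m hC g0
  refine ⟨min η₁ η₂, lt_min hη₁ hη₂, fun η hη A₀ => ?_⟩
  obtain ⟨s₁, hs₁, H1'⟩ := H1 η (hη.trans (min_le_left _ _)) A₀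
  obtain ⟨s₂, hs₂, H2'⟩ := H2 η (hη.trans (min_le_right _ _)) A₀
  refine ⟨max s₁ s₂, hs₁.trans (le_max_left _ _), fun n s T a R Y sn A hn0 hs hT hT1 ha ha2 hY hsn
    hR hA hA1 hL hK h8 => ?_⟩
  have hs1 : 1 ≤ s := hs₁.trans ((le_max_left _ _).trans hs)
  have hT0 : 0 < T := by rw [hT]; positivity
  have mono : ∀ e : ℝ, κ₂ ≤ e → T * s ^ (-e) ≤ T * s ^ (-κ₂) := fun e he =>
    mul_le_mul_of_nonneg_left (Real.rpow_le_rpow_of_exponent_le hs1 (by linarith)) hT0.le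
  refine H2' n s T a R A hn0 ((le_max_right _ _).trans hs) hT hT1 ha (ha2.trans (mono _ g1)) hR ?_
    hA hA1 hL
  rcases le_total T (n ^ (-c₀)) with h0 | h0
  · exact (H1' n s T a R Y sn A hn0 ((le_max_left _ _).trans hs) hT hT1 ha ha2 hY hsn hR hA hA1
      (hK h0)).trans (mono _ g2)
  · exact (coreLc hb n s T R hn0 hs1 hT hT1 h0 (h8 h0)).trans (mono _ g3)

end Vale.Agent.P146.U
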