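import Vale.Agent.P146.U.Core

set_option linter.all false

/-!
# P146, upper half without logarithms: the final balance with a free outer exponent `x`

`1 ≤ n x⁶`, `T = x² s`.  `coreKS`: the K-side of the selection with the weight
`g(a, T) = n x² (a / x)^p s^(-(1 - c))`; `coreKx`, `coreL1x`, `coreLKx`: the statements of
`Core.lean` with a free `x`.
-/

namespace Vale.Agent.P146.U

/-- `√(1 / (n T)) ≤ x² s^(-1/2)` -/
lemma sqrt_nT {n x s T : ℝ} (hn : 0 < n) (hx : 0 < x) (hs : 0 < s) (hnx : 1 ≤ n * x ^ 6)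
    (hT : T = x ^ 2 * s) : √(1 / (n * T)) ≤ x ^ 2 * s ^ (-(1 / 2) : ℝ) := by
  have h1 : x ^ 2 * s ^ (-(1 / 2) : ℝ) = √(x ^ 4 * s⁻¹) := by
    rw [Real.sqrt_mul (by positivity), show x ^ 4 = (x ^ 2) ^ 2 by ring,
      Real.sqrt_sq (by positivity), Real.sqrt_eq_rpow, ← Real.rpow_neg_one s,
      ← Real.rpow_mul hs.le]
    norm_num
  rw [h1]
  refine Real.sqrt_le_sqrt ?_
  rw [hT, ← div_eq_mul_inv, div_le_div_iff₀ (by positivity) hs]
  have h2 : s * 1 ≤ s * (n * x ^ 6) := mul_le_mul_of_nonneg_left hnx hs.le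
  calc 1 * s = s * 1 := by ring
    _ ≤ s * (n * x ^ 6) := h2
    _ = x ^ 4 * (n * (x ^ 2 * s)) := by ring

/-- `1 / n ≤ x⁶` -/
lemma inv_n_le {n x : ℝ} (hn : 0 < n) (hnx : 1 ≤ n * x ^ 6) : 1 / n ≤ x ^ 6 := by
  rw [div_le_iff₀ hn]
  linarith

/-- the numbers of the L-side, free `x` -/
lemma L_factsx {n x s T δ : ℝ} (hn : 0 < n) (hx : 0 < x) (hnx : 1 ≤ n * x ^ 6) (hs1 : 1 ≤ s)
    (hT : T = x ^ 2 * s) (hT1 : T ≤ 1) (hδ : δ ≤ 3 / 2) :
    s ^ (3 : ℝ) ≤ n ∧ 1 / (n * T) ≤ s ^ (-1 : ℝ) ∧ √(1 / (n * T)) ≤ T * s ^ (-δ) ∧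
      1 / n ≤ T * s ^ (-δ) := by
  have hs0 : 0 < s := by linarith
  have hT0 : 0 < T := by rw [hT]; positivity
  have hx2 : x ^ 2 * s ≤ 1 := hT ▸ hT1
  have hs3 : 0 < s ^ 3 := by positivity
  have e6 : x ^ 6 * s ^ 3 ≤ 1 := by
    calc x ^ 6 * s ^ 3 = (x ^ 2 * s) ^ 3 := by ring
      _ ≤ 1 := pow_le_one₀ (by positivity) hx2
  have hn3' : s ^ 3 ≤ n := by
    have h1 : s ^ 3 * 1 ≤ s ^ 3 * (n * x ^ 6) := mul_le_mul_of_nonneg_left hnx hs3.le
    have h2 : n * (x ^ 6 * s ^ 3) ≤ n * 1 := mul_le_mul_of_nonneg_left e6 hn.le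
    linarith
  have hn3 : s ^ (3 : ℝ) ≤ n := by
    have : s ^ (3 : ℝ) = s ^ 3 := by norm_cast
    rw [this]; exact hn3'
  have hx1 : x ^ 2 ≤ 1 := by nlinarith
  have hnT0 : 0 < n * T := by positivity
  refine ⟨hn3, ?_, ?_, ?_⟩
  · -- `1/(nT) ≤ x⁶/T = x⁴/s ≤ 1/s`
    rw [Real.rpow_neg_one, inv_eq_one_div, div_le_div_iff₀ hnT0 hs0, hT]
    have h1 : s * 1 ≤ s * (n * x ^ 6) := mul_le_mul_of_nonneg_left hnx hs0.le
    have h2 : x ^ 6 ≤ x ^ 2 := by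
      calc x ^ 6 = x ^ 2 * (x ^ 2) ^ 2 := by ring
        _ ≤ x ^ 2 * 1 := mul_le_mul_of_nonneg_left (pow_le_one₀ (by positivity) hx1)
            (by positivity)
        _ = x ^ 2 := mul_one _
    have h3 : s * (n * x ^ 6) ≤ s * (n * x ^ 2) :=
      mul_le_mul_of_nonneg_left (mul_le_mul_of_nonneg_left h2 hn.le) hs0.le
    linarith
  · refine (sqrt_nT hn hx hs0 hnx hT).trans ?_
    rw [hT, mul_assoc]
    refine mul_le_mul_of_nonneg_left ?_ (by positivity)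
    nth_rewrite 2 [← Real.rpow_one s]
    rw [← Real.rpow_add hs0]
    exact Real.rpow_le_rpow_of_exponent_le hs1 (by linarith)
  · refine (inv_n_le hn hnx).trans ?_
    have h1 : x ^ 4 ≤ s ^ (-2 : ℝ) := by
      rw [Real.rpow_neg hs0.le, ← one_div, le_div_iff₀ (by positivity)]
      have : s ^ (2 : ℝ) = s ^ 2 := by norm_cast
      rw [this]
      calc x ^ 4 * s ^ 2 = (x ^ 2 * s) ^ 2 := by ring
        _ ≤ 1 := pow_le_one₀ (by positivity) hx2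
    calc x ^ 6 = x ^ 2 * x ^ 4 := by ring
      _ ≤ x ^ 2 * s ^ (-2 : ℝ) := mul_le_mul_of_nonneg_left h1 (by positivity)
      _ ≤ x ^ 2 * (s * s ^ (-δ)) := by
          refine mul_le_mul_of_nonneg_left ?_ (by positivity)
          nth_rewrite 2 [← Real.rpow_one s]
          rw [← Real.rpow_add hs0]
          exact Real.rpow_le_rpow_of_exponent_le hs1 (by linarith)
      _ = T * s ^ (-δ) := by rw [hT]; ring

/-- **The L-side, the Lambda inequality**, free outer exponent. -/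
theorem coreL1x {C κ : ℝ} (m : ℕ) (hC : 0 ≤ C) (hκ : 0 < κ) :
    ∃ η₀ : ℝ, 0 < η₀ ∧ ∀ η : ℝ, η ≤ η₀ → ∀ A₀ : ℝ, ∃ s₀ : ℝ, 1 ≤ s₀ ∧
      ∀ n x s T a R A : ℝ, 0 < n → 0 < x → 1 ≤ n * x ^ 6 → s₀ ≤ s → T = x ^ 2 * s → T ≤ 1 →
      0 ≤ a → a ^ 2 ≤ T * s ^ (-κ) → 0 ≤ R → R ≤ T * s ^ (-κ) → 0 ≤ A → A ≤ A₀ * s ^ η →
      T ≤ C * A ^ m * (√(1 / (n * T)) + a * √R + R + 1 / n) → False := by
  obtain ⟨δ, hδ⟩ : ∃ δ : ℝ, δ = min κ (3 / 2) := ⟨_, rfl⟩
  have hδ0 : 0 < δ := by rw [hδ]; exact lt_min hκ (by norm_num)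
  have hδκ : δ ≤ κ := by rw [hδ]; exact min_le_left _ _
  have hδ3 : δ ≤ 3 / 2 := by rw [hδ]; exact min_le_right _ _
  refine ⟨δ / 2 / (m + 1), by positivity, fun η hη A₀ => ?_⟩
  obtain ⟨D, hD⟩ : ∃ D : ℝ, D = C * |A₀| ^ m := ⟨_, rfl⟩
  have hD0 : 0 ≤ D := by rw [hD]; positivity
  obtain ⟨s₀, hs₀, hs₀'⟩ := L_large (E := 4 * D) (ε := δ / 2) (by positivity) (by positivity)
  refine ⟨s₀, hs₀, fun n x s T a R A hn0 hx hnx hs hT hT1 ha ha2 hR hR1 hA hA1 hL => ?_⟩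
  have hs1 : 1 ≤ s := hs₀.trans hs
  have hs0 : 0 < s := by linarith
  have hT0 : 0 < T := by rw [hT]; positivity
  obtain ⟨-, -, e2, e3⟩ := L_factsx hn0 hx hnx hs1 hT hT1 hδ3
  have hK := L_loss (m := m) hC hs1 (show 0 < δ / 2 by positivity) hη hA hA1
  rw [← hD] at hK
  have hm : T * s ^ (-κ) ≤ T * s ^ (-δ) := mul_le_mul_of_nonneg_left
    (Real.rpow_le_rpow_of_exponent_le hs1 (by linarith)) hT0.le
  have haR : a * √R ≤ (a ^ 2 + R) / 2 := by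
    have := Real.sq_sqrt hR
    nlinarith [sq_nonneg (a - √R)]
  have hK0 : 0 ≤ C * A ^ m := by positivity
  have h1 : T ≤ D * s ^ (δ / 2) * (4 * (T * s ^ (-δ))) := by
    refine hL.trans (mul_le_mul hK (by linarith) (by positivity) (by positivity))
  have h2 : s ^ (δ / 2) * s ^ (-δ) = s ^ (-(δ / 2)) := by
    rw [← Real.rpow_add hs0]; ring_nf
  have h3 : D * s ^ (δ / 2) * (4 * (T * s ^ (-δ))) = 4 * D * s ^ (-(δ / 2)) * T := by
    rw [← h2]; ring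
  have h4 := mul_le_mul_of_nonneg_right (hs₀' s hs) hT0.le
  linarith

/-- **The K-side**, free outer exponent: at exponents `a ≥ x`, `a ≥ (x n T)^(-1/3)`, the kappa
inequality with a constant `A` gives `R ≤ C' a²`. -/
theorem coreKx {C A k c₁ ε : ℝ} {m : ℕ} (hC : 0 ≤ C) (hA : 0 ≤ A) (hk : 0 < k) (hc₁ : 0 < c₁)
    (hε : 0 < ε) :
    ∃ C' M n₀ : ℝ, 0 < C' ∧ 1 ≤ M ∧ 1 ≤ n₀ ∧ ∀ n : ℝ, n₀ ≤ n → ∀ x T a R Y sn : ℝ, 0 < x →
      x ≤ 1 → 1 ≤ n * x ^ 6 → 0 < T → n ^ ε ≤ n * T → x ≤ a →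
      (x * n * T) ^ (-(1 / 3) : ℝ) ≤ a → 0 ≤ R → M ≤ Y → sn ≤ n ^ (-c₁) →
      (C * A ^ m * a ≤ √R →
        R ≤ C * A ^ m * (√(1 / (n * T)) + a * √R + ((1 / Y + 1 / (n * T)) ^ k + sn) * R + 1 / n)) →
      R ≤ C' * a ^ 2 := by
  obtain ⟨K, hKd⟩ : ∃ K : ℝ, K = C * A ^ m := ⟨_, rfl⟩
  have hK : 0 ≤ K := by rw [hKd]; positivity
  obtain ⟨e, he0, he1, heK, -⟩ := exists_small hK hk
  obtain ⟨n₁, hn₁⟩ := Filter.eventually_atTop.1 ((tendsto_rpow_neg_atTop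
    hε).eventually_le_const he0)
  obtain ⟨n₂, hn₂⟩ := Filter.eventually_atTop.1 ((tendsto_rpow_neg_atTop
    hc₁).eventually_le_const (show (0 : ℝ) < 1 / (4 * (K + 1)) by positivity))
  refine ⟨8 * K + 4 * K ^ 2 + 1, 1 / e, max 1 (max n₁ n₂), by positivity, ?_, le_max_left _ _,
    fun n hn x T a R Y sn hx hx1 hnx hT hnT hxa haT hR hY hsn h => ?_⟩
  · rw [le_div_iff₀ he0]; linarith
  have hn1 : 1 ≤ n := (le_max_left _ _).trans hn
  have g1 := hn₁ n (((le_max_left _ _).trans (le_max_right _ _)).trans hn)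
  have g2 := hn₂ n (((le_max_right _ _).trans (le_max_right _ _)).trans hn)
  have hn0 : 0 < n := by linarith
  have ha : 0 < a := by linarith
  rw [← hKd] at h
  have hnT0 : 0 < n * T := by positivity
  have i1 : 1 / (n * T) ≤ e := by
    refine le_trans ?_ g1
    rw [Real.rpow_neg hn0.le, one_div]
    exact inv_anti₀ (by positivity) hnT
  have hY0 : 0 < Y := lt_of_lt_of_le (by positivity) hY
  have i2 : 1 / Y ≤ e := by
    rw [div_le_iff₀ hY0]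
    rw [div_le_iff₀ he0] at hY
    linarith
  have hsm : K * ((1 / Y + 1 / (n * T)) ^ k + sn) ≤ 1 / 2 := by
    have j1 : (1 / Y + 1 / (n * T)) ^ k ≤ (2 * e) ^ k :=
      Real.rpow_le_rpow (by positivity) (by linarith) hk.le
    have j3 := mul_le_mul_of_nonneg_left j1 hK
    have j4 := mul_le_mul_of_nonneg_left (hsn.trans g2) hK
    have j5 : K * (1 / (4 * (K + 1))) ≤ 1 / 4 := by
      rw [mul_one_div, div_le_iff₀ (by positivity)]
      linarith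
    linarith
  -- `√(1/(nT)) ≤ a²`
  have hxa2 : x ^ 2 ≤ a ^ 2 := pow_le_pow_left₀ hx.le hxa 2
  have hs1 : √(1 / (n * T)) ≤ a ^ 2 := by
    rcases le_total 1 (x ^ 4 * (n * T)) with h0 | h0
    · refine le_trans ?_ hxa2
      rw [Real.sqrt_le_left (by positivity)]
      rw [div_le_iff₀ hnT0]
      calc (1 : ℝ) ≤ x ^ 4 * (n * T) := h0
        _ = (x ^ 2) ^ 2 * (n * T) := by ring
    · have hz0 : 0 < x * n * T := by positivity
      have j1 : ((x * n * T) ^ (-(1 / 3) : ℝ)) ^ 2 ≤ a ^ 2 :=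
        pow_le_pow_left₀ (by positivity) haT 2
      refine le_trans ?_ j1
      have j2 : ((x * n * T) ^ (-(1 / 3) : ℝ)) ^ 2 = √(((x * n * T) ^ (4 / 3 : ℝ))⁻¹) := by
        rw [Real.sqrt_eq_rpow, ← Real.rpow_neg hz0.le, ← Real.rpow_mul hz0.le,
          ← Real.rpow_natCast, ← Real.rpow_mul hz0.le]
        norm_num
      rw [j2]
      refine Real.sqrt_le_sqrt ?_
      rw [one_div]
      refine inv_anti₀ (by positivity) ?_
      -- `(x n T)^(4/3) ≤ n T`, i.e. `x^4 (n T) ≤ 1`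
      have j3 : (x * n * T) ^ (4 / 3 : ℝ) = (x ^ 4 * (n * T)) ^ (1 / 3 : ℝ) * (n * T) := by
        have k1 : x * n * T = x * (n * T) := by ring
        rw [k1, Real.mul_rpow hx.le hnT0.le, Real.mul_rpow (by positivity) hnT0.le, mul_assoc]
        congr 1
        · rw [← Real.rpow_natCast x 4, ← Real.rpow_mul hx.le]; norm_num
        · nth_rewrite 3 [← Real.rpow_one (n * T)]
          rw [← Real.rpow_add hnT0]; norm_num
      rw [j3]
      exact mul_le_of_le_one_left hnT0.le (Real.rpow_le_one (by positivity) h0 (by norm_num))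
  have hs2 : 1 / n ≤ a ^ 2 := by
    refine (inv_n_le hn0 hnx).trans (le_trans ?_ hxa2)
    calc x ^ 6 = x ^ 2 * x ^ 4 := by ring
      _ ≤ x ^ 2 * 1 := mul_le_mul_of_nonneg_left (pow_le_one₀ hx.le hx1) (by positivity)
      _ = x ^ 2 := mul_one _
  have h1 := kap_solve (v := √(1 / (n * T)) + 1 / n) (W := a ^ 2) hK ha.le hR (by linarith)
    le_rfl hsm (fun h0 => (h h0).trans (le_of_eq (by ring)))
  nlinarith [sq_nonneg a]

/-- `n T` is large as soon as the weight is at most one -/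
lemma KS_nT {n x s T c G al p : ℝ} (hn1 : 1 ≤ n) (hx : 0 < x) (hx1 : x ≤ 1) (hnx : 1 ≤ n * x ^ 6)
    (hs0 : 0 < s) (hTs : T = x ^ 2 * s) (hc2 : c < 1 / 2) (hal1 : 1 ≤ al) (hp0 : 0 ≤ p)
    (hG : G = x ^ 2 * al ^ p * s ^ (-(1 - c))) (hG1 : G ≤ 1) :
    n ^ (1 - (2 + 2 / (1 - c)) / 6) ≤ n * T := by
  have hn0 : 0 < n := by linarith
  have h1c : 0 < 1 - c := by linarith
  have halp1 : 1 ≤ al ^ p := Real.one_le_rpow hal1 hp0
  have hss : 0 < s ^ (-(1 - c)) := by positivity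
  have hxs : x ^ (2 / (1 - c)) ≤ s := by
    have h1 : x ^ 2 * s ^ (-(1 - c)) ≤ 1 := by
      refine le_trans ?_ hG1
      rw [hG]
      exact mul_le_mul_of_nonneg_right (le_mul_of_one_le_right (by positivity) halp1) hss.le
    have h2 : x ^ 2 ≤ s ^ (1 - c) := by
      rw [Real.rpow_neg hs0.le, ← div_eq_mul_inv, div_le_one (by positivity)] at h1
      exact h1
    have h3 : (x ^ 2) ^ (1 / (1 - c)) ≤ (s ^ (1 - c)) ^ (1 / (1 - c)) :=
      Real.rpow_le_rpow (by positivity) h2 (by positivity)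
    rw [← Real.rpow_mul hs0.le, mul_one_div_cancel h1c.ne', Real.rpow_one,
      ← Real.rpow_natCast, ← Real.rpow_mul hx.le] at h3
    refine le_trans (le_of_eq ?_) h3
    congr 1
    push_cast
    ring
  have hxn : n ^ (-(1 / 6) : ℝ) ≤ x := by
    have h1 : (n ^ (-(1 / 6) : ℝ)) ^ 6 ≤ x ^ 6 := by
      rw [← Real.rpow_natCast, ← Real.rpow_mul hn0.le]
      norm_num
      rw [Real.rpow_neg_one, inv_eq_one_div]
      exact inv_n_le hn0 hnx
    exact le_of_pow_le_pow_left₀ (by norm_num) hx.le h1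
  have h1 : (n ^ (-(1 / 6) : ℝ)) ^ (2 + 2 / (1 - c)) ≤ x ^ (2 + 2 / (1 - c)) :=
    Real.rpow_le_rpow (by positivity) hxn (by positivity)
  have h2 : x ^ (2 + 2 / (1 - c)) ≤ T := by
    rw [Real.rpow_add hx, hTs]
    refine mul_le_mul (le_of_eq (by norm_cast)) hxs (by positivity) (by positivity)
  calc n ^ (1 - (2 + 2 / (1 - c)) / 6) = n * (n ^ (-(1 / 6) : ℝ)) ^ (2 + 2 / (1 - c)) := by
        rw [← Real.rpow_mul hn0.le]
        nth_rewrite 2 [← Real.rpow_one n]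
        rw [← Real.rpow_add hn0]
        congr 1
        ring
    _ ≤ n * T := mul_le_mul_of_nonneg_left (h1.trans h2) hn0.le

/-- the weight is bounded below when `s ≤ K al²` -/
lemma KS_low {x s al p c K2 G : ℝ} (hx : 0 < x) (hs0 : 0 < s) (hal1 : 1 ≤ al) (hK21 : 1 ≤ K2)
    (hc : 0 < c) (hc2 : c < 1 / 2) (hp : 4 ≤ p + 2 * c) (h3 : s ≤ K2 * al ^ 2)
    (hG : G = x ^ 2 * al ^ p * s ^ (-(1 - c))) : x ^ 2 * al ^ 2 ≤ K2 * G := by
  have hal0 : 0 < al := by linarith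
  have k1 : (K2 * al ^ 2) ^ (-(1 - c)) ≤ s ^ (-(1 - c)) :=
    Real.rpow_le_rpow_of_nonpos hs0 h3 (by linarith)
  have k2 : (K2 * al ^ 2) ^ (-(1 - c)) = K2 ^ (-(1 - c)) * al ^ (-(2 * (1 - c))) := by
    rw [Real.mul_rpow (by positivity) (by positivity), ← Real.rpow_natCast al 2,
      ← Real.rpow_mul hal0.le]
    congr 2
    push_cast
    ring
  have k3 : K2⁻¹ ≤ K2 ^ (-(1 - c)) := by
    rw [← Real.rpow_neg_one]
    exact Real.rpow_le_rpow_of_exponent_le hK21 (by linarith)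
  have k4 : al ^ 2 ≤ al ^ p * al ^ (-(2 * (1 - c))) := by
    rw [← Real.rpow_add hal0]
    have : al ^ (2 : ℝ) ≤ al ^ (p + -(2 * (1 - c))) :=
      Real.rpow_le_rpow_of_exponent_le hal1 (by linarith)
    rwa [show al ^ (2 : ℝ) = al ^ 2 by norm_cast] at this
  have hK20 : 0 < K2 := by linarith
  calc x ^ 2 * al ^ 2 ≤ x ^ 2 * (al ^ p * al ^ (-(2 * (1 - c)))) :=
        mul_le_mul_of_nonneg_left k4 (by positivity)
    _ = K2 * (x ^ 2 * al ^ p * (K2⁻¹ * al ^ (-(2 * (1 - c))))) := by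
        field_simp
    _ ≤ K2 * (x ^ 2 * al ^ p * (K2 ^ (-(1 - c)) * al ^ (-(2 * (1 - c))))) := by gcongr
    _ = K2 * (x ^ 2 * al ^ p * (K2 * al ^ 2) ^ (-(1 - c))) := by rw [k2]
    _ ≤ K2 * (x ^ 2 * al ^ p * s ^ (-(1 - c))) := by gcongr
    _ = K2 * G := by rw [hG]

/-- the case `s ≤ 1` -/
lemma KS_small {n x s T c al p a G K K' M R sm : ℝ} (hn0 : 0 < n) (hx : 0 < x)
    (hx1 : x ≤ 1) (hnx : 1 ≤ n * x ^ 6) (hs0 : 0 < s) (hs1 : s ≤ 1) (hTs : T = x ^ 2 * s)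
    (hc2 : c < 1 / 2) (hal1 : 1 ≤ al) (hax : a = x * al) (hp2 : 2 ≤ p)
    (hG : G = x ^ 2 * al ^ p * s ^ (-(1 - c))) (hK : 0 ≤ K) (hK' : K' = 8 * K + 4 * K ^ 2)
    (hKM : K' < M) (hR : 0 ≤ R) (hRM : M * G ≤ R) (hsm : K * sm ≤ 1 / 2)
    (h : K * a ≤ √R → R ≤ K * (√(1 / (n * T)) + a * √R + sm * R + 1 / n)) : False := by
  have hal0 : 0 < al := by linarith
  have halp : al ^ 2 ≤ al ^ p := by
    have : al ^ (2 : ℝ) ≤ al ^ p := Real.rpow_le_rpow_of_exponent_le hal1 hp2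
    rwa [show al ^ (2 : ℝ) = al ^ 2 by norm_cast] at this
  have halp1 : 1 ≤ al ^ p := Real.one_le_rpow hal1 (by linarith)
  have hss : 0 < s ^ (-(1 - c)) := by positivity
  have hG0 : 0 < G := by rw [hG]; positivity
  have hq := sqrt_nT hn0 hx hs0 hnx hTs
  have hni : 1 / n ≤ x ^ 2 := by
    refine (inv_n_le hn0 hnx).trans ?_
    calc x ^ 6 = x ^ 2 * x ^ 4 := by ring
      _ ≤ x ^ 2 * 1 := mul_le_mul_of_nonneg_left (pow_le_one₀ hx.le hx1) (by positivity)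
      _ = x ^ 2 := mul_one _
  have e1 : 1 ≤ s ^ (-(1 - c)) := by
    rw [Real.rpow_neg hs0.le, ← one_div, le_div_iff₀ (by positivity)]
    have := Real.rpow_le_one hs0.le hs1 (show 0 ≤ 1 - c by linarith)
    linarith
  have e2 : s ^ (-(1 / 2) : ℝ) ≤ s ^ (-(1 - c)) :=
    Real.rpow_le_rpow_of_exponent_ge hs0 hs1 (by linarith)
  have e3 : x ^ 2 * s ^ (-(1 - c)) ≤ G := by
    rw [hG]
    exact mul_le_mul_of_nonneg_right (le_mul_of_one_le_right (by positivity) halp1) hss.le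
  have f1 : √(1 / (n * T)) ≤ G :=
    (hq.trans (mul_le_mul_of_nonneg_left e2 (by positivity))).trans e3
  have f2 : 1 / n ≤ G := by
    refine hni.trans (le_trans ?_ e3)
    exact le_mul_of_one_le_right (by positivity) e1
  have f3 : a ^ 2 ≤ G := by
    rw [hax, mul_pow, hG]
    calc x ^ 2 * al ^ 2 ≤ x ^ 2 * al ^ p := mul_le_mul_of_nonneg_left halp (by positivity)
      _ ≤ x ^ 2 * al ^ p * s ^ (-(1 - c)) := le_mul_of_one_le_right (by positivity) e1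
  have h1 := kap_solve (v := √(1 / (n * T)) + 1 / n) (W := G) (a := a) (sm := sm) hK
    (by rw [hax]; positivity) hR (by linarith)
    f3 hsm (fun h0 => (h h0).trans (le_of_eq (by ring)))
  rw [← hK'] at h1
  have h2 : K' * G < M * G := mul_lt_mul_of_pos_right hKM hG0
  linarith

/-- the case `1 ≤ s` -/
lemma KS_big {n x s T c al p a G K K' K2 M R sm : ℝ} (hn0 : 0 < n) (hx : 0 < x)
    (hx1 : x ≤ 1) (hnx : 1 ≤ n * x ^ 6) (hs1 : 1 ≤ s) (hTs : T = x ^ 2 * s) (hc : 0 < c)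
    (hc2 : c < 1 / 2) (hal1 : 1 ≤ al) (hax : a = x * al) (hp : 4 ≤ p + 2 * c)
    (hG : G = x ^ 2 * al ^ p * s ^ (-(1 - c))) (hK : 0 ≤ K) (hK' : K' = 8 * K + 4 * K ^ 2)
    (hK2 : K2 = K * (3 + 2 * K') + 1)
    (hKM : K' * K2 < M) (hR : 0 ≤ R) (hRM : M * G ≤ R) (hsm : K * sm ≤ 1 / 2)
    (h : K * a ≤ √R → R ≤ K * (√(1 / (n * T)) + a * √R + sm * R + 1 / n))
    (hL : T ≤ K * (√(1 / (n * T)) + a * √R + R + 1 / n)) : False := by
  have hal0 : 0 < al := by linarith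
  have hs0 : 0 < s := by linarith
  have hK'0 : 0 ≤ K' := by rw [hK']; positivity
  have hG0 : 0 < G := by rw [hG]; positivity
  have ha : 0 < a := by rw [hax]; positivity
  have hq := sqrt_nT hn0 hx hs0 hnx hTs
  have hxa : x ≤ a := by rw [hax]; exact le_mul_of_one_le_right hx.le hal1
  have hxa2 : x ^ 2 ≤ a ^ 2 := pow_le_pow_left₀ hx.le hxa 2
  have hni : 1 / n ≤ x ^ 2 := by
    refine (inv_n_le hn0 hnx).trans ?_
    calc x ^ 6 = x ^ 2 * x ^ 4 := by ring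
      _ ≤ x ^ 2 * 1 := mul_le_mul_of_nonneg_left (pow_le_one₀ hx.le hx1) (by positivity)
      _ = x ^ 2 := mul_one _
  have e2 : s ^ (-(1 / 2) : ℝ) ≤ 1 := Real.rpow_le_one_of_one_le_of_nonpos hs1 (by norm_num)
  have f1 : √(1 / (n * T)) ≤ a ^ 2 :=
    (hq.trans (mul_le_of_le_one_right (by positivity) e2)).trans hxa2
  have f2 : 1 / n ≤ a ^ 2 := hni.trans hxa2
  have h1 := kap_solve (v := √(1 / (n * T)) + 1 / n) (W := a ^ 2) (a := a) (sm := sm) hK ha.le hR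
    (by linarith) le_rfl hsm (fun h0 => (h h0).trans (le_of_eq (by ring)))
  rw [← hK'] at h1
  have haR : a * √R ≤ (a ^ 2 + R) / 2 := by
    have := Real.sq_sqrt hR
    nlinarith [sq_nonneg (a - √R)]
  have ha2 : 0 < a ^ 2 := by positivity
  have h2 : T ≤ K2 * a ^ 2 := by
    have k0 : 0 ≤ K' * a ^ 2 := by positivity
    have k1 : √(1 / (n * T)) + a * √R + R + 1 / n ≤ (3 + 2 * K') * a ^ 2 := by linarith
    have k2 := mul_le_mul_of_nonneg_left k1 hK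
    have k3 : K2 * a ^ 2 = K * ((3 + 2 * K') * a ^ 2) + a ^ 2 := by rw [hK2]; ring
    linarith
  have h3 : s ≤ K2 * al ^ 2 := by
    rw [hTs, hax, mul_pow] at h2
    have h4 : x ^ 2 * s ≤ x ^ 2 * (K2 * al ^ 2) := by linarith
    exact le_of_mul_le_mul_left h4 (by positivity)
  have hK21 : 1 ≤ K2 := by
    have : 0 ≤ K * (3 + 2 * K') := by positivity
    linarith
  have h4 := KS_low hx hs0 hal1 hK21 hc hc2 hp h3 hG
  have h5 : R ≤ K' * (K2 * G) := by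
    refine h1.trans (mul_le_mul_of_nonneg_left ?_ hK'0)
    rw [hax, mul_pow]; exact h4
  have h6 : K' * K2 * G < M * G := mul_lt_mul_of_pos_right hKM hG0
  linarith

/-- **The K-side of the selection**, free outer exponent: at a near-maximiser of
`Ψ / g`, `g = n x² (a / x)^p s^(-(1 - c))`, `s = T / x²`, the kappa and the Lambda inequalities with
a constant `A` are contradictory. -/
theorem coreKS {C A k c₁ p c R₀ : ℝ} {m : ℕ} (hC : 0 ≤ C) (hA : 0 ≤ A) (hk : 0 < k)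
    (hc₁ : 0 < c₁) (hc : 0 < c) (hc2 : c < 1 / 2) (hp : 4 ≤ p + 2 * c) :
    ∃ M n₀ : ℝ, 1 ≤ M ∧ 1 ≤ n₀ ∧ ∀ n : ℝ, n₀ ≤ n → ∀ x T a R Y sn : ℝ, 0 < x →
      x ≤ 1 → 1 ≤ n * x ^ 6 → 0 < T → x ≤ a → R ≤ R₀ →
      M * (x ^ 2 * (a / x) ^ p * (T / x ^ 2) ^ (-(1 - c))) ≤ R → M ≤ Y → sn ≤ n ^ (-c₁) →
      (C * A ^ m * a ≤ √R →
        R ≤ C * A ^ m * (√(1 / (n * T)) + a * √R + ((1 / Y + 1 / (n * T)) ^ k + sn) * R + 1 / n)) →
      (x ^ 2 ≤ T → T ≤ C * A ^ m * (√(1 / (n * T)) + a * √R + R + 1 / n)) → False := by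
  obtain ⟨K, hKd⟩ : ∃ K : ℝ, K = C * A ^ m := ⟨_, rfl⟩
  have hK : 0 ≤ K := by rw [hKd]; positivity
  obtain ⟨K', hK'⟩ : ∃ K' : ℝ, K' = 8 * K + 4 * K ^ 2 := ⟨_, rfl⟩
  have hK'0 : 0 ≤ K' := by rw [hK']; positivity
  obtain ⟨K2, hK2⟩ : ∃ K2 : ℝ, K2 = K * (3 + 2 * K') + 1 := ⟨_, rfl⟩
  have hK20 : 0 ≤ K2 := by rw [hK2]; positivity
  obtain ⟨e, he0, he1, heK, -⟩ := exists_small hK hk
  have h1c : 0 < 1 - c := by linarith
  have hε0 : 0 < 1 - (2 + 2 / (1 - c)) / 6 := by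
    have : 2 / (1 - c) < 4 := by
      rw [div_lt_iff₀ h1c]; linarith
    linarith
  obtain ⟨n₁, hn₁⟩ := Filter.eventually_atTop.1 ((tendsto_rpow_neg_atTop
    hε0).eventually_le_const he0)
  obtain ⟨n₂, hn₂⟩ := Filter.eventually_atTop.1 ((tendsto_rpow_neg_atTop
    hc₁).eventually_le_const (show (0 : ℝ) < 1 / (4 * (K + 1)) by positivity))
  have hKK : 0 ≤ K' * K2 := by positivity
  obtain ⟨M, hMd⟩ : ∃ M : ℝ, M = (K' * K2 + K' + 2) + |R₀| + 1 / e := ⟨_, rfl⟩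
  have he' : 1 ≤ 1 / e := by rw [le_div_iff₀ he0]; linarith
  have hRa : 0 ≤ |R₀| := abs_nonneg _
  refine ⟨M, max 1 (max n₁ n₂), by linarith, le_max_left _ _,
    fun n hn x T a R Y sn hx hx1 hnx hT hxa hRR hRM hY hsn h hL => ?_⟩
  have hn1 : 1 ≤ n := (le_max_left _ _).trans hn
  have g1 := hn₁ n (((le_max_left _ _).trans (le_max_right _ _)).trans hn)
  have g2 := hn₂ n (((le_max_right _ _).trans (le_max_right _ _)).trans hn)
  have hn0 : 0 < n := by linarith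
  rw [← hKd] at h hL
  obtain ⟨s, hs⟩ : ∃ s : ℝ, s = T / x ^ 2 := ⟨_, rfl⟩
  have hs0 : 0 < s := by rw [hs]; positivity
  have hTs : T = x ^ 2 * s := by rw [hs]; field_simp
  obtain ⟨al, hal⟩ : ∃ al : ℝ, al = a / x := ⟨_, rfl⟩
  have hal1 : 1 ≤ al := by rw [hal, le_div_iff₀ hx]; linarith
  have hax : a = x * al := by rw [hal]; field_simp
  rw [← hs, ← hal] at hRM
  obtain ⟨G, hG⟩ : ∃ G : ℝ, G = x ^ 2 * al ^ p * s ^ (-(1 - c)) := ⟨_, rfl⟩
  have hal0 : 0 < al := by linarith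
  have hG0 : 0 < G := by rw [hG]; positivity
  rw [← hG] at hRM
  have hM0 : 0 < M := by linarith
  have hR : 0 ≤ R := le_trans (by positivity) hRM
  have hG1 : G ≤ 1 := by
    have h1 : M * G ≤ M * 1 := (hRM.trans hRR).trans (by linarith [le_abs_self R₀])
    exact le_of_mul_le_mul_left h1 hM0
  have hnT := KS_nT hn1 hx hx1 hnx hs0 hTs hc2 hal1 (by linarith) hG hG1
  have i1 : 1 / (n * T) ≤ e := by
    refine le_trans ?_ g1
    rw [Real.rpow_neg hn0.le, one_div]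
    exact inv_anti₀ (by positivity) hnT
  have hY0 : 0 < Y := by linarith
  have hnT0 : 0 < n * T := by positivity
  have i2 : 1 / Y ≤ e := by
    have : 1 / e ≤ Y := by linarith
    rw [div_le_iff₀ hY0]
    rw [div_le_iff₀ he0] at this
    linarith
  have hsm : K * ((1 / Y + 1 / (n * T)) ^ k + sn) ≤ 1 / 2 := by
    have j1 : (1 / Y + 1 / (n * T)) ^ k ≤ (2 * e) ^ k :=
      Real.rpow_le_rpow (by positivity) (by linarith) hk.le
    have j3 := mul_le_mul_of_nonneg_left j1 hK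
    have j4 := mul_le_mul_of_nonneg_left (hsn.trans g2) hK
    have j5 : K * (1 / (4 * (K + 1))) ≤ 1 / 4 := by
      rw [mul_one_div, div_le_iff₀ (by positivity)]
      linarith
    linarith
  rcases le_total s 1 with hs1 | hs1
  · exact KS_small hn0 hx hx1 hnx hs0 hs1 hTs hc2 hal1 hax (by linarith) hG hK hK' (by linarith)
      hR hRM hsm h
  · refine KS_big hn0 hx hx1 hnx hs1 hTs hc hc2 hal1 hax hp hG hK hK' hK2 (by linarith) hR hRM hsm
      h (hL ?_)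
    rw [hTs]
    exact le_mul_of_one_le_right (by positivity) hs1

end Vale.Agent.P146.U
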