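import Vale.Agent.P146.H425.R1Def

/-!
One layer of the exponent functional `W x s U`, and the mean `Mn x s U ψ` of a function under the
law tilted by this layer; both for arbitrary Lipschitz `U`. Tangent inequalities.
-/

open MeasureTheory ProbabilityTheory

namespace Vale.Agent.P146.U

open Vale.Agent.P157.Lv Vale.Agent.P146.H425 Vale.Agent.P146.R1

set_option linter.unusedSectionVars false

variable {κ : Type} [Fintype κ] {U U' F : (κ → ℝ) → ℝ} {D : κ → (κ → ℝ) → ℝ}
  {B L x s a b c : ℝ} {φ ψ : (κ → ℝ) → ℝ}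

/-- Mean of `ψ` after one layer of exponent `x` and standard deviation `s`, started at `y`. -/
noncomputable def Mn (x s : ℝ) (U ψ : (κ → ℝ) → ℝ) (y : κ → ℝ) : ℝ :=
  (∫ z, Real.exp (x * U (y + s • z)) * ψ (y + s • z) ∂(gI κ)) /
    ∫ z, Real.exp (x * U (y + s • z)) ∂(gI κ)

lemma DW_eq (e : κ) (y : κ → ℝ) : DW x s F D e y = Mn x s F (D e) y := rfl

lemma Lip.shift (h : Lip U) (y : κ → ℝ) (s : ℝ) : Lip fun z => U (y + s • z) := by
  obtain ⟨C, hC, hb⟩ := h
  refine ⟨C * |s|, by positivity, fun z z' => (hb _ _).trans (le_of_eq ?_)⟩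
  rw [add_sub_add_left_eq_sub, ← smul_sub, norm_smul, Real.norm_eq_abs]
  ring

lemma Lip.egx (h : Lip U) (y : κ → ℝ) (s x : ℝ) :
    EG fun z => Real.exp (x * U (y + s • z)) := (Lip.shift h y s).exp_eg x

lemma den_pos (h : Lip U) (x s : ℝ) (y : κ → ℝ) :
    0 < ∫ z, Real.exp (x * U (y + s • z)) ∂(gI κ) :=
  integral_exp_pos (Lip.egx h y s x).integrable

lemma eg_num (h : Lip U) (hψ : EG ψ) (x s : ℝ) (y : κ → ℝ) :
    EG fun z => Real.exp (x * U (y + s • z)) * ψ (y + s • z) :=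
  (Lip.egx h y s x).mul (EG.add_smul hψ y s)

lemma Mn_add (h : Lip U) (hφ : EG φ) (hψ : EG ψ) (x s : ℝ) (y : κ → ℝ) :
    Mn x s U (fun w => φ w + ψ w) y = Mn x s U φ y + Mn x s U ψ y := by
  unfold Mn
  rw [← add_div, ← integral_add (eg_num h hφ x s y).integrable (eg_num h hψ x s y).integrable]
  congr 1
  refine integral_congr_ae (Filter.Eventually.of_forall fun z => ?_)
  simp only
  ring

lemma Mn_const_mul (r x s : ℝ) (y : κ → ℝ) :
    Mn x s U (fun w => r * ψ w) y = r * Mn x s U ψ y := by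
  unfold Mn
  rw [← mul_div_assoc, ← integral_const_mul]
  congr 1
  refine integral_congr_ae (Filter.Eventually.of_forall fun z => ?_)
  simp only
  ring

lemma Mn_sub (h : Lip U) (hφ : EG φ) (hψ : EG ψ) (x s : ℝ) (y : κ → ℝ) :
    Mn x s U (fun w => φ w - ψ w) y = Mn x s U φ y - Mn x s U ψ y := by
  have h1 := Mn_add h hφ (hψ.const_mul (-1)) x s y
  rw [Mn_const_mul] at h1
  have e : (fun w => φ w - ψ w) = fun w => φ w + -1 * ψ w := by funext w; ring
  rw [e, h1]
  ring

lemma Mn_const (h : Lip U) (r x s : ℝ) (y : κ → ℝ) : Mn x s U (fun _ => r) y = r := by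
  unfold Mn
  rw [integral_mul_const, mul_div_right_comm, div_self (den_pos h x s y).ne', one_mul]

lemma Mn_mono (h : Lip U) (hφ : EG φ) (hψ : EG ψ) (hle : ∀ w, φ w ≤ ψ w) (x s : ℝ)
    (y : κ → ℝ) : Mn x s U φ y ≤ Mn x s U ψ y :=
  div_le_div_of_nonneg_right (integral_mono (eg_num h hφ x s y).integrable
    (eg_num h hψ x s y).integrable fun _ => mul_le_mul_of_nonneg_left (hle _)
      (Real.exp_pos _).le) (den_pos h x s y).le

lemma Mn_nonneg (h : Lip U) (hψ : ∀ w, 0 ≤ ψ w) (x s : ℝ) (y : κ → ℝ) : 0 ≤ Mn x s U ψ y :=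
  div_nonneg (integral_nonneg fun _ => mul_nonneg (Real.exp_pos _).le (hψ _))
    (den_pos h x s y).le

lemma Mn_le (h : Lip U) (hψ : EG ψ) {r : ℝ} (hr : ∀ w, ψ w ≤ r) (x s : ℝ) (y : κ → ℝ) :
    Mn x s U ψ y ≤ r := by
  have := Mn_mono h hψ (EG.const r) hr x s y
  rwa [Mn_const h] at this

lemma Mn_ge (h : Lip U) (hψ : EG ψ) {r : ℝ} (hr : ∀ w, r ≤ ψ w) (x s : ℝ) (y : κ → ℝ) :
    r ≤ Mn x s U ψ y := by
  have := Mn_mono h (EG.const r) hψ hr x s y
  rwa [Mn_const h] at this

lemma meas_Mn (h : Lip U) (hψ : Measurable ψ) (x s : ℝ) : Measurable (Mn x s U ψ) := by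
  have hU := h.measurable
  have m1 : Measurable fun p : (κ → ℝ) × (κ → ℝ) => p.1 + s • p.2 := by fun_prop
  refine Measurable.div ?_ ?_
  · exact (StronglyMeasurable.integral_prod_right' (ν := gI κ)
      (f := fun p : (κ → ℝ) × (κ → ℝ) => Real.exp (x * U (p.1 + s • p.2)) * ψ (p.1 + s • p.2))
      (((hU.comp m1).const_mul x).exp.mul (hψ.comp m1)).stronglyMeasurable).measurable
  · exact (StronglyMeasurable.integral_prod_right' (ν := gI κ)
      (f := fun p : (κ → ℝ) × (κ → ℝ) => Real.exp (x * U (p.1 + s • p.2)))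
      (((hU.comp m1).const_mul x).exp).stronglyMeasurable).measurable

/-- The mean has exponential growth. -/
lemma eg_Mn (h : Lip U) (hψ : EG ψ) (x s : ℝ) : EG (Mn x s U ψ) := by
  obtain ⟨C, k, hC, hk, hb⟩ := hψ.bdd
  obtain ⟨K, hK, hU⟩ := id h
  set q := ∫ z : κ → ℝ, Real.exp (-(|x| * K * |s|) * ‖z‖) ∂(gI κ) with hq
  set p := ∫ z : κ → ℝ, Real.exp ((|x| * K * |s| + k * |s|) * ‖z‖) ∂(gI κ) with hp
  have hq0 : 0 < q := integral_exp_pos (eg_exp_norm _).integrable
  have hp0 : 0 < p := integral_exp_pos (eg_exp_norm _).integrable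
  refine ⟨meas_Mn h hψ.meas x s, C * p / q, k, by positivity, hk, fun y => ?_⟩
  have hxU : ∀ z, |x * U (y + s • z) - x * U y| ≤ |x| * K * |s| * ‖z‖ := by
    intro z
    rw [← mul_sub, abs_mul]
    have h1 := hU (y + s • z) y
    rw [add_sub_cancel_left, norm_smul, Real.norm_eq_abs] at h1
    calc |x| * |U (y + s • z) - U y| ≤ |x| * (K * (|s| * ‖z‖)) :=
          mul_le_mul_of_nonneg_left h1 (abs_nonneg x)
      _ = _ := by ring
  have hden : Real.exp (x * U y) * q ≤ ∫ z, Real.exp (x * U (y + s • z)) ∂(gI κ) := by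
    rw [hq, ← integral_const_mul]
    refine integral_mono ((eg_exp_norm _).integrable.const_mul _)
      (Lip.egx h y s x).integrable fun z => ?_
    simp only
    rw [← Real.exp_add]
    refine Real.exp_le_exp.2 ?_
    linarith [(abs_le.1 (hxU z)).1]
  have hnum : |∫ z, Real.exp (x * U (y + s • z)) * ψ (y + s • z) ∂(gI κ)| ≤
      Real.exp (x * U y) * (C * Real.exp (k * ‖y‖) * p) := by
    refine (abs_integral_le_integral_abs).trans ?_
    have e1 : Real.exp (x * U y) * (C * Real.exp (k * ‖y‖) * p) =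
        ∫ z : κ → ℝ, (Real.exp (x * U y) * (C * Real.exp (k * ‖y‖))) *
          Real.exp ((|x| * K * |s| + k * |s|) * ‖z‖) ∂(gI κ) := by
      rw [integral_const_mul, hp]
      ring
    rw [e1]
    refine integral_mono (eg_num h hψ x s y).integrable.abs
      ((eg_exp_norm _).integrable.const_mul _) fun z => ?_
    simp only
    rw [abs_mul, abs_of_pos (Real.exp_pos _)]
    have h1 : Real.exp (x * U (y + s • z)) ≤ Real.exp (x * U y) *
        Real.exp (|x| * K * |s| * ‖z‖) := by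
      rw [← Real.exp_add]
      exact Real.exp_le_exp.2 (by linarith [(abs_le.1 (hxU z)).2])
    have h2 : |ψ (y + s • z)| ≤ C * Real.exp (k * ‖y‖) * Real.exp (k * |s| * ‖z‖) := by
      refine (hb _).trans ?_
      rw [mul_assoc, ← Real.exp_add]
      refine mul_le_mul_of_nonneg_left (Real.exp_le_exp.2 ?_) hC
      have h3 : ‖y + s • z‖ ≤ ‖y‖ + |s| * ‖z‖ := by
        refine (norm_add_le _ _).trans ?_
        rw [norm_smul, Real.norm_eq_abs]
      have := mul_le_mul_of_nonneg_left h3 hk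
      linarith
    refine (mul_le_mul h1 h2 (abs_nonneg _) (by positivity)).trans (le_of_eq ?_)
    have e2 : Real.exp ((|x| * K * |s| + k * |s|) * ‖z‖) =
        Real.exp (|x| * K * |s| * ‖z‖) * Real.exp (k * |s| * ‖z‖) := by
      rw [← Real.exp_add]; congr 1; ring
    rw [e2]
    ring
  unfold Mn
  rw [abs_div, abs_of_pos (den_pos h x s y), div_le_iff₀ (den_pos h x s y)]
  refine hnum.trans ?_
  have h1 := mul_le_mul_of_nonneg_left hden
    (show 0 ≤ C * p / q * Real.exp (k * ‖y‖) by positivity)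
  refine le_trans (le_of_eq ?_) h1
  field_simp

lemma exp_W' (h : Lip U) (hx : 0 < x) (s : ℝ) (y : κ → ℝ) :
    Real.exp (x * W x s U y) = ∫ z, Real.exp (x * U (y + s • z)) ∂(gI κ) := by
  unfold W
  rw [← mul_assoc, mul_one_div_cancel hx.ne', one_mul, Real.exp_log (den_pos h x s y)]

/-- The layer functional is Lipschitz. -/
lemma Lip.W (h : Lip U) (hx : 0 < x) (s : ℝ) : Lip (H425.W x s U) := by
  obtain ⟨K, hK, hU⟩ := h
  have hB : LipB U K := fun y w => by
    have := hU (y + w) y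
    rwa [add_sub_cancel_left] at this
  exact (hB.W hK hx).lip hK

/-- semigroup property of the means -/
lemma Mn_Mn (h : Lip U) (hψ : EG ψ) (hx : 0 < x) (habc : a ^ 2 + b ^ 2 = c ^ 2) (y : κ → ℝ) :
    Mn x a (W x b U) (Mn x b U ψ) y = Mn x c U ψ y := by
  have h1 : ∀ z, Real.exp (x * W x b U (y + a • z)) * Mn x b U ψ (y + a • z) =
      ∫ z', Real.exp (x * U (y + a • z + b • z')) * ψ (y + a • z + b • z') ∂(gI κ) := by
    intro z
    unfold Mn
    rw [exp_W' h hx]
    field_simp [(den_pos h x b (y + a • z)).ne']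
  have h2 : ∀ z, Real.exp (x * W x b U (y + a • z)) =
      ∫ z', Real.exp (x * U (y + a • z + b • z')) ∂(gI κ) := fun z => exp_W' h hx b _
  have r1 := gI_rot ((h.exp_eg x).mul hψ) habc y
  have r2 := gI_rot (h.exp_eg x) habc y
  rw [Mn]
  simp_rw [h1]
  simp_rw [h2]
  rw [r1, r2]
  rfl

/-- **Tangent inequality in the function.** -/
lemma W_tan (h : Lip U) (h' : Lip U') (hx : 0 < x) (s : ℝ) (y : κ → ℝ) :
    W x s U y + Mn x s U (fun w => U' w - U w) y ≤ W x s U' y := by
  have e1 : EG fun z => Real.exp (x * U (y + s • z)) := Lip.egx h y s x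
  have e2 : EG fun z => x * (U' (y + s • z) - U (y + s • z)) :=
    ((EG.add_smul h'.eg y s).sub (EG.add_smul h.eg y s)).const_mul x
  have e3 : ∀ z, Real.exp (x * U (y + s • z)) * Real.exp (x * (U' (y + s • z) - U (y + s • z))) =
      Real.exp (x * U' (y + s • z)) := by
    intro z
    rw [← Real.exp_add]
    congr 1
    ring
  have e4 : EG fun z => Real.exp (x * U (y + s • z)) *
      Real.exp (x * (U' (y + s • z) - U (y + s • z))) := by
    simp_rw [e3]
    exact Lip.egx h' y s x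
  have h1 := jensen_tilt e1 (fun z => (Real.exp_pos _).le) (den_pos h x s y) e2 e4
  simp_rw [e3] at h1
  have h2 := Real.log_le_log (mul_pos (den_pos h x s y) (Real.exp_pos _)) h1
  rw [Real.log_mul (den_pos h x s y).ne' (Real.exp_pos _).ne', Real.log_exp] at h2
  have e5 : ∫ z, Real.exp (x * U (y + s • z)) * (x * (U' (y + s • z) - U (y + s • z))) ∂(gI κ) =
      x * ∫ z, Real.exp (x * U (y + s • z)) * (U' (y + s • z) - U (y + s • z)) ∂(gI κ) := by
    rw [← integral_const_mul]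
    refine integral_congr_ae (Filter.Eventually.of_forall fun z => ?_)
    simp only
    ring
  rw [e5] at h2
  have h3 := mul_le_mul_of_nonneg_left h2 (show 0 ≤ 1 / x by positivity)
  unfold W Mn
  refine le_trans (le_of_eq ?_) h3
  field_simp

/-- Lower bound by the tangent. -/
lemma W_tan_ge (h : Lip U) (h' : Lip U') (hx : 0 < x) (hψ : EG ψ)
    (hle : ∀ w, U w + ψ w ≤ U' w) (s : ℝ) (y : κ → ℝ) :
    W x s U y + Mn x s U ψ y ≤ W x s U' y := by
  refine le_trans ?_ (W_tan h h' hx s y)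
  have := Mn_mono h hψ (h'.eg.sub h.eg) (fun w => by linarith [hle w]) x s y
  linarith

/-- Upper bound by the tangent at the other end. -/
lemma W_tan_le (h : Lip U) (h' : Lip U') (hx : 0 < x) (hψ : EG ψ)
    (hle : ∀ w, U' w ≤ U w + ψ w) (s : ℝ) (y : κ → ℝ) :
    W x s U' y ≤ W x s U y + Mn x s U' ψ y := by
  have h1 := W_tan h' h hx s y
  have h3 := Mn_mono h' (hψ.const_mul (-1)) (h.eg.sub h'.eg)
    (fun w => by linarith [hle w]) x s y
  rw [Mn_const_mul] at h3
  linarith

lemma W_mono (h : Lip U) (h' : Lip U') (hx : 0 < x) (hle : ∀ w, U w ≤ U' w) (s : ℝ)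
    (y : κ → ℝ) : W x s U y ≤ W x s U' y := by
  have := W_tan_ge h h' hx (EG.const 0) (fun w => by linarith [hle w]) s y
  rwa [Mn_const h, add_zero] at this

end Vale.Agent.P146.U
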