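import Mathlib

/-!
Selection of a regular scale (K-side), for an abstract two-variable function `P T b` (`b` = exponent
of the last window, `T` = its length): a maximum principle for `(P T b - P0) / gg b T`,
`gg = G b (b/x)^5 (T/T0)^(1/100)`, over the set `Om` of all `b ≥ x max (1, (T/T0)^(-1/600))`.
-/

namespace Vale.Agent.P146.U

/-- the comparison function -/
noncomputable def gg (G x T0 b T : ℝ) : ℝ := G * b * (b / x) ^ 5 * (T / T0) ^ (1 / 100 : ℝ)

/-- the admissible pairs -/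
structure Om (x T0 b T : ℝ) : Prop where
  T_pos : 0 < T
  T_le : T ≤ 1
  x_le : x ≤ b
  s_le : x * (T / T0) ^ (-(1 / 600) : ℝ) ≤ b

lemma gg_pos {G x T0 b T : ℝ} (hG : 0 < G) (hx : 0 < x) (hT0 : 0 < T0) (hb : 0 < b)
    (hT : 0 < T) : 0 < gg G x T0 b T := by
  unfold gg
  positivity

/-- change of the comparison function -/
lemma gg_ratio {G x T0 a T b T' : ℝ} (hx : 0 < x) (hT0 : 0 < T0) (ha : 0 < a)
    (hT : 0 < T) (hT' : 0 < T') :
    gg G x T0 b T' = (b / a) ^ 6 * (T' / T) ^ (1 / 100 : ℝ) * gg G x T0 a T := by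
  unfold gg
  have h1 : (T' / T0) ^ (1 / 100 : ℝ) = (T' / T) ^ (1 / 100 : ℝ) * (T / T0) ^ (1 / 100 : ℝ) := by
    rw [← Real.mul_rpow (by positivity) (by positivity)]
    congr 1
    field_simp
  rw [h1]
  field_simp

/-- **Maximum principle.** -/
theorem maxP {x T0 G n C M P0 : ℝ} {P : ℝ → ℝ → ℝ} (hx : 0 < x) (hT0 : 0 < T0) (hG : 0 < G)
    (hn : 0 ≤ n) (hM : 0 < M) (hC : 0 ≤ C)
    (htriv : ∀ T b, 0 < T → T ≤ 1 → x ≤ b → P T b - P0 ≤ b / 2 * T * (C * n))
    (hK : ∀ a T, Om x T0 a T → M * gg G x T0 a T ≤ P T a - P0 →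
      (∀ b T', Om x T0 b T' → P T' b - P0 ≤
        101 / 100 * ((b / a) ^ 6 * (T' / T) ^ (1 / 100 : ℝ) * (P T a - P0))) → False)
    {T b : ℝ} (hO : Om x T0 b T) : P T b - P0 ≤ M * gg G x T0 b T := by
  by_contra hcon
  push Not at hcon
  set S : Set ℝ := {r | ∃ a T, Om x T0 a T ∧ r = (P T a - P0) / gg G x T0 a T} with hS
  have hden : ∀ a T, Om x T0 a T → 0 < gg G x T0 a T := fun a T h =>
    gg_pos hG hx hT0 (hx.trans_le h.x_le) h.T_pos
  have hbdd : BddAbove S := by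
    refine ⟨C * n / (2 * G * (1 / T0) ^ (1 / 100 : ℝ)), ?_⟩
    rintro r ⟨a, T, h, rfl⟩
    have h1 := htriv T a h.T_pos h.T_le h.x_le
    have ha0 := hx.trans_le h.x_le
    have hTp := h.T_pos
    rw [div_le_iff₀ (hden a T h)]
    refine h1.trans ?_
    have e1 : (T / T0) ^ (1 / 100 : ℝ) = T ^ (1 / 100 : ℝ) * (1 / T0) ^ (1 / 100 : ℝ) := by
      rw [← Real.mul_rpow (by positivity) (by positivity)]
      congr 1
      ring
    have e2 : T ≤ T ^ (1 / 100 : ℝ) := by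
      have := Real.rpow_le_rpow_of_exponent_ge hTp h.T_le (show (1 / 100 : ℝ) ≤ 1 by norm_num)
      rwa [Real.rpow_one] at this
    have e3 : 1 ≤ (a / x) ^ 5 := one_le_pow₀ ((one_le_div hx).2 h.x_le)
    have e4 : T ≤ (a / x) ^ 5 * T ^ (1 / 100 : ℝ) := by
      have : 0 < T ^ (1 / 100 : ℝ) := by positivity
      nlinarith
    unfold gg
    rw [e1]
    have e5 : C * n / (2 * G * (1 / T0) ^ (1 / 100 : ℝ)) * (G * a * (a / x) ^ 5 *
        (T ^ (1 / 100 : ℝ) * (1 / T0) ^ (1 / 100 : ℝ))) =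
        (a / 2 * (C * n)) * ((a / x) ^ 5 * T ^ (1 / 100 : ℝ)) := by
      have : (0 : ℝ) < (1 / T0) ^ (1 / 100 : ℝ) := by positivity
      field_simp
    rw [e5]
    have e6 : a / 2 * T * (C * n) = (a / 2 * (C * n)) * T := by ring
    rw [e6]
    exact mul_le_mul_of_nonneg_left e4 (by positivity)
  set R := sSup S with hR
  have hmem : (P T b - P0) / gg G x T0 b T ∈ S := ⟨b, T, hO, rfl⟩
  have hR1 : M < R := by
    refine lt_of_lt_of_le ?_ (le_csSup hbdd hmem)
    rw [lt_div_iff₀ (hden b T hO)]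
    exact hcon
  have hR0 : 0 < R := hM.trans hR1
  have hlt : max M (100 / 101 * R) < R := max_lt hR1 (by linarith)
  obtain ⟨r, ⟨a, T', h', hr⟩, hrR⟩ := exists_lt_of_lt_csSup ⟨_, hmem⟩ hlt
  have hrM : M < r := (le_max_left _ _).trans_lt hrR
  have hr1 : 100 / 101 * R < r := (le_max_right _ _).trans_lt hrR
  have ha0 := hx.trans_le h'.x_le
  have hd := hden a T' h'
  have hPa : P T' a - P0 = r * gg G x T0 a T' := by rw [hr]; field_simp
  refine hK a T' h' ?_ fun b' T'' h'' => ?_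
  · rw [hPa]
    exact mul_le_mul_of_nonneg_right hrM.le hd.le
  · have h5 := le_csSup hbdd (show _ ∈ S from ⟨b', T'', h'', rfl⟩)
    rw [div_le_iff₀ (hden b' T'' h'')] at h5
    rw [gg_ratio (T := T') (a := a) hx hT0 ha0 h'.T_pos h''.T_pos] at h5
    refine h5.trans ?_
    rw [hPa]
    have hb' := hx.trans_le h''.x_le
    have hT1 := h'.T_pos
    have hT2 := h''.T_pos
    have h6 : 0 < (b' / a) ^ 6 * (T'' / T') ^ (1 / 100 : ℝ) * gg G x T0 a T' := by positivity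
    have h7 : R ≤ 101 / 100 * r := by linarith
    calc R * ((b' / a) ^ 6 * (T'' / T') ^ (1 / 100 : ℝ) * gg G x T0 a T') ≤
        101 / 100 * r * ((b' / a) ^ 6 * (T'' / T') ^ (1 / 100 : ℝ) * gg G x T0 a T') :=
          mul_le_mul_of_nonneg_right h7 h6.le
      _ = _ := by ring

/-- The regularity of a near-maximiser. -/
theorem reg_of_max {x T0 a T P0 : ℝ} {P : ℝ → ℝ → ℝ} (hx : 0 < x) (hT0 : 0 < T0)
    (hO : Om x T0 a T)
    (hconv : ∀ T b, 0 < T → T ≤ 1 → x ≤ b → P T b - P0 ≤ 1 / 4 * (P T (4 * b) - P0))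
    (hmax : ∀ b T', Om x T0 b T' → P T' b - P0 ≤
        101 / 100 * ((b / a) ^ 6 * (T' / T) ^ (1 / 100 : ℝ) * (P T a - P0))) :
    P T (4 * a) - P0 ≤ 5000 * (P T a - P0) ∧
    P (T / 4 ^ 600) a - P0 ≤ 3 / 10 * (P T a - P0) ∧
    ∀ N K : ℝ, 1 ≤ N → 1 ≤ K → K * T ≤ 1 →
      P (K * T) (N * a) - P0 ≤ 101 / 100 * (N ^ 6 * K ^ (1 / 100 : ℝ) * (P T a - P0)) := by
  have hT := hO.T_pos
  have ha := hx.trans_le hO.x_le
  have hs := hO.s_le
  have hxa := hO.x_le
  have hT1 := hO.T_le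
  have h0 : 0 ≤ P T a - P0 := by
    by_contra hneg
    push Not at hneg
    have := hmax a T hO
    rw [div_self ha.ne', div_self hT.ne', Real.one_rpow, one_pow, one_mul, one_mul] at this
    linarith
  have hbig : (1 : ℝ) ≤ 4 ^ 600 := one_le_pow₀ (by norm_num)
  refine ⟨?_, ?_, fun N K hN hK hKT => ?_⟩
  · have h1 := hmax (4 * a) T ⟨hT, hO.T_le, by linarith, by linarith⟩
    rw [div_self hT.ne', Real.one_rpow, mul_one, mul_div_cancel_right₀ _ ha.ne'] at h1
    nlinarith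
  · have hTL : 0 < T / 4 ^ 600 := by positivity
    have hTL1 : T / 4 ^ 600 ≤ 1 := (div_le_self hT.le hbig).trans hO.T_le
    have h2 := hconv (T / 4 ^ 600) a hTL hTL1 hO.x_le
    have e1 : ((4 : ℝ) ^ 600) ^ (1 / 600 : ℝ) = 4 := by
      have := Real.pow_rpow_inv_natCast (x := 4) (n := 600) (by norm_num) (by norm_num)
      rw [one_div]
      exact_mod_cast this
    have e2 : (T / 4 ^ 600 / T0) ^ (-(1 / 600) : ℝ) = 4 * (T / T0) ^ (-(1 / 600) : ℝ) := by
      have e3 : T / 4 ^ 600 / T0 = (T / T0) * (4 ^ 600)⁻¹ := by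
        rw [div_div, mul_comm, ← div_div, ← div_eq_mul_inv]
      rw [e3, Real.mul_rpow (by positivity) (by positivity), Real.inv_rpow (by positivity),
        Real.rpow_neg (by positivity : (0 : ℝ) ≤ 4 ^ 600), inv_inv, e1]
      ring
    have h3 := hmax (4 * a) (T / 4 ^ 600) ⟨hTL, hTL1, by linarith, by rw [e2]; linarith⟩
    have e4 : ((T / 4 ^ 600) / T) ^ (1 / 100 : ℝ) = (4 ^ 6)⁻¹ := by
      have e5 : (T / 4 ^ 600) / T = (4 ^ 600)⁻¹ := by
        rw [div_div, mul_comm, ← div_div, div_self hT.ne', one_div]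
      rw [e5, Real.inv_rpow (by positivity)]
      congr 1
      have e6 : ((4 : ℝ) ^ 600) = (4 ^ 6) ^ 100 := by rw [← pow_mul]
      rw [e6]
      have := Real.pow_rpow_inv_natCast (x := (4 : ℝ) ^ 6) (n := 100) (by norm_num) (by norm_num)
      rw [one_div]
      exact_mod_cast this
    rw [e4, mul_div_cancel_right₀ _ ha.ne'] at h3
    have e7 : (4 : ℝ) ^ 6 * (4 ^ 6)⁻¹ * (P T a - P0) = P T a - P0 := by norm_num
    rw [e7] at h3
    linarith
  · have hKTp : 0 < K * T := by positivity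
    have e2 : (K * T / T0) ^ (-(1 / 600) : ℝ) ≤ (T / T0) ^ (-(1 / 600) : ℝ) := by
      refine Real.rpow_le_rpow_of_nonpos (by positivity) ?_ (by norm_num)
      have : T ≤ K * T := by nlinarith
      gcongr
    have h1 := hmax (N * a) (K * T) ⟨hKTp, hKT, by nlinarith, by
      have h2 : x * (K * T / T0) ^ (-(1 / 600) : ℝ) ≤ a :=
        (mul_le_mul_of_nonneg_left e2 hx.le).trans hO.s_le
      nlinarith⟩
    rw [mul_div_cancel_right₀ _ ha.ne', mul_div_cancel_right₀ _ hT.ne'] at h1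
    exact h1

end Vale.Agent.P146.U
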