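import Vale.Agent.P146.U.Ex3a

/-!
From a regular scale and window (in terms of the exponent functional) to a regular datum in terms
of the mean squared gradient at the switching time.
-/

open MeasureTheory ProbabilityTheory

namespace Vale.Agent.P146.U

open Vale.Agent.P157.Lv Vale.Agent.P146.H425 Vale.Agent.P146.R1

set_option linter.unusedSectionVars false

variable {κ : Type} [Fintype κ] {F X : (κ → ℝ) → ℝ} {D : κ → (κ → ℝ) → ℝ}
  {B L x a b : ℝ}

/-- The output of the selection: `ρ` is the mean squared gradient at the switching time `v - T`;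
total variance `v`. -/
structure RDat (x a v T Λ : ℝ) (X : (κ → ℝ) → ℝ) (D : κ → (κ → ℝ) → ℝ) : Prop where
  T_pos : 0 < T
  T_le : T ≤ v
  /-- the share of the doubled exponent -/
  share : SS x (2 * a) (√(v - T)) (√T) X ≤ Λ * (Ps x a (√(v - T)) (√T) X D * T)
  /-- the gain of the doubled exponent -/
  gain : PP x (2 * a) (√(v - T)) (√T) X - PP x a (√(v - T)) (√T) X ≤
    a / 2 * (Λ * (Ps x a (√(v - T)) (√T) X D * T))

/-- **The datum.** -/
theorem datum (h : C11 X D B L) (hc : Cv X) (hx : 0 < x) (hxa : x ≤ a) {v T l θ k Δ : ℝ}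
    (hT : 0 < T) (hTv : T ≤ v) (hl : 1 ≤ l) (hθ : θ < 1) (hΔ : 0 < Δ) (hk : 0 ≤ k)
    (hΔ1 : Δ = PP x a (√(v - T)) (√T) X - W x (√v) X 0)
    (h4 : PP x (4 * a) (√(v - T)) (√T) X - W x (√v) X 0 ≤ k * Δ)
    (hL : PP x a (√(v - T / l)) (√(T / l)) X - W x (√v) X 0 ≤ θ * Δ) :
    ∃ T', T / l ≤ T' ∧ T' ≤ T ∧
      2 * (1 - θ) * Δ ≤ a * T * Ps x a (√(v - T')) (√T') X D ∧
      2 * (1 - θ) * Δ ≤ a * l * (T' * Ps x a (√(v - T')) (√T') X D) ∧
      RDat x a v T' (k * l / (1 - θ)) X D := by
  have ha := hx.trans_le hxa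
  have hl0 : 0 < l := by linarith
  have hTl : 0 < T / l := by positivity
  have hTl1 : T / l ≤ T := div_le_self hT.le hl
  have h1θ : 0 < 1 - θ := by linarith
  -- the choice of `T'`
  obtain ⟨T', hT1, hT2, hρ⟩ : ∃ T', T / l ≤ T' ∧ T' ≤ T ∧
      2 * (1 - θ) * Δ ≤ a * T * Ps x a (√(v - T')) (√T') X D := by
    by_contra hcon
    push Not at hcon
    set m := 2 * (1 - θ) * Δ / (a * T) with hm
    have hm0 : 0 < m := by positivity
    have h2 := PP_drop (v := v) (t0 := v - T) (t1 := v - T / l) (m := m) h hc hx hxa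
      (by linarith) (by linarith) (by linarith) (fun t ht ht' => by
        have h3 := hcon (v - t) (by linarith) (by linarith)
        rw [sub_sub_cancel] at h3
        rw [hm, le_div_iff₀ (by positivity)]
        linarith)
    rw [sub_sub_cancel, sub_sub_cancel] at h2
    have e : (a - x) / 2 * (v - T / l - (v - T)) * m < (1 - θ) * Δ := by
      have e1 : (a - x) / 2 * (v - T / l - (v - T)) * m = (a - x) * (T - T / l) * (m / 2) := by
        ring
      have e2 : (1 - θ) * Δ = a * T * (m / 2) := by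
        rw [hm]
        field_simp
      rw [e1, e2]
      refine mul_lt_mul_of_pos_right ?_ (by positivity)
      have : (a - x) * (T - T / l) ≤ (a - x) * T :=
        mul_le_mul_of_nonneg_left (by linarith) (by linarith)
      nlinarith
    linarith
  have hT'0 : 0 < T' := hTl.trans_le hT1
  have hρ0 : 0 ≤ Ps x a (√(v - T')) (√T') X D := Ps_nonneg h ha
  set ρ := Ps x a (√(v - T')) (√T') X D with hρd
  have hTT : T ≤ l * T' := by
    rw [div_le_iff₀ hl0] at hT1
    linarith
  have hρ2 : 2 * (1 - θ) * Δ ≤ a * l * (T' * ρ) := by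
    refine hρ.trans ?_
    have : a * T * ρ ≤ a * (l * T') * ρ := by gcongr
    linarith
  refine ⟨T', hT1, hT2, hρ, hρ2, hT'0, hT2.trans hTv, ?_, ?_⟩
  · -- the share
    have ha2 : 0 < 2 * a := by linarith
    have h2 := PP_tangent (c := √(v - T')) (s := √T') h hc hx ha2
      (show 0 < 4 * a by linarith)
    have h3 : W x (√v) X 0 ≤ PP x (2 * a) (√(v - T')) (√T') X := by
      have h4 := PP_self (x := x) (c := √(v - T')) (s := √T') (a := √v) h hx (by
        rw [Real.sq_sqrt (by linarith), Real.sq_sqrt hT'0.le, Real.sq_sqrt (by linarith)]; ring)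
      rw [← h4]
      exact PP_mono h hc hx hx (by linarith)
    have h5 : PP x (4 * a) (√(v - T')) (√T') X ≤ PP x (4 * a) (√(v - T)) (√T) X := by
      refine PP_anti (r := √(T - T')) h hc hx (by linarith) ?_ ?_
      · rw [Real.sq_sqrt (by linarith), Real.sq_sqrt (by linarith), Real.sq_sqrt (by linarith)]
        ring
      · rw [Real.sq_sqrt (by linarith), Real.sq_sqrt (by linarith), Real.sq_sqrt (by linarith)]
        ring
    have h6 : a * SS x (2 * a) (√(v - T')) (√T') X ≤ k * Δ := by
      have : (4 * a - 2 * a) / 2 = a := by ring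
      rw [this] at h2
      linarith
    have h7 : k * Δ ≤ a * (k * l / (1 - θ) * (ρ * T')) := by
      have e : a * (k * l / (1 - θ) * (ρ * T')) = k / (1 - θ) * (a * l * (T' * ρ)) := by
        field_simp
      rw [e]
      have h8 : k / (1 - θ) * (2 * (1 - θ) * Δ) ≤ k / (1 - θ) * (a * l * (T' * ρ)) :=
        mul_le_mul_of_nonneg_left hρ2 (by positivity)
      have e2 : k / (1 - θ) * (2 * (1 - θ) * Δ) = 2 * (k * Δ) := by
        field_simp
      rw [e2] at h8
      have : 0 ≤ k * Δ := by positivity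
      linarith
    exact le_of_mul_le_mul_left (h6.trans h7) ha
  · have h3 : W x (√v) X 0 ≤ PP x a (√(v - T')) (√T') X := by
      have h4 := PP_self (x := x) (c := √(v - T')) (s := √T') (a := √v) h hx (by
        rw [Real.sq_sqrt (by linarith), Real.sq_sqrt hT'0.le, Real.sq_sqrt (by linarith)]; ring)
      rw [← h4]
      exact PP_mono h hc hx hx hxa
    have h5 : PP x (2 * a) (√(v - T')) (√T') X ≤ PP x (4 * a) (√(v - T)) (√T) X := by
      refine le_trans (PP_anti (r := √(T - T')) (c' := √(v - T)) (s' := √T) h hc hx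
        (by linarith) ?_ ?_) (PP_mono h hc hx (by linarith) (by linarith))
      · rw [Real.sq_sqrt (by linarith), Real.sq_sqrt (by linarith), Real.sq_sqrt (by linarith)]
        ring
      · rw [Real.sq_sqrt (by linarith), Real.sq_sqrt (by linarith), Real.sq_sqrt (by linarith)]
        ring
    have h8 : k / (1 - θ) * (2 * (1 - θ) * Δ) ≤ k / (1 - θ) * (a * l * (T' * ρ)) :=
      mul_le_mul_of_nonneg_left hρ2 (by positivity)
    have e2 : k / (1 - θ) * (2 * (1 - θ) * Δ) = 2 * (k * Δ) := by
      field_simp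
    rw [e2] at h8
    have e3 : a / 2 * (k * l / (1 - θ) * (ρ * T')) = 1 / 2 * (k / (1 - θ) * (a * l * (T' * ρ))) := by
      field_simp
    rw [e3]
    linarith

end Vale.Agent.P146.U
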