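import Vale.Agent.P146.U.Ex1b

/-!
The two-level functional `PT x b T F` (exponent `x` on `[0, 1-T]`, exponent `b` on `[1-T, 1]`) and
the three-level functional `Q3 x a y τ T F` (exponent `x`, then `a` on a window of length `T`,
then `y` on the last window, of length `τ`): monotonicity, lower and upper bounds.
-/

open MeasureTheory ProbabilityTheory

namespace Vale.Agent.P146.U

open Vale.Agent.P157.Lv Vale.Agent.P146.H425 Vale.Agent.P146.R1

set_option linter.unusedSectionVars false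

variable {κ : Type} [Fintype κ] {U U' F X : (κ → ℝ) → ℝ} {D : κ → (κ → ℝ) → ℝ}
  {B L x s a b b' c r y : ℝ} {φ ψ : (κ → ℝ) → ℝ}

/-- Exponent `x` on `[0, 1-T]`, exponent `b` on `[1-T, 1]`. -/
noncomputable def PT (x b T : ℝ) (F : (κ → ℝ) → ℝ) : ℝ := PP x b (√(1 - T)) (√T) F

/-- The gradient at the switching time. -/
noncomputable def ST (x b T : ℝ) (F : (κ → ℝ) → ℝ) (D : κ → (κ → ℝ) → ℝ) : ℝ :=
  Ps x b (√(1 - T)) (√T) F D

/-- Exponents `x`, `a`, `y` on `[0, 1-τ-T]`, `[1-τ-T, 1-τ]`, `[1-τ, 1]`. -/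
noncomputable def Q3 (x a y τ T : ℝ) (F : (κ → ℝ) → ℝ) : ℝ :=
  PP x a (√(1 - τ - T)) (√T) (W y (√τ) F)

/-- The gradient at the first switching time, three levels. -/
noncomputable def Sg3 (x a y τ T : ℝ) (F : (κ → ℝ) → ℝ) (D : κ → (κ → ℝ) → ℝ) : ℝ :=
  Ps x a (√(1 - τ - T)) (√T) (W y (√τ) F) (DW y (√τ) F D)

/-- A layer is nondecreasing in the exponent. -/
lemma WX_mono (h : C11 F D B L) (hc : Cv F) (hb : 0 < b) (hbb : b ≤ b') (s : ℝ)
    (y : κ → ℝ) : W b s F y ≤ W b' s F y := by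
  have h1 := W_tangent (s := s) h hc hb (hb.trans_le hbb) y
  have h2 := Kc_nonneg (s := s) h hb y
  have h3 : 0 ≤ (b' - b) * (Kc b s F y / b ^ 2) :=
    mul_nonneg (by linarith) (by positivity)
  linarith

/-- Enlarging the second block. -/
lemma PP_anti (h : C11 F D B L) (hc : Cv F) (hx : 0 < x) (hxb : x ≤ b) {c' s' : ℝ}
    (hcc : c' ^ 2 + r ^ 2 = c ^ 2) (hss : r ^ 2 + s ^ 2 = s' ^ 2) :
    PP x b c s F ≤ PP x b c' s' F := by
  have hb : 0 < b := hx.trans_le hxb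
  have hXC := h.W' hb s
  have hXc : Cv (W b s F) := Cv.W h hc hb s
  have e1 : PP x b c s F = W x c' (W x r (W b s F)) 0 := by
    unfold PP
    exact (W_W hXC.lip h.B0 hx hcc 0).symm
  have e2 : W b s' F = W b r (W b s F) := by
    funext y
    exact (W_W h.lip h.B0 hb hss y).symm
  rw [e1]
  unfold PP
  rw [e2]
  exact W_mono (Lip.W (hXC.lip.lip h.B0) hx r) (Lip.W (hXC.lip.lip h.B0) hb r) hx
    (fun y => WX_mono hXC hXc hx hxb r y) c' 0

lemma PT_mono_T (h : C11 F D B L) (hc : Cv F) (hx : 0 < x) (hxb : x ≤ b) {T T' : ℝ}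
    (h0 : 0 ≤ T) (hTT : T ≤ T') (h1 : T' ≤ 1) : PT x b T F ≤ PT x b T' F := by
  refine PP_anti (r := √(T' - T)) h hc hx hxb ?_ ?_
  · rw [Real.sq_sqrt (by linarith), Real.sq_sqrt (by linarith), Real.sq_sqrt (by linarith)]
    ring
  · rw [Real.sq_sqrt (by linarith), Real.sq_sqrt (by linarith), Real.sq_sqrt (by linarith)]
    ring

lemma PT_mono_b (h : C11 F D B L) (hc : Cv F) (hx : 0 < x) (hb : 0 < b) (hbb : b ≤ b')
    (T : ℝ) : PT x b T F ≤ PT x b' T F := PP_mono h hc hx hb hbb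

lemma PT_zero (hb : 0 < b) : PT x b 0 F = W x 1 F 0 := by
  unfold PT
  rw [Real.sqrt_zero, sub_zero, Real.sqrt_one, PP_zero hb]

lemma PT_self (h : C11 F D B L) (hx : 0 < x) {T : ℝ} (h0 : 0 ≤ T) (h1 : T ≤ 1) :
    PT x x T F = W x 1 F 0 := by
  unfold PT
  refine PP_self h hx ?_
  rw [Real.sq_sqrt (by linarith), Real.sq_sqrt h0]
  ring

lemma PT_one (hx : 0 < x) : PT x b 1 F = W b 1 F 0 := by
  unfold PT PP
  rw [sub_self, Real.sqrt_zero, Real.sqrt_one, W_zero hx]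

lemma PT_ge (h : C11 F D B L) (hc : Cv F) (hx : 0 < x) (hxb : x ≤ b) {T : ℝ}
    (h0 : 0 ≤ T) (h1 : T ≤ 1) : W x 1 F 0 ≤ PT x b T F := by
  rw [← PT_self (T := T) h hx h0 h1]
  exact PT_mono_b h hc hx hx hxb T

/-- The drop between two windows. -/
theorem PT_drop (h : C11 F D B L) (hc : Cv F) (hx : 0 < x) (hxb : x ≤ b) {T T' m : ℝ}
    (h0 : 0 ≤ T) (hTT : T ≤ T') (h1 : T' ≤ 1)
    (hm : ∀ t, T ≤ t → t ≤ T' → ST x b t F D ≤ m) :
    PT x b T' F ≤ PT x b T F + (b - x) / 2 * (T' - T) * m := by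
  have h2 := PP_drop (v := 1) (t0 := 1 - T') (t1 := 1 - T) (m := m) h hc hx hxb (by linarith)
    (by linarith) (by linarith) (fun t ht ht' => by
      have := hm (1 - t) (by linarith) (by linarith)
      unfold ST at this
      rwa [sub_sub_cancel] at this)
  rw [sub_sub_cancel, sub_sub_cancel] at h2
  have e : 1 - T - (1 - T') = T' - T := by ring
  rw [e] at h2
  exact h2

/-- The trivial bound. -/
lemma PT_triv (h : C11 F D B L) (hc : Cv F) (hx : 0 < x) (hxb : x ≤ b) {T M : ℝ}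
    (h0 : 0 ≤ T) (h1 : T ≤ 1) (hM : ∀ w, ∑ e, D e w ^ 2 ≤ M) :
    PT x b T F - W x 1 F 0 ≤ b / 2 * T * M := by
  have hb := hx.trans_le hxb
  have h2 := PT_drop (m := M) h hc hx hxb le_rfl h0 h1 (fun t _ _ => Ps_le h hb hM)
  rw [PT_zero hb, sub_zero] at h2
  have hM0 : 0 ≤ M := (Finset.sum_nonneg fun e _ => sq_nonneg _).trans (hM 0)
  have h3 : (b - x) / 2 * T * M ≤ b / 2 * T * M := by
    have : (b - x) / 2 ≤ b / 2 := by linarith
    gcongr
  linarith

/-- Convexity between `x` and `4 b`. -/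
lemma PT_conv (h : C11 F D B L) (hc : Cv F) (hx : 0 < x) (hxb : x ≤ b) {T : ℝ}
    (h0 : 0 ≤ T) (h1 : T ≤ 1) :
    PT x b T F - W x 1 F 0 ≤ 1 / 4 * (PT x (4 * b) T F - W x 1 F 0) := by
  have hb := hx.trans_le hxb
  have hd : 0 < 4 * b - x := by linarith
  set q := (b - x) / (4 * b - x) with hq
  have hq0 : 0 ≤ q := div_nonneg (by linarith) hd.le
  have hq4 : q ≤ 1 / 4 := by
    rw [hq, div_le_iff₀ hd]
    linarith
  have h2 := PP_convex (c := √(1 - T)) (s := √T) h hc hx (p := 1 - q) (q := q) (b0 := x)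
    (b1 := 4 * b) (by linarith) hq0 (by ring) hx (by linarith)
  have e : (1 - q) * x + q * (4 * b) = b := by
    have e1 : q * (4 * b - x) = b - x := by rw [hq]; exact div_mul_cancel₀ _ hd.ne'
    linarith
  rw [e] at h2
  have h3 : PT x b T F ≤ (1 - q) * PT x x T F + q * PT x (4 * b) T F := h2
  rw [PT_self h hx h0 h1] at h3
  have h4 := PT_ge h hc hx (show x ≤ 4 * b by linarith) h0 h1
  nlinarith [mul_le_mul_of_nonneg_right hq4 (sub_nonneg.2 h4)]

/-- Jensen for the squared gradient. -/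
lemma G2_le_Mn (h : C11 F D B L) (b s : ℝ) (y : κ → ℝ) :
    G2 b s F D y ≤ Mn b s F (fun w => ∑ e, D e w ^ 2) y := by
  have hl := h.lip.lip h.B0
  have e1 := Lip.egx hl y s b
  have e3 : Mn b s F (fun w => ∑ e, D e w ^ 2) y = ∑ e, Mn b s F (fun w => D e w ^ 2) y := by
    unfold Mn
    rw [← Finset.sum_div, ← integral_finsetSum _ fun e _ =>
      (eg_num hl ((h.eg_D e).pow 2) b s y).integrable]
    congr 1
    refine integral_congr_ae (Filter.Eventually.of_forall fun z => ?_)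
    simp only
    rw [Finset.mul_sum]
  rw [e3]
  refine Finset.sum_le_sum fun e _ => ?_
  have h2 := cs_int e1 (fun z => (Real.exp_pos _).le) (den_pos hl b s y)
    (EG.add_smul (h.eg_D e) y s)
  unfold Mn DW
  rw [le_div_iff₀ (den_pos hl b s y), mul_comm]
  exact h2

section three

variable {τ T : ℝ}

/-- three levels are at most two levels with the larger exponent -/
lemma Q3_le (h : C11 F D B L) (hc : Cv F) (hx : 0 < x) (hy : 0 < y) (hya : y ≤ a)
    (hτ : 0 ≤ τ) (hT : 0 ≤ T) (_h1 : τ + T ≤ 1) : Q3 x a y τ T F ≤ PT x a (τ + T) F := by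
  have ha := hy.trans_le hya
  have hX := h.W' hy (√τ)
  have hX' := h.W' ha (√τ)
  have e : W a (√(τ + T)) F = W a (√T) (W a (√τ) F) := by
    funext y
    refine (W_W h.lip h.B0 ha ?_ y).symm
    rw [Real.sq_sqrt hT, Real.sq_sqrt hτ, Real.sq_sqrt (by linarith)]
    ring
  have e2 : 1 - (τ + T) = 1 - τ - T := by ring
  unfold Q3 PT PP
  rw [e, e2]
  refine W_mono (lipW hX ha _) (lipW hX' ha _) hx (fun w => ?_) _ 0
  exact W_mono (hX.lip.lip h.B0) (hX'.lip.lip h.B0) ha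
    (fun w => WX_mono h hc hy hya _ w) _ w

/-- monotonicity in the last exponent -/
lemma Q3_mono_y (h : C11 F D B L) (hc : Cv F) (hx : 0 < x) (ha : 0 < a) (hy : 0 < y)
    {y' : ℝ} (hyy : y ≤ y') : Q3 x a y τ T F ≤ Q3 x a y' τ T F := by
  have hy' := hy.trans_le hyy
  have hX := h.W' hy (√τ)
  have hX' := h.W' hy' (√τ)
  refine W_mono (lipW hX ha _) (lipW hX' ha _) hx (fun w => ?_) _ 0
  exact W_mono (hX.lip.lip h.B0) (hX'.lip.lip h.B0) ha
    (fun w => WX_mono h hc hy hyy _ w) _ w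

/-- the one-exponent case -/
lemma Q3_self (h : C11 F D B L) (hy : 0 < y) (hτ : 0 ≤ τ) (hT : 0 ≤ T) :
    Q3 x y y τ T F = PT x y (τ + T) F := by
  have e : W y (√(τ + T)) F = W y (√T) (W y (√τ) F) := by
    funext w
    refine (W_W h.lip h.B0 hy ?_ w).symm
    rw [Real.sq_sqrt hT, Real.sq_sqrt hτ, Real.sq_sqrt (by linarith)]
    ring
  have e2 : 1 - (τ + T) = 1 - τ - T := by ring
  unfold Q3 PT PP
  rw [e, e2]

/-- the empty window -/
lemma Q3_zero (ha : 0 < a) : Q3 x a y τ 0 F = PT x y τ F := by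
  unfold Q3 PT
  rw [Real.sqrt_zero, PP_zero ha, sub_zero]
  rfl

lemma Q3_x (h : C11 F D B L) (hx : 0 < x) (hy : 0 < y) (hT : 0 ≤ T)
    (h1 : τ + T ≤ 1) : Q3 x x y τ T F = PT x y τ F := by
  unfold Q3
  rw [PP_self (a := √(1 - τ)) (h.W' hy _) hx]
  · rfl
  · rw [Real.sq_sqrt (by linarith), Real.sq_sqrt hT, Real.sq_sqrt (by linarith)]
    ring

/-- monotonicity in the window exponent -/
lemma Q3_mono_a (h : C11 F D B L) (hc : Cv F) (hx : 0 < x) (ha : 0 < a) (hy : 0 < y)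
    {a' : ℝ} (haa : a ≤ a') : Q3 x a y τ T F ≤ Q3 x a' y τ T F :=
  PP_mono (h.W' hy _) (Cv.W h hc hy _) hx ha haa

lemma Q3_ge (h : C11 F D B L) (hc : Cv F) (hx : 0 < x) (hxy : x ≤ y) (hxa : x ≤ a)
    (hτ : 0 ≤ τ) (hT : 0 ≤ T) (h1 : τ + T ≤ 1) : W x 1 F 0 ≤ Q3 x a y τ T F := by
  have hy := hx.trans_le hxy
  refine le_trans ?_ (Q3_mono_a h hc hx hx hy hxa)
  rw [Q3_x h hx hy hT h1]
  exact PT_ge h hc hx hxy hτ (by linarith)

/-- **Lower bound**: the share of the window survives the change of the exponents. -/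
theorem Q3_low (h : C11 F D B L) (hc : Cv F) (hx : 0 < x) (hxb : x ≤ b) (hby : b ≤ y)
    (hba : b ≤ a) (hτ : 0 ≤ τ) (hT : 0 ≤ T) (h1 : τ + T ≤ 1) :
    W x 1 F 0 + (a - b) / 2 * (T * ST x b (τ + T) F D) ≤ Q3 x a y τ T F := by
  have hb := hx.trans_le hxb
  have ha := hb.trans_le hba
  refine le_trans ?_ (Q3_mono_y h hc hx ha hb hby)
  have hXC := h.W' hb (√τ)
  have hXc : Cv (W b (√τ) F) := Cv.W h hc hb _
  have hsq : √T ^ 2 + √τ ^ 2 = √(τ + T) ^ 2 := by
    rw [Real.sq_sqrt hT, Real.sq_sqrt hτ, Real.sq_sqrt (by linarith)]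
    ring
  have e2 : 1 - (τ + T) = 1 - τ - T := by ring
  have h2 := PP_tangent (c := √(1 - τ - T)) (s := √T) hXC hXc hx hb ha
  have h3 := SS_ge (x := x) (c := √(1 - τ - T)) (s := √T) hXC hb
  have e3 : Ps x b (√(1 - τ - T)) (√T) (W b (√τ) F) (DW b (√τ) F D) = ST x b (τ + T) F D := by
    unfold ST Ps EE
    have e4 : W b (√T) (W b (√τ) F) = W b (√(τ + T)) F := by
      funext w
      exact W_W h.lip h.B0 hb hsq w
    have e5 : G2 b (√T) (W b (√τ) F) (DW b (√τ) F D) = G2 b (√(τ + T)) F D := by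
      funext w
      unfold G2
      refine Finset.sum_congr rfl fun e _ => ?_
      congr 1
      exact (DW_step h hb hsq e w).symm
    rw [e4, e5, e2]
  rw [e3, Real.sq_sqrt hT] at h3
  have h4 : PP x b (√(1 - τ - T)) (√T) (W b (√τ) F) = PT x b (τ + T) F :=
    Q3_self h hb hτ hT
  have h5 := PT_ge h hc hx hxb (show 0 ≤ τ + T by linarith) h1
  have h6 := mul_le_mul_of_nonneg_left h3 (show 0 ≤ (a - b) / 2 by linarith)
  rw [h4] at h2
  have h7 : Q3 x a b τ T F = PP x a (√(1 - τ - T)) (√T) (W b (√τ) F) := rfl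
  rw [h7]
  linarith

/-- **Upper bound** of the gradient at the first switching time. -/
theorem Sg3_up (h : C11 F D B L) (hc : Cv F) (hx : 0 < x) (hxy : x ≤ y) (hya : 2 * y ≤ a)
    (hτ : 0 ≤ τ) (hT : 0 ≤ T) (h1 : τ + T ≤ 1) :
    y / 2 * τ * Sg3 x a y τ T F D ≤ PT x a (τ + T) F - W x 1 F 0 := by
  have hy := hx.trans_le hxy
  have hy2 : 0 < 2 * y := by linarith
  have ha : 0 < a := hy2.trans_le hya
  have hX := h.W' hy (√τ)
  have hX2 := h.W' hy2 (√τ)
  -- the last layer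
  have p1 : ∀ w, W y (√τ) F w + y / 2 * τ * (∑ e, DW y (√τ) F D e w ^ 2) ≤
      W (2 * y) (√τ) F w := by
    intro w
    have := W_two_ge (b := √τ) h hc hy w
    rw [Real.sq_sqrt hτ] at this
    refine le_trans (le_of_eq ?_) this
    unfold G2
    ring
  have hyτ : 0 ≤ y / 2 * τ := by positivity
  -- the window
  have p2 : ∀ w, W a (√T) (W y (√τ) F) w + y / 2 * τ *
      G2 a (√T) (W y (√τ) F) (DW y (√τ) F D) w ≤ W a (√T) (W (2 * y) (√τ) F) w := by
    intro w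
    have h2 := W_tan_ge (hX.lip.lip h.B0) (hX2.lip.lip h.B0) ha
      (hX.eg_G2.const_mul (y / 2 * τ)) p1 (√T) w
    rw [Mn_const_mul] at h2
    have h3 := mul_le_mul_of_nonneg_left (G2_le_Mn hX a (√T) w) hyτ
    linarith
  have h2 := W_tan_ge (lipW hX ha (√T)) (lipW hX2 ha (√T)) hx
    ((eg_G2' hX ha (√T)).const_mul (y / 2 * τ)) p2 (√(1 - τ - T)) 0
  rw [Mn_const_mul] at h2
  have h3 : Q3 x a y τ T F + y / 2 * τ * Sg3 x a y τ T F D ≤ Q3 x a (2 * y) τ T F := h2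
  have h4 := Q3_le h hc hx hy2 hya hτ hT h1
  have h5 := Q3_ge h hc hx hxy (show x ≤ a by linarith) hτ hT h1
  linarith

/-- The drop in the length of the window. -/
theorem Q3_drop (h : C11 F D B L) (hc : Cv F) (hx : 0 < x) (hy : 0 < y) (hxa : x ≤ a)
    {T' m : ℝ} (h0 : 0 ≤ T) (hTT : T ≤ T') (h1 : τ + T' ≤ 1)
    (hm : ∀ t, T ≤ t → t ≤ T' → Sg3 x a y τ t F D ≤ m) :
    Q3 x a y τ T' F ≤ Q3 x a y τ T F + (a - x) / 2 * (T' - T) * m := by
  have h2 := PP_drop (v := 1 - τ) (t0 := 1 - τ - T') (t1 := 1 - τ - T) (m := m) (h.W' hy (√τ))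
    (Cv.W h hc hy (√τ)) hx hxa (by linarith) (by linarith) (by linarith) (fun t ht ht' => by
      have := hm (1 - τ - t) (by linarith) (by linarith)
      unfold Sg3 at this
      rwa [sub_sub_cancel] at this)
  rw [sub_sub_cancel, sub_sub_cancel] at h2
  have e : 1 - τ - T - (1 - τ - T') = T' - T := by ring
  rw [e] at h2
  exact h2

/-- monotonicity in the length of the window -/
lemma Q3_mono_T (h : C11 F D B L) (hc : Cv F) (hx : 0 < x) (hy : 0 < y) (hxa : x ≤ a)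
    {T' : ℝ} (h0 : 0 ≤ T) (hTT : T ≤ T') (h1 : τ + T' ≤ 1) :
    Q3 x a y τ T F ≤ Q3 x a y τ T' F := by
  refine PP_anti (r := √(T' - T)) (h.W' hy (√τ)) (Cv.W h hc hy (√τ)) hx hxa ?_ ?_
  · rw [Real.sq_sqrt (by linarith), Real.sq_sqrt (by linarith), Real.sq_sqrt (by linarith)]
    ring
  · rw [Real.sq_sqrt (by linarith), Real.sq_sqrt (by linarith), Real.sq_sqrt (by linarith)]
    ring

end three

end Vale.Agent.P146.U
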