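import Mathlib

/-!
Selection on a grid (L-side): a weighted maximum of `f j i`.
-/

namespace Vale.Agent.P146.U

/-- **Grid selection.** -/
theorem grid_max {f : ℕ → ℕ → ℝ} {A E : ℝ} {m : ℕ} (hm : m ≠ 0) (hA : 0 < A)
    (h0 : A ≤ f 0 0)
    (hub : ∀ j i, f j i ≤ A * E * 4 ^ (7 * j) / (2 ^ (m + 1)) ^ i) :
    ∃ j i : ℕ, (4 : ℝ) ^ j ≤ E ∧ ((2 : ℝ) ^ m) ^ i ≤ E ∧ A * 4 ^ (8 * j) / 2 ^ i ≤ f j i ∧
      f (j + 1) i ≤ 4 ^ 8 * f j i ∧ f j (i + 1) ≤ 1 / 2 * f j i := by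
  obtain ⟨J, hJ⟩ := pow_unbounded_of_one_lt E (show (1 : ℝ) < 4 by norm_num)
  obtain ⟨I, hI⟩ := pow_unbounded_of_one_lt E (show (1 : ℝ) < 2 ^ m from
    one_lt_pow₀ (by norm_num) hm)
  set w : ℕ × ℕ → ℝ := fun p => f p.1 p.2 * 2 ^ p.2 / 4 ^ (8 * p.1) with hw
  have hne : (Finset.range (J + 1) ×ˢ Finset.range (I + 1)).Nonempty :=
    ⟨(0, 0), by simp⟩
  obtain ⟨⟨j, i⟩, hmem, hmax⟩ := Finset.exists_max_image _ w hne
  have hw0 : A ≤ w (0, 0) := by simpa [hw] using h0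
  have hwji : A ≤ w (j, i) := hw0.trans (hmax (0, 0) (by simp))
  have hp4 : (0 : ℝ) < 4 ^ (8 * j) := by positivity
  have hp2 : (0 : ℝ) < 2 ^ i := by positivity
  -- the bound of the weight
  have hprod : (4 : ℝ) ^ j * (2 ^ m) ^ i ≤ E := by
    have h1 : w (j, i) ≤ A * E / (4 ^ j * (2 ^ m) ^ i) := by
      simp only [hw]
      rw [div_le_div_iff₀ hp4 (by positivity)]
      have h2 := mul_le_mul_of_nonneg_right (hub j i)
        (show (0 : ℝ) ≤ 2 ^ i * (4 ^ j * (2 ^ m) ^ i) by positivity)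
      have e1 : f j i * 2 ^ i * (4 ^ j * (2 ^ m) ^ i) =
          f j i * (2 ^ i * (4 ^ j * (2 ^ m) ^ i)) := by ring
      rw [e1]
      refine h2.trans (le_of_eq ?_)
      have e2 : ((2 : ℝ) ^ (m + 1)) ^ i = (2 ^ m) ^ i * 2 ^ i := by
        rw [← mul_pow, ← pow_succ]
      have e3 : (4 : ℝ) ^ (8 * j) = 4 ^ (7 * j) * 4 ^ j := by
        rw [← pow_add]
        congr 1
        ring
      rw [e2, e3]
      have p1 : (0 : ℝ) < (2 ^ m) ^ i := by positivity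
      generalize ((2 : ℝ) ^ m) ^ i = u at p1 ⊢
      generalize (2 : ℝ) ^ i = v at hp2 ⊢
      generalize (4 : ℝ) ^ (7 * j) = v1
      generalize (4 : ℝ) ^ j = v2
      field_simp
    have h2 : A ≤ A * E / (4 ^ j * (2 ^ m) ^ i) := hwji.trans h1
    rw [le_div_iff₀ (by positivity)] at h2
    exact le_of_mul_le_mul_left h2 hA
  have h4j : (1 : ℝ) ≤ 4 ^ j := one_le_pow₀ (by norm_num)
  have h2i : (1 : ℝ) ≤ (2 ^ m) ^ i := one_le_pow₀ (one_le_pow₀ (by norm_num))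
  have hj : (4 : ℝ) ^ j ≤ E := (le_mul_of_one_le_right (by positivity) h2i).trans hprod
  have hi : ((2 : ℝ) ^ m) ^ i ≤ E := (le_mul_of_one_le_left (by positivity) h4j).trans hprod
  have hjJ : j < J := by
    by_contra hcon
    push Not at hcon
    have : (4 : ℝ) ^ J ≤ 4 ^ j := pow_le_pow_right₀ (by norm_num) hcon
    linarith
  have hiI : i < I := by
    by_contra hcon
    push Not at hcon
    have : ((2 : ℝ) ^ m) ^ I ≤ (2 ^ m) ^ i :=
      pow_le_pow_right₀ (one_le_pow₀ (by norm_num)) hcon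
    linarith
  refine ⟨j, i, hj, hi, ?_, ?_, ?_⟩
  · have h1 : A ≤ f j i * 2 ^ i / 4 ^ (8 * j) := hwji
    rw [le_div_iff₀ hp4] at h1
    rw [div_le_iff₀ hp2]
    exact h1
  · have h1 := hmax (j + 1, i) (by simp; omega)
    simp only [hw] at h1
    have e : (4 : ℝ) ^ (8 * (j + 1)) = 4 ^ 8 * 4 ^ (8 * j) := by
      rw [← pow_add]
      congr 1
      ring
    rw [e, div_le_div_iff₀ (by positivity) hp4] at h1
    have h2 : (2 ^ i * 4 ^ (8 * j)) * f (j + 1) i ≤ (2 ^ i * 4 ^ (8 * j)) * (4 ^ 8 * f j i) := by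
      linarith
    exact le_of_mul_le_mul_left h2 (by positivity)
  · have h1 := hmax (j, i + 1) (by simp; omega)
    simp only [hw] at h1
    rw [pow_succ, div_le_div_iff_of_pos_right hp4] at h1
    have h2 : (2 ^ i) * (f j (i + 1) * 2) ≤ (2 ^ i) * f j i := by linarith
    have := le_of_mul_le_mul_left h2 hp2
    linarith

end Vale.Agent.P146.U
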