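import Vale.Agent.P146.U.Ex3a
import Vale.Agent.P146.U.Ex3b

/-!
The L-side: at the windows `T = x² s`, `s = σ^2000` large, the mean squared gradient at the
exponent `2x` is at most `G s^(-1/1000) / T`, if the inequality `(L)` holds at all regular windows
(in the form used by the selection: increments of the functional). Outer exponent `x` free,
`G = N x^4` (`N` = size of the system, `1 ≤ N x^6`).
-/

open MeasureTheory ProbabilityTheory

namespace Vale.Agent.P146.U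

open Vale.Agent.P157.Lv Vale.Agent.P146.H425 Vale.Agent.P146.R1

set_option linter.unusedSectionVars false

variable {κ : Type} [Fintype κ] {F X : (κ → ℝ) → ℝ} {D : κ → (κ → ℝ) → ℝ}
  {B L x a b : ℝ}

/-- the exponent 522 of the grid -/
def mG : ℕ := 522

lemma mG_ne : mG ≠ 0 := by decide

/-- the ratio of the grid in the length of the window -/
noncomputable def lG : ℝ := 2 ^ (mG + 1)

lemma lG_one : 1 ≤ lG := one_le_pow₀ (by norm_num)

lemma lG_pos : 0 < lG := one_pos.trans_le lG_one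

/-- **The inequality (L) at all regular windows** (the function `W y √τ F` on the total variance
`1 - τ`, outer exponent `x`, window exponent `a`, inner exponent `y`; `N` = size). -/
def HL (N x Λ1 CL : ℝ) (F : (κ → ℝ) → ℝ) : Prop :=
  ∀ a y τ T Δ : ℝ, x ≤ y → y ≤ a → a ^ 2 ≤ x → 0 < τ → τ ≤ 1 / 2 → x ^ 2 ≤ T → T ≤ 1 / 4 →
    Δ = Q3 x a y τ T F - Q3 x x y τ T F →
    Q3 x (4 * a) y τ T F - Q3 x x y τ T F ≤ 4 ^ 8 * Δ →
    Q3 x a y τ (T / lG) F - Q3 x x y τ T F ≤ 1 / 2 * Δ →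
    Λ1 ≤ x * Δ → Λ1 * a ≤ y ^ 2 * Δ →
    T ≤ CL * (1 / √(N * T) + a * √(Δ / (a * N * T)) + Δ / (a * N * T) + 1 / N)

/-- **The upper bound from the K-side** (windows `x² ≤ T ≤ 1/2`). -/
def UP (G x M : ℝ) (F : (κ → ℝ) → ℝ) : Prop :=
  ∀ b T : ℝ, x ≤ b → x ^ 2 ≤ T → T ≤ 1 / 2 →
    PT x b T F - W x 1 F 0 ≤ M * (G * b * (b / x) ^ 5 * (T / x ^ 2) ^ (1 / 100 : ℝ))

/-- the upper bound in powers of `σ` -/
lemma UP.bd {G M σ : ℝ} (hU : UP G x M F) (hG : 0 < G) (hx : 0 < x) (hM : 0 ≤ M) (hσ : 1 ≤ σ)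
    {b T : ℝ} (hb : x ≤ b) (hT1 : T ≤ 1 / 2) (hT0 : x ^ 2 ≤ T) (hT : T ≤ x ^ 2 * σ ^ 2000) :
    PT x b T F - W x 1 F 0 ≤ M * (G * b * (b / x) ^ 5 * σ ^ 20) := by
  have hx2 : 0 < x ^ 2 := by positivity
  have hTp : 0 < T := hx2.trans_le hT0
  have hb0 := hx.trans_le hb
  have h1 := hU b T hb hT0 hT1
  refine h1.trans (mul_le_mul_of_nonneg_left ?_ hM)
  refine mul_le_mul_of_nonneg_left ?_ (by positivity)
  have h2 : T / x ^ 2 ≤ (σ ^ 20) ^ 100 := by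
    rw [div_le_iff₀ hx2, ← pow_mul]
    have e : σ ^ (20 * 100) = σ ^ 2000 := by norm_num
    rw [e]
    linarith
  calc (T / x ^ 2) ^ (1 / 100 : ℝ) ≤ ((σ ^ 20) ^ 100) ^ (1 / 100 : ℝ) :=
        Real.rpow_le_rpow (by positivity) h2 (by norm_num)
    _ = σ ^ 20 := by
        have := Real.pow_rpow_inv_natCast (x := σ ^ 20) (n := 100) (by positivity) (by norm_num)
        rw [one_div]
        exact_mod_cast this

/-- the parameters -/
structure Par3 (G x M σ T : ℝ) : Prop where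
  hG : 0 < G
  hx : 0 < x
  hx1 : x ≤ 1
  hM : 0 < M
  hσ4 : 4 ≤ σ
  hσM : 16 * M ≤ σ
  hT : T = x ^ 2 * σ ^ 2000
  hT1 : T ≤ 1 / 2

section par

variable {G M σ T : ℝ}

lemma Par3.σ1 (q : Par3 G x M σ T) : 1 ≤ σ := by linarith [q.hσ4]
lemma Par3.σ0 (q : Par3 G x M σ T) : 0 < σ := by linarith [q.hσ4]
lemma Par3.T0 (q : Par3 G x M σ T) : 0 < T := by
  have h1 := q.hx
  have h2 := q.σ0
  rw [q.hT]; positivity

lemma Par3.xT (q : Par3 G x M σ T) : x ^ 2 * 2 ≤ T := by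
  have h1 := q.hx
  have h2 := q.hσ4
  rw [q.hT]
  have : (2 : ℝ) ≤ σ ^ 2000 := by
    calc (2 : ℝ) ≤ σ := by linarith
      _ ≤ σ ^ 2000 := le_self_pow₀ q.σ1 (by norm_num)
  have : 0 ≤ x ^ 2 := by positivity
  nlinarith

lemma Par3.y0 (q : Par3 G x M σ T) : 0 < x * σ ^ 2 := by
  have h1 := q.hx
  have h2 := q.σ0
  positivity

lemma Par3.xy (q : Par3 G x M σ T) : 2 * x ≤ x * σ ^ 2 := by
  have h1 := q.hx
  have h2 := q.hσ4
  have : 16 ≤ σ ^ 2 := by nlinarith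
  nlinarith

lemma Par3.ya (q : Par3 G x M σ T) : 2 * (x * σ ^ 2) ≤ x * σ ^ 40 := by
  have h0 := q.y0
  have h2 : σ ^ 40 = σ ^ 2 * σ ^ 38 := by ring
  have h3 : 2 ≤ σ ^ 38 := by
    calc (2 : ℝ) ≤ σ := by linarith [q.hσ4]
      _ ≤ σ ^ 38 := le_self_pow₀ q.σ1 (by norm_num)
  have h4 : x * σ ^ 2 * 2 ≤ x * σ ^ 2 * σ ^ 38 := mul_le_mul_of_nonneg_left h3 h0.le
  rw [h2]
  linarith

/-- the lower bound of the share -/
lemma l_low (q : Par3 G x M σ T) (h : C11 F D B L) (hc : Cv F) (hU : UP G x M F)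
    (hcon : G / σ ^ 2 < T * ST x (2 * x) T F D) :
    x / 16 * G * σ ^ 38 ≤
      Q3 x (x * σ ^ 40) (x * σ ^ 2) (T / 2) (T / 2) F - PT x (x * σ ^ 2) (T / 2) F := by
  have hx := q.hx
  have hG := q.hG
  have hσ0 := q.σ0
  have hσ1 := q.σ1
  have hσ4 := q.hσ4
  have hT0 := q.T0
  have hxT := q.xT
  have hx2 : 0 < x ^ 2 := by positivity
  have e2 : T / 2 + T / 2 = T := by ring
  have h2 := Q3_low (a := x * σ ^ 40) (τ := T / 2) (T := T / 2) h hc hx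
    (show x ≤ 2 * x by linarith) q.xy (by linarith [q.ya, q.xy]) (by positivity)
    (by positivity) (by rw [e2]; linarith [q.hT1])
  rw [e2] at h2
  have h3 := hU.bd hG hx q.hM.le hσ1 (b := x * σ ^ 2) (T := T / 2) (by linarith [q.xy])
    (by linarith [q.hT1]) (by linarith) (by rw [← q.hT]; linarith)
  have h4 : x * σ ^ 40 / 2 ≤ x * σ ^ 40 - 2 * x := by
    have : 4 ≤ σ ^ 40 := by
      calc (4 : ℝ) ≤ σ := hσ4
        _ ≤ σ ^ 40 := le_self_pow₀ hσ1 (by norm_num)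
    nlinarith
  have h5 : x / 8 * G * σ ^ 38 ≤
      (x * σ ^ 40 - 2 * x) / 2 * (T / 2 * ST x (2 * x) T F D) := by
    have h6 : x * σ ^ 40 / 4 * (1 / 2 * (G / σ ^ 2)) ≤
        (x * σ ^ 40 - 2 * x) / 2 * (T / 2 * ST x (2 * x) T F D) := by
      refine mul_le_mul (by linarith) (by linarith) (by positivity) ?_
      have : 0 ≤ x * σ ^ 40 := by positivity
      linarith
    refine le_trans (le_of_eq ?_) h6
    field_simp
    norm_num
  have h6 : M * (G * (x * σ ^ 2) * ((x * σ ^ 2) / x) ^ 5 * σ ^ 20) ≤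
      x / 16 * G * σ ^ 38 := by
    have e3 : (x * σ ^ 2) / x = σ ^ 2 := by field_simp
    rw [e3]
    have e4 : M * (G * (x * σ ^ 2) * (σ ^ 2) ^ 5 * σ ^ 20) =
        (x * G * σ ^ 32) * M := by ring
    have e5 : x / 16 * G * σ ^ 38 = (x * G * σ ^ 32) * (σ ^ 6 / 16) := by
      ring
    rw [e4, e5]
    refine mul_le_mul_of_nonneg_left ?_ (by positivity)
    have : σ ≤ σ ^ 6 := le_self_pow₀ hσ1 (by norm_num)
    linarith [q.hσM]
  have e7 : x / 8 * G * σ ^ 38 = x / 16 * G * σ ^ 38 + x / 16 * G * σ ^ 38 := by ring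
  rw [e7] at h5
  linarith

/-- the bound of the gradient -/
noncomputable def mm (G x M σ T a : ℝ) : ℝ :=
  4 * M * (a / (x * σ ^ 2)) * (a / x) ^ 5 * σ ^ 20 * G / T

/-- the upper bound of the gradient -/
lemma l_grad (q : Par3 G x M σ T) (h : C11 F D B L) (hc : Cv F) (hU : UP G x M F) {t : ℝ}
    (ha : 2 * (x * σ ^ 2) ≤ a) (ht : 0 ≤ t) (htT : t ≤ T / 2) :
    Sg3 x a (x * σ ^ 2) (T / 2) t F D ≤ mm G x M σ T a := by
  have hx := q.hx
  have hG := q.hG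
  have hσ0 := q.σ0
  have hσ1 := q.σ1
  have hT0 := q.T0
  have hxT := q.xT
  have hy0 := q.y0
  have hxy := q.xy
  have h5 := Sg3_up (a := a) (τ := T / 2) (T := t) h hc hx (by linarith) ha
    (by positivity) ht (by linarith [q.hT1])
  have h6 := hU.bd (b := a) (T := T / 2 + t) hG hx q.hM.le hσ1 (by linarith)
    (by linarith [q.hT1]) (by linarith) (by rw [← q.hT]; linarith)
  have h7 := h5.trans h6
  have h8 : Sg3 x a (x * σ ^ 2) (T / 2) t F D ≤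
      M * (G * a * (a / x) ^ 5 * σ ^ 20) / (x * σ ^ 2 / 2 * (T / 2)) := by
    rw [le_div_iff₀ (by positivity), mul_comm]
    exact h7
  refine h8.trans (le_of_eq ?_)
  unfold mm
  field_simp
  norm_num

/-- the upper bound of the share, in terms of the gradient -/
lemma l_up1 (q : Par3 G x M σ T) (h : C11 F D B L) (hc : Cv F) (hU : UP G x M F) {t : ℝ}
    (hya : 2 * (x * σ ^ 2) ≤ a) (ht0 : 0 ≤ t) (ht : t ≤ T / 2) :
    Q3 x a (x * σ ^ 2) (T / 2) t F - PT x (x * σ ^ 2) (T / 2) F ≤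
      a / 2 * t * mm G x M σ T a := by
  have hx := q.hx
  have hG := q.hG
  have hσ0 := q.σ0
  have hM := q.hM
  have hT0 := q.T0
  have hT1 := q.hT1
  have hy0 := q.y0
  have hxa : x ≤ a := by linarith [q.xy]
  have ha0 : 0 < a := hx.trans_le hxa
  have hm0 : 0 ≤ mm G x M σ T a := by unfold mm; positivity
  have h2 := Q3_drop (a := a) (τ := T / 2) (T := 0) (T' := t) (m := mm G x M σ T a) h hc hx hy0
    hxa le_rfl ht0 (by linarith) (fun t h3 h4 => l_grad q h hc hU hya h3 (h4.trans ht))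
  rw [Q3_zero ha0, sub_zero] at h2
  have h3 : (a - x) / 2 * t * mm G x M σ T a ≤ a / 2 * t * mm G x M σ T a := by
    gcongr
    linarith
  linarith

/-- the upper bound of the share -/
lemma l_up (q : Par3 G x M σ T) (h : C11 F D B L) (hc : Cv F) (hU : UP G x M F) (j i : ℕ) :
    Q3 x (4 ^ j * (x * σ ^ 40)) (x * σ ^ 2) (T / 2) (T / 2 / lG ^ i) F -
      PT x (x * σ ^ 2) (T / 2) F ≤
      x / 16 * G * σ ^ 38 * (16 * M * σ ^ 260) * 4 ^ (7 * j) / (2 ^ (mG + 1)) ^ i := by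
  have hx := q.hx
  have hG := q.hG
  have hσ0 := q.σ0
  have hM := q.hM
  have hT0 := q.T0
  have hy0 := q.y0
  have hl := lG_pos
  have hj4 : (1 : ℝ) ≤ 4 ^ j := one_le_pow₀ (by norm_num)
  have hli : 1 ≤ lG ^ i := one_le_pow₀ lG_one
  have haa : x * σ ^ 40 ≤ 4 ^ j * (x * σ ^ 40) := le_mul_of_one_le_left (by positivity) hj4
  have hya : 2 * (x * σ ^ 2) ≤ 4 ^ j * (x * σ ^ 40) := q.ya.trans haa
  have ht : T / 2 / lG ^ i ≤ T / 2 := div_le_self (by positivity) hli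
  have ht0 : 0 < T / 2 / lG ^ i := by positivity
  refine (l_up1 q h hc hU hya ht0.le ht).trans (le_of_eq ?_)
  unfold mm
  have e1 : (4 : ℝ) ^ (7 * j) = (4 ^ j) ^ 7 := by rw [← pow_mul]; congr 1; ring
  have e2 : ((2 : ℝ) ^ (mG + 1)) ^ i = lG ^ i := rfl
  rw [e1, e2]
  have p1 : (0 : ℝ) < 4 ^ j := by positivity
  have p2 : 0 < lG ^ i := by positivity
  generalize (4 : ℝ) ^ j = u at p1 ⊢
  generalize lG ^ i = v at p2 ⊢
  field_simp
  norm_num

/-- **The selection.** -/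
lemma l_sel (q : Par3 G x M σ T) (h : C11 F D B L) (hc : Cv F) (hU : UP G x M F)
    (hcon : G / σ ^ 2 < T * ST x (2 * x) T F D) :
    ∃ (a t Δ : ℝ) (j i : ℕ), a = 4 ^ j * (x * σ ^ 40) ∧ (4 : ℝ) ^ j ≤ σ ^ 261 ∧
      ((2 : ℝ) ^ mG) ^ i ≤ σ ^ 261 ∧ t = T / 2 / lG ^ i ∧
      Δ = Q3 x a (x * σ ^ 2) (T / 2) t F - Q3 x x (x * σ ^ 2) (T / 2) t F ∧
      Q3 x (4 * a) (x * σ ^ 2) (T / 2) t F - Q3 x x (x * σ ^ 2) (T / 2) t F ≤ 4 ^ 8 * Δ ∧
      Q3 x a (x * σ ^ 2) (T / 2) (t / lG) F - Q3 x x (x * σ ^ 2) (T / 2) t F ≤ 1 / 2 * Δ ∧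
      x / 16 * G * σ ^ 38 * 4 ^ (8 * j) ≤ Δ * 2 ^ i ∧
      Δ ≤ a / 2 * t * mm G x M σ T a := by
  have hx := q.hx
  have hG := q.hG
  have hσ0 := q.σ0
  have hσ1 := q.σ1
  have hM := q.hM
  have hT0 := q.T0
  have hT1 := q.hT1
  have hy0 := q.y0
  have hl := lG_pos
  have hl1 := lG_one
  have hA : 0 < x / 16 * G * σ ^ 38 := by positivity
  have h00 := l_low q h hc hU hcon
  obtain ⟨j, i, hj, hi, hΔ, h4, hhalf⟩ := grid_max
    (f := fun j i => Q3 x (4 ^ j * (x * σ ^ 40)) (x * σ ^ 2) (T / 2) (T / 2 / lG ^ i) F -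
      PT x (x * σ ^ 2) (T / 2) F) mG_ne hA
    (by simpa using h00) (fun j i => l_up q h hc hU j i)
  have hE : 16 * M * σ ^ 260 ≤ σ ^ 261 := by
    have : σ ^ 261 = σ * σ ^ 260 := by ring
    rw [this]
    exact mul_le_mul_of_nonneg_right q.hσM (by positivity)
  have hj4 : (1 : ℝ) ≤ 4 ^ j := one_le_pow₀ (by norm_num)
  have hli : 1 ≤ lG ^ i := one_le_pow₀ hl1
  have ht0 : 0 < T / 2 / lG ^ i := by positivity
  have htT : T / 2 / lG ^ i ≤ T / 2 := div_le_self (by positivity) hli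
  have hTl : T / 2 / lG ^ (i + 1) = T / 2 / lG ^ i / lG := by
    rw [pow_succ, div_div, div_div, div_div]
  have haj' : 4 ^ (j + 1) * (x * σ ^ 40) = 4 * (4 ^ j * (x * σ ^ 40)) := by
    rw [pow_succ]
    ring
  have haa : x * σ ^ 40 ≤ 4 ^ j * (x * σ ^ 40) := le_mul_of_one_le_left (by positivity) hj4
  have hya : 2 * (x * σ ^ 2) ≤ 4 ^ j * (x * σ ^ 40) := q.ya.trans haa
  have hQx : Q3 x x (x * σ ^ 2) (T / 2) (T / 2 / lG ^ i) F = PT x (x * σ ^ 2) (T / 2) F :=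
    Q3_x h hx hy0 ht0.le (by linarith)
  rw [haj'] at h4
  rw [hTl] at hhalf
  refine ⟨4 ^ j * (x * σ ^ 40), T / 2 / lG ^ i,
    Q3 x (4 ^ j * (x * σ ^ 40)) (x * σ ^ 2) (T / 2) (T / 2 / lG ^ i) F -
      PT x (x * σ ^ 2) (T / 2) F, j, i, rfl, hj.trans hE, hi.trans hE, rfl, ?_, ?_, ?_, ?_,
    l_up1 q h hc hU hya ht0.le htT⟩
  · rw [hQx]
  · rw [hQx]
    exact h4
  · rw [hQx]
    exact hhalf
  · rwa [div_le_iff₀ (by positivity)] at hΔ

end par

end Vale.Agent.P146.U
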