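import Vale.Agent.P146.U.Ex3c

/-!
The L-side, conclusion: `lside`.
-/

open MeasureTheory ProbabilityTheory

namespace Vale.Agent.P146.U

open Vale.Agent.P157.Lv Vale.Agent.P146.H425 Vale.Agent.P146.R1

set_option linter.unusedSectionVars false

variable {κ : Type} [Fintype κ] {F X : (κ → ℝ) → ℝ} {D : κ → (κ → ℝ) → ℝ}
  {B L x a b G M σ T N : ℝ}

/-- the size of `a` -/
lemma d_a {j : ℕ} (hx : 0 < x) (hσ0 : 0 < σ) (ha : a = 4 ^ j * (x * σ ^ 40))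
    (hj : (4 : ℝ) ^ j ≤ σ ^ 261) : a ≤ x * σ ^ 301 := by
  rw [ha]
  calc 4 ^ j * (x * σ ^ 40) ≤ σ ^ 261 * (x * σ ^ 40) :=
        mul_le_mul_of_nonneg_right hj (by positivity)
    _ = x * σ ^ 301 := by ring

lemma d_x (q : Par3 G x M σ T) : σ ^ 1000 * x ≤ 1 := by
  have h0 := q.hx
  have h1 := q.σ0
  have h5 : (σ ^ 1000 * x) ^ 2 ≤ 1 ^ 2 := by
    have : (σ ^ 1000 * x) ^ 2 = x ^ 2 * σ ^ 2000 := by ring
    rw [this, one_pow, ← q.hT]
    linarith [q.hT1]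
  exact (pow_le_pow_iff_left₀ (by positivity) (by norm_num) (by norm_num)).1 h5

lemma d_a2 (q : Par3 G x M σ T) (ha0 : 0 ≤ a) (ha : a ≤ x * σ ^ 301) : a ^ 2 ≤ x := by
  have h0 := q.hx
  have h1 := q.σ0
  calc a ^ 2 ≤ (x * σ ^ 301) ^ 2 := pow_le_pow_left₀ ha0 ha 2
    _ = x ^ 2 * σ ^ 602 := by ring
    _ ≤ x ^ 2 * σ ^ 1000 :=
        mul_le_mul_of_nonneg_left (pow_le_pow_right₀ q.σ1 (by norm_num)) (by positivity)
    _ = x * (σ ^ 1000 * x) := by ring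
    _ ≤ x * 1 := mul_le_mul_of_nonneg_left (d_x q) (by positivity)
    _ = x := mul_one _

lemma d_i {i : ℕ} (hσ0 : 0 < σ) (hi : ((2 : ℝ) ^ mG) ^ i ≤ σ ^ 261) : (2 : ℝ) ^ i ≤ σ := by
  have h2i1 : (1 : ℝ) ≤ 2 ^ i := one_le_pow₀ (by norm_num)
  have h5 : (((2 : ℝ) ^ i) ^ 2) ^ 261 ≤ σ ^ 261 := by
    refine le_trans (le_of_eq ?_) hi
    rw [← pow_mul, ← pow_mul, ← pow_mul]
    congr 1
    unfold mG
    ring
  have h6 := (pow_le_pow_iff_left₀ (by positivity) hσ0.le (by norm_num)).1 h5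
  nlinarith

lemma d_T {i : ℕ} {t : ℝ} (q : Par3 G x M σ T) (hi : ((2 : ℝ) ^ mG) ^ i ≤ σ ^ 261)
    (hT : t = T / 2 / lG ^ i) : x ^ 2 * σ ^ 1738 ≤ 2 * t := by
  have h0 := q.hx
  have hσ0 := q.σ0
  have hl := lG_pos
  have h2i := d_i hσ0 hi
  have h5 : lG ^ i ≤ σ ^ 262 := by
    have e1 : lG ^ i = (2 ^ mG) ^ i * 2 ^ i := by
      unfold lG
      rw [← mul_pow, ← pow_succ]
    rw [e1]
    calc ((2 : ℝ) ^ mG) ^ i * 2 ^ i ≤ σ ^ 261 * σ :=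
          mul_le_mul hi h2i (by positivity) (by positivity)
      _ = σ ^ 262 := by ring
  have hli : 0 < lG ^ i := pow_pos hl i
  have h6 : T / 2 = t * lG ^ i := by rw [hT, div_mul_cancel₀ _ hli.ne']
  have ht0 : 0 < t := by
    rw [hT]
    exact div_pos (half_pos q.T0) hli
  have h8 : t * lG ^ i ≤ t * σ ^ 262 := mul_le_mul_of_nonneg_left h5 ht0.le
  have e2 : T = (x ^ 2 * σ ^ 1738) * σ ^ 262 := by rw [q.hT]; ring
  have hp : 0 < σ ^ 262 := by positivity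
  rw [← h6, e2] at h8
  generalize x ^ 2 * σ ^ 1738 = u at h8 ⊢
  generalize σ ^ 262 = v at h8 hp
  have e4 : u * v ≤ 2 * t * v := by linarith
  exact le_of_mul_le_mul_right e4 hp

/-- the size of the gradient, divided by `N` -/
lemma d_ρ (q : Par3 G x M σ T) (hN : 0 < N) (hGN : G = N * x ^ 4) (ha0 : 0 < a)
    (ha : a ≤ x * σ ^ 301) : mm G x M σ T a / N ≤ x ^ 2 := by
  have h0 := q.hx
  have hσ0 := q.σ0
  have hM := q.hM
  have hG := q.hG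
  have h1 : a / (x * σ ^ 2) ≤ σ ^ 299 := by
    rw [div_le_iff₀ (by positivity)]
    refine ha.trans (le_of_eq ?_)
    ring
  have h2 : a / x ≤ σ ^ 301 := by
    rw [div_le_iff₀ h0]
    linarith
  have h3 : (a / x) ^ 5 ≤ (σ ^ 301) ^ 5 := pow_le_pow_left₀ (by positivity) h2 5
  have h5 : mm G x M σ T a ≤ 4 * M * σ ^ 299 * (σ ^ 301) ^ 5 * σ ^ 20 * G / T := by
    have := q.T0
    unfold mm
    gcongr
  have h6 : 4 * M * σ ^ 299 * (σ ^ 301) ^ 5 * σ ^ 20 * G / T = 4 * M / σ ^ 176 * x ^ 2 * N := by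
    rw [q.hT, hGN]
    field_simp
  rw [h6] at h5
  have h7 : 4 * M / σ ^ 176 ≤ 1 := by
    rw [div_le_one (by positivity)]
    have : σ ≤ σ ^ 176 := le_self_pow₀ q.σ1 (by norm_num)
    linarith [q.hσM]
  rw [div_le_iff₀ hN]
  refine h5.trans (mul_le_mul_of_nonneg_right ?_ hN.le)
  have : 0 ≤ x ^ 2 := by positivity
  nlinarith

/-- the sizes of the actions -/
lemma d_act (q : Par3 G x M σ T) (hGN : G = N * x ^ 4) (hNx : 1 ≤ N * x ^ 6) {j i : ℕ}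
    {Δ Λ1 : ℝ} (hi : (2 : ℝ) ^ i ≤ σ) (hja : a = 4 ^ j * (x * σ ^ 40)) (hΔ0 : 0 ≤ Δ)
    (hΛ : 16 * Λ1 ≤ σ) (h : x / 16 * G * σ ^ 38 * 4 ^ (8 * j) ≤ Δ * 2 ^ i) :
    Λ1 ≤ x * Δ ∧ Λ1 * a ≤ (x * σ ^ 2) ^ 2 * Δ := by
  have h0 := q.hx
  have hσ0 := q.σ0
  have hσ1 := q.σ1
  have hG := q.hG
  have h1 : x / 16 * G * σ ^ 38 * 4 ^ (8 * j) ≤ Δ * σ :=
    h.trans (mul_le_mul_of_nonneg_left hi hΔ0)
  have h4j1 : (1 : ℝ) ≤ 4 ^ j := one_le_pow₀ (by norm_num)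
  have h4j : (4 : ℝ) ^ j ≤ 4 ^ (8 * j) := pow_le_pow_right₀ (by norm_num) (by omega)
  have h2 : x / 16 * G * σ ^ 38 * 4 ^ j ≤ Δ * σ :=
    (mul_le_mul_of_nonneg_left h4j (by positivity)).trans h1
  -- divide by `σ`
  have h3 : x / 16 * G * σ ^ 37 * 4 ^ j ≤ Δ := by
    have e : x / 16 * G * σ ^ 38 * 4 ^ j = (x / 16 * G * σ ^ 37 * 4 ^ j) * σ := by ring
    rw [e] at h2
    exact le_of_mul_le_mul_right h2 hσ0
  constructor
  · have h4 : x * (x / 16 * G * σ ^ 37 * 4 ^ j) ≤ x * Δ := mul_le_mul_of_nonneg_left h3 h0.le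
    have e : x * (x / 16 * G * σ ^ 37 * 4 ^ j) = (N * x ^ 6) * (σ ^ 37 * 4 ^ j) / 16 := by
      rw [hGN]
      ring
    rw [e] at h4
    have h5 : σ ≤ σ ^ 37 * 4 ^ j := by
      calc σ ≤ σ ^ 37 := le_self_pow₀ hσ1 (by norm_num)
        _ ≤ σ ^ 37 * 4 ^ j := le_mul_of_one_le_right (by positivity) h4j1
    have h6 : 1 * σ ≤ (N * x ^ 6) * (σ ^ 37 * 4 ^ j) :=
      mul_le_mul hNx h5 hσ0.le (by linarith)
    linarith
  · have h4 : (x * σ ^ 2) ^ 2 * (x / 16 * G * σ ^ 37 * 4 ^ j) ≤ (x * σ ^ 2) ^ 2 * Δ :=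
      mul_le_mul_of_nonneg_left h3 (by positivity)
    have ha0 : 0 < a := by rw [hja]; positivity
    have e : (x * σ ^ 2) ^ 2 * (x / 16 * G * σ ^ 37 * 4 ^ j) = (N * x ^ 6) * σ * a / 16 := by
      rw [hGN, hja]
      ring
    rw [e] at h4
    have h6 : 1 * σ ≤ (N * x ^ 6) * σ := mul_le_mul_of_nonneg_right hNx hσ0.le
    have h7 : 16 * Λ1 * a ≤ (N * x ^ 6) * σ * a :=
      mul_le_mul_of_nonneg_right (by linarith) ha0.le
    linarith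

lemma d_fin (q : Par3 G x M σ T) (hN : 0 < N) (hNx : 1 ≤ N * x ^ 6) {CL t Δ : ℝ} (hCL : 0 < CL)
    (hσC : 16 * CL ≤ σ) (hT' : x ^ 2 * σ ^ 1738 ≤ 2 * t)
    (ha : a ≤ x * σ ^ 301) (hρ : Δ / (a * N * t) ≤ x ^ 2)
    (hL : t ≤ CL * (1 / √(N * t) + a * √(Δ / (a * N * t)) + Δ / (a * N * t) + 1 / N)) :
    False := by
  have h0 := q.hx
  have h1 := q.hx1
  have hσ0 := q.σ0
  have hσ1 := q.σ1
  have hx2 : 0 < x ^ 2 := by positivity
  have h301 : 1 ≤ σ ^ 301 := one_le_pow₀ hσ1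
  have hxt : x ^ 2 ≤ t := by
    have h3 : (2 : ℝ) ≤ σ ^ 1738 := by
      calc (2 : ℝ) ≤ σ := by linarith [q.hσ4]
        _ ≤ σ ^ 1738 := le_self_pow₀ hσ1 (by norm_num)
    have := mul_le_mul_of_nonneg_left h3 hx2.le
    linarith
  have ht0 : 0 < t := hx2.trans_le hxt
  have hN1 : 1 / N ≤ x ^ 6 := by
    rw [div_le_iff₀ hN, mul_comm]
    exact hNx
  have e1 : 1 / √(N * t) ≤ x ^ 2 := by
    have h3 : 1 / x ^ 2 ≤ √(N * t) := by
      refine Real.le_sqrt_of_sq_le ?_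
      rw [div_pow, one_pow, div_le_iff₀ (by positivity)]
      have h4 : N * x ^ 2 ≤ N * t := mul_le_mul_of_nonneg_left hxt hN.le
      have h5 : N * x ^ 2 * (x ^ 2) ^ 2 ≤ N * t * (x ^ 2) ^ 2 :=
        mul_le_mul_of_nonneg_right h4 (by positivity)
      refine le_trans hNx (le_trans (le_of_eq ?_) h5)
      ring
    rw [one_div_le (lt_of_lt_of_le (by positivity) h3) hx2]
    exact h3
  have e2 : √(Δ / (a * N * t)) ≤ x := by
    rw [Real.sqrt_le_left h0.le]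
    exact hρ
  have e3 : a * √(Δ / (a * N * t)) ≤ x ^ 2 * σ ^ 301 := by
    calc a * √(Δ / (a * N * t)) ≤ (x * σ ^ 301) * x :=
          mul_le_mul ha e2 (Real.sqrt_nonneg _) (by positivity)
      _ = _ := by ring
  have e4 : x ^ 6 ≤ x ^ 2 := pow_le_pow_of_le_one h0.le h1 (by norm_num)
  have e5 : x ^ 2 ≤ x ^ 2 * σ ^ 301 := le_mul_of_one_le_right hx2.le h301
  have h2 : t ≤ CL * (4 * (x ^ 2 * σ ^ 301)) :=
    hL.trans (mul_le_mul_of_nonneg_left (by linarith) hCL.le)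
  have h3 : x ^ 2 * σ ^ 1738 ≤ 2 * (CL * (4 * (x ^ 2 * σ ^ 301))) := by linarith
  have e6 : x ^ 2 * σ ^ 1738 = (x ^ 2 * σ ^ 301) * σ ^ 1437 := by ring
  have e7 : 2 * (CL * (4 * (x ^ 2 * σ ^ 301))) = (x ^ 2 * σ ^ 301) * (8 * CL) := by
    ring
  rw [e6, e7] at h3
  have h4 := le_of_mul_le_mul_left h3 (by positivity)
  have h5 : σ ≤ σ ^ 1437 := le_self_pow₀ hσ1 (by norm_num)
  linarith

/-- **The L-side.** -/
theorem lside (q : Par3 G x M σ T) (hN : 0 < N) (hGN : G = N * x ^ 4) (hNx : 1 ≤ N * x ^ 6)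
    (h : C11 F D B L) (hc : Cv F) (hU : UP G x M F) {Λ1 CL : ℝ}
    (hCL : 0 < CL) (hL : HL N x Λ1 CL F) (hσΛ : 16 * Λ1 ≤ σ) (hσC : 16 * CL ≤ σ) :
    T * ST x (2 * x) T F D ≤ G / σ ^ 2 := by
  by_contra hcon
  push Not at hcon
  obtain ⟨a, t, Δ, j, i, hja, hj, hi, ht, hΔd, h4, hhalf, hΔ, hΔu⟩ := l_sel q h hc hU hcon
  have hx := q.hx
  have hG := q.hG
  have hσ0 := q.σ0
  have hσ1 := q.σ1
  have hl := lG_pos
  have hT0 := q.T0
  have hj4 : (1 : ℝ) ≤ 4 ^ j := one_le_pow₀ (by norm_num)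
  have haa : x * σ ^ 40 ≤ a := by
    rw [hja]
    exact le_mul_of_one_le_left (by positivity) hj4
  have ha0 : 0 < a := lt_of_lt_of_le (by positivity) haa
  have hli : 1 ≤ lG ^ i := one_le_pow₀ lG_one
  have ht0 : 0 < t := by
    rw [ht]
    exact div_pos (half_pos hT0) (by linarith)
  have htT : t ≤ T / 2 := by
    rw [ht]
    exact div_le_self (by positivity) hli
  have h301 := d_a hx hσ0 hja hj
  have hlow := d_T q hi ht
  have hx2 : 0 < x ^ 2 := by positivity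
  have hxt : x ^ 2 ≤ t := by
    have h3 : (2 : ℝ) ≤ σ ^ 1738 := by
      calc (2 : ℝ) ≤ σ := by linarith [q.hσ4]
        _ ≤ σ ^ 1738 := le_self_pow₀ hσ1 (by norm_num)
    have := mul_le_mul_of_nonneg_left h3 hx2.le
    linarith
  have h2i : (0 : ℝ) < 2 ^ i := by positivity
  have hΔ0 : 0 ≤ Δ := by
    have h5 : 0 ≤ Δ * 2 ^ i := le_trans (by positivity) hΔ
    exact nonneg_of_mul_nonneg_left h5 h2i
  have hya : 2 * (x * σ ^ 2) ≤ a := q.ya.trans haa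
  obtain ⟨hA1, hA2⟩ := d_act q hGN hNx (d_i hσ0 hi) hja hΔ0 hσΛ hΔ
  have hρ : Δ / (a * N * t) ≤ x ^ 2 := by
    refine le_trans ?_ (d_ρ q hN hGN ha0 h301)
    rw [div_le_div_iff₀ (by positivity) hN]
    have hm0 : 0 ≤ mm G x M σ T a := by
      have := q.hM
      unfold mm
      positivity
    have h5 : Δ * N ≤ (a / 2 * t * mm G x M σ T a) * N := mul_le_mul_of_nonneg_right hΔu hN.le
    have h6 : 0 ≤ mm G x M σ T a * (a * N * t) := mul_nonneg hm0 (by positivity)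
    have e : (a / 2 * t * mm G x M σ T a) * N = mm G x M σ T a * (a * N * t) / 2 := by ring
    rw [e] at h5
    linarith
  have hLL := hL a (x * σ ^ 2) (T / 2) t Δ (by linarith [q.xy]) (by linarith [q.y0])
    (d_a2 q ha0.le h301) (by positivity) (by linarith [q.hT1]) hxt (by linarith [q.hT1])
    hΔd h4 hhalf hA1 hA2
  exact d_fin q hN hNx hCL hσC hlow h301 hρ hLL

end Vale.Agent.P146.U
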