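import Vale.Agent.P146.U.Ex3d

/-!
Summation over the windows: `W (2x) - W x ≤ C N x^5`, from the K-side (`UP`) and the L-side (`HL`),
outer exponent `x` free (`1 ≤ N x^6`).
-/

open MeasureTheory ProbabilityTheory

namespace Vale.Agent.P146.U

open Vale.Agent.P157.Lv Vale.Agent.P146.H425 Vale.Agent.P146.R1

set_option linter.unusedSectionVars false

/-- the ratio of consecutive windows -/
noncomputable def kG : ℝ := 2 ^ 2000

lemma kG_pos : 0 < kG := pow_pos two_pos _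

lemma kG_eq (r : ℝ) : (2 * r) ^ 2000 = kG * r ^ 2000 := mul_pow 2 r 2000

lemma rpow_inv_2000 {s : ℝ} (hs : 0 ≤ s) : (s ^ 2000) ^ (1 / 2000 : ℝ) = s := by
  have := Real.pow_rpow_inv_natCast (x := s) (n := 2000) hs (by norm_num)
  rw [one_div]
  exact_mod_cast this

lemma rpow_2000 {s : ℝ} (hs : 0 ≤ s) : (s ^ (1 / 2000 : ℝ)) ^ 2000 = s := by
  rw [← Real.rpow_natCast, ← Real.rpow_mul hs]
  norm_num

variable {κ : Type} [Fintype κ] {F X : (κ → ℝ) → ℝ} {D : κ → (κ → ℝ) → ℝ}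
  {B L x a b G M σ T N : ℝ}

/-- The common hypotheses. -/
structure HE (N x M Λ1 CL s : ℝ) (F : (κ → ℝ) → ℝ) : Prop where
  hN : 0 < N
  hNx : 1 ≤ N * x ^ 6
  hx : 0 < x
  hx1 : x ≤ 1 / 2
  hM : 0 < M
  hCL : 0 < CL
  hU : UP (N * x ^ 4) x M F
  hL : HL N x Λ1 CL F
  hs4 : 4 ≤ s
  hsM : 16 * M ≤ s
  hsΛ : 16 * Λ1 ≤ s
  hsC : 16 * CL ≤ s

/-- the gradient beyond the window `x² ρ^2000` -/
lemma e_grad (h : C11 F D B L) (hc : Cv F) {Λ1 CL s : ℝ} (q : HE N x M Λ1 CL s F)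
    {t u : ℝ} (hu : u = x ^ 2 * s ^ 2000) (ht : u ≤ t) (ht1 : t ≤ 1 / 2) :
    ST x (2 * x) t F D ≤ N * x ^ 4 / (s ^ 2 * u) := by
  obtain ⟨hN, hNx, hx, hx1, hM, hCL, hU, hL, hs4, hsM, hsΛ, hsC⟩ := q
  have hs0 : 0 < s := by linarith
  have hx2 : 0 < x ^ 2 := by positivity
  have hx4 : 0 < x ^ 4 := by positivity
  have hG0 : 0 < N * x ^ 4 := mul_pos hN hx4
  have hu0 : 0 < u := by rw [hu]; exact mul_pos hx2 (pow_pos hs0 _)
  have ht0 : 0 < t := hu0.trans_le ht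
  have htx : 0 ≤ t / x ^ 2 := div_nonneg ht0.le hx2.le
  obtain ⟨σ, hσ⟩ : ∃ σ, σ = (t / x ^ 2) ^ (1 / 2000 : ℝ) := ⟨_, rfl⟩
  have hσ2 : σ ^ 2000 = t / x ^ 2 := by
    rw [hσ]
    exact rpow_2000 htx
  have hsσ : s ≤ σ := by
    have h1 : s ^ 2000 ≤ t / x ^ 2 := by
      rw [le_div_iff₀ hx2, mul_comm, ← hu]
      exact ht
    have h2 : (s ^ 2000) ^ (1 / 2000 : ℝ) ≤ (t / x ^ 2) ^ (1 / 2000 : ℝ) :=
      Real.rpow_le_rpow (pow_nonneg hs0.le _) h1 (by norm_num)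
    rw [rpow_inv_2000 hs0.le, ← hσ] at h2
    exact h2
  have htσ : t = x ^ 2 * σ ^ 2000 := by
    rw [hσ2]
    exact (mul_div_cancel₀ t hx2.ne').symm
  have h1 := lside (x := x) (G := N * x ^ 4) (M := M) (σ := σ) (T := t) ⟨hG0, hx, by linarith, hM,
    hs4.trans hsσ, hsM.trans hsσ, htσ, ht1⟩ hN rfl hNx h hc hU hCL hL (hsΛ.trans hsσ)
    (hsC.trans hsσ)
  generalize N * x ^ 4 = G at h1 hG0 ⊢
  have hs2 : 0 < s ^ 2 := pow_pos hs0 _
  have h2 : G / σ ^ 2 ≤ G / s ^ 2 := by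
    refine div_le_div_of_nonneg_left hG0.le hs2 ?_
    exact pow_le_pow_left₀ hs0.le hsσ 2
  have h3 : t * ST x (2 * x) t F D ≤ G / s ^ 2 := h1.trans h2
  have h4 : 0 ≤ ST x (2 * x) t F D := Ps_nonneg h (mul_pos two_pos hx)
  have h5 : u * ST x (2 * x) t F D ≤ G / s ^ 2 :=
    (mul_le_mul_of_nonneg_right ht h4).trans h3
  rw [le_div_iff₀ hs2] at h5
  rw [le_div_iff₀ (mul_pos hs2 hu0)]
  refine le_trans (le_of_eq ?_) h5
  ring

/-- one more window -/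
lemma e_step (h : C11 F D B L) (hc : Cv F) {Λ1 CL s : ℝ} (q : HE N x M Λ1 CL s F)
    {T u : ℝ} (hu : u = x ^ 2 * s ^ 2000) (hT : u ≤ T) (hT1 : T ≤ 1 / 2) (hT2 : T ≤ kG * u) :
    PT x (2 * x) T F ≤ PT x (2 * x) u F + kG / (2 * s ^ 2) * (N * x ^ 4 * x) := by
  have hx := q.hx
  have hN := q.hN
  have hs0 : 0 < s := by linarith [q.hs4]
  have hk := kG_pos
  have hx2 : 0 < x ^ 2 := by positivity
  have hx4 : 0 < x ^ 4 := by positivity
  have hG0 : 0 < N * x ^ 4 := mul_pos hN hx4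
  have hu0 : 0 < u := by rw [hu]; exact mul_pos hx2 (pow_pos hs0 _)
  obtain ⟨m, hm⟩ : ∃ m, m = N * x ^ 4 / (s ^ 2 * u) := ⟨_, rfl⟩
  have hm0 : 0 < m := by
    rw [hm]
    exact div_pos hG0 (mul_pos (pow_pos hs0 _) hu0)
  have h2 := PT_drop (b := 2 * x) (m := m) h hc hx (by linarith) hu0.le hT (by linarith)
    (fun t ht ht' => by
      rw [hm]
      exact e_grad h hc q hu ht (ht'.trans hT1))
  have h5 : (2 * x - x) / 2 * (T - u) * m ≤ x / 2 * (kG * u) * m := by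
    refine mul_le_mul_of_nonneg_right ?_ hm0.le
    have e : (2 * x - x) / 2 = x / 2 := by ring
    rw [e]
    have h6 : T - u ≤ kG * u := (sub_le_self _ hu0.le).trans hT2
    exact mul_le_mul_of_nonneg_left h6 (by positivity)
  have h6 : x / 2 * (kG * u) * m = kG / (2 * s ^ 2) * (N * x ^ 4 * x) := by
    rw [hm]
    clear hu hT2 hT hm h2 h5 q
    generalize kG = k
    generalize N * x ^ 4 = G at hG0 ⊢
    field_simp
  rw [h6] at h5
  exact h2.trans (add_le_add le_rfl h5)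

/-- **The sum over the windows.** -/
theorem EX {M Λ1 CL : ℝ} (hM : 0 < M) (hCL : 0 < CL) : ∃ C : ℝ, 0 < C ∧
    ∀ (κ : Type) [Fintype κ] (F : (κ → ℝ) → ℝ) (D : κ → (κ → ℝ) → ℝ) (B L N x : ℝ),
      C11 F D B L → Cv F → 0 < N → 0 < x → x ≤ 1 / 2 → 1 ≤ N * x ^ 6 →
      UP (N * x ^ 4) x M F → HL N x Λ1 CL F →
      PT x (2 * x) 1 F - W x 1 F 0 ≤ 2 * (PT x (2 * x) (1 / 2) F - W x 1 F 0) →
      W (2 * x) 1 F 0 - W x 1 F 0 ≤ C * (N * x ^ 5) := by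
  obtain ⟨s, hs4, hsM, hsΛ, hsC⟩ : ∃ s : ℝ, 4 ≤ s ∧ 16 * M ≤ s ∧
      16 * Λ1 ≤ s ∧ 16 * CL ≤ s :=
    ⟨max 4 (max (16 * M) (max (16 * Λ1) (16 * CL))), by simp, by simp,
      by simp, by simp⟩
  have hk := kG_pos
  have hs0 : 0 < s := by linarith
  have hC1 : 0 < 64 * M * s ^ 20 := by positivity
  refine ⟨2 * (64 * M * s ^ 20 + kG), by positivity,
    fun κ _ F D B L N x h hc hN hx hx1 hNx hU hL hcn => ?_⟩
  have hx2 : 0 < x ^ 2 := by positivity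
  have hx4 : 0 < x ^ 4 := by positivity
  have hG0 : 0 < N * x ^ 4 := mul_pos hN hx4
  -- the unit
  obtain ⟨g, hg⟩ : ∃ g, g = N * x ^ 4 * x := ⟨_, rfl⟩
  have hg0 : 0 < g := by rw [hg]; exact mul_pos hG0 hx
  -- the windows
  obtain ⟨σ, hσ⟩ : ∃ σ : ℕ → ℝ, ∀ k, σ k = 2 ^ k * s := ⟨fun k => 2 ^ k * s, fun _ => rfl⟩
  have hσs : ∀ k, s ≤ σ k := fun k => by
    rw [hσ]
    exact le_mul_of_one_le_left hs0.le (one_le_pow₀ (by norm_num))
  have hσ0 : ∀ k, 0 < σ k := fun k => hs0.trans_le (hσs k)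
  obtain ⟨Tk, hTk⟩ : ∃ Tk : ℕ → ℝ, ∀ k, Tk k = x ^ 2 * σ k ^ 2000 := ⟨_, fun _ => rfl⟩
  have hTs : ∀ k, Tk (k + 1) = kG * Tk k := fun k => by
    have e : σ (k + 1) = 2 * σ k := by
      rw [hσ, hσ, pow_succ]
      ring
    rw [hTk, hTk, e, kG_eq]
    exact mul_left_comm _ _ _
  have hxTk : ∀ k, x ^ 2 ≤ Tk k := fun k => by
    rw [hTk]
    exact le_mul_of_one_le_right hx2.le (one_le_pow₀ (by linarith [hσs k]))
  have hbase : ∀ T, x ^ 2 ≤ T → T ≤ 1 / 2 → T ≤ Tk 0 →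
      PT x (2 * x) T F - W x 1 F 0 ≤ 64 * M * s ^ 20 * g := by
    intro T hT0 hT1 hT
    have e : σ 0 = s := by rw [hσ, pow_zero, one_mul]
    rw [hTk, e] at hT
    have h1 := hU.bd hG0 hx hM.le (by linarith) (show x ≤ 2 * x by linarith) hT1 hT0 hT
    refine h1.trans (le_of_eq ?_)
    clear hT hTs hTk hxTk h1
    rw [hg]
    field_simp
    norm_num
  have key : ∀ k : ℕ, ∀ T, x ^ 2 ≤ T → T ≤ 1 / 2 → T ≤ Tk k →
      PT x (2 * x) T F - W x 1 F 0 ≤ 64 * M * s ^ 20 * g + kG * (1 - (1 / 4) ^ k) * g := by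
    intro k
    induction k with
    | zero =>
      intro T hT0 hT1 hT
      refine (hbase T hT0 hT1 hT).trans (le_of_eq ?_)
      rw [pow_zero, sub_self, mul_zero, zero_mul, add_zero]
    | succ k ih =>
      intro T hT0 hT1 hT
      rcases le_total T (Tk k) with hle | hge
      · refine (ih T hT0 hT1 hle).trans (add_le_add le_rfl ?_)
        have h2 : (1 / 4 : ℝ) ^ (k + 1) ≤ (1 / 4) ^ k :=
          pow_le_pow_of_le_one (by norm_num) (by norm_num) (Nat.le_succ k)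
        exact mul_le_mul_of_nonneg_right (mul_le_mul_of_nonneg_left
          (sub_le_sub_left h2 _) hk.le) hg0.le
      · have h1 := ih (Tk k) (hxTk k) (hge.trans hT1) le_rfl
        rw [hTs] at hT
        have h2 := e_step h hc (x := x) (N := N) (M := M) (Λ1 := Λ1) (CL := CL) (s := σ k)
          ⟨hN, hNx, hx, hx1, hM, hCL, hU, hL, hs4.trans (hσs k), hsM.trans (hσs k),
            hsΛ.trans (hσs k), hsC.trans (hσs k)⟩ (hTk k) hge hT1 hT
        rw [← hg] at h2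
        have h5 : kG / (2 * σ k ^ 2) * g ≤ kG * (3 / 4 * (1 / 4) ^ k) * g := by
          refine mul_le_mul_of_nonneg_right ?_ hg0.le
          rw [div_eq_mul_inv]
          refine mul_le_mul_of_nonneg_left ?_ hk.le
          have e : σ k ^ 2 = 4 ^ k * s ^ 2 := by
            rw [hσ, mul_pow, ← pow_mul, mul_comm k 2, pow_mul]
            norm_num
          have e4 : (1 / 4 : ℝ) ^ k = (4 ^ k)⁻¹ := by rw [one_div, inv_pow]
          rw [e, e4, mul_inv, mul_inv]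
          have p4 : (0 : ℝ) < (4 ^ k)⁻¹ := by positivity
          have h6 : (2 : ℝ)⁻¹ * (s ^ 2)⁻¹ ≤ 3 / 4 := by
            have h7 : (s ^ 2)⁻¹ ≤ 1 := inv_le_one_of_one_le₀ (one_le_pow₀ (by linarith))
            linarith
          have h8 := mul_le_mul_of_nonneg_left h6 p4.le
          linarith
        have e3 : kG * (1 - (1 / 4) ^ (k + 1)) * g =
            kG * (1 - (1 / 4) ^ k) * g + kG * (3 / 4 * (1 / 4) ^ k) * g := by
          rw [pow_succ, ← add_mul, ← mul_add]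
          congr 2
          ring
        rw [e3]
        linarith
  -- the last window contains `1`
  obtain ⟨k, hk1⟩ := pow_unbounded_of_one_lt (1 / x ^ 2) (show (1 : ℝ) < 2 by norm_num)
  have h1 : 1 ≤ Tk k := by
    have h2 : (2 : ℝ) ^ k ≤ σ k := by
      rw [hσ]
      exact le_mul_of_one_le_right (by positivity) (by linarith)
    have h3 : σ k ≤ σ k ^ 2000 := le_self_pow₀ (by linarith [hσs k]) (by norm_num)
    have h4 : 1 / x ^ 2 ≤ σ k ^ 2000 := (hk1.le.trans h2).trans h3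
    rw [hTk]
    have h5 := mul_le_mul_of_nonneg_left h4 hx2.le
    rwa [mul_one_div_cancel hx2.ne'] at h5
  have hx12 : x ^ 2 ≤ 1 / 2 := by nlinarith
  have h2 := key k (1 / 2) hx12 le_rfl (by linarith)
  rw [PT_one hx] at hcn
  have hgN : g = N * x ^ 5 := by rw [hg]; ring
  rw [← hgN]
  have h3 : (0 : ℝ) ≤ (1 / 4) ^ k := by positivity
  have h4 : kG * (1 - (1 / 4) ^ k) * g ≤ kG * g := by
    refine mul_le_mul_of_nonneg_right ?_ hg0.le
    exact mul_le_of_le_one_right hk.le (by linarith)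
  have h5 : 2 * (64 * M * s ^ 20 + kG) * g = 2 * (64 * M * s ^ 20 * g + kG * g) := by
    rw [mul_assoc, add_mul]
  rw [h5]
  linarith

/-- **The variance and the exponential functional.** -/
theorem EX_var {M Λ1 CL : ℝ} (hM : 0 < M) (hCL : 0 < CL) : ∃ C : ℝ, 0 < C ∧
    ∀ (κ : Type) [Fintype κ] (F : (κ → ℝ) → ℝ) (D : κ → (κ → ℝ) → ℝ) (B L N x : ℝ),
      C11 F D B L → Cv F → 0 < N → 0 < x → x ≤ 1 / 2 → 1 ≤ N * x ^ 6 →
      UP (N * x ^ 4) x M F → HL N x Λ1 CL F →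
      PT x (2 * x) 1 F - W x 1 F 0 ≤ 2 * (PT x (2 * x) (1 / 2) F - W x 1 F 0) →
      KL F x ≤ C * (N * x ^ 6) ∧
      ∫ z, (F z - ∫ z', F z' ∂(gI κ)) ^ 2 ∂(gI κ) ≤ C * (N * x ^ 4) := by
  obtain ⟨C, hC, hEX⟩ := EX (Λ1 := Λ1) hM hCL
  refine ⟨2 * C, by positivity, fun κ _ F D B L N x h hc hN hx hx1 hNx hU hL hcn => ?_⟩
  have h1 := hEX κ F D B L N x h hc hN hx hx1 hNx hU hL hcn
  have h2 := var_le_KL h hc hx
  have h3 := tangent h hc hx (x' := 2 * x) (by linarith)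
  have e : (2 * x - x) * (KL F x / x ^ 2) = KL F x / x := by
    field_simp
    ring
  rw [e] at h3
  have h4 : KL F x / x ≤ C * (N * x ^ 5) := by linarith
  have h5 : KL F x ≤ C * (N * x ^ 6) := by
    rw [div_le_iff₀ hx] at h4
    refine h4.trans (le_of_eq ?_)
    ring
  have h6 : 0 < N * x ^ 6 := by linarith
  have h7 : 0 < N * x ^ 4 := by positivity
  refine ⟨by nlinarith, ?_⟩
  have h8 : x ^ 2 * ∫ z, (F z - ∫ z', F z' ∂(gI κ)) ^ 2 ∂(gI κ) ≤ x ^ 2 * (2 * C * (N * x ^ 4)) := by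
    refine le_trans ?_ (le_of_eq (show 2 * (C * (N * x ^ 6)) = x ^ 2 * (2 * C * (N * x ^ 4)) by ring))
    refine le_trans ?_ (mul_le_mul_of_nonneg_left h5 two_pos.le)
    linarith
  exact le_of_mul_le_mul_left h8 (by positivity)

end Vale.Agent.P146.U
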