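import Vale.Agent.P146.H713.DeepCS
import Vale.Agent.P146.U.H425_R1Def
import Vale.Agent.P146.U.H645_CS0
import Vale.Agent.P146.U.NS

/-!
The deep functionals of the SK model are position systems: the instance `deepCS` of `CS`.
-/

open MeasureTheory ProbabilityTheory

namespace Vale.Agent.P146.U.R1S

open Vale.Agent.P146.R1S hiding CS deepCS

open Vale.Agent.P157.Lv Vale.Agent.P146.H425 Vale.Agent.P146.H325 Vale.Agent.P146.H332
  Vale.Agent.P146.H712 Vale.Agent.P146.H816 Matrix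
open Vale.Agent.P146.R1 hiding Et Et4 Et4_123 Et4_124 Et4_add Et4_const Et4_const_mul Et4_cs
  Et4_mono Et4_nonneg Et4_sub Et_add Et_const Et_const_mul Et_cs Et_fst_eq Et_jensen Et_mono
  Et_nonneg Et_sub Et_weight Et_zero Eu Eu4 Eu4_123 Eu4_124 Eu4_add Eu4_cond Eu4_const_mul
  Eu4_iter Eu4_mono Eu4_nonneg Eu4_one_eq Eu4_one_eq' Eu4_one_pos Eu4_weight Eu_add Eu_const_mul
  Eu_fst Eu_fst_eq Eu_iter Eu_mono Eu_nonneg Eu_one Eu_one_eq Eu_one_pos Eu_weight Eu_zero
  Eu_zero_one Lth Lth_zero Qt dn dn_pos e3_dn eg_Eu eg_Eu4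
open Vale.Agent.P146.R1C hiding Ca Cd En En_eq Ew Ew_eq Gb Nd P0 P0_sw P1 P1_sw P2 P2_sw P3 P3_sw
  Par Sa Sd dens
open Vale.Agent.P146.U.R1 Vale.Agent.P146.U.R1C

set_option linter.unusedSectionVars false

variable {n : ℕ} {k x : ℝ} {m σ : ℕ → ℝ} {J : ℕ}

/-- **The deep functional of the SK model as a position system.** -/
noncomputable def deepCS (n : ℕ) {k : ℝ} (hk : 0 < k) {m : ℕ → ℝ} (σ : ℕ → ℝ) {J : ℕ} {x : ℝ}
    (hE : Exs m J x) : CS n k x where
  F := FD (lz k SkS) m σ J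
  D := fun e => TD (lz k SkS) m σ (Dz k SkS e) J
  bB := Kb k (SkS (n := n))
  bL := LD (Kb k (SkS (n := n))) (3 * Kb k (SkS (n := n)) ^ 2) (Fintype.card (Pair n)) m J
  A := fun s z i j => pA k SkS m σ J x s (pr i j) z
  DA := fun s e z i j => k * pK k SkS m σ J x s (pr i j) (SkS e) z
  H := fun s b z i j => pK k SkS m σ J x s (pr i b) (pr j b) z
  mu := fun s z τ => pmu k SkS m σ J x s z τ
  T4 := fun s z i j p q => pA k SkS m σ J x s (fun τ => pr i j τ * pr p q τ) z
  k0 := hk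
  y := x
  x0 := hE.x0
  x1 := hE.x1
  y0 := hE.x0
  yx := le_rfl
  c11 := c11_Fdp hE
  cv := cv_Fdp hE
  F_act := fun π z => Fdp_GS (gs_act π) (lz_act k π) hE z
  F_fl := fun b z => Fdp_GS (gs_fl b) (lz_fl k b) hE z
  dd_eq := fun s e z => dd_pA hE e z
  mu0 := fun s z τ => pmu_nonneg hE z τ
  mu1 := fun s z => sum_pmu hE z
  eg_mu := fun s τ => eg_pmu hE s τ
  A_mu := fun s z i j => pA_pmu hE (pr i j) z
  T4_mu := fun s z i j p q => pA_pmu hE (fun τ => pr i j τ * pr p q τ) z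
  fd_A := fun s i j z => (fb_pA hE s (pr i j)).fd z
  eg_DA := fun s e i j => (fb_pA hE s (pr i j)).eg' e
  DA_row := fun {s} _ {b e} he z i => by
    rw [SkS_row he]
  H_comm := fun s b z i j => pK_symm _ _ z
  H_row := fun {s} _ b z i => by
    rw [pr_self b]
    exact pK_one hE _ z
  H_nonneg := fun {s} _ b z v => by
    have h1 := pK_bil (k := k) (S := SkS) (m := m) (σ := σ) (J := J) (t := s) hE Finset.univ
      Finset.univ v v (fun i => pr i b) (fun i => pr i b) z
    have h2 := pK_nonneg (k := k) (S := SkS) (m := m) (σ := σ) (J := J) (t := s) hE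
      (fun τ => ∑ i, v i * pr i b τ) z
    rw [h1] at h2
    refine h2.trans (le_of_eq ?_)
    unfold qf
    exact Finset.sum_congr rfl fun a _ => Finset.sum_congr rfl fun c _ => by ring
  H_le := fun {s} _ b z v => by
    have h1 := pK_bil (k := k) (S := SkS) (m := m) (σ := σ) (J := J) (t := s) hE Finset.univ
      Finset.univ v v (fun i => pr i b) (fun i => pr i b) z
    have h2 := pK_le (k := k) (S := SkS) (m := m) (σ := σ) (J := J) (t := s) hE
      (fun τ => ∑ i, v i * pr i b τ) z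
    have e2 : (fun τ => (∑ i, v i * pr i b τ) * ∑ i, v i * pr i b τ) = fun τ => ∑ i,
        (1 : ℝ) * ∑ j, (v i * v j) * pr i j τ := by
      funext τ
      rw [Finset.sum_mul_sum]
      refine Finset.sum_congr rfl fun i _ => ?_
      rw [one_mul]
      refine Finset.sum_congr rfl fun j _ => ?_
      have h5 : pr i b τ * pr j b τ = pr i j τ := congrFun (pr_mul_pr i j b) τ
      rw [← h5]
      ring
    rw [e2, pA_lin hE Finset.univ (fun _ => (1 : ℝ)) (fun (i : Fin n) τ =>
      ∑ j, (v i * v j) * pr i j τ)] at h2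
    have e3 : ∀ i, pA k SkS m σ J x s (fun τ => ∑ j, (v i * v j) * pr i j τ) z =
        ∑ j, (v i * v j) * pA k SkS m σ J x s (pr i j) z := fun i =>
      pA_lin hE Finset.univ (fun j => v i * v j) (fun j => pr i j) z
    simp only [one_mul, e3] at h2
    rw [h1] at h2
    have h3 : 0 ≤ x * pA k SkS m σ J x s (fun τ => ∑ i, v i * pr i b τ) z ^ 2 :=
      mul_nonneg hE.x0.le (sq_nonneg _)
    have h4 : ∑ i, ∑ j, v i * v j * pK k SkS m σ J x s (pr i b) (pr j b) z ≤
        ∑ i, ∑ j, v i * v j * pA k SkS m σ J x s (pr i j) z := by linarith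
    refine le_trans (le_of_eq ?_) (h4.trans (le_of_eq ?_))
    · unfold qf
      exact Finset.sum_congr rfl fun a _ => Finset.sum_congr rfl fun c _ => by ring
    · unfold qf
      exact Finset.sum_congr rfl fun a _ => Finset.sum_congr rfl fun c _ => by ring
  cont_H := fun s b i j => cont_pK hE s _ _
  kov := fun {s} _ z => kov_dp hE s z
  A_act := fun π s z p q => pA_GS (gs_act π) (lz_act k π) hE (fun u => av_pr_act k π p q u) z
  A_fl_row := fun s {b p} hp z =>
    pA_GS_neg (gs_fl b) (lz_fl k b) hE (fun u => av_fl_row hp u) z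
  A_fl_ne := fun s {b p q} hp hq z =>
    pA_GS (gs_fl b) (lz_fl k b) hE (fun u => av_fl_ne hp hq u) z
  H_fl := fun s {b p q} hp hq z =>
    pK_GS_neg (gs_fl b) (lz_fl k b) hE (fun u => av_fl_row hp u) (fun u => av_fl_row hq u)
      (fun u => by rw [pr_mul_pr]; exact av_fl_ne hp hq u) z

end Vale.Agent.P146.U.R1S
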