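import Vale.Agent.P146.H504.Cum9
import Vale.Agent.P146.U.H504_Cum6
import Vale.Agent.P146.U.H332_CDef
import Vale.Agent.P146.U.H826_LawP
import Vale.Agent.P146.U.H713_DeepCS
import Vale.Agent.P146.U.NS

/-!
Cumulant domination, part 9: the root law of a position system; the deep systems; the fourth
derivative of the value function along a line of a row, averaged over two rows.
-/

open MeasureTheory ProbabilityTheory Matrix

namespace Vale.Agent.P146.U.Cum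

open Vale.Agent.P146.Cum hiding H_ev Root Root.fnu eg_H eg_qP eg_qT fn_deepCS fn_skCS i1 i1z i2
  i2z k2 k2_at m4_lg m4_pg qP qP_nonneg qP_one qP_pqm qT qT_eq qT_nonneg root_deep root_sk row_sq

open Vale.Agent.P157.Lv Vale.Agent.P146.H425 Vale.Agent.P146.H325 Vale.Agent.P146.H712
open Vale.Agent.P146.R1 hiding Et Et4 Et4_123 Et4_124 Et4_add Et4_const Et4_const_mul Et4_cs
  Et4_mono Et4_nonneg Et4_sub Et_add Et_const Et_const_mul Et_cs Et_fst_eq Et_jensen Et_mono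
  Et_nonneg Et_sub Et_weight Et_zero Eu Eu4 Eu4_123 Eu4_124 Eu4_add Eu4_cond Eu4_const_mul
  Eu4_iter Eu4_mono Eu4_nonneg Eu4_one_eq Eu4_one_eq' Eu4_one_pos Eu4_weight Eu_add Eu_const_mul
  Eu_fst Eu_fst_eq Eu_iter Eu_mono Eu_nonneg Eu_one Eu_one_eq Eu_one_pos Eu_weight Eu_zero
  Eu_zero_one Lth Lth_zero Qt dn dn_pos e3_dn eg_Eu eg_Eu4
open Vale.Agent.P146.R1C hiding Av_lf_P0 Av_lf_P1 Av_lf_P2 Av_lf_P23 Av_lf_P23_row Av_lf_P3 Ca Cd
  En En_eq Ew Ew_eq Gb Nd P0 P0_sw P1 P1_sw P2 P2_sw P3 P3_sw Par Sa Sd dens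
open Vale.Agent.P146.R1S hiding CS deepCS skCS skCS_A skCS_D skCS_DA skCS_F skCS_H skCS_T4 sm_skCS
open Vale.Agent.P146.U.R1 Vale.Agent.P146.U.R1C Vale.Agent.P146.U.R1S

open Vale.Agent.P146.H722 (nuv)

set_option linter.unusedSectionVars false

/-! ### the layers below `J` -/

section lay

variable {ι X : Type} [Fintype ι] [DecidableEq ι] [Fintype X] [DecidableEq X]

end lay

variable {n : ℕ} {k x Γ : ℝ}

/-! ### systems with a root law -/

/-- The root law of a position system at the time `1`. -/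
structure Root (S : CS n k x) (μ1 : (Pair n → ℝ) → (Fin n → ℤˣ) → ℝ) (Γ : ℝ) : Prop where
  fn : Fn k SkS S.F μ1 Γ
  mu_eq : ∀ s z σ, S.mu s z σ = H785.Ax x (√(1 - s)) S.F (fun u => μ1 u σ) z

variable {S : CS n k x} {μ1 : (Pair n → ℝ) → (Fin n → ℤˣ) → ℝ}

theorem Root.fnu (h : Root S μ1 Γ) (s : ℝ) : Fn k SkS (R1.uu x s S.F) (S.mu s) (Γ + 2) :=
  (h.fn.uu S.x0 S.x1 s).congr fun z σ => (h.mu_eq s z σ).symm

/-- the SK model -/
theorem root_sk (hk : 0 < k) (hx : 0 < x) (hx1 : x ≤ 1) :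
    Root (skCS n hk hx hx1) (mg k SkS) 2 :=
  ⟨fn_lz k SkS, fun s z σ => skmu_eq s z σ⟩

/-- **the deep systems** -/
theorem root_deep (hk : 0 < k) {m : ℕ → ℝ} (σ : ℕ → ℝ) {J : ℕ} (hE : Exs m J x) :
    Root (deepCS n hk σ hE) (fun u τ => TD (H332.lz k SkS) m σ (fun u => mg k SkS u τ) J u)
      (2 + 2 * J) :=
  ⟨(fn_lz k SkS).FDl J (hE.pos' le_rfl) hE.le, fun _ _ _ => rfl⟩

/-- **hFn for the deep systems.** -/
theorem fn_deepCS (hk : 0 < k) {m : ℕ → ℝ} (σ : ℕ → ℝ) {J : ℕ} (hE : Exs m J x) (s : ℝ) :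
    Fn k SkS (R1.uu x s (deepCS n hk σ hE).F) ((deepCS n hk σ hE).mu s) (4 + 2 * J) := by
  have h1 := (root_deep (n := n) hk σ hE).fnu s
  have h2 : (2 : ℝ) + 2 * J + 2 = 4 + 2 * J := by ring
  rw [h2] at h1
  exact h1

/-! ### lines in a row -/

/-- the fourth derivative of the value function against the one of the functional -/
theorem k2_at (h : Root S μ1 Γ) {b : Fin n} {v : Fin n → ℝ} (hb : v b = 0) (s : ℝ)
    (z : Pair n → ℝ) :
    |iteratedDeriv 4 (fun t : ℝ => uu x s S.F (z + t • nuv b v)) 0 -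
      H785.Ax x (√(1 - s)) S.F
        (fun y => iteratedDeriv 4 (fun t : ℝ => S.F (y + t • nuv b v)) 0) z| ≤
      (22 * Γ ^ 2 + 60 * Γ + 48) * x * k ^ 4 * ∑ σ, S.mu s z σ * lin v σ ^ 4 := by
  have h1 := r1_step h.fn S.x0 S.x1 (√(1 - s)) (nuv b v) z
  have h2 : ∑ σ, mw x (√(1 - s)) S.F μ1 z σ * (∑ e, nuv b v e * SkS e σ) ^ 4 =
      ∑ σ, S.mu s z σ * lin v σ ^ 4 :=
    Finset.sum_congr rfl fun σ _ => by rw [fw_nuv_four hb, h.mu_eq]; rfl
  rw [h2] at h1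
  exact h1

/-- **(K2)** -/
theorem k2 (h : Root S μ1 Γ) {b : Fin n} {v : Fin n → ℝ} (hb : v b = 0) (s t : ℝ)
    (R : Finset (Pair n)) (lam : ℝ) (z : Pair n → ℝ) :
    |AvP t R (fun u => iteratedDeriv 4 (fun r : ℝ => uu x s S.F (u + r • nuv b v)) 0) z -
      AvP t R (H785.Ax x (√(1 - s)) S.F
        (fun y => iteratedDeriv 4 (fun r : ℝ => S.F (y + r • nuv b v)) 0)) z| ≤
      (22 * Γ ^ 2 + 60 * Γ + 48) * x * k ^ 4 * (2 * lam ^ 2 +
        2 * AvP t R (fun u => ∑ σ, S.mu s u σ * (lin v σ ^ 2 - lam) ^ 2) z) := by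
  have hΓ := h.fn.Γ0
  have hx := S.x0.le
  have g1 : EG fun u => iteratedDeriv 4 (fun r : ℝ => uu x s S.F (u + r • nuv b v)) 0 :=
    (h.fnu s).eg_it4 (nuv b v)
  have g2 := h.fn.eg_Ax_it4 x (√(1 - s)) (nuv b v)
  have g3 : EG fun u => ∑ σ, S.mu s u σ * (lin v σ ^ 2 - lam) ^ 2 :=
    EG.sum _ fun σ _ => (S.eg_mu s σ).mul (EG.const _)
  set K : ℝ := (22 * Γ ^ 2 + 60 * Γ + 48) * x * k ^ 4 with hK
  have hK0 : 0 ≤ K := by positivity
  have g4 : EG fun u => K * (2 * lam ^ 2 + 2 * ∑ σ, S.mu s u σ * (lin v σ ^ 2 - lam) ^ 2) :=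
    ((EG.const _).add (g3.const_mul 2)).const_mul K
  have h2 : ∀ u, |iteratedDeriv 4 (fun r : ℝ => uu x s S.F (u + r • nuv b v)) 0 -
      H785.Ax x (√(1 - s)) S.F
        (fun y => iteratedDeriv 4 (fun r : ℝ => S.F (y + r • nuv b v)) 0) u| ≤
      K * (2 * lam ^ 2 + 2 * ∑ σ, S.mu s u σ * (lin v σ ^ 2 - lam) ^ 2) := fun u =>
    (k2_at h hb s u).trans (mul_le_mul_of_nonneg_left
      (four_le (S.mu0 s u) (S.mu1 s u) lam) hK0)
  have e1 : AvP t R (fun u => K * (2 * lam ^ 2 + 2 * ∑ σ, S.mu s u σ *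
      (lin v σ ^ 2 - lam) ^ 2)) z = K * (2 * lam ^ 2 +
        2 * AvP t R (fun u => ∑ σ, S.mu s u σ * (lin v σ ^ 2 - lam) ^ 2) z) := by
    rw [AvP_const_mul, AvP_add (EG.const _) (g3.const_mul 2), AvP_const, AvP_const_mul]
  rw [← AvP_sub g1 g2, ← e1, abs_le]
  have h3 := AvP_mono (s := t) (R := R) (g1.sub g2) g4 (fun u => (abs_le.1 (h2 u)).2) z
  have h4 := AvP_mono (s := t) (R := R) (g4.const_mul (-1)) (g1.sub g2)
    (fun u => by have := (abs_le.1 (h2 u)).1; linarith) z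
  rw [AvP_const_mul] at h4
  constructor
  · linarith
  · exact h3

end Vale.Agent.P146.U.Cum
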