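import Vale.Agent.P146.H722.Jet3
import Vale.Agent.P146.U.H722_Jet2
import Vale.Agent.P146.U.NS

/-!
**(J2)**: the third Stein coefficient of the clean column from an upper bound of the fourth
derivative of the value function averaged over the own row, in any scaling of the direction.
-/

open MeasureTheory ProbabilityTheory

namespace Vale.Agent.P146.U.H722

open Vale.Agent.P146.H722 hiding A1S A3S AS AS_eq AS_jet J1 J1' J1s J2 cvS cvS_eq eg_AS eg_J4
  eg_cvS uS va_S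

open Vale.Agent.P157.Lv Vale.Agent.P146.H425 Vale.Agent.P146.H332 Vale.Agent.P146.H325
  Vale.Agent.P146.H712 Vale.Agent.P146.Cum
open Vale.Agent.P146.R1C hiding Av_lf_P0 Av_lf_P1 Av_lf_P2 Av_lf_P23 Av_lf_P23_row Av_lf_P3 Ca Cd
  En En_eq Ew Ew_eq Gb Nd P0 P0_sw P1 P1_sw P2 P2_sw P3 P3_sw Par Sa Sd dens
open Vale.Agent.P146.U.R1C

open Vale.Agent.P146.R1 (uu)

set_option linter.unusedSectionVars false

variable {n : ℕ} {b b' : Fin n} {v : Fin n → ℝ} {s : ℝ}

variable {k x : ℝ} {S : R1S.CS n k x}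

/-- **(J1)** in any scaling of the direction, the row of `b` averaged inside. -/
theorem J1s {Γ : ℝ} (hF : Fn k SkS (uu x s S.F) (S.mu s) Γ) (hv : ∑ i, v i ^ 2 = 1)
    (hb : v b = 0) (hb' : v b' = 0) (hbb : b ≠ b') (hs : 0 < s) (a : ℝ) (z : Pair n → ℝ) :
    AvP s (row b') (fun z => iteratedDeriv 2 (fun h : ℝ =>
        ∫ y : Fin n → ℝ, uu x s S.F (put b (√s • y + h • a • v) z) ∂(gI (Fin n))) 0) z =
        a ^ 2 * k / √s * A1S S s b b' v z ∧
      AvP s (row b') (fun z => iteratedDeriv 4 (fun h : ℝ =>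
        ∫ y : Fin n → ℝ, uu x s S.F (put b (√s • y + h • a • v) z) ∂(gI (Fin n))) 0) z =
        a ^ 4 * k / √s ^ 3 * A3S S s b b' v z := by
  obtain ⟨f1, f2, f3, f4, D1, D2, D3, hj, h1⟩ := fn_jet hF (nuv b v)
  have hk := S.k0.ne'
  have hs' : √s ≠ 0 := (Real.sqrt_pos.2 hs).ne'
  obtain ⟨h2, h3⟩ := AS_jet hv hb hb' hbb hs hj h1 z
  have bd : ∀ (c : ℝ) {f : (Pair n → ℝ) → ℝ}, (∃ C, ∀ z, |f z| ≤ C) →
      ∃ C, ∀ z, |c * f z| ≤ C := by
    rintro c f ⟨C, hC⟩
    exact ⟨|c| * C, fun z => by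
      rw [abs_mul]
      exact mul_le_mul_of_nonneg_left (hC z) (abs_nonneg _)⟩
  have l1 : LnD (a • nuv b v) (uu x s S.F) fun z => (a * k) * f1 z :=
    (hj.l0.scale a).congr fun z => by ring
  have l2 : LnD (a • nuv b v) (fun z => (a * k) * f1 z) fun z => (a * k) ^ 2 * f2 z :=
    ((hj.l1.scale a).const_mul (a * k)).congr fun z => by ring
  have l3 : LnD (a • nuv b v) (fun z => (a * k) ^ 2 * f2 z) fun z => (a * k) ^ 3 * f3 z :=
    ((hj.l2.scale a).const_mul ((a * k) ^ 2)).congr fun z => by ring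
  have l4 : LnD (a • nuv b v) (fun z => (a * k) ^ 3 * f3 z) fun z => (a * k) ^ 4 * f4 z :=
    ((hj.l3.scale a).const_mul ((a * k) ^ 3)).congr fun z => by ring
  have key : ∀ z, _ ∧ _ := fun z => it_AvP (s := s) (R := row b) l1 l2 l3 l4 hj.g0
    (hj.g1.const_mul _) (hj.g2.const_mul _) (hj.g3.const_mul _) (hj.g4.const_mul _)
    (bd _ hj.b1) (bd _ hj.b2) (bd _ hj.b3) (bd _ hj.b4) z
  have e0 : ∀ z, (fun h : ℝ => ∫ y : Fin n → ℝ, uu x s S.F (put b (√s • y + h • a • v) z)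
      ∂(gI (Fin n))) = fun h => AvP s (row b) (fun z => uu x s S.F (z + h • a • nuv b v)) z := by
    intro z
    funext h
    rw [AvP_row (EG.shift hj.g0 (h • a • nuv b v))]
    simp only [smul_smul, put_add]
  simp only [e0, fun z => (key z).1, fun z => (key z).2, AvP_const_mul]
  rw [h2, h3, AvP_AvP hj.g2, AvP_AvP hj.g4, Finset.union_comm]
  constructor
  · field_simp
  · field_simp

/-- the fourth derivative of the average over the own row, any scaling, is of exponential growth -/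
theorem eg_J4 {Γ : ℝ} (hF : Fn k SkS (uu x s S.F) (S.mu s) Γ) (b : Fin n) (v : Fin n → ℝ)
    (a : ℝ) : EG fun z => iteratedDeriv 4 (fun h : ℝ =>
        ∫ y : Fin n → ℝ, uu x s S.F (put b (√s • y + h • a • v) z) ∂(gI (Fin n))) 0 := by
  obtain ⟨f1, f2, f3, f4, D1, D2, D3, hj, h1⟩ := fn_jet hF (nuv b v)
  have bd : ∀ (c : ℝ) {f : (Pair n → ℝ) → ℝ}, (∃ C, ∀ z, |f z| ≤ C) →
      ∃ C, ∀ z, |c * f z| ≤ C := by
    rintro c f ⟨C, hC⟩
    exact ⟨|c| * C, fun z => by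
      rw [abs_mul]
      exact mul_le_mul_of_nonneg_left (hC z) (abs_nonneg _)⟩
  have l1 : LnD (a • nuv b v) (uu x s S.F) fun z => (a * k) * f1 z :=
    (hj.l0.scale a).congr fun z => by ring
  have l2 : LnD (a • nuv b v) (fun z => (a * k) * f1 z) fun z => (a * k) ^ 2 * f2 z :=
    ((hj.l1.scale a).const_mul (a * k)).congr fun z => by ring
  have l3 : LnD (a • nuv b v) (fun z => (a * k) ^ 2 * f2 z) fun z => (a * k) ^ 3 * f3 z :=
    ((hj.l2.scale a).const_mul ((a * k) ^ 2)).congr fun z => by ring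
  have l4 : LnD (a • nuv b v) (fun z => (a * k) ^ 3 * f3 z) fun z => (a * k) ^ 4 * f4 z :=
    ((hj.l3.scale a).const_mul ((a * k) ^ 3)).congr fun z => by ring
  have key : ∀ z, _ ∧ _ := fun z => it_AvP (s := s) (R := row b) l1 l2 l3 l4 hj.g0
    (hj.g1.const_mul _) (hj.g2.const_mul _) (hj.g3.const_mul _) (hj.g4.const_mul _)
    (bd _ hj.b1) (bd _ hj.b2) (bd _ hj.b3) (bd _ hj.b4) z
  have e0 : ∀ z, (fun h : ℝ => ∫ y : Fin n → ℝ, uu x s S.F (put b (√s • y + h • a • v) z)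
      ∂(gI (Fin n))) = fun h => AvP s (row b) (fun z => uu x s S.F (z + h • a • nuv b v)) z := by
    intro z
    funext h
    rw [AvP_row (EG.shift hj.g0 (h • a • nuv b v))]
    simp only [smul_smul, put_add]
  simp only [e0, fun z => (key z).2]
  exact eg_AvP (hj.g4.const_mul _) s _

/-- **(J2)**: with `w = v / √lam` and the step `h / k`. -/
theorem J2 {Γ lam c : ℝ} (hF : Fn k SkS (uu x s S.F) (S.mu s) Γ) (hv : ∑ i, v i ^ 2 = 1)
    (hb : v b = 0) (hb' : v b' = 0) (hbb : b ≠ b') (hs : 0 < s) (hl : 0 < lam)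
    {w : Fin n → ℝ} (hw : w = (√lam)⁻¹ • v) {er : (Pair n → ℝ) → ℝ} (he : EG er)
    (h4 : ∀ z, iteratedDeriv 4 (fun h : ℝ =>
      ∫ y : Fin n → ℝ, uu x s S.F (put b (√s • y + (h / k) • w) z) ∂(gI (Fin n))) 0 ≤
        -c + er z) (z : Pair n → ℝ) :
    (c - AvP s (row b') er z) * ((√s * k) ^ 3 * lam ^ 2) ≤ -A3S S s b b' v z := by
  have hk := S.k0
  have hs' : 0 < √s := Real.sqrt_pos.2 hs
  have hl' : 0 < √lam := Real.sqrt_pos.2 hl
  set a : ℝ := (k * √lam)⁻¹ with ha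
  have e1 : ∀ h : ℝ, (h / k) • w = h • a • v := by
    intro h
    rw [hw, smul_smul, smul_smul, ha]
    congr 1
    field_simp
  simp only [e1] at h4
  have h1 := (J1s hF hv hb hb' hbb hs a z).2
  have h2 := AvP_mono (s := s) (R := row b') (eg_J4 hF b v a) ((EG.const (-c)).add he) h4 z
  rw [AvP_add (EG.const (-c)) he, AvP_const, h1] at h2
  have h3 : a ^ 4 * k / √s ^ 3 = ((√s * k) ^ 3 * lam ^ 2)⁻¹ := by
    have e2 : √lam ^ 4 = lam ^ 2 := by
      have := Real.sq_sqrt hl.le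
      calc √lam ^ 4 = (√lam ^ 2) ^ 2 := by ring
        _ = lam ^ 2 := by rw [this]
    rw [ha, inv_pow, mul_pow k, e2]
    field_simp
  have hp : 0 < (√s * k) ^ 3 * lam ^ 2 := by positivity
  rw [h3, inv_mul_le_iff₀ hp] at h2
  linarith

end Vale.Agent.P146.U.H722
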