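import Vale.Agent.P146.H95.KapD
import Vale.Agent.P146.U.H191_KapK
import Vale.Agent.P146.U.H722_Jet3
import Vale.Agent.P146.U.NS

/-!
Plan R1, row (K) at a fixed bulk, for systems whose third coefficient is bounded by the variance of
the projection of the spins on the top direction and an additional functional of the bulk.
-/

open MeasureTheory ProbabilityTheory Matrix

namespace Vale.Agent.P146.U.H95

open Vale.Agent.P146.H95 hiding T3B Vbr kapG_T3B t3_eq vbr_le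

open Vale.Agent.P157.Lv Vale.Agent.P146.H425 Vale.Agent.P146.H325 Vale.Agent.P146.H332
  Vale.Agent.P146.H522 Vale.Agent.P146.H633
open Vale.Agent.P146.H712 hiding En_sub En_sum LLow LUp bt3 eg_P0 eg_P1 eg_P2 eg_P3 int_dens k0 k1
  k2 k3 llow lup pd_P0 pd_P1 pd_P2 pd_P3 sum_k0 sum_k1 sum_k2 sum_k3
open Vale.Agent.P146.R1 hiding Et Et4 Et4_123 Et4_124 Et4_add Et4_const Et4_const_mul Et4_cs
  Et4_mono Et4_nonneg Et4_sub Et_add Et_const Et_const_mul Et_cs Et_fst_eq Et_jensen Et_mono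
  Et_nonneg Et_sub Et_weight Et_zero Eu Eu4 Eu4_123 Eu4_124 Eu4_add Eu4_cond Eu4_const_mul
  Eu4_iter Eu4_mono Eu4_nonneg Eu4_one_eq Eu4_one_eq' Eu4_one_pos Eu4_weight Eu_add Eu_const_mul
  Eu_fst Eu_fst_eq Eu_iter Eu_mono Eu_nonneg Eu_one Eu_one_eq Eu_one_pos Eu_weight Eu_zero
  Eu_zero_one Lth Lth_zero Qt dn dn_pos e3_dn eg_Eu eg_Eu4
open Vale.Agent.P146.R1C hiding Av_aa Av_ad Av_dd Av_lf_P0 Av_lf_P1 Av_lf_P2 Av_lf_P23
  Av_lf_P23_row Av_lf_P3 Ca Cd En En_add En_const En_const_mul En_eq En_mono En_nonneg En_pow_le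
  Ew Ew1_pos Ew_add Ew_const_mul Ew_eq Ew_mono Ew_nonneg Ew_one_pos Fo Gb Nd Nd_row P0 P0_lp P0_sw
  P1 P1_lp P1_sw P2 P2_lp P2_sw P3 P3_lp P3_sw Par Sa Sa_row Sd Sd_row den_pos dens dens_eq eg_den
  eg_dens eg_psi' fb_row fb_sk kk_NN lam_le law_low law_up lf_psi lip_psi pd_psi psi psi'
  psi_four_le psi_sq_le
open Vale.Agent.P146.R1S hiding Bv CBq CS Ca Cd DlA FA FA_nonneg Gb Gb_eq KA KA_le_ThA KA_nonneg
  KV KV_le KV_nonneg MM MM_psd MM_row Nd Nd_eq Nd_row QA QA_nonneg Sa Sa_eq Sa_row Sd Sd_eq Sd_row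
  T4_avg_le T4_rep_le ThA ThA_nonneg Xb_eq Yb_eq abs_cl bh bh1 blk_a blk_d bq4_T4 cl cl0 cl_act
  cl_odd cl_other cl_self clz_S ee ee_row eg_Ca eg_Cd eg_FA eg_KA eg_KV eg_QA eg_ThA eg_cl eg_cl0
  exists_Bv fb_cs fr_CBq_le fr_MM_le ind_Ca ind_Cd ind_cl ind_cl2 ind_cl3 lamq lamq_nonneg psd_CB
  rowIn_S skCS skCS_A skCS_D skCS_DA skCS_F skCS_H skCS_T4 sm_skCS tA_T tA_abs tA_comm tA_cont
  tA_eg tA_self two_cs
open Vale.Agent.P146.Cum hiding H_ev eg_H eg_qP eg_qT fn_skCS i1 i1z i2 i2z m4_lg m4_pg qP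
  qP_nonneg qP_one qP_pqm qT qT_eq qT_nonneg row_sq
open Vale.Agent.P146.H816 hiding Gb_eq Nd_eq P0_act P1_act P2_act P3_act Sa_eq Sd_eq Xb_eq Yb_eq
  blk_a blk_d eg_Ca eg_Cd ind_Ca ind_Cd ind_cl2 ind_cl3 two_sk
open Vale.Agent.P146.H191 hiding CB_comm CB_off CB_off' CB_one DlA_eq DlA_nonneg FA_DlA_le FA_eq
  FA_le KA_le KapG QA_le ee_nonneg f0_ee fr_CB kapG_sk kapG_t3 kap_bulk_S lamq_sum mh_bq mv_eq
  mv_nonneg ne0_le ne1_le vbar_le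
open Vale.Agent.P146.U.H712 Vale.Agent.P146.U.R1 Vale.Agent.P146.U.R1C Vale.Agent.P146.U.R1S
  Vale.Agent.P146.U.Cum Vale.Agent.P146.U.H816 Vale.Agent.P146.U.H191

set_option linter.unusedSectionVars false

variable {n : ℕ} {k x : ℝ} {S : CS n k x} {s : ℝ} {b b' : Fin n} {z : Pair n → ℝ}
  {v : Fin n → ℝ}

/-- the variance of the square of the projection of the spins on `v`, averaged over two rows -/
noncomputable def Vbr (S : CS n k x) (s : ℝ) (b b' : Fin n) (v : Fin n → ℝ) (lam : ℝ)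
    (z : Pair n → ℝ) : ℝ :=
  AvP s (row b ∪ row b') (fun z' => ∑ σ, S.mu s z' σ * ((∑ i, v i * sp σ i) ^ 2 - lam) ^ 2) z

lemma vbr_le (h : Bv S s b b' z v) : Vbr S s b b' v (lamq S s b b' z v) z ≤
    √(KA S s b b' z) + DlA S s b b' z := H191.vbar_le h

lemma t3_eq (z : Pair n → ℝ) : t3 v (fa (S.A s) s b b' z) = H722.A3S S s b b' v z := rfl

/-- **The bound of the third coefficient** on a bulk, every bulk and every direction `v` not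
charging the two sites: `N lam` numbers, `Xf` an additional functional. -/
def T3B {n : ℕ} {k x : ℝ} (S : CS n k x) (s c0 C8 : ℝ) (N : ℝ → ℝ)
    (Xf : Fin n → Fin n → (Pair n → ℝ) → ℝ) : Prop :=
  ∀ (b b' : Fin n) (z : Pair n → ℝ) (v : Fin n → ℝ) (lam : ℝ), b ≠ b' → ∑ i, v i ^ 2 = 1 →
    v b = 0 → v b' = 0 → 0 < lam → lam ≤ n →
    H722.A3S S s b b' v z ≤ (√s * k) ^ 3 * (-(c0 * lam ^ 2) + C8 * (Vbr S s b b' v lam z +
      lam ^ 2 * (N lam + Xf b b' z)))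

/-- **(K) on the good bulks from the bound of the third coefficient.** -/
theorem kapG_T3B {β c0 C8 Γ : ℝ} (hβ : 0 < β) (hc0 : 0 < c0) (hC8 : 0 ≤ C8) : ∃ τ κ : ℝ,
    0 < τ ∧ τ ≤ 1 / 40 ∧ 0 < κ ∧ ∀ {n : ℕ} {k x : ℝ} {S : CS n k x} {s L : ℝ} {N : ℝ → ℝ}
      {X : Fin n → Fin n → (Pair n → ℝ) → ℝ}, (1 : ℝ) ≤ n → k ^ 2 * n = β ^ 2 → 1 / 2 ≤ s →
      s ≤ 1 → Fn k SkS (uu x s S.F) (S.mu s) Γ → T3B S s c0 C8 N X →
      (∀ lam : ℝ, 0 < lam → lam ≤ n → L ≤ 2 * lam ^ 2 → N lam ≤ τ) → KapG S s τ κ L X := by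
  -- `ε` with `3 C8 ε ≤ c0 / 2`
  obtain ⟨ε, hε0, hε1, hε⟩ : ∃ ε : ℝ, 0 < ε ∧ ε ≤ 1 / 40 ∧ C8 * (3 * ε) ≤ c0 / 2 := by
    refine ⟨min (1 / 40) (c0 / (6 * (C8 + 1))), lt_min (by norm_num) (by positivity),
      min_le_left _ _, ?_⟩
    have h1 : min (1 / 40) (c0 / (6 * (C8 + 1))) ≤ c0 / (6 * (C8 + 1)) := min_le_right _ _
    calc C8 * (3 * min (1 / 40) (c0 / (6 * (C8 + 1)))) ≤
        (C8 + 1) * (3 * (c0 / (6 * (C8 + 1)))) := by
          have h2 : 0 ≤ min (1 / 40) (c0 / (6 * (C8 + 1))) := le_min (by norm_num) (by positivity)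
          gcongr
          linarith
      _ = c0 / 2 := by field_simp; ring
  obtain ⟨τ, κ, hτ0, hτ1, hκ, hmain⟩ := kapG_t3 (β := β) (c := c0 / 2) (Γ := Γ) (ε := ε) hβ
    (by positivity) hε0 hε1
  refine ⟨τ, κ, hτ0, hτ1.trans hε1, hκ, ?_⟩
  intro n k x S s L N X hn hkn hs0 hs1 hFn hT hN
  refine hmain hn hkn hs0 hs1 hFn fun b b' z v hb hv _ hL _ _ hX hl0 hln hFl hV => ?_
  rw [t3_eq]
  have h1 := hT b b' z v _ hb hv.v1 hv.vb hv.vb' hl0 hln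
  have h2 := (vbr_le hv).trans hV
  have h3 := hN _ hl0 hln (hL.trans hFl)
  set lam := lamq S s b b' z v with hlam
  have hl2 : 0 ≤ lam ^ 2 := by positivity
  have hk := S.k0
  have hp : 0 ≤ (√s * k) ^ 3 := by positivity
  have h4 : C8 * (Vbr S s b b' v lam z + lam ^ 2 * (N lam + X b b' z)) ≤
      C8 * (3 * ε) * lam ^ 2 := by
    have h5 : Vbr S s b b' v lam z + lam ^ 2 * (N lam + X b b' z) ≤ 3 * ε * lam ^ 2 := by
      have h6 : lam ^ 2 * (N lam + X b b' z) ≤ lam ^ 2 * (2 * ε) :=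
        mul_le_mul_of_nonneg_left (by linarith) hl2
      linarith
    calc _ ≤ C8 * (3 * ε * lam ^ 2) := mul_le_mul_of_nonneg_left h5 hC8
      _ = _ := by ring
  have h7 : -(c0 * lam ^ 2) + C8 * (Vbr S s b b' v lam z + lam ^ 2 * (N lam + X b b' z)) ≤
      -(c0 / 2 * lam ^ 2) := by
    have h8 : C8 * (3 * ε) * lam ^ 2 ≤ c0 / 2 * lam ^ 2 := mul_le_mul_of_nonneg_right hε hl2
    linarith
  have h9 := mul_le_mul_of_nonneg_left h7 hp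
  calc c0 / 2 * ((√s * k) ^ 3 * lam ^ 2) = -((√s * k) ^ 3 * -(c0 / 2 * lam ^ 2)) := by ring
    _ ≤ -H722.A3S S s b b' v z := by linarith

end Vale.Agent.P146.U.H95
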