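import Mathlib

/-!
Selection on the K-side (row 1639 (B)), pure reals. `E b T = P_T(b) - P_0`, weight
`H b T = n x^5 (b/x)^p (T/x²)^c0`, domain `b ≥ a_*(T) = x max (1, (T/x²)^(-c0/p))`. A near
maximiser of `E / H` is regular: the share at `(4a, T)`, at `(Na, KT)` and at `(a, T/L)` is
comparable with the share at `(a, T)`, with the power `K^c0` of `K`.
-/

namespace Vale.Agent.P146.U.SelK

/-- the weight -/
noncomputable def H (n x : ℝ) (p : ℕ) (c0 b T : ℝ) : ℝ := n * x ^ 5 * (b / x) ^ p * (T / x ^ 2) ^ c0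

/-- the domain -/
def Om (x : ℝ) (p : ℕ) (c0 Tm b T : ℝ) : Prop :=
  0 < T ∧ T ≤ Tm ∧ x ≤ b ∧ x ≤ b * (T / x ^ 2) ^ (c0 / p)

variable {n x c0 Tm a b T M K N : ℝ} {p : ℕ} {E : ℝ → ℝ → ℝ}

lemma H_pos (hn : 0 < n) (hx : 0 < x) (hb : 0 < b) (hT : 0 < T) : 0 < H n x p c0 b T := by
  unfold H
  positivity

/-- scaling -/
lemma H_scale (hx : 0 < x) (ha : 0 < a) (hT : 0 < T) (hN : 0 < N) (hK : 0 < K) :
    H n x p c0 (N * a) (K * T) = N ^ p * K ^ c0 * H n x p c0 a T := by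
  unfold H
  rw [mul_div_assoc N a x, mul_pow, mul_div_assoc K T, Real.mul_rpow hK.le (by positivity)]
  ring

/-- the domain is stable -/
lemma Om.scale (h : Om x p c0 Tm a T) (hx : 0 < x) (hc : 0 ≤ c0) (hN : 1 ≤ N) (hK : 1 ≤ K)
    (hKT : K * T ≤ Tm) : Om x p c0 Tm (N * a) (K * T) := by
  obtain ⟨h1, h2, h3, h4⟩ := h
  have ha : 0 < a := hx.trans_le h3
  have hT : 0 < T / x ^ 2 := by positivity
  refine ⟨by positivity, hKT, h3.trans (le_mul_of_one_le_left ha.le hN), h4.trans ?_⟩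
  rw [mul_div_assoc K T, Real.mul_rpow (by linarith) hT.le]
  have h5 : 1 ≤ K ^ (c0 / p) := Real.one_le_rpow hK (by positivity)
  have h6 : 0 < (T / x ^ 2) ^ (c0 / p) := Real.rpow_pos_of_pos hT _
  calc a * (T / x ^ 2) ^ (c0 / p) = 1 * 1 * (a * (T / x ^ 2) ^ (c0 / p)) := by ring
    _ ≤ N * K ^ (c0 / p) * (a * (T / x ^ 2) ^ (c0 / p)) := by gcongr
    _ = _ := by ring

/-- the domain at `(4 a, T / L)`, `L = 4^(p/c0)` -/
lemma Om.down (h : Om x p c0 Tm a T) (hx : 0 < x) (hc : 0 < c0) (hp : 0 < p) :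
    Om x p c0 Tm (4 * a) (T / (4 : ℝ) ^ ((p : ℝ) / c0)) := by
  obtain ⟨h1, h2, h3, h4⟩ := h
  have ha : 0 < a := hx.trans_le h3
  have hp0 : (0 : ℝ) < p := by exact_mod_cast hp
  have hT : 0 < T / x ^ 2 := by positivity
  have hL : 1 ≤ (4 : ℝ) ^ ((p : ℝ) / c0) := Real.one_le_rpow (by norm_num) (by positivity)
  have hL0 : 0 < (4 : ℝ) ^ ((p : ℝ) / c0) := by linarith
  refine ⟨by positivity, (div_le_self h1.le hL).trans h2, by linarith, h4.trans (le_of_eq ?_)⟩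
  have e1 : T / (4 : ℝ) ^ ((p : ℝ) / c0) / x ^ 2 = T / x ^ 2 / (4 : ℝ) ^ ((p : ℝ) / c0) := by
    field_simp
  rw [e1, Real.div_rpow hT.le hL0.le, ← Real.rpow_mul (by norm_num)]
  have e2 : (p : ℝ) / c0 * (c0 / p) = 1 := by field_simp
  rw [e2, Real.rpow_one]
  ring

/-- **Selection.** -/
theorem sel (hn : 0 < n) (hx : 0 < x) {M₁ : ℝ} (hM₁ : 0 < M₁)
    (hfin : ∃ B, ∀ b T, Om x p c0 Tm b T → E b T ≤ B * H n x p c0 b T) :
    (∀ b T, Om x p c0 Tm b T → E b T ≤ M₁ * H n x p c0 b T) ∨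
      ∃ a T M, Om x p c0 Tm a T ∧ M₁ < M ∧ M / 2 * H n x p c0 a T ≤ E a T ∧
        ∀ b T', Om x p c0 Tm b T' → E b T' ≤ M * H n x p c0 b T' := by
  by_contra hcon
  push Not at hcon
  obtain ⟨⟨b0, T0, h0, h0'⟩, hno⟩ := hcon
  obtain ⟨B, hB⟩ := hfin
  set S : Set ℝ := {r | ∃ b T, Om x p c0 Tm b T ∧ r = E b T / H n x p c0 b T} with hS
  have hpos : ∀ {b T}, Om x p c0 Tm b T → 0 < H n x p c0 b T := fun h =>
    H_pos hn hx (hx.trans_le h.2.2.1) h.1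
  have hbd : BddAbove S := by
    refine ⟨B, ?_⟩
    rintro r ⟨b, T, h, rfl⟩
    rw [div_le_iff₀ (hpos h)]
    exact hB b T h
  have hmem : E b0 T0 / H n x p c0 b0 T0 ∈ S := ⟨b0, T0, h0, rfl⟩
  set M := sSup S with hM
  have hM1 : M₁ < M := by
    refine lt_of_lt_of_le ?_ (le_csSup hbd hmem)
    rwa [lt_div_iff₀ (hpos h0)]
  have hM0 : 0 < M := hM₁.trans hM1
  obtain ⟨r, ⟨a, T, h, rfl⟩, hr⟩ := exists_lt_of_lt_csSup ⟨_, hmem⟩
    (show M / 2 < sSup S by rw [← hM]; linarith)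
  obtain ⟨b, T', h1, h2⟩ := hno a T M h hM1 (by
    rw [lt_div_iff₀ (hpos h)] at hr
    exact hr.le)
  have h3 : E b T' / H n x p c0 b T' ≤ M := le_csSup hbd ⟨b, T', h1, rfl⟩
  rw [div_le_iff₀ (hpos h1)] at h3
  linarith

/-- **A near maximiser is regular above.** -/
theorem near_up (hn : 0 < n) (hx : 0 < x) (hc : 0 ≤ c0) (ha : Om x p c0 Tm a T)
    (hM : M / 2 * H n x p c0 a T ≤ E a T) (hM0 : 0 < M)
    (hall : ∀ b T', Om x p c0 Tm b T' → E b T' ≤ M * H n x p c0 b T') (hN : 1 ≤ N) (hK : 1 ≤ K)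
    (hKT : K * T ≤ Tm) : E (N * a) (K * T) ≤ 2 * N ^ p * K ^ c0 * E a T := by
  have h1 := hall _ _ (ha.scale hx hc hN hK hKT)
  rw [H_scale hx (hx.trans_le ha.2.2.1) ha.1 (by linarith) (by linarith)] at h1
  have h2 : 0 ≤ N ^ p * K ^ c0 := by positivity
  have h3 := mul_le_mul_of_nonneg_left hM (by positivity : 0 ≤ 2 * (N ^ p * K ^ c0))
  calc E (N * a) (K * T) ≤ M * (N ^ p * K ^ c0 * H n x p c0 a T) := h1
    _ = 2 * (N ^ p * K ^ c0) * (M / 2 * H n x p c0 a T) := by ring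
    _ ≤ 2 * (N ^ p * K ^ c0) * E a T := h3
    _ = _ := by ring

/-- **A near maximiser is regular below.** -/
theorem near_down (hn : 0 < n) (hx : 0 < x) (hc : 0 < c0) (hp : 0 < p)
    (hconv : ∀ b T, x ≤ b → 0 < T → T ≤ Tm → E b T ≤ 1 / 4 * E (4 * b) T)
    (ha : Om x p c0 Tm a T) (hM : M / 2 * H n x p c0 a T ≤ E a T) (hM0 : 0 < M)
    (hall : ∀ b T', Om x p c0 Tm b T' → E b T' ≤ M * H n x p c0 b T') :
    E a (T / (4 : ℝ) ^ ((p : ℝ) / c0)) ≤ 1 / 2 * E a T := by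
  have hd := ha.down hx hc hp
  have ha0 : 0 < a := hx.trans_le ha.2.2.1
  have h1 := hall _ _ hd
  have h2 := hconv a (T / (4 : ℝ) ^ ((p : ℝ) / c0)) ha.2.2.1 hd.1 hd.2.1
  have hL0 : 0 < (4 : ℝ) ^ ((p : ℝ) / c0) := Real.rpow_pos_of_pos (by norm_num) _
  have e : H n x p c0 (4 * a) (T / (4 : ℝ) ^ ((p : ℝ) / c0)) = H n x p c0 a T := by
    have h3 := H_scale (n := n) (x := x) (c0 := c0) (p := p) (N := 4)
      (K := ((4 : ℝ) ^ ((p : ℝ) / c0))⁻¹) hx ha0 ha.1 (by norm_num) (by positivity)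
    rw [inv_mul_eq_div] at h3
    rw [h3, Real.inv_rpow hL0.le, ← Real.rpow_mul (by norm_num)]
    have e2 : (p : ℝ) / c0 * c0 = p := by field_simp
    rw [e2, Real.rpow_natCast, mul_inv_cancel₀ (by positivity), one_mul]
  rw [e] at h1
  linarith

/-- the size of the action at a near maximiser, `x (b/x)^p (T/x²)^c0 ≥ x` on the domain -/
lemma Om.action (h : Om x p c0 Tm a T) (hx : 0 < x) (hp : 0 < p) :
    1 ≤ (a / x) ^ p * (T / x ^ 2) ^ c0 := by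
  obtain ⟨h1, h2, h3, h4⟩ := h
  have hp0 : (0 : ℝ) < p := by exact_mod_cast hp
  have hT : 0 < T / x ^ 2 := by positivity
  have h5 : 1 ≤ a / x * (T / x ^ 2) ^ (c0 / p) := by
    rw [div_mul_eq_mul_div, one_le_div hx]
    exact h4
  have h6 := one_le_pow₀ (n := p) h5
  rw [mul_pow, ← Real.rpow_natCast ((T / x ^ 2) ^ (c0 / p)) p, ← Real.rpow_mul hT.le] at h6
  have e : c0 / p * p = c0 := by field_simp
  rwa [e] at h6

end Vale.Agent.P146.U.SelK
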