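import Vale.Agent.P146.H522.PoSk
import Vale.Agent.P146.U.H522_PoFo
import Vale.Agent.P146.U.H425_R1Def
import Vale.Agent.P146.U.NS

/-!
Macroscopic rotation, SK model.
-/

open MeasureTheory ProbabilityTheory Matrix

namespace Vale.Agent.P146.U.H522

open Vale.Agent.P146.H522 hiding Et4_le_cond Eu4_le_cond MR NN_k kk_ne mr_sk po1 po1_fo po1_sk po2
  po2_fo po2_sk radial

open Vale.Agent.P157.Lv Vale.Agent.P146.H425 Vale.Agent.P146.H332

open Vale.Agent.P146.H325 hiding C2 fr_nonneg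

open Vale.Agent.P146.R1C (kk rt DC T4 kov_pos swap_pos eg_DC)
open Vale.Agent.P146.U.R1C (Par P0 P1 P2 P3 En Fo Gro kk_NN)

set_option linter.unusedSectionVars false
set_option linter.unusedDecidableInType false

variable {n : ℕ} {k x : ℝ}

/-- **The SK instance.** -/
theorem mr_sk (hk : k ≠ 0) (hx : 0 < x) (hx1 : x ≤ 1) :
    MR k x x (lz k (SkS (n := n))) (fun e u => k * av k SkS (SkS e) u) (AA k x) (DC k x) where
  toMRb := (Vale.Agent.P146.H522.mr_sk (n := n) hk hx hx1).toMRb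
  egr := (Vale.Agent.P146.H522.mr_sk (n := n) hk hx hx1).egr
  sw := (Vale.Agent.P146.H522.mr_sk (n := n) hk hx hx1).sw
  rad := (Vale.Agent.P146.H522.mr_sk (n := n) hk hx hx1).rad

section main

variable {β A δ T ρ Λ ye : ℝ} {q : Par}

lemma kk_ne (hf : Fo n β A δ T ρ Λ q.x q (lz (kk n β) SkS) (AA (kk n β) q.x) (DC (kk n β) q.x)) :
    kk n β ≠ 0 := by
  have h1 := kk_NN hf
  have h2 := hf.ρ1
  intro h0
  rw [h0] at h1
  simp at h1
  linarith

/-- **(PO1)** for the SK model -/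
theorem po1_sk (hf : Fo n β A δ T ρ Λ q.x q (lz (kk n β) SkS) (AA (kk n β) q.x) (DC (kk n β) q.x))
    (hA : 2 ≤ A) : R1C.NN n β ρ ^ 2 / (2 * A ^ 2) ≤ En q (lz (kk n β) (SkS (n := n)))
      (fun w => fr (AA (kk n β) q.x q.s1 (P2 q w) * AA (kk n β) q.x q.s2 (P3 q w))) :=
  po1_fo (mr_sk (kk_ne hf) hf.ok.x0 hf.ok.x1) (c11_lz _ _) hf rfl hA

/-- **(PO2)** for the SK model -/
theorem po2_sk (hf : Fo n β A δ T ρ Λ q.x q (lz (kk n β) SkS) (AA (kk n β) q.x) (DC (kk n β) q.x))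
    (hA : 10 ≤ A) (hg : Gro n β A ρ q (lz (kk n β) SkS) (AA (kk n β) q.x)) :
    R1C.NN n β ρ ^ 2 / (4 * A ^ 3) ≤ En q (lz (kk n β) (SkS (n := n)))
      (fun w => fr (AA (kk n β) q.x q.s1 (P2 q w) * AA (kk n β) q.x q.s2 (P3 q w) -
        AA (kk n β) q.x q.s2 (P3 q w) * AA (kk n β) q.x q.s1 (P2 q w))) :=
  po2_fo (mr_sk (kk_ne hf) hf.ok.x0 hf.ok.x1) (c11_lz _ _) hf rfl hA hg

end main

end Vale.Agent.P146.U.H522
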