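import Vale.Agent.P146.U.Ex1
import Vale.Agent.P146.H325.Sk
import Vale.Agent.P146.H332.Fe

/-!
# P146, upper half without logarithms: the statements which connect the modules

`P3 n β y τ x T b`: the functional of the SK free energy with the exponents `x` on
`[0, 1 - τ - T]`, `b` on the window `[1 - τ - T, 1 - τ]` and `y` on `[1 - τ, 1]`;
`P2 n β x T b`: the same with `τ = 0`.

* `RegW`: a regular window (field `lo`: the first half of the window carries `ρ T / 2` of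
  `∫ E |D_s|² ds`; field `up`: doubling the exponent costs little).
* `LRho`: the inequality (L) of plan R1 at a regular window (output of the blocks F, C, LAM).
* `LStar`: the same in the form used by the selection argument of the L-side (EX3).
* `KStar`: the two inequalities (K), (L) at a regular window with growth, in the form used by the
  selection argument of the K-side (EX2).
-/

open MeasureTheory ProbabilityTheory

namespace Vale.Agent.P146.U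

open Vale.Agent.P157.Lv Vale.Agent.P146.H425 Vale.Agent.P146.R1 Vale.Agent.P146.H332
  Vale.Agent.P146.H325

/-- The SK free energy as a function of the Gaussian couplings (`k = β / √n`). -/
noncomputable def Fsk (n : ℕ) (β : ℝ) : (Pair n → ℝ) → ℝ := lz (β / √n) SkS

/-- Exponents `x` on `[0, 1 - τ - T]`, `b` on `[1 - τ - T, 1 - τ]`, `y` on `[1 - τ, 1]`. -/
noncomputable def P3 (n : ℕ) (β y τ x T b : ℝ) : ℝ :=
  PP x b √(1 - τ - T) √T (W y √τ (Fsk n β))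

/-- Exponents `x` on `[0, 1 - T]`, `b` on `[1 - T, 1]`. -/
noncomputable def P2 (n : ℕ) (β x T b : ℝ) : ℝ := PP x b √(1 - T) √T (Fsk n β)

/-- **A regular window** `[1 - τ - T, 1 - τ]` with the exponent `a`. -/
structure RegW (n : ℕ) (β y τ x a T ρ A : ℝ) : Prop where
  lo : ρ * T / 2 ≤ SS x a √(1 - τ - T) √(T / 2) (W a √(T / 2) (W y √τ (Fsk n β)))
  up : P3 n β y τ x T (2 * a) - P3 n β y τ x T a ≤ a / 2 * (A * ρ * T)

/-- **(L)**, with polynomial constants in the regularity `A`. (`R = 2 ρ / (β² n)` up to the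
constants.) -/
def LRho (β : ℝ) : Prop :=
  ∃ C m : ℝ, ∃ n0 : ℕ, 0 < C ∧ 0 < m ∧ ∀ n : ℕ, n0 ≤ n → ∀ x a y τ T ρ A : ℝ,
    0 < x → x ≤ a → 0 < y → y ≤ a → a ≤ (n : ℝ) ^ (-(1 / 20) : ℝ) →
    0 ≤ τ → τ ≤ 1 / 2 → (n : ℝ) ^ (-(9 / 10) : ℝ) ≤ T → T ≤ 1 / 4 → 0 < ρ → 1 ≤ A →
    RegW n β y τ x a T ρ A →
    C * A ^ m ≤ x * a * ρ * T → C * A ^ m ≤ y ^ 2 * ρ * T →
    T ≤ C * A ^ m * (1 / √(n * T) + a * √(ρ / n) + ρ / n + 1 / n)

/-- **L-side.** `Δ = P3 (a) - P3 (x)`. -/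
def LStar (β : ℝ) : Prop :=
  ∀ C1 L : ℝ, 1 ≤ C1 → 1 ≤ L → ∃ C M : ℝ, ∃ n0 : ℕ, 0 < C ∧ 0 < M ∧ ∀ n : ℕ, n0 ≤ n →
    ∀ x a y τ T Δ : ℝ,
    (n : ℝ) ^ (-(1 / 5) : ℝ) ≤ x → x ≤ a → 0 < y → y ≤ a → a ≤ (n : ℝ) ^ (-(1 / 20) : ℝ) →
    0 ≤ τ → τ ≤ 1 / 2 → (n : ℝ) ^ (-(4 / 5) : ℝ) ≤ T → T ≤ 1 / 4 →
    Δ = P3 n β y τ x T a - P3 n β y τ x T x →
    P3 n β y τ x T (4 * a) - P3 n β y τ x T x ≤ C1 * Δ →
    P3 n β y τ x (T / L) a - P3 n β y τ x T x ≤ 1 / 2 * Δ →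
    M ≤ x * Δ → M * a ≤ y ^ 2 * Δ →
    T ≤ C * (1 / √(n * T) + a * √(Δ / (a * n * T)) + Δ / (a * n * T) + 1 / n)

/-- **K-side.** `Δ = P2 (a) - P2 (x)`; the last hypothesis (with an exponent `c0 < 1` of the length
of the window) is what gives growth. -/
def KStar (β : ℝ) : Prop :=
  ∀ C1 L p0 c0 : ℝ, 1 ≤ C1 → 1 ≤ L → 0 < p0 → 0 < c0 → c0 < 1 →
    ∃ C M : ℝ, ∃ n0 : ℕ, 0 < C ∧ 0 < M ∧ ∀ n : ℕ, n0 ≤ n →
    ∀ x a T Δ : ℝ,
    (n : ℝ) ^ (-(1 / 5) : ℝ) ≤ x → x ≤ a → a ≤ (n : ℝ) ^ (-(1 / 20) : ℝ) →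
    (n : ℝ) ^ (-(4 / 5) : ℝ) ≤ T → T ≤ (n : ℝ) ^ (-(1 / 10) : ℝ) →
    Δ = P2 n β x T a - P2 n β x T x →
    P2 n β x T (4 * a) - P2 n β x T x ≤ C1 * Δ →
    P2 n β x (T / L) a - P2 n β x T x ≤ 1 / 2 * Δ →
    (∀ K N : ℝ, 1 ≤ K → 1 ≤ N → K * T ≤ (n : ℝ) ^ (-(1 / 20) : ℝ) →
      P2 n β x (K * T) (N * a) - P2 n β x T x ≤ C1 * N ^ (1 + p0) * K ^ c0 * Δ) →
    M ≤ x * Δ →
    Δ ≤ C * (a * n * T) * (a ^ 2 + 1 / √(n * T)) ∧ T ≤ C * (a ^ 2 + 1 / √(n * T))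

end Vale.Agent.P146.U
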