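import Vale.Agent.P146.H713.Ftc

/-!
Plan R1 with constants: the heat formula for the squared gradient started at a point `z` at the
time `s`: `d/dr E_z |D_r|² = E_z |Hess u_r|²`, where `E_z` is the mean `cw x s r F` of the tilted law
given the position `z` at the time `s`.
-/

open MeasureTheory ProbabilityTheory Filter Topology

namespace Vale.Agent.P146.U

open Vale.Agent.P157.Lv Vale.Agent.P146.H425 Vale.Agent.P146.R1

set_option linter.unusedSectionVars false

section aff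

variable {κ : Type} [Fintype κ] [DecidableEq κ] {F : (κ → ℝ) → ℝ} {D : κ → (κ → ℝ) → ℝ}
  {B L x s t r : ℝ} {H T : κ → κ → (κ → ℝ) → ℝ} {M : ℝ}

lemma aff_update (z y : κ → ℝ) (e : κ) (b t : ℝ) :
    z + b • Function.update y e t = Function.update (z + b • y) e (z e + b * t) := by
  funext i
  by_cases h : i = e
  · subst h
    simp
  · simp [Function.update_of_ne h]

lemma c2_aff {F1 F2 : κ → (κ → ℝ) → ℝ} (h : H325.C2 F F1 F2) (z : κ → ℝ) (b : ℝ) :
    H325.C2 (fun y => F (z + b • y)) (fun e y => b * F1 e (z + b • y))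
      (fun e y => b ^ 2 * F2 e (z + b • y)) := by
  have hc : Continuous fun y : κ → ℝ => z + b • y := by fun_prop
  refine ⟨fun u => ?_, fun e => ?_, EG.add_smul h.eg z b, fun e => (EG.add_smul (h.eg1 e) z b).const_mul b,
    fun e => (EG.add_smul (h.eg2 e) z b).const_mul _,
    fun e => continuous_const.mul ((h.c1 e).comp hc),
    fun e => continuous_const.mul ((h.c2 e).comp hc)⟩
  · have h1 : HasFDerivAt (fun y : κ → ℝ => z + b • y)
        (b • ContinuousLinearMap.id ℝ (κ → ℝ)) u :=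
      ((hasFDerivAt_id u).const_smul b).const_add z
    refine ((h.fd (z + b • u)).comp u h1).congr_fderiv ?_
    ext v
    simp only [ContinuousLinearMap.comp_apply, _root_.sum_apply, _root_.smul_apply,
      ContinuousLinearMap.proj_apply, smul_eq_mul, ContinuousLinearMap.id_apply, Pi.smul_apply]
    exact Finset.sum_congr rfl fun e _ => by ring
  · intro y t
    have h3 := h.pd e (z + b • y) (z e + b * t)
    have h4 : HasDerivAt (fun t : ℝ => z e + b * t) b t := by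
      simpa using ((hasDerivAt_id t).const_mul b).const_add (z e)
    have h5 := (h3.comp t h4).const_mul b
    simp only [aff_update]
    refine h5.congr_deriv ?_
    ring

lemma c11_aff (h : C11 F D B L) (z : κ → ℝ) (b : ℝ) :
    C11 (fun y => F (z + b • y)) (fun e y => b * D e (z + b • y)) (|b| * B) (b ^ 2 * L) := by
  have e : ∀ y w : κ → ℝ, z + b • (y + w) = z + b • y + b • w := by
    intro y w
    rw [smul_add, add_assoc]
  refine ⟨mul_nonneg (abs_nonneg _) h.B0, mul_nonneg (sq_nonneg _) h.L0, fun y w => ?_,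
    fun e => ?_, fun e y => ?_, fun y w => ?_⟩
  · have h1 := h.lip (z + b • y) (b • w)
    rw [norm_smul, Real.norm_eq_abs] at h1
    simp only [e]
    refine h1.trans (le_of_eq ?_)
    ring
  · exact measurable_const.mul ((h.meas e).comp (by fun_prop))
  · rw [abs_mul]
    exact mul_le_mul_of_nonneg_left (h.bd e _) (abs_nonneg _)
  · have h1 := h.quad (z + b • y) (b • w)
    rw [norm_smul, Real.norm_eq_abs, mul_pow, sq_abs] at h1
    simp only [e]
    have e2 : ∑ e, b * D e (z + b • y) * w e = ∑ e, D e (z + b • y) * (b • w) e := by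
      refine Finset.sum_congr rfl fun i _ => ?_
      simp only [Pi.smul_apply, smul_eq_mul]
      ring
    rw [e2]
    refine h1.trans (le_of_eq ?_)
    ring

lemma sm_aff (h : Sm F D B L H T M) (z : κ → ℝ) (b : ℝ) :
    Sm (fun y => F (z + b • y)) (fun e y => b * D e (z + b • y)) (|b| * B) (b ^ 2 * L)
      (fun e i y => b ^ 2 * H e i (z + b • y)) (fun e i y => b * (b ^ 2 * T e i (z + b • y)))
      (b ^ 2 * M) := by
  refine ⟨c11_aff h.c11 z b, c2_aff h.cF z b, fun e => ?_, fun e i y => ?_, fun e i y => ?_⟩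
  · refine ((c2_aff (h.cD e) z b).const_mul b).congr (fun _ => rfl) (fun i y => ?_) fun _ _ => rfl
    ring
  · rw [h.sy]
  · rw [abs_mul, abs_of_nonneg (sq_nonneg b)]
    exact mul_le_mul_of_nonneg_left (h.bH e i _) (sq_nonneg _)

variable (F D x)

lemma pos_aff (hs : s ≤ 1) (z y w : κ → ℝ) (t : ℝ) :
    z + √(1 - s) • (y + √(1 - t) • w) = (z + √(1 - s) • y) + √(1 - tm s t) • w := by
  have e2 : √(1 - tm s t) = √(1 - s) * √(1 - t) := by
    rw [one_sub_tm, Real.sqrt_mul (by linarith)]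
  rw [e2, smul_add, smul_smul, add_assoc]

lemma ew_aff (φ : (κ → ℝ) → ℝ) (hs : s ≤ 1) (z y : κ → ℝ) (t : ℝ) :
    ew x t (fun y => F (z + √(1 - s) • y)) (fun y => φ (z + √(1 - s) • y)) y =
      ew x (tm s t) F φ (z + √(1 - s) • y) := by
  unfold ew
  simp only [pos_aff hs]

lemma uu_aff (hs : s ≤ 1) (z y : κ → ℝ) (t : ℝ) :
    uu x t (fun y => F (z + √(1 - s) • y)) y = uu x (tm s t) F (z + √(1 - s) • y) := by
  unfold uu W
  simp only [pos_aff hs]

lemma dd_aff (e : κ) (hs : s ≤ 1) (z y : κ → ℝ) (t : ℝ) :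
    dd x t (fun y => F (z + √(1 - s) • y)) (fun e y => √(1 - s) * D e (z + √(1 - s) • y)) e y =
      √(1 - s) * dd x (tm s t) F D e (z + √(1 - s) • y) := by
  rw [dd_eq, dd_eq, ← ew_aff F x (D e) hs z y t, ← ew_const_mul]

lemma sq_aff (hs : s ≤ 1) (z y : κ → ℝ) (t : ℝ) :
    sq x t (fun y => F (z + √(1 - s) • y)) (fun e y => √(1 - s) * D e (z + √(1 - s) • y)) y =
      (1 - s) * sq x (tm s t) F D (z + √(1 - s) • y) := by
  have e1 : ∀ (t : ℝ) (F : (κ → ℝ) → ℝ) (D : κ → (κ → ℝ) → ℝ) (y : κ → ℝ),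
      sq x t F D y = ∑ e, dd x t F D e y ^ 2 := fun _ _ _ _ => rfl
  rw [e1, e1, Finset.mul_sum]
  refine Finset.sum_congr rfl fun e _ => ?_
  rw [dd_aff F D x e hs, mul_pow, Real.sq_sqrt (by linarith)]

lemma hq_aff (hs : s ≤ 1) (z y : κ → ℝ) (t : ℝ) :
    hq x t (fun y => F (z + √(1 - s) • y)) (fun e y => √(1 - s) * D e (z + √(1 - s) • y))
      (fun e i y => √(1 - s) ^ 2 * H e i (z + √(1 - s) • y)) y =
      (1 - s) ^ 2 * hq x (tm s t) F D H (z + √(1 - s) • y) := by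
  unfold hq
  simp only [Finset.mul_sum]
  refine Finset.sum_congr rfl fun e _ => Finset.sum_congr rfl fun i _ => ?_
  have h1 : √(1 - s) ^ 2 = 1 - s := Real.sq_sqrt (by linarith)
  unfold hh
  rw [dd_aff F D x e hs, dd_aff F D x i hs, ew_const_mul]
  have e2 : (fun y => √(1 - s) * D e (z + √(1 - s) • y) * (√(1 - s) * D i (z + √(1 - s) • y))) =
      fun y => √(1 - s) ^ 2 * (D e (z + √(1 - s) • y) * D i (z + √(1 - s) • y)) := by
    funext y
    ring
  rw [e2, ew_const_mul, ew_aff F x (H e i) hs, ew_aff F x (fun y => D e y * D i y) hs, h1]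
  have e3 : √(1 - s) * dd x (tm s t) F D e (z + √(1 - s) • y) *
      (√(1 - s) * dd x (tm s t) F D i (z + √(1 - s) • y)) =
      √(1 - s) ^ 2 * (dd x (tm s t) F D e (z + √(1 - s) • y) *
        dd x (tm s t) F D i (z + √(1 - s) • y)) := by ring
  rw [e3, h1]
  ring

end aff

section mean

variable {κ : Type} [Fintype κ] [DecidableEq κ] {F : (κ → ℝ) → ℝ} {D : κ → (κ → ℝ) → ℝ}
  {B L x s t r : ℝ} {H T : κ → κ → (κ → ℝ) → ℝ} {M : ℝ}

/-- the mean under the law with `t0 = t1 = 0` of a function of the last position -/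
lemma Eu_aff (h : C11 F D B L) (hs : s ≤ 1) {φ ψ : (κ → ℝ) → ℝ} (hφ : EG φ)
    (hx : 0 < x) (z : κ → ℝ) (c : ℝ) (hψ : ∀ y, ψ y = c * φ (z + √(1 - s) • y)) :
    Eu x 0 0 0 t (fun y => F (z + √(1 - s) • y)) (fun _ _ z2 => ψ z2) =
      c * (Real.exp (x * uu x s F z) * cw x s (tm s t) F φ z) := by
  have e0 : ∀ w : K3 κ → ℝ, q2 0 0 t w = √t • b2 w := by
    intro w
    funext e
    rw [q2_apply]
    simp [b2]
  have e1 : ∀ w : K3 κ → ℝ, z + √(1 - s) • q2 0 0 t w = z + √(tm s t - s) • b2 w := by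
    intro w
    rw [e0, smul_smul, tm_sub, Real.sqrt_mul (by linarith)]
  have e2 : Eu x 0 0 0 t (fun y => F (z + √(1 - s) • y)) (fun _ _ z2 => ψ z2) =
      ∫ w, (fun y => c * (Real.exp (x * uu x (tm s t) F (z + √(tm s t - s) • y)) *
        φ (z + √(tm s t - s) • y))) (b2 w) ∂(gI (K3 κ)) := by
    unfold Eu dn
    refine integral_congr_ae (Filter.Eventually.of_forall fun w => ?_)
    simp only
    rw [hψ, uu_aff F x hs, e1, zero_mul, add_zero]
    ring
  rw [e2, int_b2 (f := fun y => c * (Real.exp (x * uu x (tm s t) F (z + √(tm s t - s) • y)) *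
        φ (z + √(tm s t - s) • y))) ((cw_eg h hx hφ z).const_mul c), integral_const_mul]
  congr 1
  unfold cw
  rw [mul_div_cancel₀ _ (Real.exp_pos _).ne']

lemma Et_aff (h : C11 F D B L) (hs : s ≤ 1) (ht : 0 ≤ t) (ht1 : t ≤ 1) {φ ψ : (κ → ℝ) → ℝ}
    (hφ : EG φ) (hx : 0 < x) (z : κ → ℝ) (c : ℝ) (hψ : ∀ y, ψ y = c * φ (z + √(1 - s) • y)) :
    Et x 0 0 0 t (fun y => F (z + √(1 - s) • y)) (fun _ _ z2 => ψ z2) =
      c * cw x s (tm s t) F φ z := by
  unfold Et
  rw [Eu_aff h hs hφ hx z c hψ, Eu_aff (φ := fun _ => 1) h hs (EG.const 1) hx z 1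
    (fun _ => by rw [one_mul]), cw_const h hx ?_ ?_, one_mul, mul_one]
  · have := (Real.exp_pos (x * uu x s F z)).ne'
    field_simp
  · unfold tm
    nlinarith
  · unfold tm
    nlinarith

lemma cw_self (z : κ → ℝ) (φ : (κ → ℝ) → ℝ) : cw x s s F φ z = φ z := by
  unfold cw
  simp only [sub_self, Real.sqrt_zero, zero_smul, add_zero, integral_const, probReal_univ,
    smul_eq_mul, one_mul]
  exact mul_div_cancel_left₀ _ (Real.exp_pos _).ne'

lemma eg_sq' (h : C11 F D B L) (x t : ℝ) : EG (sq x t F D) :=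
  EG.sum _ fun e _ => (eg_dd h x t e).pow 2

/-- **The heat formula started at a point.** -/
theorem cw_sq_deriv (hS : Sm F D B L H T M) (hx : 0 < x) (z : κ → ℝ) (hr : r ∈ Set.Ioo s 1) :
    HasDerivAt (fun r => cw x s r F (sq x r F D) z) (cw x s r F (hq x r F D H) z) r := by
  have hs : s < 1 := hr.1.trans hr.2
  have hs' : (1 : ℝ) - s ≠ 0 := by linarith
  have hs0 : 0 < 1 - s := by linarith
  have hr' : (r - s) / (1 - s) ∈ Set.Ioo (0 : ℝ) 1 :=
    ⟨div_pos (by linarith [hr.1]) hs0, (div_lt_one hs0).2 (by linarith [hr.2])⟩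
  have k1 := Qt_deriv (sm_aff hS z √(1 - s)) hx 0 0 hr'
  have e1 : ∀ t ∈ Set.Icc (0 : ℝ) 1, Qt x 0 0 0 t (fun y => F (z + √(1 - s) • y))
      (fun e y => √(1 - s) * D e (z + √(1 - s) • y)) =
      (1 - s) * cw x s (tm s t) F (sq x (tm s t) F D) z := by
    intro t ht
    unfold Qt
    exact Et_aff hS.c11 hs.le ht.1 ht.2 (eg_sq' hS.c11 x _) hx z _ fun y => sq_aff F D x hs.le z y t
  have e2 : ∀ t ∈ Set.Icc (0 : ℝ) 1, Ht x 0 0 0 t (fun y => F (z + √(1 - s) • y))
      (fun e y => √(1 - s) * D e (z + √(1 - s) • y))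
      (fun e i y => √(1 - s) ^ 2 * H e i (z + √(1 - s) • y)) =
      (1 - s) ^ 2 * cw x s (tm s t) F (hq x (tm s t) F D H) z := by
    intro t ht
    unfold Ht
    exact Et_aff hS.c11 hs.le ht.1 ht.2 (eg_hq hS x _) hx z _ fun y => hq_aff F D x hs.le z y t
  have k2 : HasDerivAt (fun r => (r - s) / (1 - s)) (1 / (1 - s)) r :=
    ((hasDerivAt_id r).sub_const s).div_const (1 - s)
  have k3 := (k1.comp r k2).const_mul (1 - s)⁻¹
  rw [e2 _ ⟨hr'.1.le, hr'.2.le⟩, tm_div hs] at k3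
  refine (k3.congr_of_eventuallyEq ?_).congr_deriv ?_
  · filter_upwards [Ioo_mem_nhds hr.1 hr.2] with r hr
    have h1 : (r - s) / (1 - s) ∈ Set.Icc (0 : ℝ) 1 :=
      ⟨div_nonneg (by linarith [hr.1]) hs0.le, (div_le_one hs0).2 (by linarith [hr.2])⟩
    simp only [Function.comp]
    rw [e1 _ h1, tm_div hs, inv_mul_cancel_left₀ hs']
  · field_simp

theorem cw_sq_cont (hS : Sm F D B L H T M) (hx : 0 < x) (z : κ → ℝ) (hs : s < 1) :
    ContinuousOn (fun r => cw x s r F (sq x r F D) z) (Set.Icc s 1) := by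
  have hs' : (1 : ℝ) - s ≠ 0 := by linarith
  have hs0 : 0 < 1 - s := by linarith
  have k1 := Qt_cont (sm_aff hS z √(1 - s)) hx 0 0 (t1 := 0) one_pos
  have e1 : ∀ t ∈ Set.Icc (0 : ℝ) 1, Qt x 0 0 0 t (fun y => F (z + √(1 - s) • y))
      (fun e y => √(1 - s) * D e (z + √(1 - s) • y)) =
      (1 - s) * cw x s (tm s t) F (sq x (tm s t) F D) z := by
    intro t ht
    unfold Qt
    exact Et_aff hS.c11 hs.le ht.1 ht.2 (eg_sq' hS.c11 x _) hx z _ fun y => sq_aff F D x hs.le z y t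
  have hm : Set.MapsTo (fun r => (r - s) / (1 - s)) (Set.Icc s 1) (Set.Icc (0 : ℝ) 1) :=
    fun r hr => ⟨div_nonneg (by linarith [hr.1]) hs0.le, (div_le_one hs0).2 (by linarith [hr.2])⟩
  have hc : ContinuousOn (fun r : ℝ => (r - s) / (1 - s)) (Set.Icc s 1) := by fun_prop
  refine ((k1.comp hc hm).const_smul (1 - s)⁻¹).congr fun r hr => ?_
  simp only [Function.comp, Pi.smul_apply, smul_eq_mul]
  rw [e1 _ (hm hr), tm_div hs, inv_mul_cancel_left₀ hs']

/-- The mean value form. -/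
theorem cw_sq_mvt (hS : Sm F D B L H T M) (hx : 0 < x) (z : κ → ℝ) {a : ℝ} (hsa : s < a)
    (ha : a ≤ 1) : ∃ r ∈ Set.Ioo s a, (a - s) * cw x s r F (hq x r F D H) z =
      cw x s a F (sq x a F D) z - sq x s F D z := by
  obtain ⟨r, hr, he⟩ := exists_hasDerivAt_eq_slope (fun r => cw x s r F (sq x r F D) z)
    (fun r => cw x s r F (hq x r F D H) z) hsa
    ((cw_sq_cont hS hx z (hsa.trans_le ha)).mono (Set.Icc_subset_Icc le_rfl ha))
    fun r hr => cw_sq_deriv hS hx z ⟨hr.1, hr.2.trans_le ha⟩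
  refine ⟨r, hr, ?_⟩
  rw [he, cw_self, mul_div_cancel₀ _ (by linarith : a - s ≠ 0)]

end mean

end Vale.Agent.P146.U
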