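import Vale.Agent.P146.U.MKb
import Vale.Agent.P146.U.H425_R1Def

/-!
Plan R1 with constants: conditional means `cw` under the law `P_{θ,η}`.
-/

open MeasureTheory ProbabilityTheory Filter Topology

namespace Vale.Agent.P146.U.R1

open Vale.Agent.P157.Lv Vale.Agent.P146.H425 Vale.Agent.P146.R1 Vale.Agent.P146.U

set_option linter.unusedSectionVars false

variable {κ : Type} [Fintype κ] [DecidableEq κ] {F : (κ → ℝ) → ℝ} {D : κ → (κ → ℝ) → ℝ}
  {B L x θ η t0 t1 s a : ℝ} {φ : (κ → ℝ) → ℝ}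

/-- the mean of a conditional mean -/
lemma Eu_cw (h : C11 F D B L) (hx : 0 < x) (hφ : EG φ) (hcw : EG (cw x s a F φ)) (h1 : t1 ≤ s)
    (hsa : s ≤ a) : Eu x θ η t0 t1 s F (fun _ _ z2 => cw x s a F φ z2) =
      Eu x θ η t0 t1 a F (fun _ _ z2 => φ z2) := by
  rw [Eu_iter h hx (E3.of2 hcw), Eu_iter h hx (E3.of2 hφ)]
  refine integral_congr_ae (Filter.Eventually.of_forall fun y0 => ?_)
  refine integral_congr_ae (Filter.Eventually.of_forall fun y1 => ?_)
  simp only
  set z0 := √t0 • y0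
  set z1 := z0 + √(t1 - t0) • y1
  set c := θ * xi x t0 t1 F z0 z1 - η * (x * uu x t0 F z0) with hc
  have hE : EG fun y => Real.exp (x * uu x a F y) * φ y :=
    ((((c11_uu h hx a).lip.lip h.B0).exp_eg x)).mul hφ
  have e1 : ∀ y2, dn x θ η t0 t1 s F z0 z1 (z1 + √(s - t1) • y2) *
      cw x s a F φ (z1 + √(s - t1) • y2) = Real.exp c *
        ∫ w, Real.exp (x * uu x a F (z1 + √(s - t1) • y2 + √(a - s) • w)) *
          φ (z1 + √(s - t1) • y2 + √(a - s) • w) ∂(gI κ) := by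
    intro y2
    have e2 : dn x θ η t0 t1 s F z0 z1 (z1 + √(s - t1) • y2) =
        Real.exp c * Real.exp (x * uu x s F (z1 + √(s - t1) • y2)) := by
      unfold dn
      rw [← Real.exp_add]
      congr 1
      rw [hc]
      ring
    rw [e2, mul_assoc]
    congr 1
    unfold cw
    exact mul_div_cancel₀ _ (Real.exp_pos _).ne'
  have e3 : ∀ y2, dn x θ η t0 t1 a F z0 z1 (z1 + √(a - t1) • y2) * φ (z1 + √(a - t1) • y2) =
      Real.exp c * (Real.exp (x * uu x a F (z1 + √(a - t1) • y2)) * φ (z1 + √(a - t1) • y2)) := by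
    intro y2
    have e2 : dn x θ η t0 t1 a F z0 z1 (z1 + √(a - t1) • y2) =
        Real.exp c * Real.exp (x * uu x a F (z1 + √(a - t1) • y2)) := by
      unfold dn
      rw [← Real.exp_add]
      congr 1
      rw [hc]
      ring
    rw [e2, mul_assoc]
  simp_rw [e1, e3]
  rw [integral_const_mul, integral_const_mul]
  congr 1
  refine gI_rot hE (a := √(s - t1)) (b := √(a - s)) (c := √(a - t1)) ?_ z1
  rw [Real.sq_sqrt (by linarith), Real.sq_sqrt (by linarith), Real.sq_sqrt (by linarith)]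
  ring

/-- the mean of a conditional mean, normalized -/
lemma Et_cw (h : C11 F D B L) (hx : 0 < x) (hφ : EG φ) (hcw : EG (cw x s a F φ)) (h1 : t1 ≤ s)
    (hsa : s ≤ a) (ha : a ≤ 1) : Et x θ η t0 t1 s F (fun _ _ z2 => cw x s a F φ z2) =
      Et x θ η t0 t1 a F (fun _ _ z2 => φ z2) := by
  unfold Et
  rw [Eu_cw h hx hφ hcw h1 hsa, Eu_one_eq h hx h1 (hsa.trans ha),
    Eu_one_eq h hx (h1.trans hsa) ha]

end Vale.Agent.P146.U.R1
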